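import Vale.Agent.P158.V4.Crossing

/-!
P158: crossing of lattice rays, first visits of lines, and exchange of tails at a common vertex.
-/

namespace Vale.Agent.P158.V4

variable {A B C D : ℤ × ℤ}

/-- The strip crossing in coordinates. -/
theorem strip_cross {h H x t y s : ℤ} (p : grid.Walk (x, h) (t, H)) (q : grid.Walk (y, h) (s, H))
    (hp : ∀ z ∈ p.support, h ≤ z.2 ∧ z.2 ≤ H) (hq : ∀ z ∈ q.support, h ≤ z.2 ∧ z.2 ≤ H)
    (hxy : x ≤ y) (hst : s ≤ t) : ∃ z, z ∈ p.support ∧ z ∈ q.support :=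
  strip_meet p q hp hq rfl rfl hxy hst

/-- The exchange of the axes. -/
def swapHom : grid →g grid where
  toFun z := z.swap
  map_rel' {a b} h := by
    rw [grid_adj_iff] at h ⊢
    simp only [Prod.fst_swap, Prod.snd_swap]
    linarith

/-- The crossing in a vertical strip. -/
theorem strip_cross_col {h H x t y s : ℤ} (p : grid.Walk (h, x) (H, t))
    (q : grid.Walk (h, y) (H, s)) (hp : ∀ z ∈ p.support, h ≤ z.1 ∧ z.1 ≤ H)
    (hq : ∀ z ∈ q.support, h ≤ z.1 ∧ z.1 ≤ H) (hxy : x ≤ y) (hst : s ≤ t) :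
    ∃ z, z ∈ p.support ∧ z ∈ q.support := by
  have hmap : ∀ {u v : ℤ × ℤ} (w : grid.Walk u v), (∀ z ∈ w.support, h ≤ z.1 ∧ z.1 ≤ H) →
      ∀ z ∈ (w.map swapHom).support, h ≤ z.2 ∧ z.2 ≤ H := by
    intro u v w hw z hz
    rw [SimpleGraph.Walk.support_map, List.mem_map] at hz
    obtain ⟨a, ha, rfl⟩ := hz
    exact hw a ha
  obtain ⟨z, hzp, hzq⟩ := strip_meet (p.map swapHom) (q.map swapHom) (hmap p hp) (hmap q hq)
    rfl rfl hxy hst
  rw [SimpleGraph.Walk.support_map, List.mem_map] at hzp hzq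
  obtain ⟨a, ha, rfl⟩ := hzp
  obtain ⟨b, hb, hab⟩ := hzq
  have : b = a := Prod.swap_injective hab
  exact ⟨a, ha, this ▸ hb⟩

theorem adj_snd_le {a b : ℤ × ℤ} (h : grid.Adj a b) : b.2 ≤ a.2 + 1 ∧ a.2 ≤ b.2 + 1 := by
  rcases step_cases h with h | h <;> omega

/-- The prefix of a walk up to its first visit of a higher line. -/
theorem exists_first_hit {A B : ℤ × ℤ} (p : grid.Walk A B) (H : ℤ) :
    A.2 ≤ H → H ≤ B.2 → ∃ C, ∃ q : grid.Walk A C, ∃ r : grid.Walk C B,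
      C.2 = H ∧ p = q.append r ∧ ∀ z ∈ q.support, z.2 ≤ H ∧ (z.2 = H → z = C) := by
  induction p with
  | @nil A =>
    intro h1 h2
    exact ⟨A, .nil, .nil, le_antisymm h1 h2, rfl, fun z hz => by
      simp only [SimpleGraph.Walk.support_nil, List.mem_singleton] at hz
      exact ⟨hz ▸ h1, fun _ => hz⟩⟩
  | @cons A A' B hadj p ih =>
    intro h1 h2
    by_cases hA : A.2 = H
    · exact ⟨A, .nil, .cons hadj p, hA, rfl, fun z hz => by
        simp only [SimpleGraph.Walk.support_nil, List.mem_singleton] at hz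
        exact ⟨hz ▸ h1, fun _ => hz⟩⟩
    · have := adj_snd_le hadj
      obtain ⟨C, q, r, hC, hp, hq⟩ := ih (by omega) h2
      refine ⟨C, .cons hadj q, r, hC, by rw [hp]; rfl, fun z hz => ?_⟩
      rw [SimpleGraph.Walk.support_cons, List.mem_cons] at hz
      rcases hz with rfl | hz
      · exact ⟨h1, fun e => absurd e hA⟩
      · exact hq z hz

/-- At a common vertex two walks exchange their tails at equal total weight. -/
theorem exists_exchange (ω : Sym2 (ℤ × ℤ) → ℝ) (p : grid.Walk A B) (q : grid.Walk C D) {z : ℤ × ℤ}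
    (hp : z ∈ p.support) (hq : z ∈ q.support) :
    ∃ p' : grid.Walk A D, ∃ q' : grid.Walk C B, wt ω p' + wt ω q' = wt ω p + wt ω q ∧
      (∀ w ∈ p'.support, w ∈ p.support ∨ w ∈ q.support) ∧
      (∀ w ∈ q'.support, w ∈ p.support ∨ w ∈ q.support) := by
  obtain ⟨p1, p2, rfl⟩ := SimpleGraph.Walk.mem_support_iff_exists_append.1 hp
  obtain ⟨q1, q2, rfl⟩ := SimpleGraph.Walk.mem_support_iff_exists_append.1 hq
  refine ⟨p1.append q2, q1.append p2, ?_, ?_, ?_⟩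
  · simp only [wt_append]
    ring
  · intro w hw
    simp only [SimpleGraph.Walk.mem_support_append_iff] at hw ⊢
    tauto
  · intro w hw
    simp only [SimpleGraph.Walk.mem_support_append_iff] at hw ⊢
    tauto

theorem tt_exchange_le {ω : Sym2 (ℤ × ℤ) → ℝ} (hω : ∀ e, 0 ≤ ω e) (p : grid.Walk A B)
    (q : grid.Walk C D) {z : ℤ × ℤ} (hp : z ∈ p.support) (hq : z ∈ q.support) :
    tt ω A D + tt ω C B ≤ wt ω p + wt ω q := by
  obtain ⟨p', q', h, -, -⟩ := exists_exchange ω p q hp hq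
  have := tt_le hω p'
  have := tt_le hω q'
  linarith

/-- The initial segment of a sequence of neighbours. -/
def seg {r : ℕ → ℤ × ℤ} (hr : ∀ i, grid.Adj (r i) (r (i + 1))) : ∀ n, grid.Walk (r 0) (r n)
  | 0 => .nil
  | n + 1 => (seg hr n).concat (hr n)

theorem mem_seg {r : ℕ → ℤ × ℤ} (hr : ∀ i, grid.Adj (r i) (r (i + 1))) {z : ℤ × ℤ} :
    ∀ {n}, z ∈ (seg hr n).support ↔ ∃ i, i ≤ n ∧ r i = z
  | 0 => by
    simp only [seg, SimpleGraph.Walk.support_nil, List.mem_singleton]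
    exact ⟨fun h => ⟨0, le_rfl, h.symm⟩, fun ⟨i, hi, h⟩ => by rw [Nat.le_zero.1 hi] at h; exact h.symm⟩
  | n + 1 => by
    simp only [seg, SimpleGraph.Walk.support_concat, List.concat_eq_append, List.mem_append,
      List.mem_singleton, mem_seg hr (n := n)]
    constructor
    · rintro (⟨i, hi, h⟩ | h)
      · exact ⟨i, by omega, h⟩
      · exact ⟨n + 1, le_rfl, h.symm⟩
    · rintro ⟨i, hi, h⟩
      rcases Nat.lt_or_ge i (n + 1) with h' | h'
      · exact Or.inl ⟨i, by omega, h⟩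
      · exact Or.inr (by rw [← h, show i = n + 1 by omega])

theorem wt_seg (ω : Sym2 (ℤ × ℤ) → ℝ) {r : ℕ → ℤ × ℤ} (hr : ∀ i, grid.Adj (r i) (r (i + 1))) :
    ∀ n, wt ω (seg hr n) = ∑ k ∈ Finset.range n, ω s(r k, r (k + 1))
  | 0 => by simp [seg, wt]
  | n + 1 => by
    rw [Finset.sum_range_succ, ← wt_seg ω hr n]
    simp [seg, wt]

/-- `n` is the first visit of the line at height `H`. -/
def IsFirstVisit (r : ℕ → ℤ × ℤ) (H : ℤ) (n : ℕ) : Prop :=
  (r n).2 = H ∧ ∀ i < n, (r i).2 ≠ H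

theorem IsFirstVisit.below {r : ℕ → ℤ × ℤ} (hr : ∀ i, grid.Adj (r i) (r (i + 1))) {H : ℤ} {n : ℕ}
    (h : IsFirstVisit r H n) (h0 : (r 0).2 ≤ H) : ∀ i ≤ n, (r i).2 ≤ H := by
  intro i
  induction i with
  | zero => exact fun _ => h0
  | succ i ih =>
    intro hi
    have := adj_snd_le (hr i)
    have := ih (by omega)
    have := h.2 i (by omega)
    omega

theorem exists_firstVisit {r : ℕ → ℤ × ℤ} (hr : ∀ i, grid.Adj (r i) (r (i + 1))) {H : ℤ}
    (h0 : (r 0).2 ≤ H) (hex : ∃ n, H ≤ (r n).2) : ∃ n, IsFirstVisit r H n := by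
  have hfind := Nat.find_spec hex
  refine ⟨Nat.find hex, ?_, fun i hi e => Nat.find_min hex hi e.ge⟩
  rcases Nat.eq_zero_or_pos (Nat.find hex) with e | e
  · rw [e] at hfind ⊢
    omega
  · have h1 := adj_snd_le (hr (Nat.find hex - 1))
    rw [Nat.sub_add_cancel e] at h1
    have h2 := Nat.find_min hex (show Nat.find hex - 1 < Nat.find hex by omega)
    omega

/-- Disjoint rays in a half-plane keep, at their first visits of every higher line, the order of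
their starting points. -/
theorem rays_order {r s : ℕ → ℤ × ℤ} (hr : ∀ i, grid.Adj (r i) (r (i + 1)))
    (hs : ∀ i, grid.Adj (s i) (s (i + 1))) {h H : ℤ} (hr0 : (r 0).2 = h) (hs0 : (s 0).2 = h)
    (hrh : ∀ i, h ≤ (r i).2) (hsh : ∀ i, h ≤ (s i).2) (hhH : h ≤ H)
    (hdisj : ∀ i j, r i ≠ s j) (hlt : (r 0).1 < (s 0).1) {n m : ℕ}
    (hn : IsFirstVisit r H n) (hm : IsFirstVisit s H m) : (r n).1 < (s m).1 := by
  by_contra hle
  obtain ⟨z, hzp, hzq⟩ := strip_meet (seg hr n) (seg hs m)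
    (fun P hP => by
      obtain ⟨i, hi, rfl⟩ := (mem_seg hr).1 hP
      exact ⟨hr0 ▸ hrh i, hn.1 ▸ hn.below hr (hr0 ▸ hhH) i hi⟩)
    (fun P hP => by
      obtain ⟨i, hi, rfl⟩ := (mem_seg hs).1 hP
      exact ⟨hr0 ▸ hsh i, hn.1 ▸ hm.below hs (hs0 ▸ hhH) i hi⟩)
    (hs0.trans hr0.symm) (hm.1.trans hn.1.symm) hlt.le (not_lt.1 hle)
  obtain ⟨i, -, rfl⟩ := (mem_seg hr).1 hzp
  obtain ⟨j, -, hj⟩ := (mem_seg hs).1 hzq
  exact hdisj i j hj.symm

/-- Two rays in a half-plane whose first visits of a higher line are in the opposite order of their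
starting points meet below that line. -/
theorem rays_meet {r s : ℕ → ℤ × ℤ} (hr : ∀ i, grid.Adj (r i) (r (i + 1)))
    (hs : ∀ i, grid.Adj (s i) (s (i + 1))) {h H : ℤ} (hr0 : (r 0).2 = h) (hs0 : (s 0).2 = h)
    (hrh : ∀ i, h ≤ (r i).2) (hsh : ∀ i, h ≤ (s i).2) (hhH : h ≤ H) (hle : (r 0).1 ≤ (s 0).1)
    {n m : ℕ} (hn : IsFirstVisit r H n) (hm : IsFirstVisit s H m) (hge : (s m).1 ≤ (r n).1) :
    ∃ i ≤ n, ∃ j ≤ m, r i = s j := by
  obtain ⟨z, hzp, hzq⟩ := strip_meet (seg hr n) (seg hs m)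
    (fun P hP => by
      obtain ⟨i, hi, rfl⟩ := (mem_seg hr).1 hP
      exact ⟨hr0 ▸ hrh i, hn.1 ▸ hn.below hr (hr0 ▸ hhH) i hi⟩)
    (fun P hP => by
      obtain ⟨i, hi, rfl⟩ := (mem_seg hs).1 hP
      exact ⟨hr0 ▸ hsh i, hn.1 ▸ hm.below hs (hs0 ▸ hhH) i hi⟩)
    (hs0.trans hr0.symm) (hm.1.trans hn.1.symm) hle hge
  obtain ⟨i, hi, rfl⟩ := (mem_seg hr).1 hzp
  obtain ⟨j, hj, hj'⟩ := (mem_seg hs).1 hzq
  exact ⟨i, hi, j, hj, hj'.symm⟩

/-- A ray climbing to infinity separates the two sides of its foot in its half-plane. -/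
theorem ray_separates {r : ℕ → ℤ × ℤ} (hr : ∀ i, grid.Adj (r i) (r (i + 1))) {h : ℤ}
    (hr0 : (r 0).2 = h) (hrh : ∀ i, h ≤ (r i).2) (hup : ∀ H : ℤ, ∃ n, H ≤ (r n).2)
    (q : grid.Walk C D) (hq : ∀ P ∈ q.support, h ≤ P.2) (hC : C.2 = h) (hD : D.2 = h)
    (h1 : C.1 ≤ (r 0).1) (h2 : (r 0).1 ≤ D.1) : ∃ i, r i ∈ q.support := by
  obtain ⟨M, hM⟩ : ∃ M : ℤ, ∀ P ∈ q.support, P.2 ≤ M :=
    ⟨(q.support.map Prod.snd).toFinset.sup' ⟨D.2, List.mem_toFinset.2 (List.mem_map_of_mem q.end_mem_support)⟩ id, fun P hP =>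
      Finset.le_sup' id (List.mem_toFinset.2 (List.mem_map_of_mem hP))⟩
  obtain ⟨n, hn⟩ := hup M
  obtain ⟨z, hzp, hzq⟩ := base_meet (seg hr n) q
    (fun P hP => by
      obtain ⟨i, -, rfl⟩ := (mem_seg hr).1 hP
      exact hr0 ▸ hrh i)
    (fun P hP => ⟨hr0 ▸ hq P hP, (hM P hP).trans hn⟩) (hC.trans hr0.symm) (hD.trans hr0.symm)
    h1 h2
  obtain ⟨i, -, rfl⟩ := (mem_seg hr).1 hzp
  exact ⟨i, hzq⟩

end Vale.Agent.P158.V4
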