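import Vale.Agent.P158.V4.TimeConst

/-!
P158: mean passage times, their symmetries, and their fluctuations.
-/

namespace Vale.Agent.P158.V4

open MeasureTheory

variable {ω : Sym2 (ℤ × ℤ) → ℝ}

theorem tt_map_le (hω : ∀ e, 0 ≤ ω e) (φ : grid →g grid) (u v : ℤ × ℤ) :
    tt ω (φ u) (φ v) ≤ tt (ω ∘ Sym2.map φ) u v := by
  refine le_tt fun p => (tt_le hω (p.map φ)).trans_eq ?_
  unfold wt
  rw [SimpleGraph.Walk.edges_map, List.map_map]

/-- A symmetry of the lattice acts on passage times. -/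
theorem tt_map (hω : ∀ e, 0 ≤ ω e) (φ ψ : grid →g grid) (h1 : ∀ z, ψ (φ z) = z) (h2 : ∀ z, φ (ψ z) = z)
    (u v : ℤ × ℤ) : tt (ω ∘ Sym2.map φ) u v = tt ω (φ u) (φ v) := by
  refine le_antisymm ?_ (tt_map_le hω φ u v)
  have h := tt_map_le (ω := ω ∘ Sym2.map φ) (fun e => hω _) ψ (φ u) (φ v)
  rw [h1, h1] at h
  refine h.trans_eq (congrArg (fun f => tt f (φ u) (φ v)) (funext fun e => congrArg ω ?_))
  induction e using Sym2.ind with
  | _ x y => simp [h2]

variable (G : Measure ℝ) [IsProbabilityMeasure G] {b : ℝ}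

theorem integral_map_sym (hG : ∀ᵐ t ∂G, 0 < t ∧ t ≤ b) (φ ψ : grid →g grid) (h1 : ∀ z, ψ (φ z) = z)
    (h2 : ∀ z, φ (ψ z) = z) (u v : ℤ × ℤ) :
    ∫ ω, tt ω (φ u) (φ v) ∂law G = ∫ ω, tt ω u v ∂law G := by
  have hinj : Function.Injective (Sym2.map φ) :=
    Sym2.map.injective fun a c h => by rw [← h1 a, h, h1]
  have hm : Measurable fun ω : Sym2 (ℤ × ℤ) → ℝ => ω ∘ Sym2.map φ :=
    measurable_pi_iff.2 fun e => measurable_pi_apply _
  have hmap : (law G).map (fun ω => ω ∘ Sym2.map φ) = law G := map_comp_injective G _ hinj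
  conv_rhs => rw [← hmap]
  rw [integral_map hm.aemeasurable (measurable_tt u v).aestronglyMeasurable]
  refine integral_congr_ae ?_
  filter_upwards [good_ae G hG] with ω hω
  rw [tt_map (fun e => (hω e).1.le) φ ψ h1 h2]

/-- The mean passage time of a displacement. -/
noncomputable def mean (z : ℤ × ℤ) : ℝ := ∫ ω, tt ω (0, 0) z ∂law G

theorem mean_eq (hG : ∀ᵐ t ∂G, 0 < t ∧ t ≤ b) (u v : ℤ × ℤ) :
    ∫ ω, tt ω u v ∂law G = mean G (v - u) := by
  have h := mean_shift G hG u ((0 : ℤ), (0 : ℤ)) (v - u)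
  rwa [show ((0 : ℤ), (0 : ℤ)) + u = u by simp, sub_add_cancel] at h

theorem mean_nonneg (hG : ∀ᵐ t ∂G, 0 < t ∧ t ≤ b) (z : ℤ × ℤ) : 0 ≤ mean G z := by
  refine integral_nonneg_of_ae ?_
  filter_upwards [good_ae G hG] with ω hω
  exact tt_nonneg fun e => (hω e).1.le

theorem mean_add_le (hG : ∀ᵐ t ∂G, 0 < t ∧ t ≤ b) (y z : ℤ × ℤ) :
    mean G (y + z) ≤ mean G y + mean G z := by
  have h := mean_eq G hG y (y + z)
  rw [add_sub_cancel_left] at h
  rw [← h, mean, mean, ← integral_add (tt_integrable G hG _ _) (tt_integrable G hG _ _)]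
  refine integral_mono_ae (tt_integrable G hG _ _) ((tt_integrable G hG _ _).add (tt_integrable G hG _ _)) ?_
  filter_upwards [good_ae G hG] with ω hω
  exact tt_triangle (fun e => (hω e).1.le) _ _ _

theorem abs_mean_sub_le (hG : ∀ᵐ t ∂G, 0 < t ∧ t ≤ b) (y z : ℤ × ℤ) :
    |mean G y - mean G z| ≤ l1 y z * b := by
  rw [mean, mean, ← integral_sub (tt_integrable G hG _ _) (tt_integrable G hG _ _), ← Real.norm_eq_abs]
  refine (norm_integral_le_of_norm_le_const (C := l1 y z * b) ?_).trans_eq (by simp)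
  filter_upwards [good_ae G hG] with ω hω
  exact abs_tt_sub_le (fun e => (hω e).1.le) (fun e => (hω e).2) _ _ _

theorem mean_neg (hG : ∀ᵐ t ∂G, 0 < t ∧ t ≤ b) (z : ℤ × ℤ) : mean G (-z) = mean G z := by
  have h := mean_eq G hG z (0, 0)
  rw [show ((0 : ℤ), (0 : ℤ)) - z = -z by simp] at h
  rw [← h, mean]
  refine integral_congr_ae ?_
  filter_upwards [good_ae G hG] with ω hω
  exact tt_comm (fun e => (hω e).1.le) _ _

/-- Reflection in the vertical axis. -/
def flipX : grid →g grid where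
  toFun z := (-z.1, z.2)
  map_rel' {x y} h := by
    rw [grid_adj_iff] at h ⊢
    simp only [abs_eq_max_neg] at h ⊢
    omega

/-- Exchange of the axes. -/
def swapXY : grid →g grid where
  toFun z := (z.2, z.1)
  map_rel' {x y} h := by
    rw [grid_adj_iff] at h ⊢
    rwa [add_comm]

theorem mean_flip (hG : ∀ᵐ t ∂G, 0 < t ∧ t ≤ b) (z : ℤ × ℤ) : mean G (-z.1, z.2) = mean G z := by
  have h := integral_map_sym G hG flipX flipX (fun a => by simp [flipX]) (fun a => by simp [flipX]) (0, 0) z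
  simpa [mean, flipX] using h

theorem mean_swap (hG : ∀ᵐ t ∂G, 0 < t ∧ t ≤ b) (z : ℤ × ℤ) : mean G (z.2, z.1) = mean G z := by
  have h := integral_map_sym G hG swapXY swapXY (fun a => rfl) (fun a => rfl) (0, 0) z
  simpa [mean, swapXY] using h

theorem measurableSet_cheap (u : ℤ × ℤ) (n : ℕ) (c : ℝ) : MeasurableSet (Cheap u n c) := by
  refine MeasurableSet.iUnion fun k => MeasurableSet.iUnion fun f => ?_
  refine MeasurableSet.inter (MeasurableSet.const _) ?_
  change MeasurableSet {ω : Sym2 (ℤ × ℤ) → ℝ | ((trail (List.ofFn f) u).map ω).sum ≤ c * ((n + k : ℕ) : ℝ)}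
  refine measurableSet_le ?_ measurable_const
  generalize trail (List.ofFn f) u = l
  induction l with
  | nil => simp
  | cons e l ih =>
    simp only [List.map_cons, List.sum_cons]
    exact (measurable_pi_apply e).add ih

/-- Fluctuations of passage times are at most of the order of the square root of the distance. -/
theorem exists_dev (hG : ∀ᵐ t ∂G, 0 < t ∧ t ≤ b) :
    ∃ C, 0 ≤ C ∧ ∀ (u v : ℤ × ℤ) (a : ℝ), 0 < a →
      law G {ω | a ≤ |tt ω u v - mean G (v - u)|} ≤ ENNReal.ofReal (C * (l1 u v + 1) / a ^ 2) := by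
  obtain ⟨c, hc, hrate⟩ := exists_cheap_rate G (hG.mono fun t ht => ht.1)
  have hb : 0 ≤ b := by
    obtain ⟨t, ht⟩ := hG.exists
    linarith
  obtain ⟨q, hq⟩ := exists_nat_ge (b / c)
  rw [div_le_iff₀ hc] at hq
  refine ⟨b ^ 2 * (q + 3), by positivity, fun u v a ha => ?_⟩
  set d := l1 u v
  set M := (q + 1) * d with hMdef
  have hdM : d ≤ M := Nat.le_mul_of_pos_left _ (Nat.succ_pos q)
  have hM : (d : ℝ) * b ≤ c * M := by
    rw [hMdef]
    push_cast
    nlinarith [Nat.cast_nonneg (α := ℝ) d]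
  set g := tshort b hdM
  set m := ∫ x, g x ∂law G with hm
  set e := mean G (v - u) with he
  have hgb : ∀ x, |g x| ≤ M * b := fun x => abs_le.2
    ⟨by linarith [(tshort_bounds hb hdM x).1, mul_nonneg (Nat.cast_nonneg M : (0 : ℝ) ≤ M) hb],
      (tshort_bounds hb hdM x).2⟩
  have hgi : Integrable g (law G) := integrable_bdd (measurable_tshort b hdM) hgb
  have hm0 : 0 ≤ m ∧ m ≤ M * b := ⟨integral_nonneg fun x => (tshort_bounds hb hdM x).1, by
    simpa using integral_mono hgi (integrable_const ((M : ℝ) * b)) fun x => (tshort_bounds hb hdM x).2⟩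
  have hT := tt_integrable G hG u v
  have hTb : ∀ᵐ ω ∂law G, |tt ω u v| ≤ M * b := by
    filter_upwards [good_ae G hG] with ω hω
    rw [abs_of_nonneg (tt_nonneg fun e => (hω e).1.le)]
    exact (tt_le_l1 (fun e => (hω e).1.le) (fun e => (hω e).2) u v).trans
      (mul_le_mul_of_nonneg_right (by exact_mod_cast hdM) hb)
  have hsq : ∀ r : ℝ, Integrable (fun ω => (tt ω u v - r) ^ 2) (law G) := fun r => by
    refine Integrable.of_bound (((measurable_tt u v).sub measurable_const).pow_const 2).aestronglyMeasurable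
      ((M * b + |r|) ^ 2) ?_
    filter_upwards [hTb] with ω hω
    rw [Real.norm_eq_abs, abs_pow]
    exact pow_le_pow_left₀ (abs_nonneg _) ((abs_sub _ _).trans (add_le_add hω le_rfl)) 2
  have hexp : ∀ r : ℝ, ∫ ω, (tt ω u v - r) ^ 2 ∂law G = ∫ ω, (tt ω u v - e) ^ 2 ∂law G + (e - r) ^ 2 := by
    intro r
    rw [show (fun ω => (tt ω u v - r) ^ 2) = fun ω => (tt ω u v - e) ^ 2 +
        (2 * (e - r) * tt ω u v + ((e - r) ^ 2 - 2 * (e - r) * e)) from funext fun ω => by ring,
      integral_add (hsq e) ((hT.const_mul (2 * (e - r))).fun_add (integrable_const _)),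
      integral_add (hT.const_mul _) (integrable_const _), integral_const_mul, mean_eq G hG u v]
    simp only [← he, integral_const, probReal_univ, one_smul]
    ring
  have hgsq : Integrable (fun x => (g x - m) ^ 2) (law G) :=
    integrable_bdd (((measurable_tshort b hdM).sub measurable_const).pow_const 2) (B := (M * b + |m|) ^ 2)
      fun x => by
        rw [abs_pow]
        exact pow_le_pow_left₀ (abs_nonneg _) ((abs_sub _ _).trans (add_le_add (hgb x) le_rfl)) 2
  have hpt : ∀ᵐ ω ∂law G, (tt ω u v - m) ^ 2 ≤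
      (g ω - m) ^ 2 + (Cheap u M c).indicator (fun _ => ((M : ℝ) * b) ^ 2) ω := by
    filter_upwards [good_ae G hG, hTb] with ω hω hωb
    by_cases hch : ω ∈ Cheap u M c
    · rw [Set.indicator_of_mem hch]
      have h1 : 0 ≤ tt ω u v := tt_nonneg fun e => (hω e).1.le
      have h2 := (le_abs_self _).trans hωb
      nlinarith [sq_nonneg (g ω - m), hm0.1, hm0.2]
    · rw [Set.indicator_of_notMem hch, add_zero,
        le_antisymm (tt_le_tshort hdM (fun e => (hω e).1.le) fun e => (hω e).2)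
          (tshort_eq_tt hc hdM hM (fun e => (hω e).1.le) (fun e => (hω e).2) hch)]
  have hvar : ∫ ω, (tt ω u v - e) ^ 2 ∂law G ≤ b ^ 2 * (M + 2) := by
    have h1 := integral_mono_ae (hsq m)
      (hgsq.add ((integrable_const (((M : ℝ) * b) ^ 2)).indicator (measurableSet_cheap u M c))) hpt
    simp only [Pi.add_apply] at h1
    rw [integral_add hgsq ((integrable_const _).indicator (measurableSet_cheap u M c)), hexp m,
      integral_indicator (measurableSet_cheap u M c), setIntegral_const, smul_eq_mul] at h1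
    have h2 : ∫ x, (g x - m) ^ 2 ∂law G ≤ b ^ 2 * M := by
      have hg2 : Integrable (fun x => g x ^ 2) (law G) :=
        integrable_bdd ((measurable_tshort b hdM).pow_const 2) (B := (M * b) ^ 2) fun x => by
          rw [abs_pow]; exact pow_le_pow_left₀ (abs_nonneg _) (hgb x) 2
      rw [show (fun x => (g x - m) ^ 2) = fun x => g x ^ 2 - 2 * m * g x + m ^ 2 from funext fun x => by ring,
        integral_add (hg2.sub' (hgi.const_mul _)) (integrable_const _),
        integral_sub hg2 (hgi.const_mul _), integral_const_mul]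
      simp only [← hm, integral_const, probReal_univ, one_smul]
      linarith [var_tshort G hb hdM, show 2 * m * m = 2 * m ^ 2 by ring]
    have h3 : (law G).real (Cheap u M c) * ((M : ℝ) * b) ^ 2 ≤ 2 * b ^ 2 := by
      have hP : (law G).real (Cheap u M c) ≤ 2 * (1 / 4) ^ M :=
        ENNReal.toReal_le_of_le_ofReal (by positivity) (hrate _ _)
      have hk : ∀ k : ℕ, (k : ℝ) ^ 2 * (1 / 4) ^ k ≤ 1 := fun k => by
        have hk2 : (k : ℝ) ≤ 2 ^ k := by exact_mod_cast Nat.lt_two_pow_self.le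
        rw [div_pow, one_pow, mul_one_div, div_le_one (by positivity),
          show (4 : ℝ) ^ k = (2 ^ k) ^ 2 by rw [← pow_mul, mul_comm, pow_mul]; norm_num]
        exact pow_le_pow_left₀ (by positivity) hk2 2
      have := mul_le_mul_of_nonneg_left (hk M) (sq_nonneg b)
      nlinarith [mul_le_mul_of_nonneg_right hP (sq_nonneg ((M : ℝ) * b))]
    nlinarith [sq_nonneg (e - m)]
  have hmk := mul_meas_ge_le_integral_of_nonneg (μ := law G) (f := fun ω => (tt ω u v - e) ^ 2)
    (ae_of_all _ fun x => sq_nonneg _) (hsq e) (a ^ 2)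
  rw [← ofReal_measureReal]
  refine ENNReal.ofReal_le_ofReal ?_
  rw [le_div_iff₀ (by positivity), mul_comm]
  refine le_trans ?_ (hmk.trans (hvar.trans ?_))
  · refine mul_le_mul_of_nonneg_left (measureReal_mono fun ω hω => ?_) (sq_nonneg a)
    simp only [Set.mem_ofPred_eq] at hω ⊢
    rw [← sq_abs (tt ω u v - e)]
    exact pow_le_pow_left₀ ha.le hω 2
  · rw [hMdef]
    push_cast
    nlinarith [sq_nonneg b, Nat.cast_nonneg (α := ℝ) d, Nat.cast_nonneg (α := ℝ) q]

end Vale.Agent.P158.V4
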