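import Vale.Agent.P158.V4.Passage

/-!
P158: Busemann functions of geodesic rays, in the plane and inside a region, and the exchange inequality.
-/

namespace Vale.Agent.P158.V4

open Filter Topology

/-- A geodesic ray: unit steps, and every segment attains the passage time. -/
def IsGeo (ω : Sym2 (ℤ × ℤ) → ℝ) (v : ℕ → ℤ × ℤ) : Prop :=
  (∀ i, grid.Adj (v i) (v (i + 1))) ∧
    ∀ i j, i ≤ j → ∑ k ∈ Finset.Ico i j, ω s(v k, v (k + 1)) = tt ω (v i) (v j)

/-- A region in which any two of its points are joined by a walk. -/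
def Linked (S : Set (ℤ × ℤ)) : Prop :=
  ∀ u ∈ S, ∀ v ∈ S, ∃ p : grid.Walk u v, ∀ z ∈ p.support, z ∈ S

/-- The passage time inside a region. -/
noncomputable def ttS (ω : Sym2 (ℤ × ℤ) → ℝ) (S : Set (ℤ × ℤ)) (u v : ℤ × ℤ) : ℝ :=
  ⨅ p : {p : grid.Walk u v // ∀ z ∈ p.support, z ∈ S}, wt ω p.1

/-- The Busemann function of a ray, normalised at its first vertex. -/
noncomputable def Bus (ω : Sym2 (ℤ × ℤ) → ℝ) (v : ℕ → ℤ × ℤ) (x : ℤ × ℤ) : ℝ :=
  ⨅ n, (tt ω x (v n) - tt ω (v 0) (v n))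

/-- The Busemann function of a ray inside a region containing a tail of it. -/
noncomputable def BusS (ω : Sym2 (ℤ × ℤ) → ℝ) (S : Set (ℤ × ℤ)) (v : ℕ → ℤ × ℤ) (x : ℤ × ℤ) : ℝ :=
  ⨅ n : {n : ℕ // ∀ m, n ≤ m → v m ∈ S}, (ttS ω S x (v n) - tt ω (v 0) (v n))

variable {ω : Sym2 (ℤ × ℤ) → ℝ} {v : ℕ → ℤ × ℤ} {S : Set (ℤ × ℤ)} {x y : ℤ × ℤ}

theorem linked_upper (h : ℤ) : Linked {z | h ≤ z.2} := by
  intro u hu w hw
  simp only [Set.mem_ofPred_eq] at hu hw
  have hor : ∀ (u : ℤ × ℤ) (n : ℕ) (s : ℤ), |s| = 1 → h ≤ u.2 →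
      ∃ p : grid.Walk u (u.1 + n * s, u.2), ∀ z ∈ p.support, h ≤ z.2 := by
    intro u n s hs hu
    induction n with
    | zero => exact ⟨(SimpleGraph.Walk.nil).copy rfl (by simp), by simpa using hu⟩
    | succ n ih =>
      obtain ⟨p, hp⟩ := ih
      have hadj : grid.Adj (u.1 + n * s, u.2) (u.1 + (n + 1 : ℕ) * s, u.2) := by
        rw [grid_adj_iff]
        dsimp only
        push_cast
        rw [show u.1 + n * s - (u.1 + (n + 1) * s) = -s by ring, abs_neg, hs, sub_self, abs_zero, add_zero]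
      refine ⟨p.concat hadj, fun z hz => ?_⟩
      rw [SimpleGraph.Walk.support_concat, List.mem_append, List.mem_singleton] at hz
      rcases hz with hz | rfl
      · exact hp z hz
      · exact hu
  have ver : ∀ (u : ℤ × ℤ) (n : ℕ), h ≤ u.2 →
      ∃ p : grid.Walk u (u.1, u.2 + n), ∀ z ∈ p.support, h ≤ z.2 := by
    intro u n hu
    induction n with
    | zero => exact ⟨(SimpleGraph.Walk.nil).copy rfl (by simp), by simpa using hu⟩
    | succ n ih =>
      obtain ⟨p, hp⟩ := ih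
      have hadj : grid.Adj (u.1, u.2 + n) (u.1, u.2 + (n + 1 : ℕ)) := by rw [grid_adj_iff]; simp
      refine ⟨p.concat hadj, fun z hz => ?_⟩
      rw [SimpleGraph.Walk.support_concat, List.mem_append, List.mem_singleton] at hz
      rcases hz with hz | rfl
      · exact hp z hz
      · dsimp only; omega
  have down : ∀ (u w : ℤ × ℤ), u.1 = w.1 → h ≤ u.2 → h ≤ w.2 →
      ∃ p : grid.Walk u w, ∀ z ∈ p.support, h ≤ z.2 := by
    intro u w he hu hw
    rcases le_total u.2 w.2 with h' | h'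
    · obtain ⟨p, hp⟩ := ver u (w.2 - u.2).toNat hu
      exact ⟨p.copy rfl (by ext <;> simp <;> omega), by simpa using hp⟩
    · obtain ⟨p, hp⟩ := ver w (u.2 - w.2).toNat hw
      exact ⟨(p.copy rfl (by ext <;> simp <;> omega)).reverse, by simpa using hp⟩
  rcases le_total u.1 w.1 with h' | h'
  · obtain ⟨p, hp⟩ := hor u (w.1 - u.1).toNat 1 (by simp) hu
    obtain ⟨q, hq⟩ := down (u.1 + ((w.1 - u.1).toNat : ℤ) * 1, u.2) w (by dsimp only; omega) hu hw
    exact ⟨p.append q, fun z hz => ((SimpleGraph.Walk.mem_support_append_iff _ _).1 hz).elim (hp z) (hq z)⟩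
  · obtain ⟨p, hp⟩ := hor u (u.1 - w.1).toNat (-1) (by simp) hu
    obtain ⟨q, hq⟩ := down (u.1 + ((u.1 - w.1).toNat : ℤ) * (-1), u.2) w (by dsimp only; omega) hu hw
    exact ⟨p.append q, fun z hz => ((SimpleGraph.Walk.mem_support_append_iff _ _).1 hz).elim (hp z) (hq z)⟩

/-- Reflection in the horizontal axis. -/
def flip2 : grid →g grid where
  toFun z := (z.1, -z.2)
  map_rel' {a b} h := by
    rw [grid_adj_iff] at h ⊢
    dsimp only
    simp only [abs_eq_max_neg] at h ⊢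
    omega

theorem linked_lower (h : ℤ) : Linked {z | z.2 ≤ h} := by
  intro u hu w hw
  simp only [Set.mem_ofPred_eq] at hu hw
  obtain ⟨p, hp⟩ := linked_upper (-h) (flip2 u) (by simpa [flip2] using hu) (flip2 w) (by simpa [flip2] using hw)
  refine ⟨(p.map flip2).copy (by simp [flip2]) (by simp [flip2]), fun z hz => ?_⟩
  simp only [SimpleGraph.Walk.support_copy, SimpleGraph.Walk.support_map, List.mem_map] at hz
  obtain ⟨z', hz', rfl⟩ := hz
  have := hp z' hz'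
  simp only [Set.mem_ofPred_eq] at this ⊢
  show -z'.2 ≤ h
  omega

theorem ttS_le (hω : ∀ e, 0 ≤ ω e) (p : grid.Walk x y) (hp : ∀ z ∈ p.support, z ∈ S) :
    ttS ω S x y ≤ wt ω p :=
  ciInf_le (f := fun q : {p : grid.Walk x y // ∀ z ∈ p.support, z ∈ S} => wt ω q.1)
    ⟨0, by rintro _ ⟨q, rfl⟩; exact wt_nonneg hω q.1⟩ ⟨p, hp⟩

theorem le_ttS (hS : Linked S) (hx : x ∈ S) (hy : y ∈ S) {c : ℝ}
    (h : ∀ p : grid.Walk x y, (∀ z ∈ p.support, z ∈ S) → c ≤ wt ω p) : c ≤ ttS ω S x y := by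
  haveI : Nonempty {p : grid.Walk x y // ∀ z ∈ p.support, z ∈ S} :=
    ⟨⟨(hS x hx y hy).choose, (hS x hx y hy).choose_spec⟩⟩
  exact le_ciInf fun p => h p.1 p.2

theorem tt_le_ttS (hω : ∀ e, 0 ≤ ω e) (hS : Linked S) (hx : x ∈ S) (hy : y ∈ S) :
    tt ω x y ≤ ttS ω S x y :=
  le_ttS hS hx hy fun p _ => tt_le hω p

theorem ttS_triangle (hω : ∀ e, 0 ≤ ω e) (hS : Linked S) (hx : x ∈ S) (hy : y ∈ S) {z : ℤ × ℤ} (hz : z ∈ S) :
    ttS ω S x z ≤ ttS ω S x y + ttS ω S y z := by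
  rw [← sub_le_iff_le_add]
  refine le_ttS hS hx hy fun p hp => ?_
  rw [sub_le_iff_le_add, ← sub_le_iff_le_add']
  refine le_ttS hS hy hz fun q hq => ?_
  rw [sub_le_iff_le_add']
  exact (ttS_le hω (p.append q) fun w hw =>
    ((SimpleGraph.Walk.mem_support_append_iff _ _).1 hw).elim (hp w) (hq w)).trans_eq (wt_append p q)

namespace IsGeo

theorem add_eq (hv : IsGeo ω v) {i j k : ℕ} (hij : i ≤ j) (hjk : j ≤ k) :
    tt ω (v i) (v k) = tt ω (v i) (v j) + tt ω (v j) (v k) := by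
  rw [← hv.2 i j hij, ← hv.2 j k hjk, ← hv.2 i k (hij.trans hjk), Finset.sum_Ico_consecutive _ hij hjk]

/-- The segment of the ray between two indices, as a walk. -/
theorem exists_seg (hv : IsGeo ω v) (i : ℕ) : ∀ n, ∃ p : grid.Walk (v i) (v (i + n)),
    wt ω p = tt ω (v i) (v (i + n)) ∧ ∀ z, z ∈ p.support ↔ ∃ k, k ≤ n ∧ z = v (i + k) := by
  intro n
  induction n with
  | zero =>
    refine ⟨SimpleGraph.Walk.nil, ?_, fun z => by simp⟩
    rw [← hv.2 i (i + 0) (by omega)]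
    simp [wt]
  | succ n ih =>
    obtain ⟨p, hp, hs⟩ := ih
    refine ⟨p.concat (hv.1 (i + n)), ?_, fun z => ?_⟩
    · rw [← hv.2 i (i + n) (by omega)] at hp
      have hh := hv.2 i (i + n + 1) (by omega)
      rw [Finset.sum_Ico_succ_top (by omega), ← hp] at hh
      refine Eq.trans ?_ hh
      simp [wt, add_assoc]
    · rw [SimpleGraph.Walk.support_concat, List.mem_append, List.mem_singleton, hs]
      constructor
      · rintro (⟨k, hk, rfl⟩ | rfl)
        · exact ⟨k, by omega, rfl⟩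
        · exact ⟨n + 1, le_rfl, rfl⟩
      · rintro ⟨k, hk, rfl⟩
        rcases Nat.lt_or_eq_of_le hk with h | rfl
        · exact Or.inl ⟨k, by omega, rfl⟩
        · exact Or.inr rfl

theorem ttS_seg (hv : IsGeo ω v) (hω : ∀ e, 0 ≤ ω e) {i j : ℕ} (hij : i ≤ j) (h : ∀ m, i ≤ m → v m ∈ S) :
    ttS ω S (v i) (v j) ≤ tt ω (v i) (v j) := by
  obtain ⟨n, rfl⟩ := Nat.exists_eq_add_of_le hij
  obtain ⟨p, hp, hs⟩ := hv.exists_seg i n
  refine (ttS_le hω p fun z hz => ?_).trans_eq hp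
  obtain ⟨k, -, rfl⟩ := (hs z).1 hz
  exact h _ (by omega)

theorem bdd (hv : IsGeo ω v) (hω : ∀ e, 0 ≤ ω e) (x : ℤ × ℤ) :
    BddBelow (Set.range fun n => tt ω x (v n) - tt ω (v 0) (v n)) := by
  refine ⟨-tt ω (v 0) x, ?_⟩
  rintro _ ⟨n, rfl⟩
  linarith [tt_triangle hω (v 0) x (v n)]

theorem bus_le (hv : IsGeo ω v) (hω : ∀ e, 0 ≤ ω e) (x : ℤ × ℤ) (n : ℕ) :
    Bus ω v x ≤ tt ω x (v n) - tt ω (v 0) (v n) :=
  ciInf_le (hv.bdd hω x) n

theorem antitone (hv : IsGeo ω v) (hω : ∀ e, 0 ≤ ω e) (x : ℤ × ℤ) :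
    Antitone fun n => tt ω x (v n) - tt ω (v 0) (v n) := by
  intro n m hnm
  have h1 := hv.add_eq (Nat.zero_le n) hnm
  have h2 := tt_triangle hω x (v n) (v m)
  linarith

theorem tendsto_bus (hv : IsGeo ω v) (hω : ∀ e, 0 ≤ ω e) (x : ℤ × ℤ) :
    Tendsto (fun n => tt ω x (v n) - tt ω (v 0) (v n)) atTop (𝓝 (Bus ω v x)) :=
  tendsto_atTop_ciInf (hv.antitone hω x) (hv.bdd hω x)

theorem bus_vertex (hv : IsGeo ω v) (hω : ∀ e, 0 ≤ ω e) (i : ℕ) : Bus ω v (v i) = -tt ω (v 0) (v i) := by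
  refine tendsto_nhds_unique (hv.tendsto_bus hω (v i)) (tendsto_const_nhds.congr' (eventually_atTop.2 ⟨i, fun n hn => ?_⟩))
  have := hv.add_eq (Nat.zero_le i) hn
  linarith

theorem bus_le_add (hv : IsGeo ω v) (hω : ∀ e, 0 ≤ ω e) (x y : ℤ × ℤ) :
    Bus ω v x ≤ tt ω x y + Bus ω v y :=
  le_of_tendsto_of_tendsto' (hv.tendsto_bus hω x) ((hv.tendsto_bus hω y).const_add _) fun n => by
    linarith [tt_triangle hω x y (v n)]

theorem abs_bus_sub (hv : IsGeo ω v) (hω : ∀ e, 0 ≤ ω e) (x y : ℤ × ℤ) :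
    |Bus ω v x - Bus ω v y| ≤ tt ω x y := by
  rw [abs_sub_le_iff]
  exact ⟨by linarith [hv.bus_le_add hω x y], by linarith [hv.bus_le_add hω y x, tt_comm hω x y]⟩

/-- Restarting the ray later changes the Busemann function by a constant. -/
theorem bus_tail (hv : IsGeo ω v) (hω : ∀ e, 0 ≤ ω e) (i : ℕ) (x : ℤ × ℤ) :
    Bus ω (fun n => v (i + n)) x = Bus ω v x + tt ω (v 0) (v i) := by
  have hi : IsGeo ω fun n => v (i + n) := ⟨fun n => hv.1 (i + n), fun a b hab => by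
    rw [← hv.2 (i + a) (i + b) (by omega), Finset.sum_Ico_eq_sum_range, Finset.sum_Ico_eq_sum_range,
      show i + b - (i + a) = b - a by omega]
    simp only [add_assoc]⟩
  refine tendsto_nhds_unique (hi.tendsto_bus hω x) ?_
  refine Tendsto.congr (fun n => ?_)
    (((hv.tendsto_bus hω x).comp (tendsto_add_atTop_nat i)).add_const (tt ω (v 0) (v i)))
  have := hv.add_eq (Nat.zero_le i) (show i ≤ n + i by omega)
  simp only [Function.comp_apply, Nat.add_comm i n, add_zero]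
  linarith

theorem bddS (hv : IsGeo ω v) (hω : ∀ e, 0 ≤ ω e) (hS : Linked S) (hx : x ∈ S) :
    BddBelow (Set.range fun n : {n : ℕ // ∀ m, n ≤ m → v m ∈ S} => ttS ω S x (v n) - tt ω (v 0) (v n)) := by
  refine ⟨Bus ω v x, ?_⟩
  rintro _ ⟨⟨n, hn⟩, rfl⟩
  refine (hv.bus_le hω x n).trans ?_
  linarith [tt_le_ttS (x := x) (y := v n) hω hS hx (hn n le_rfl)]

theorem busS_le (hv : IsGeo ω v) (hω : ∀ e, 0 ≤ ω e) (hS : Linked S) (hx : x ∈ S) {n : ℕ}
    (hn : ∀ m, n ≤ m → v m ∈ S) : BusS ω S v x ≤ ttS ω S x (v n) - tt ω (v 0) (v n) :=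
  ciInf_le (hv.bddS hω hS hx) (⟨n, hn⟩ : {n : ℕ // ∀ m, n ≤ m → v m ∈ S})

theorem le_busS {N : ℕ} (hN : ∀ m, N ≤ m → v m ∈ S) {c : ℝ}
    (h : ∀ n, (∀ m, n ≤ m → v m ∈ S) → c ≤ ttS ω S x (v n) - tt ω (v 0) (v n)) : c ≤ BusS ω S v x := by
  haveI : Nonempty {n : ℕ // ∀ m, n ≤ m → v m ∈ S} := ⟨⟨N, hN⟩⟩
  exact le_ciInf fun n => h n.1 n.2

theorem bus_le_busS (hv : IsGeo ω v) (hω : ∀ e, 0 ≤ ω e) (hS : Linked S) (hx : x ∈ S) {N : ℕ}
    (hN : ∀ m, N ≤ m → v m ∈ S) : Bus ω v x ≤ BusS ω S v x :=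
  le_busS hN fun n hn => (hv.bus_le hω x n).trans (by linarith [tt_le_ttS (y := v n) hω hS hx (hn n le_rfl)])

theorem busS_le_add (hv : IsGeo ω v) (hω : ∀ e, 0 ≤ ω e) (hS : Linked S) (hx : x ∈ S) (hy : y ∈ S) {N : ℕ}
    (hN : ∀ m, N ≤ m → v m ∈ S) : BusS ω S v x ≤ ttS ω S x y + BusS ω S v y := by
  rw [← sub_le_iff_le_add']
  refine le_busS hN fun n hn => ?_
  linarith [hv.busS_le hω hS hx hn, ttS_triangle hω hS hx hy (hn n le_rfl)]

end IsGeo

/-- Two walks with a common vertex can exchange their ends. -/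
theorem exchange (hω : ∀ e, 0 ≤ ω e) {a c z : ℤ × ℤ} (p : grid.Walk x a) (q : grid.Walk y c)
    (hp : ∀ w ∈ p.support, w ∈ S) (hq : ∀ w ∈ q.support, w ∈ S) (hzp : z ∈ p.support) (hzq : z ∈ q.support) :
    ttS ω S x c + ttS ω S y a ≤ wt ω p + wt ω q := by
  classical
  have hp' := wt_append (ω := ω) (p.takeUntil z hzp) (p.dropUntil z hzp)
  have hq' := wt_append (ω := ω) (q.takeUntil z hzq) (q.dropUntil z hzq)
  rw [SimpleGraph.Walk.take_spec] at hp' hq'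
  have h1 : ttS ω S x c ≤ wt ω (p.takeUntil z hzp) + wt ω (q.dropUntil z hzq) := by
    refine (ttS_le hω ((p.takeUntil z hzp).append (q.dropUntil z hzq)) fun w hw => ?_).trans_eq (wt_append _ _)
    rcases (SimpleGraph.Walk.mem_support_append_iff _ _).1 hw with h | h
    · exact hp w (p.support_takeUntil_subset hzp h)
    · exact hq w (q.support_dropUntil_subset hzq h)
  have h2 : ttS ω S y a ≤ wt ω (q.takeUntil z hzq) + wt ω (p.dropUntil z hzp) := by
    refine (ttS_le hω ((q.takeUntil z hzq).append (p.dropUntil z hzp)) fun w hw => ?_).trans_eq (wt_append _ _)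
    rcases (SimpleGraph.Walk.mem_support_append_iff _ _).1 hw with h | h
    · exact hq w (q.support_takeUntil_subset hzq h)
    · exact hp w (p.support_dropUntil_subset hzp h)
  linarith

/-- Monge inequality: if walks to far points of two rays, continued along the rays, must meet, the
increments of the two Busemann functions are ordered. -/
theorem monge (hω : ∀ e, 0 ≤ ω e) (hS : Linked S) {a c : ℕ → ℤ × ℤ} (ha : IsGeo ω a) (hc : IsGeo ω c)
    (hx : x ∈ S) (hy : y ∈ S) {M N : ℕ} (hM : ∀ m, M ≤ m → a m ∈ S) (hN : ∀ m, N ≤ m → c m ∈ S)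
    (hmeet : ∀ m n, (∀ k, m ≤ k → a k ∈ S) → (∀ k, n ≤ k → c k ∈ S) →
      ∀ (p : grid.Walk x (a m)) (q : grid.Walk y (c n)), (∀ w ∈ p.support, w ∈ S) → (∀ w ∈ q.support, w ∈ S) →
        ∃ z, (z ∈ p.support ∨ ∃ k, m ≤ k ∧ a k = z) ∧ (z ∈ q.support ∨ ∃ k, n ≤ k ∧ c k = z)) :
    BusS ω S c x + BusS ω S a y ≤ BusS ω S a x + BusS ω S c y := by
  rw [← sub_le_iff_le_add]
  refine IsGeo.le_busS hM fun m hm => ?_
  rw [sub_le_iff_le_add, ← sub_le_iff_le_add']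
  refine IsGeo.le_busS hN fun n hn => ?_
  rw [sub_le_iff_le_add']
  suffices h : BusS ω S c x + BusS ω S a y + tt ω (a 0) (a m) + tt ω (c 0) (c n) ≤
      ttS ω S x (a m) + ttS ω S y (c n) by linarith
  rw [← sub_le_iff_le_add]
  refine le_ttS hS hx (hm m le_rfl) fun p hp => ?_
  rw [sub_le_iff_le_add, ← sub_le_iff_le_add']
  refine le_ttS hS hy (hn n le_rfl) fun q hq => ?_
  rw [sub_le_iff_le_add']
  obtain ⟨z, hzp, hzq⟩ := hmeet m n hm hn p q hp hq
  have ext : ∀ {d : ℕ → ℤ × ℤ} {w : ℤ × ℤ} {i : ℕ}, IsGeo ω d → (∀ k, i ≤ k → d k ∈ S) →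
      ∀ r : grid.Walk w (d i), (∀ e ∈ r.support, e ∈ S) → (z ∈ r.support ∨ ∃ k, i ≤ k ∧ d k = z) →
      ∃ j, i ≤ j ∧ ∃ r' : grid.Walk w (d j), (∀ e ∈ r'.support, e ∈ S) ∧ z ∈ r'.support ∧
        wt ω r' - tt ω (d 0) (d j) = wt ω r - tt ω (d 0) (d i) := by
    intro d w i hd hdS r hr hz
    rcases hz with hz | ⟨k, hk, rfl⟩
    · exact ⟨i, le_rfl, r, hr, hz, rfl⟩
    · obtain ⟨j, rfl⟩ := Nat.exists_eq_add_of_le hk
      obtain ⟨s, hs, hsup⟩ := hd.exists_seg i j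
      refine ⟨i + j, by omega, r.append s, fun e he => ?_, ?_, ?_⟩
      · rcases (SimpleGraph.Walk.mem_support_append_iff _ _).1 he with h | h
        · exact hr e h
        · obtain ⟨k', -, rfl⟩ := (hsup e).1 h
          exact hdS _ (by omega)
      · exact (SimpleGraph.Walk.mem_support_append_iff _ _).2 (Or.inr ((hsup _).2 ⟨j, le_rfl, rfl⟩))
      · rw [wt_append, hs, hd.add_eq (Nat.zero_le i) (by omega : i ≤ i + j)]
        ring
  obtain ⟨m', hm', p', hp', hzp', ep⟩ := ext ha hm p hp hzp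
  obtain ⟨n', hn', q', hq', hzq', eq'⟩ := ext hc hn q hq hzq
  have hex := exchange hω p' q' hp' hq' hzp' hzq'
  have h1 := hc.busS_le hω hS hx (n := n') fun k hk => hn k (hn'.trans hk)
  have h2 := ha.busS_le hω hS hy (n := m') fun k hk => hm k (hm'.trans hk)
  linarith

end Vale.Agent.P158.V4
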