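import Vale.Agent.P158.V4.Defs
import Vale.Agent.P158.V4.Busemann

/-!
P158: Busemann functions of tails and labels: convergence, triangle inequalities, and stability
under a change of finitely many weights.
-/

namespace Vale.Agent.P158.V4

open Filter Topology

variable {ω ω' : Cfg} {r : Ray} {S : Set Pt} {p q : Pt} {L : Lab}

theorem ttIn_eq (S : Set Pt) (ω : Cfg) (u v : Pt) : ttIn S ω u v = ttS ω S u v := rfl

/-- Every ball of the passage time is finite. -/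
def Escape (ω : Cfg) : Prop := ∀ (u : Pt) (M : ℝ), {v | tt ω u v ≤ M}.Finite

theorem exists_walk_Ico (ω : Cfg) {v : ℕ → Pt} (hv : ∀ i, grid.Adj (v i) (v (i + 1))) (i : ℕ) :
    ∀ n, ∃ p : grid.Walk (v i) (v (i + n)),
      wt ω p = ∑ k ∈ Finset.Ico i (i + n), ω s(v k, v (k + 1)) ∧
      (∀ z ∈ p.support, ∃ k, i ≤ k ∧ k ≤ i + n ∧ z = v k) ∧
      ∀ e ∈ p.edges, ∃ k, i ≤ k ∧ k < i + n ∧ e = s(v k, v (k + 1)) := by
  intro n
  induction n with
  | zero =>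
    exact ⟨SimpleGraph.Walk.nil, by simp [wt], fun z hz => ⟨i, le_rfl, le_rfl, by simpa using hz⟩,
      fun e he => by simp at he⟩
  | succ n ih =>
    obtain ⟨p, hw, hs, he⟩ := ih
    refine ⟨p.concat (hv (i + n)), ?_, fun z hz => ?_, fun e hm => ?_⟩
    · show wt ω (p.concat (hv (i + n))) = ∑ k ∈ Finset.Ico i (i + n + 1), ω s(v k, v (k + 1))
      rw [Finset.sum_Ico_succ_top (by omega), ← hw]
      simp [wt]
    · rw [SimpleGraph.Walk.support_concat, List.mem_append, List.mem_singleton] at hz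
      rcases hz with hz | rfl
      · obtain ⟨k, h1, h2, rfl⟩ := hs z hz
        exact ⟨k, h1, by omega, rfl⟩
      · exact ⟨i + n + 1, by omega, by omega, rfl⟩
    · rw [SimpleGraph.Walk.edges_concat, List.concat_eq_append, List.mem_append,
        List.mem_singleton] at hm
      rcases hm with hm | rfl
      · obtain ⟨k, h1, h2, rfl⟩ := he e hm
        exact ⟨k, h1, by omega, rfl⟩
      · exact ⟨i + n, by omega, by omega, rfl⟩

theorem exists_seg_walk (hr : IsTail ω r) :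
    ∃ M, ∀ i j, M ≤ i → i ≤ j → tt ω (r.pt i) (r.pt j) = r.acc j - r.acc i ∧
      ∃ w : grid.Walk (r.pt i) (r.pt j), wt ω w = r.acc j - r.acc i ∧
        (∀ z ∈ w.support, ∃ k, i ≤ k ∧ k ≤ j ∧ z = r.pt k) ∧
        ∀ e ∈ w.edges, ∃ k, i ≤ k ∧ k < j ∧ e = s(r.pt k, r.pt (k + 1)) := by
  obtain ⟨M, hM⟩ := hr.geo
  refine ⟨M, fun i j hi hij => ⟨(hM i j hi hij).1, ?_⟩⟩
  obtain ⟨n, rfl⟩ := Nat.exists_eq_add_of_le hij
  obtain ⟨w, h1, h2, h3⟩ := exists_walk_Ico ω hr.adj i n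
  exact ⟨w, h1.trans (hM i (i + n) hi hij).2, h2, h3⟩

/-- An eventually antitone sequence with an eventual lower bound converges. -/
theorem tendsto_limUnder_antitone {f : ℕ → ℝ} {M : ℕ} (h : ∀ i j, M ≤ i → i ≤ j → f j ≤ f i)
    (hb : ∃ c, ∀ i, M ≤ i → c ≤ f i) :
    Tendsto f atTop (𝓝 (limUnder atTop f)) ∧ ∀ i, M ≤ i → limUnder atTop f ≤ f i := by
  obtain ⟨c, hc⟩ := hb
  have h1 : Tendsto (fun i => f (i + M)) atTop (𝓝 (⨅ i, f (i + M))) :=
    tendsto_atTop_ciInf (fun i j hij => h _ _ (by omega) (by omega))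
      ⟨c, by rintro _ ⟨i, rfl⟩; exact hc _ (by omega)⟩
  have h2 : Tendsto f atTop (𝓝 (⨅ i, f (i + M))) := (tendsto_add_atTop_iff_nat M).1 h1
  refine ⟨h2.limUnder_eq.symm ▸ h2, fun i hi => ?_⟩
  rw [h2.limUnder_eq]
  have := ciInf_le (f := fun i => f (i + M)) ⟨c, by rintro _ ⟨i, rfl⟩; exact hc _ (by omega)⟩ (i - M)
  rwa [Nat.sub_add_cancel hi] at this

namespace IsTail

theorem sub_antitone (hr : IsTail ω r) (h0 : ∀ e, 0 ≤ ω e) :
    ∃ M, ∀ p, (∀ i j, M ≤ i → i ≤ j → tt ω p (r.pt j) - r.acc j ≤ tt ω p (r.pt i) - r.acc i) ∧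
      ∀ i, M ≤ i → -tt ω (r.pt M) p - r.acc M ≤ tt ω p (r.pt i) - r.acc i := by
  obtain ⟨M, hM⟩ := hr.geo
  refine ⟨M, fun p => ⟨fun i j hi hij => ?_, fun i hi => ?_⟩⟩
  · have := tt_triangle h0 p (r.pt i) (r.pt j)
    linarith [(hM i j hi hij).1]
  · have := tt_triangle h0 (r.pt M) p (r.pt i)
    linarith [(hM M i le_rfl hi).1]

theorem tendsto_bus (hr : IsTail ω r) (h0 : ∀ e, 0 ≤ ω e) (p : Pt) :
    Tendsto (fun n => tt ω p (r.pt n) - r.acc n) atTop (𝓝 (bus ω r p)) := by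
  obtain ⟨M, hM⟩ := hr.sub_antitone h0
  exact (tendsto_limUnder_antitone (hM p).1 ⟨_, (hM p).2⟩).1

theorem bus_le (hr : IsTail ω r) (h0 : ∀ e, 0 ≤ ω e) :
    ∃ M, ∀ p n, M ≤ n → bus ω r p ≤ tt ω p (r.pt n) - r.acc n := by
  obtain ⟨M, hM⟩ := hr.sub_antitone h0
  exact ⟨M, fun p => (tendsto_limUnder_antitone (hM p).1 ⟨_, (hM p).2⟩).2⟩

theorem bus_le_add (hr : IsTail ω r) (h0 : ∀ e, 0 ≤ ω e) (p q : Pt) :
    bus ω r p ≤ tt ω p q + bus ω r q :=
  le_of_tendsto_of_tendsto' (hr.tendsto_bus h0 p) ((hr.tendsto_bus h0 q).const_add _) fun n => by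
    linarith [tt_triangle h0 p q (r.pt n)]

theorem abs_bus_sub (hr : IsTail ω r) (h0 : ∀ e, 0 ≤ ω e) (p q : Pt) :
    |bus ω r p - bus ω r q| ≤ tt ω p q := by
  rw [abs_sub_le_iff]
  exact ⟨by linarith [hr.bus_le_add h0 p q],
    by linarith [hr.bus_le_add h0 q p, tt_comm h0 q p]⟩

theorem bus_pt (hr : IsTail ω r) (h0 : ∀ e, 0 ≤ ω e) :
    ∃ M, ∀ i, M ≤ i → bus ω r (r.pt i) = -r.acc i := by
  obtain ⟨M, hM⟩ := hr.geo
  refine ⟨M, fun i hi => tendsto_nhds_unique (hr.tendsto_bus h0 _)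
    (tendsto_const_nhds.congr' (eventually_atTop.2 ⟨i, fun n hn => ?_⟩))⟩
  linarith [(hM i n hi hn).1]

theorem subIn_antitone (hr : IsTail ω r) (h0 : ∀ e, 0 ≤ ω e) (hS : Linked S)
    (hev : ∀ᶠ n in atTop, r.pt n ∈ S) :
    ∃ M, (∀ n, M ≤ n → r.pt n ∈ S) ∧ ∀ p ∈ S,
      (∀ i j, M ≤ i → i ≤ j → ttIn S ω p (r.pt j) - r.acc j ≤ ttIn S ω p (r.pt i) - r.acc i) ∧
      ∀ i, M ≤ i → bus ω r p ≤ ttIn S ω p (r.pt i) - r.acc i := by
  obtain ⟨M, hM⟩ := exists_seg_walk hr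
  obtain ⟨N, hN⟩ := eventually_atTop.1 hev
  obtain ⟨M', hM'⟩ := hr.bus_le h0
  refine ⟨max (max M N) M', fun n hn => hN n (by omega), fun p hp => ⟨fun i j hi hij => ?_, fun i hi => ?_⟩⟩
  · obtain ⟨-, w, hw, hs, -⟩ := hM i j (by omega) hij
    have h1 := ttS_triangle h0 hS hp (hN i (by omega)) (hN j (by omega) : r.pt j ∈ S) (ω := ω)
    have h2 : ttS ω S (r.pt i) (r.pt j) ≤ wt ω w := ttS_le h0 w fun z hz => by
      obtain ⟨k, hk, -, rfl⟩ := hs z hz
      exact hN k (by omega)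
    simp only [ttIn_eq]
    linarith
  · have h1 := tt_le_ttS h0 hS hp (hN i (by omega) : r.pt i ∈ S) (ω := ω)
    have h2 := hM' p i (by omega)
    simp only [ttIn_eq]
    linarith

theorem tendsto_busIn (hr : IsTail ω r) (h0 : ∀ e, 0 ≤ ω e) (hS : Linked S)
    (hev : ∀ᶠ n in atTop, r.pt n ∈ S) (hp : p ∈ S) :
    Tendsto (fun n => ttIn S ω p (r.pt n) - r.acc n) atTop (𝓝 (busIn S ω r p)) := by
  obtain ⟨M, -, hM⟩ := hr.subIn_antitone h0 hS hev
  exact (tendsto_limUnder_antitone (hM p hp).1 ⟨_, (hM p hp).2⟩).1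

theorem busIn_le (hr : IsTail ω r) (h0 : ∀ e, 0 ≤ ω e) (hS : Linked S)
    (hev : ∀ᶠ n in atTop, r.pt n ∈ S) :
    ∃ M, ∀ p ∈ S, ∀ n, M ≤ n → busIn S ω r p ≤ ttIn S ω p (r.pt n) - r.acc n := by
  obtain ⟨M, -, hM⟩ := hr.subIn_antitone h0 hS hev
  exact ⟨M, fun p hp => (tendsto_limUnder_antitone (hM p hp).1 ⟨_, (hM p hp).2⟩).2⟩

theorem bus_le_busIn (hr : IsTail ω r) (h0 : ∀ e, 0 ≤ ω e) (hS : Linked S)
    (hev : ∀ᶠ n in atTop, r.pt n ∈ S) (hp : p ∈ S) : bus ω r p ≤ busIn S ω r p := by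
  obtain ⟨M, -, hM⟩ := hr.subIn_antitone h0 hS hev
  exact ge_of_tendsto (hr.tendsto_busIn h0 hS hev hp) (eventually_atTop.2 ⟨M, (hM p hp).2⟩)

theorem busIn_le_add (hr : IsTail ω r) (h0 : ∀ e, 0 ≤ ω e) (hS : Linked S)
    (hev : ∀ᶠ n in atTop, r.pt n ∈ S) (hp : p ∈ S) (hq : q ∈ S) :
    busIn S ω r p ≤ ttIn S ω p q + busIn S ω r q :=
  le_of_tendsto_of_tendsto (hr.tendsto_busIn h0 hS hev hp)
    ((hr.tendsto_busIn h0 hS hev hq).const_add _) <| hev.mono fun n hn => by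
      have := ttS_triangle h0 hS hp hq hn (ω := ω)
      simp only [ttIn_eq]
      linarith

end IsTail

/-- The total change of finitely many weights. -/
noncomputable def change (E : Finset (Sym2 Pt)) (ω ω' : Cfg) : ℝ := ∑ e ∈ E, |ω e - ω' e|

theorem change_comm (E : Finset (Sym2 Pt)) (ω ω' : Cfg) : change E ω ω' = change E ω' ω :=
  Finset.sum_congr rfl fun e _ => abs_sub_comm _ _

theorem change_nonneg (E : Finset (Sym2 Pt)) (ω ω' : Cfg) : 0 ≤ change E ω ω' :=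
  Finset.sum_nonneg fun _ _ => abs_nonneg _

theorem list_sum_le_change (E : Finset (Sym2 Pt)) (heq : ∀ e, e ∉ E → ω' e = ω e)
    {l : List (Sym2 Pt)} (hl : l.Nodup) :
    |(l.map ω).sum - (l.map ω').sum| ≤ change E ω ω' := by
  classical
  rw [← List.sum_toFinset _ hl, ← List.sum_toFinset _ hl, ← Finset.sum_sub_distrib]
  refine (Finset.abs_sum_le_sum_abs _ _).trans ?_
  rw [← Finset.sum_filter_add_sum_filter_not l.toFinset (· ∈ E) fun e => |ω e - ω' e|,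
    Finset.sum_eq_zero (s := l.toFinset.filter (fun e => ¬ e ∈ E)) fun e he => by
      rw [heq e (Finset.mem_filter.1 he).2, sub_self, abs_zero], add_zero]
  exact Finset.sum_le_sum_of_subset_of_nonneg (fun e he => (Finset.mem_filter.1 he).2)
    fun _ _ _ => abs_nonneg _

theorem wt_le_change (E : Finset (Sym2 Pt)) (heq : ∀ e, e ∉ E → ω' e = ω e) {u v : Pt}
    (w : grid.Walk u v) (hw : w.IsPath) : |wt ω w - wt ω' w| ≤ change E ω ω' :=
  list_sum_le_change E heq hw.isTrail.edges_nodup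

theorem tt_le_change (h0 : ∀ e, 0 ≤ ω e) (h0' : ∀ e, 0 ≤ ω' e) (E : Finset (Sym2 Pt))
    (heq : ∀ e, e ∉ E → ω' e = ω e) (u v : Pt) : |tt ω u v - tt ω' u v| ≤ change E ω ω' := by
  classical
  rw [abs_sub_le_iff]
  constructor
  · rw [sub_le_iff_le_add, ← sub_le_iff_le_add']
    refine le_tt fun w => ?_
    have h1 := tt_le h0 w.bypass
    have h2 := abs_le.1 (wt_le_change E heq w.bypass w.bypass_isPath)
    linarith [wt_bypass_le h0' w]
  · rw [sub_le_iff_le_add, ← sub_le_iff_le_add']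
    refine le_tt fun w => ?_
    have h1 := tt_le h0' w.bypass
    have h2 := abs_le.1 (wt_le_change E heq w.bypass w.bypass_isPath)
    linarith [wt_bypass_le h0 w]

theorem Escape.congr (hesc : Escape ω) (h0 : ∀ e, 0 ≤ ω e) (h0' : ∀ e, 0 ≤ ω' e)
    (E : Finset (Sym2 Pt)) (heq : ∀ e, e ∉ E → ω' e = ω e) : Escape ω' := fun u M =>
  (hesc u (M + change E ω ω')).subset fun v hv => by
    have := abs_le.1 (tt_le_change h0 h0' E heq u v)
    simp only [Set.mem_ofPred_eq] at hv ⊢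
    linarith

theorem Escape.tendsto (hesc : Escape ω) {v : ℕ → Pt} (hv : Function.Injective v) (u : Pt) :
    Tendsto (fun n => tt ω u (v n)) atTop atTop := by
  refine tendsto_atTop.2 fun M => ?_
  have h := ((hesc u M).preimage hv.injOn).eventually_cofinite_notMem
  rw [Nat.cofinite_eq_atTop] at h
  exact h.mono fun n hn => le_of_lt (not_le.1 hn)

/-- A tail stays a tail when finitely many weights change. -/
theorem IsTail.congr (hr : IsTail ω r) (hesc : Escape ω) (h0 : ∀ e, 0 ≤ ω e) (h0' : ∀ e, 0 ≤ ω' e)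
    (E : Finset (Sym2 Pt)) (heq : ∀ e, e ∉ E → ω' e = ω e) : IsTail ω' r := by
  classical
  refine ⟨hr.adj, hr.inj, ?_⟩
  obtain ⟨M, hM⟩ := exists_seg_walk hr
  obtain ⟨Mg, hMg⟩ := hr.geo
  obtain ⟨M1, hM1⟩ : ∃ M1, ∀ k, M1 ≤ k → s(r.pt k, r.pt (k + 1)) ∉ E := by
    have hfin : {k : ℕ | s(r.pt k, r.pt (k + 1)) ∈ E}.Finite := by
      refine ((E.biUnion fun e => e.toFinset).finite_toSet.preimage hr.inj.injOn).subset fun k hk => ?_
      simp only [Set.mem_preimage, Finset.coe_biUnion, Set.mem_iUnion, Finset.mem_coe,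
        Sym2.mem_toFinset]
      exact ⟨_, hk, Sym2.mem_mk_left _ _⟩
    obtain ⟨B, hB⟩ := hfin.bddAbove
    exact ⟨B + 1, fun k hk hk' => absurd (hB hk') (by omega)⟩
  set C := change E ω ω'
  set F : Finset Pt := E.biUnion fun e => e.toFinset
  obtain ⟨M2, hM2⟩ : ∃ M2, ∀ i, M2 ≤ i → ∀ a ∈ F, 2 * tt ω (r.pt M) a + C ≤ tt ω (r.pt M) (r.pt i) :=
    eventually_atTop.1 (Finset.eventually_all F |>.2 fun a _ =>
      tendsto_atTop.1 (hesc.tendsto hr.inj (r.pt M)) _)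
  refine ⟨max (max M Mg) (max M1 M2), fun i j hi hij => ?_⟩
  have hsum : ∑ k ∈ Finset.Ico i j, ω' s(r.pt k, r.pt (k + 1)) = r.acc j - r.acc i := by
    rw [← (hMg i j (by omega) hij).2]
    exact Finset.sum_congr rfl fun k hk => heq _ (hM1 k (by rw [Finset.mem_Ico] at hk; omega))
  refine ⟨le_antisymm ?_ (le_tt fun w => ?_), hsum⟩
  · obtain ⟨-, w, hw, -, he⟩ := hM i j (by omega) hij
    refine (tt_le h0' w).trans (le_of_eq ?_)
    rw [← hw]
    unfold wt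
    refine congrArg List.sum (List.map_congr_left fun e hm => ?_)
    obtain ⟨k, hk, -, rfl⟩ := he e hm
    exact heq _ (hM1 k (by omega))
  · have hb := wt_bypass_le h0' w
    set p := w.bypass with hp
    have hpp : p.IsPath := w.bypass_isPath
    by_cases hE : ∃ e ∈ p.edges, e ∈ E
    · obtain ⟨e, he, heE⟩ := hE
      obtain ⟨a, ha⟩ : ∃ a, a ∈ e := by
        induction e using Sym2.ind with
        | _ x y => exact ⟨x, Sym2.mem_mk_left x y⟩
      have haS : a ∈ p.support := by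
        obtain ⟨c, rfl⟩ := Sym2.mem_iff_exists.1 ha
        exact p.fst_mem_support_of_mem_edges he
      have haF : a ∈ F := Finset.mem_biUnion.2 ⟨e, heE, Sym2.mem_toFinset.2 ha⟩
      have hsplit := wt_append (ω := ω) (p.takeUntil a haS) (p.dropUntil a haS)
      rw [SimpleGraph.Walk.take_spec] at hsplit
      have h1 := tt_le h0 (p.takeUntil a haS)
      have h2 := tt_le h0 (p.dropUntil a haS)
      have h3 := abs_le.1 (wt_le_change E heq p hpp)
      have h4 := tt_triangle h0 (r.pt M) a (r.pt i)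
      have h5 := tt_triangle h0 (r.pt M) a (r.pt j)
      have h6 := (hM M i le_rfl (by omega)).1
      have h7 := (hM M j le_rfl (by omega)).1
      have h8 := hM2 i (by omega) a haF
      have h9 := tt_comm h0 a (r.pt i)
      have h10 := tt_nonneg (u := r.pt M) (v := r.pt i) h0
      linarith
    · push Not at hE
      have : wt ω' p = wt ω p :=
        congrArg List.sum (List.map_congr_left fun e hm => heq e (hE e hm))
      linarith [tt_le h0 p, (hM i j (by omega) hij).1]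

theorem abs_bus_change (hr : IsTail ω r) (hr' : IsTail ω' r) (h0 : ∀ e, 0 ≤ ω e)
    (h0' : ∀ e, 0 ≤ ω' e) (E : Finset (Sym2 Pt)) (heq : ∀ e, e ∉ E → ω' e = ω e) (p : Pt) :
    |bus ω r p - bus ω' r p| ≤ change E ω ω' :=
  le_of_tendsto' ((hr.tendsto_bus h0 p).sub (hr'.tendsto_bus h0' p)).abs fun n => by
    rw [sub_sub_sub_cancel_right]
    exact tt_le_change h0 h0' E heq _ _

namespace IsLab

theorem congr (hL : IsLab ω L) (hesc : Escape ω) (h0 : ∀ e, 0 ≤ ω e) (h0' : ∀ e, 0 ≤ ω' e)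
    (E : Finset (Sym2 Pt)) (heq : ∀ e, e ∉ E → ω' e = ω e) : IsLab ω' L :=
  ⟨hL.lo.congr hesc h0 h0' E heq, hL.up.congr hesc h0 h0' E heq, hL.falls, hL.rises⟩

theorem excess_antitone (hL : IsLab ω L) (h0 : ∀ e, 0 ≤ ω e) :
    ∃ M, ∀ i j, M ≤ i → i ≤ j → excess ω L j ≤ excess ω L i := by
  obtain ⟨A, hA⟩ := hL.lo.geo
  obtain ⟨B, hB⟩ := hL.up.geo
  refine ⟨max A B, fun i j hi hij => ?_⟩
  have h1 := tt_triangle h0 (L.lo.pt j) (L.lo.pt i) (L.up.pt j)
  have h2 := tt_triangle h0 (L.lo.pt i) (L.up.pt i) (L.up.pt j)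
  have h3 := tt_comm h0 (L.lo.pt j) (L.lo.pt i)
  unfold excess
  linarith [(hA i j (by omega) hij).1, (hB i j (by omega) hij).1]

theorem tendsto_excess (hL : IsLab ω L) (h0 : ∀ e, 0 ≤ ω e) (hb : Bounded ω L) :
    Tendsto (excess ω L) atTop (𝓝 (total ω L)) := by
  obtain ⟨M, hM⟩ := hL.excess_antitone h0
  obtain ⟨c, hc⟩ := hb
  exact (tendsto_limUnder_antitone hM ⟨c, fun i _ => hc ⟨i, rfl⟩⟩).1

theorem total_le (hL : IsLab ω L) (h0 : ∀ e, 0 ≤ ω e) (hb : Bounded ω L) :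
    ∃ M, ∀ i, M ≤ i → total ω L ≤ excess ω L i := by
  obtain ⟨M, hM⟩ := hL.excess_antitone h0
  obtain ⟨c, hc⟩ := hb
  exact ⟨M, (tendsto_limUnder_antitone hM ⟨c, fun i _ => hc ⟨i, rfl⟩⟩).2⟩

theorem total_le_gsum (hL : IsLab ω L) (h0 : ∀ e, 0 ≤ ω e) (hb : Bounded ω L) (p : Pt) :
    total ω L ≤ gsum ω L p :=
  le_of_tendsto_of_tendsto' (hL.tendsto_excess h0 hb)
    ((hL.lo.tendsto_bus h0 p).add (hL.up.tendsto_bus h0 p)) fun n => by
    have h1 := tt_triangle h0 (L.lo.pt n) p (L.up.pt n)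
    have h2 := tt_comm h0 (L.lo.pt n) p
    unfold excess
    linarith

theorem bounded_of_eventually (hL : IsLab ω L) (h0 : ∀ e, 0 ≤ ω e) {c : ℝ}
    (h : ∀ N, ∃ n, N ≤ n ∧ c ≤ excess ω L n) : Bounded ω L := by
  obtain ⟨M, hM⟩ := hL.excess_antitone h0
  obtain ⟨d, hd⟩ := (((Set.finite_Iio M).image (excess ω L)).insert c).bddBelow
  refine ⟨d, ?_⟩
  rintro _ ⟨n, rfl⟩
  rcases lt_or_ge n M with hn | hn
  · exact hd (Set.mem_insert_of_mem _ ⟨n, hn, rfl⟩)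
  · obtain ⟨k, hk, hck⟩ := h n
    exact (hd (Set.mem_insert _ _)).trans (hck.trans (hM n k hn hk))

theorem bounded_congr (h0 : ∀ e, 0 ≤ ω e) (h0' : ∀ e, 0 ≤ ω' e)
    (E : Finset (Sym2 Pt)) (heq : ∀ e, e ∉ E → ω' e = ω e) (hb : Bounded ω L) : Bounded ω' L := by
  obtain ⟨c, hc⟩ := hb
  refine ⟨c - change E ω ω', ?_⟩
  rintro _ ⟨n, rfl⟩
  have h1 := hc ⟨n, rfl⟩
  have h2 := abs_le.1 (tt_le_change h0 h0' E heq (L.lo.pt n) (L.up.pt n))
  unfold excess at h1 ⊢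
  linarith

theorem abs_total_change (hL : IsLab ω L) (hL' : IsLab ω' L) (h0 : ∀ e, 0 ≤ ω e)
    (h0' : ∀ e, 0 ≤ ω' e) (E : Finset (Sym2 Pt)) (heq : ∀ e, e ∉ E → ω' e = ω e)
    (hb : Bounded ω L) : |total ω L - total ω' L| ≤ change E ω ω' :=
  le_of_tendsto' ((hL.tendsto_excess h0 hb).sub
    (hL'.tendsto_excess h0' (bounded_congr h0 h0' E heq hb))).abs fun n => by
    rw [show excess ω L n - excess ω' L n = tt ω (L.lo.pt n) (L.up.pt n) - tt ω' (L.lo.pt n) (L.up.pt n)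
      by unfold excess; ring]
    exact tt_le_change h0 h0' E heq _ _

end IsLab

end Vale.Agent.P158.V4
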