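import Vale.Agent.P158.V4.Ergodic
import Vale.Agent.P158.V4.Rays
import Vale.Agent.P158.V4.CrossRays
import Vale.Agent.P158.V4.Mean

/-!
P158: passage times in strips, their behaviour under symmetries of the lattice, and the averaged
increments towards a window of targets on a far line.
-/

namespace Vale.Agent.P158.V4

open MeasureTheory Filter

theorem wt_reindex (ω : Cfg) (φ : grid →g grid) {u v : Pt} (p : grid.Walk u v) :
    wt (ω ∘ Sym2.map φ) p = wt ω (p.map φ) := by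
  unfold wt
  rw [SimpleGraph.Walk.edges_map, List.map_map]

theorem exists_box_walk (u v : Pt) : ∃ p : grid.Walk u v, p.length = l1 u v ∧
    ∀ z ∈ p.support, min u.1 v.1 ≤ z.1 ∧ z.1 ≤ max u.1 v.1 ∧
      min u.2 v.2 ≤ z.2 ∧ z.2 ≤ max u.2 v.2 := by
  suffices h : ∀ n, ∀ u : Pt, l1 u v = n → ∃ p : grid.Walk u v, p.length = l1 u v ∧
      ∀ z ∈ p.support, min u.1 v.1 ≤ z.1 ∧ z.1 ≤ max u.1 v.1 ∧
        min u.2 v.2 ≤ z.2 ∧ z.2 ≤ max u.2 v.2 from h _ u rfl
  intro n
  induction n with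
  | zero =>
    intro u hu
    obtain rfl : u = v := by
      unfold l1 at hu
      ext <;> omega
    exact ⟨.nil, by simp [l1], fun z hz => by
      simp only [SimpleGraph.Walk.support_nil, List.mem_singleton] at hz
      subst hz
      simp⟩
  | succ n ih =>
    intro u hu
    obtain ⟨u', hadj, hl, hbox⟩ : ∃ u' : Pt, grid.Adj u u' ∧ l1 u' v = n ∧
        (min u.1 v.1 ≤ u'.1 ∧ u'.1 ≤ max u.1 v.1 ∧ min u.2 v.2 ≤ u'.2 ∧ u'.2 ≤ max u.2 v.2) := by
      unfold l1 at hu ⊢
      rcases lt_trichotomy u.1 v.1 with h | h | h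
      · exact ⟨(u.1 + 1, u.2), grid_adj_iff.2 (by simp), by dsimp only; omega, by dsimp only; omega⟩
      · rcases lt_trichotomy u.2 v.2 with h' | h' | h'
        · exact ⟨(u.1, u.2 + 1), grid_adj_iff.2 (by simp), by dsimp only; omega,
            by dsimp only; omega⟩
        · omega
        · exact ⟨(u.1, u.2 - 1), grid_adj_iff.2 (by simp), by dsimp only; omega,
            by dsimp only; omega⟩
      · exact ⟨(u.1 - 1, u.2), grid_adj_iff.2 (by simp), by dsimp only; omega, by dsimp only; omega⟩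
    obtain ⟨p, hp, hs⟩ := ih u' hl
    refine ⟨.cons hadj p, by simp [hp, hl, hu], fun z hz => ?_⟩
    rw [SimpleGraph.Walk.support_cons, List.mem_cons] at hz
    rcases hz with rfl | hz
    · exact ⟨min_le_left _ _, le_max_left _ _, min_le_left _ _, le_max_left _ _⟩
    · have := hs z hz
      omega

theorem mem_upper {h : ℤ} {z : Pt} : z ∈ upper h ↔ h ≤ z.2 := Iff.rfl

theorem mem_lower {h : ℤ} {z : Pt} : z ∈ lower h ↔ z.2 ≤ h := Iff.rfl

theorem mem_strip {h H : ℤ} {z : Pt} : z ∈ strip h H ↔ h ≤ z.2 ∧ z.2 ≤ H := Iff.rfl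

theorem linked_strip (h H : ℤ) : Linked (strip h H) := by
  intro u hu v hv
  obtain ⟨p, -, hp⟩ := exists_box_walk u v
  refine ⟨p, fun z hz => ?_⟩
  have := hp z hz
  rw [mem_strip] at hu hv ⊢
  omega

theorem linked_upper' (h : ℤ) : Linked (upper h) := linked_upper h

theorem ttIn_le_l1 {b : ℝ} {ω : Cfg} (h0 : ∀ e, 0 ≤ ω e) (hb : ∀ e, ω e ≤ b) {S : Set Pt}
    (u v : Pt) (hS : ∀ z : Pt, min u.2 v.2 ≤ z.2 → z.2 ≤ max u.2 v.2 → z ∈ S) :
    ttIn S ω u v ≤ l1 u v * b := by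
  obtain ⟨p, hp, hs⟩ := exists_box_walk u v
  rw [← hp]
  exact (ttS_le h0 p fun z hz => hS z (hs z hz).2.2.1 (hs z hz).2.2.2).trans (wt_le_length hb p)

/-- Passage times in regions are carried by the symmetries of the lattice. -/
theorem ttIn_map {ω : Cfg} (φ ψ : grid →g grid) (h1 : ∀ z, ψ (φ z) = z) (h2 : ∀ z, φ (ψ z) = z)
    (S : Set Pt) (u v : Pt) :
    ttIn (φ ⁻¹' S) (ω ∘ Sym2.map φ) u v = ttIn S ω (φ u) (φ v) := by
  unfold ttIn
  refine congrArg sInf (Set.ext fun x => ?_)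
  simp only [Set.mem_range, Subtype.exists]
  constructor
  · rintro ⟨p, hp, rfl⟩
    refine ⟨p.map φ, fun z hz => ?_, (wt_reindex ω φ p).symm⟩
    rw [SimpleGraph.Walk.support_map, List.mem_map] at hz
    obtain ⟨a, ha, rfl⟩ := hz
    exact hp a ha
  · rintro ⟨q, hq, rfl⟩
    refine ⟨(q.map ψ).copy (h1 u) (h1 v), fun z hz => ?_, ?_⟩
    · rw [SimpleGraph.Walk.support_copy, SimpleGraph.Walk.support_map, List.mem_map] at hz
      obtain ⟨a, ha, rfl⟩ := hz
      rw [Set.mem_preimage, h2]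
      exact hq a ha
    · rw [wt_reindex]
      unfold wt
      simp only [SimpleGraph.Walk.edges_map, SimpleGraph.Walk.edges_copy, List.map_map]
      refine congrArg List.sum (List.map_congr_left fun e _ => ?_)
      simp only [Function.comp_apply, Sym2.map_map]
      congr 1
      induction e using Sym2.ind with
      | _ x y => simp [h2]

theorem measurable_ttIn (S : Set Pt) (u v : Pt) : Measurable fun ω : Cfg => ttIn S ω u v :=
  Measurable.iInf fun p => measurable_wt p.1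

theorem ttIn_strip_shift (ω : Cfg) (a : Pt) (h H : ℤ) (u v : Pt) :
    ttIn (strip h H) (ω ∘ eShift a) u v = ttIn (strip (h + a.2) (H + a.2)) ω (u + a) (v + a) := by
  have hset : (shift a) ⁻¹' strip (h + a.2) (H + a.2) = strip h H := by
    ext z
    show (h + a.2 ≤ (z + a).2 ∧ (z + a).2 ≤ H + a.2) ↔ _
    rw [mem_strip, Prod.snd_add]
    omega
  rw [← hset]
  exact ttIn_map (shift a) (shift (-a)) (fun z => by show z + a + -a = z; simp)
    (fun z => by show z + -a + a = z; simp) _ u v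

variable (k2 k3 : ℝ)

/-- The left end of the window at scale `L`. -/
noncomputable def winL (L : ℕ) : ℤ := ⌈k2 * L⌉

/-- The number of targets of the window at scale `L`. -/
noncomputable def winN (L : ℕ) : ℕ := (⌈k3 * L⌉ - ⌈k2 * L⌉).toNat

/-- The decrease of a strip time over a step to the right from `u`, averaged over the targets. -/
noncomputable def inc (L : ℕ) (ω : Cfg) (u : Pt) : ℝ :=
  (∑ i ∈ Finset.range (winN k2 k3 L),
    (ttIn (strip u.2 (u.2 + L)) ω u (u.1 + winL k2 L + i + 1, u.2 + L) -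
      ttIn (strip u.2 (u.2 + L)) ω (u.1 + 1, u.2) (u.1 + winL k2 L + i + 1, u.2 + L))) /
    winN k2 k3 L

variable (b : ℝ)

/-- The truncation of `inc` at the largest weight. -/
noncomputable def cinc (L : ℕ) (ω : Cfg) (u : Pt) : ℝ := max (-b) (min b (inc k2 k3 L ω u))

/-- The lower limit of the truncated increments. -/
noncomputable def low (ω : Cfg) (u : Pt) : ℝ := ⨆ k : ℕ, ⨅ j : ℕ, cinc k2 k3 b (k + j) ω u

variable {k2 k3 b}

theorem inc_shift (L : ℕ) (ω : Cfg) (u a : Pt) :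
    inc k2 k3 L (ω ∘ eShift a) u = inc k2 k3 L ω (u + a) := by
  unfold inc
  simp only [ttIn_strip_shift]
  congr 1
  refine Finset.sum_congr rfl fun i _ => ?_
  have e1 : u.2 + (L : ℤ) + a.2 = (u + a).2 + L := by rw [Prod.snd_add]; ring
  have e2 : ((u.1 + winL k2 L + i + 1, u.2 + (L : ℤ)) : Pt) + a =
      ((u + a).1 + winL k2 L + i + 1, (u + a).2 + L) := by ext <;> simp <;> ring
  have e3 : ((u.1 + 1, u.2) : Pt) + a = ((u + a).1 + 1, (u + a).2) := by ext <;> simp <;> ring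
  rw [e1, e2, e3, show u.2 + a.2 = (u + a).2 from rfl]

theorem low_shift (ω : Cfg) (u a : Pt) : low k2 k3 b (ω ∘ eShift a) u = low k2 k3 b ω (u + a) := by
  simp only [low, cinc, inc_shift]

theorem abs_cinc_le (hb : 0 ≤ b) (L : ℕ) (ω : Cfg) (u : Pt) : |cinc k2 k3 b L ω u| ≤ b :=
  abs_le.2 ⟨le_max_left _ _, max_le (by linarith) (min_le_left _ _)⟩

theorem bddBelow_cinc (L : ℕ) (ω : Cfg) (u : Pt) :
    BddBelow (Set.range fun j : ℕ => cinc k2 k3 b (L + j) ω u) :=
  ⟨-b, by rintro _ ⟨j, rfl⟩; exact le_max_left _ _⟩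

theorem bddAbove_inf_cinc (hb : 0 ≤ b) (ω : Cfg) (u : Pt) :
    BddAbove (Set.range fun k : ℕ => ⨅ j : ℕ, cinc k2 k3 b (k + j) ω u) := by
  refine ⟨b, ?_⟩
  rintro _ ⟨k, rfl⟩
  exact (ciInf_le (bddBelow_cinc k ω u) 0).trans (le_of_abs_le (abs_cinc_le hb _ ω u))

theorem abs_low_le (hb : 0 ≤ b) (ω : Cfg) (u : Pt) : |low k2 k3 b ω u| ≤ b := by
  refine abs_le.2 ⟨?_, ?_⟩
  · exact (le_ciInf fun j => neg_le_of_abs_le (abs_cinc_le hb _ ω u)).trans
      (le_ciSup (bddAbove_inf_cinc hb ω u) 0)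
  · exact ciSup_le fun k => (ciInf_le (bddBelow_cinc k ω u) 0).trans
      (le_of_abs_le (abs_cinc_le hb _ ω u))

theorem measurable_inc (L : ℕ) (u : Pt) : Measurable fun ω : Cfg => inc k2 k3 L ω u :=
  (Finset.measurable_sum _ fun _ _ => (measurable_ttIn _ _ _).sub (measurable_ttIn _ _ _)).div_const _

theorem measurable_cinc (L : ℕ) (u : Pt) : Measurable fun ω : Cfg => cinc k2 k3 b L ω u :=
  measurable_const.max (measurable_const.min (measurable_inc L u))

theorem measurable_low (u : Pt) : Measurable fun ω : Cfg => low k2 k3 b ω u :=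
  Measurable.iSup fun _ => Measurable.iInf fun _ => measurable_cinc _ u

theorem inc_abs_le {ω : Cfg} (h0 : ∀ e, 0 ≤ ω e) (hb : ∀ e, ω e ≤ b) (hb0 : 0 ≤ b) (L : ℕ) (u : Pt) :
    |inc k2 k3 L ω u| ≤ b := by
  unfold inc
  rw [abs_div, Nat.abs_cast]
  rcases Nat.eq_zero_or_pos (winN k2 k3 L) with h | h
  · simp [h, hb0]
  rw [div_le_iff₀ (by exact_mod_cast h)]
  refine (Finset.abs_sum_le_sum_abs _ _).trans
    ((Finset.sum_le_card_nsmul _ _ b fun i _ => ?_).trans_eq (by simp [mul_comm]))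
  set S := strip u.2 (u.2 + L)
  have hu : u ∈ S := by rw [mem_strip]; omega
  have hy : ((u.1 + 1, u.2) : Pt) ∈ S := by rw [mem_strip]; dsimp only; omega
  have ht : ((u.1 + winL k2 L + i + 1, u.2 + (L : ℤ)) : Pt) ∈ S := by
    rw [mem_strip]; dsimp only; omega
  have h1 := ttS_triangle h0 (linked_strip _ _) hu hy ht (ω := ω)
  have h2 := ttS_triangle h0 (linked_strip _ _) hy hu ht (ω := ω)
  have h3 : ttIn S ω u (u.1 + 1, u.2) ≤ b := by
    refine (ttIn_le_l1 h0 hb u _ fun z hz hz' => ?_).trans_eq (by simp [l1])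
    rw [mem_strip]
    dsimp only at hz hz'
    omega
  have h4 : ttIn S ω (u.1 + 1, u.2) u ≤ b := by
    refine (ttIn_le_l1 h0 hb _ u fun z hz hz' => ?_).trans_eq (by simp [l1])
    rw [mem_strip]
    dsimp only at hz hz'
    omega
  simp only [ttIn_eq] at *
  exact abs_sub_le_iff.2 ⟨by linarith, by linarith⟩

theorem cinc_eq {ω : Cfg} (h0 : ∀ e, 0 ≤ ω e) (hb : ∀ e, ω e ≤ b) (hb0 : 0 ≤ b) (L : ℕ) (u : Pt) :
    cinc k2 k3 b L ω u = inc k2 k3 L ω u := by
  have h := abs_le.1 (inc_abs_le (k2 := k2) (k3 := k3) h0 hb hb0 L u)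
  rw [cinc, min_eq_right h.2, max_eq_right h.1]

end Vale.Agent.P158.V4
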