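import Vale.Agent.P158.Geometry

/-!
P158: elementary facts on first-passage times on the square lattice.
-/

namespace Vale.Agent.P158.V4

open MeasureTheory

/-- The weight of a walk. -/
def wt (ω : Sym2 (ℤ × ℤ) → ℝ) {u v : ℤ × ℤ} (p : grid.Walk u v) : ℝ := (p.edges.map ω).sum

/-- The passage time. -/
noncomputable def tt (ω : Sym2 (ℤ × ℤ) → ℝ) (u v : ℤ × ℤ) : ℝ := ⨅ p : grid.Walk u v, wt ω p

instance (u v : ℤ × ℤ) : Countable (grid.Walk u v) :=
  Function.Injective.countable (f := fun p => p.support) fun _ _ h => SimpleGraph.Walk.ext_support h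

/-- A step to the right or upwards. -/
theorem exists_line (a : ℤ × ℤ) (ha : |a.1| + |a.2| = 1) (u : ℤ × ℤ) :
    ∀ n : ℕ, ∃ p : grid.Walk u (u.1 + n * a.1, u.2 + n * a.2), p.length = n := by
  intro n
  induction n with
  | zero => exact ⟨(SimpleGraph.Walk.nil).copy rfl (by simp), by simp⟩
  | succ n ih =>
    obtain ⟨p, hp⟩ := ih
    have hadj : grid.Adj (u.1 + n * a.1, u.2 + n * a.2)
        (u.1 + (n + 1 : ℕ) * a.1, u.2 + (n + 1 : ℕ) * a.2) := by
      rw [grid_adj_iff]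
      dsimp only
      push_cast
      rw [show u.1 + n * a.1 - (u.1 + (n + 1) * a.1) = -a.1 by ring,
        show u.2 + n * a.2 - (u.2 + (n + 1) * a.2) = -a.2 by ring, abs_neg, abs_neg, ha]
    exact ⟨p.concat hadj, by simp [hp]⟩

/-- The lattice distance. -/
def l1 (u v : ℤ × ℤ) : ℕ := (u.1 - v.1).natAbs + (u.2 - v.2).natAbs

theorem exists_short (u v : ℤ × ℤ) : ∃ p : grid.Walk u v, p.length = l1 u v := by
  have hx : ∀ (u : ℤ × ℤ) (x : ℤ), ∃ p : grid.Walk u (x, u.2), p.length = (u.1 - x).natAbs := by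
    intro u x
    rcases le_total u.1 x with h | h
    · obtain ⟨p, hp⟩ := exists_line (1, 0) (by simp) u (u.1 - x).natAbs
      have : (u.1 + ((u.1 - x).natAbs : ℤ) * 1, u.2 + ((u.1 - x).natAbs : ℤ) * 0) = (x, u.2) := by
        simp only [Prod.mk.injEq]; omega
      exact ⟨p.copy rfl this, by simp [hp]⟩
    · obtain ⟨p, hp⟩ := exists_line (-1, 0) (by simp) u (u.1 - x).natAbs
      have : (u.1 + ((u.1 - x).natAbs : ℤ) * (-1), u.2 + ((u.1 - x).natAbs : ℤ) * 0) = (x, u.2) := by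
        simp only [Prod.mk.injEq]; omega
      exact ⟨p.copy rfl this, by simp [hp]⟩
  have hy : ∀ (u : ℤ × ℤ) (y : ℤ), ∃ p : grid.Walk u (u.1, y), p.length = (u.2 - y).natAbs := by
    intro u y
    rcases le_total u.2 y with h | h
    · obtain ⟨p, hp⟩ := exists_line (0, 1) (by simp) u (u.2 - y).natAbs
      have : (u.1 + ((u.2 - y).natAbs : ℤ) * 0, u.2 + ((u.2 - y).natAbs : ℤ) * 1) = (u.1, y) := by
        simp only [Prod.mk.injEq]; omega
      exact ⟨p.copy rfl this, by simp [hp]⟩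
    · obtain ⟨p, hp⟩ := exists_line (0, -1) (by simp) u (u.2 - y).natAbs
      have : (u.1 + ((u.2 - y).natAbs : ℤ) * 0, u.2 + ((u.2 - y).natAbs : ℤ) * (-1)) = (u.1, y) := by
        simp only [Prod.mk.injEq]; omega
      exact ⟨p.copy rfl this, by simp [hp]⟩
  obtain ⟨p, hp⟩ := hx u v.1
  obtain ⟨q, hq⟩ := hy (v.1, u.2) v.2
  exact ⟨p.append q, by simp [hp, hq, l1]⟩

instance (u v : ℤ × ℤ) : Nonempty (grid.Walk u v) := ⟨(exists_short u v).choose⟩

variable {ω : Sym2 (ℤ × ℤ) → ℝ} {u v w : ℤ × ℤ}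

theorem wt_nonneg (hω : ∀ e, 0 ≤ ω e) (p : grid.Walk u v) : 0 ≤ wt ω p :=
  List.sum_nonneg fun x hx => by
    obtain ⟨e, _, rfl⟩ := List.mem_map.1 hx
    exact hω e

theorem bddBelow_wt (hω : ∀ e, 0 ≤ ω e) : BddBelow (Set.range fun p : grid.Walk u v => wt ω p) :=
  ⟨0, by rintro _ ⟨p, rfl⟩; exact wt_nonneg hω p⟩

theorem tt_le (hω : ∀ e, 0 ≤ ω e) (p : grid.Walk u v) : tt ω u v ≤ wt ω p :=
  ciInf_le (bddBelow_wt hω) p

theorem le_tt {c : ℝ} (h : ∀ p : grid.Walk u v, c ≤ wt ω p) : c ≤ tt ω u v := le_ciInf h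

theorem tt_nonneg (hω : ∀ e, 0 ≤ ω e) : 0 ≤ tt ω u v := le_tt fun p => wt_nonneg hω p

theorem wt_append (p : grid.Walk u v) (q : grid.Walk v w) : wt ω (p.append q) = wt ω p + wt ω q := by
  simp [wt]

theorem wt_reverse (p : grid.Walk u v) : wt ω p.reverse = wt ω p := by
  simp [wt, List.sum_reverse]

theorem tt_comm (hω : ∀ e, 0 ≤ ω e) (u v : ℤ × ℤ) : tt ω u v = tt ω v u :=
  le_antisymm (le_tt fun p => (tt_le hω p.reverse).trans_eq (wt_reverse p))
    (le_tt fun p => (tt_le hω p.reverse).trans_eq (wt_reverse p))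

theorem tt_triangle (hω : ∀ e, 0 ≤ ω e) (u v w : ℤ × ℤ) : tt ω u w ≤ tt ω u v + tt ω v w := by
  rw [← sub_le_iff_le_add]
  refine le_tt fun p => ?_
  rw [sub_le_iff_le_add, ← sub_le_iff_le_add']
  refine le_tt fun q => ?_
  rw [sub_le_iff_le_add']
  exact (tt_le hω (p.append q)).trans_eq (wt_append p q)

theorem wt_le_length {b : ℝ} (hω : ∀ e, ω e ≤ b) (p : grid.Walk u v) : wt ω p ≤ p.length * b := by
  refine (List.sum_le_card_nsmul _ b fun x hx => ?_).trans_eq ?_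
  · obtain ⟨e, _, rfl⟩ := List.mem_map.1 hx
    exact hω e
  · simp [wt]

theorem tt_le_l1 {b : ℝ} (h0 : ∀ e, 0 ≤ ω e) (hb : ∀ e, ω e ≤ b) (u v : ℤ × ℤ) :
    tt ω u v ≤ l1 u v * b := by
  obtain ⟨p, hp⟩ := exists_short u v
  exact (tt_le h0 p).trans ((wt_le_length hb p).trans_eq (by rw [hp]))

theorem abs_tt_sub_le {b : ℝ} (h0 : ∀ e, 0 ≤ ω e) (hb : ∀ e, ω e ≤ b) (u v v' : ℤ × ℤ) :
    |tt ω u v - tt ω u v'| ≤ l1 v v' * b := by
  have := tt_triangle h0 u v v'
  have := tt_triangle h0 u v' v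
  have := tt_le_l1 h0 hb v v'
  rw [tt_comm h0 v' v] at *
  rw [abs_sub_le_iff]
  constructor <;> linarith

theorem wt_bypass_le (hω : ∀ e, 0 ≤ ω e) (p : grid.Walk u v) : wt ω p.bypass ≤ wt ω p := by
  have h : p.bypass.edges.Subperm p.edges :=
    List.subperm_of_subset p.bypass_isPath.isTrail.edges_nodup (SimpleGraph.Walk.edges_bypass_subset p)
  obtain ⟨l, hl, hs⟩ := h
  refine ((List.Perm.map ω hl).sum_eq.symm).le.trans (List.Sublist.sum_le_sum (hs.map ω) ?_)
  intro x hx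
  obtain ⟨e, _, rfl⟩ := List.mem_map.1 hx
  exact hω e

theorem measurable_wt (p : grid.Walk u v) :
    Measurable fun ω : Sym2 (ℤ × ℤ) → ℝ => wt ω p := by
  have : ∀ l : List (Sym2 (ℤ × ℤ)), Measurable fun ω : Sym2 (ℤ × ℤ) → ℝ => (l.map ω).sum := by
    intro l
    induction l with
    | nil => simp
    | cons e l ih =>
      simp only [List.map_cons, List.sum_cons]
      exact (measurable_pi_apply e).add ih
  exact this _

theorem measurable_tt (u v : ℤ × ℤ) : Measurable fun ω : Sym2 (ℤ × ℤ) → ℝ => tt ω u v :=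
  Measurable.iInf fun p => measurable_wt p

/-- Translation of the lattice. -/
def shift (a : ℤ × ℤ) : grid →g grid where
  toFun z := z + a
  map_rel' {x y} h := by
    rw [grid_adj_iff] at h ⊢
    simpa using h

theorem tt_shift_le (hω : ∀ e, 0 ≤ ω e) (a u v : ℤ × ℤ) :
    tt ω (u + a) (v + a) ≤ tt (ω ∘ Sym2.map (· + a)) u v := by
  refine le_tt fun p => (tt_le hω (p.map (shift a))).trans_eq ?_
  unfold wt
  rw [SimpleGraph.Walk.edges_map, List.map_map]
  rfl

theorem tt_shift (hω : ∀ e, 0 ≤ ω e) (a u v : ℤ × ℤ) :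
    tt (ω ∘ Sym2.map (· + a)) u v = tt ω (u + a) (v + a) := by
  refine le_antisymm ?_ (tt_shift_le hω a u v)
  have h := tt_shift_le (ω := ω ∘ Sym2.map (· + a)) (fun e => hω _) (-a) (u + a) (v + a)
  simp only [add_neg_cancel_right] at h
  have he : (ω ∘ Sym2.map (· + a)) ∘ Sym2.map (· + -a) = ω := by
    funext e
    simp only [Function.comp_apply, Sym2.map_map]
    congr 1
    induction e using Sym2.ind with
    | _ x y => simp
  rwa [he] at h

end Vale.Agent.P158.V4
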