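import Vale.Agent.P158.Blocks
import Vale.Agent.P158.V4.Passage

/-!
P158: long self-avoiding paths from a site are never cheap (Peierls counting with exponential moments).
-/

namespace Vale.Agent.P158.V4

open MeasureTheory Filter Topology

/-- The four steps. -/
def step : Fin 4 → ℤ × ℤ := ![(1, 0), (-1, 0), (0, 1), (0, -1)]

/-- The edge labels of the path with given steps. -/
def trail : List (Fin 4) → ℤ × ℤ → List (Sym2 (ℤ × ℤ))
  | [], _ => []
  | d :: ds, u => s(u, u + step d) :: trail ds (u + step d)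

theorem length_trail : ∀ (ds : List (Fin 4)) (u : ℤ × ℤ), (trail ds u).length = ds.length
  | [], _ => rfl
  | d :: ds, u => by simp [trail, length_trail ds]

theorem exists_step {u v : ℤ × ℤ} (h : grid.Adj u v) : ∃ d, v = u + step d := by
  rw [grid_adj_iff] at h
  obtain ⟨a, b⟩ := u
  obtain ⟨c, e⟩ := v
  simp only [abs_eq_max_neg] at h
  rcases (by omega : (c = a + 1 ∧ e = b) ∨ (c = a - 1 ∧ e = b) ∨ (c = a ∧ e = b + 1) ∨ (c = a ∧ e = b - 1))
    with ⟨rfl, rfl⟩ | ⟨rfl, rfl⟩ | ⟨rfl, rfl⟩ | ⟨rfl, rfl⟩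
  · exact ⟨0, by simp [step]⟩
  · exact ⟨1, by simp [step, sub_eq_add_neg]⟩
  · exact ⟨2, by simp [step]⟩
  · exact ⟨3, by simp [step, sub_eq_add_neg]⟩

theorem walk_trail {u v : ℤ × ℤ} (p : grid.Walk u v) :
    ∃ ds : List (Fin 4), ds.length = p.length ∧ trail ds u = p.edges := by
  induction p with
  | nil => exact ⟨[], rfl, rfl⟩
  | cons h p ih =>
    obtain ⟨ds, h1, h2⟩ := ih
    obtain ⟨d, rfl⟩ := exists_step h
    exact ⟨d :: ds, by simp [h1], by simp [trail, h2]⟩

variable (G : Measure ℝ) [IsProbabilityMeasure G]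

/-- The law of the weights. -/
noncomputable abbrev law : Measure (Sym2 (ℤ × ℤ) → ℝ) := Measure.infinitePi fun _ : Sym2 (ℤ × ℤ) => G

theorem law_all {p : ℝ → Prop} (hp : MeasurableSet {t | p t}) (h : ∀ᵐ t ∂G, p t) :
    ∀ᵐ ω ∂law G, ∀ e, p (ω e) :=
  ae_all_iff.2 fun e => by
    have hm : (law G).map (fun ω => ω e) = G := Measure.infinitePi_map_eval _ e
    rw [← hm] at h
    exact (ae_map_iff (measurable_pi_apply e).aemeasurable hp).1 h

theorem prob_cheap (hG : ∀ᵐ t ∂G, 0 ≤ t) {s : ℝ} (hs : 0 ≤ s) (c : ℝ) (l : List (Sym2 (ℤ × ℤ)))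
    (hl : l.Nodup) :
    (law G).real {ω | (l.map ω).sum ≤ c * l.length} ≤
      (Real.exp (s * c) * ∫ t, Real.exp (-(s * t)) ∂G) ^ l.length := by
  set e : Fin l.length → Sym2 (ℤ × ℤ) := fun i => l[i] with he
  have einj : Function.Injective e := fun i j h => Fin.ext (hl.getElem_inj_iff.1 h)
  have hsum : ∀ ω : Sym2 (ℤ × ℤ) → ℝ, (l.map ω).sum = ∑ i, ω (e i) := fun ω => by
    rw [← List.sum_ofFn]
    congr 1
    exact List.ext_getElem (by simp) fun i _ _ => by simp [he]
  have hmap : (law G).map (fun ω => ω ∘ e) = Measure.pi (fun _ : Fin l.length => G) := by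
    rw [law, map_comp_injective G e einj, Measure.infinitePi_eq_pi]
  have hpre : {ω : Sym2 (ℤ × ℤ) → ℝ | (l.map ω).sum ≤ c * l.length} =
      (fun ω => ω ∘ e) ⁻¹' {x : Fin l.length → ℝ | ∑ i, x i ≤ c * l.length} := by
    ext ω; simp [hsum]
  rw [hpre, ← map_measureReal_apply (by fun_prop) (measurableSet_le (by fun_prop) (by fun_prop)), hmap]
  set P := Measure.pi (fun _ : Fin l.length => G)
  have hint : Integrable (fun x : Fin l.length → ℝ => ∏ i, Real.exp (-(s * x i))) P :=
    Integrable.fintype_prod (μ := fun _ => G) (f := fun _ t => Real.exp (-(s * t))) fun _ =>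
      Integrable.of_bound (μ := G) (f := fun t => Real.exp (-(s * t))) (by fun_prop) 1 (by
      filter_upwards [hG] with t ht
      rw [Real.norm_eq_abs, Real.abs_exp, Real.exp_le_one_iff]
      nlinarith)
  have hdom : ∀ x : Fin l.length → ℝ,
      {y : Fin l.length → ℝ | ∑ i, y i ≤ c * l.length}.indicator (fun _ => (1 : ℝ)) x ≤
        Real.exp (s * c) ^ l.length * ∏ i, Real.exp (-(s * x i)) := by
    intro x
    rw [Set.indicator_apply]
    split_ifs with h
    · rw [← Real.exp_nat_mul, ← Real.exp_sum, ← Real.exp_add, Real.one_le_exp_iff, Finset.sum_neg_distrib,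
        ← Finset.mul_sum]
      simp only [Set.mem_ofPred_eq] at h
      nlinarith [mul_le_mul_of_nonneg_left h hs]
    · positivity
  have hmeas : MeasurableSet {y : Fin l.length → ℝ | ∑ i, y i ≤ c * l.length} :=
    measurableSet_le (by fun_prop) (by fun_prop)
  have := integral_mono ((integrable_const (1 : ℝ)).indicator hmeas) (hint.const_mul _) hdom
  have hp : ∫ x, ∏ i, Real.exp (-(s * x i)) ∂P = (∫ t, Real.exp (-(s * t)) ∂G) ^ l.length :=
    (integral_fintype_prod_eq_prod (fun _ : Fin l.length => fun t : ℝ => Real.exp (-(s * t)))).trans (by simp)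
  rw [integral_indicator hmeas, setIntegral_const, smul_eq_mul, mul_one, integral_const_mul, hp,
    ← mul_pow] at this
  exact this

/-- Some self-avoiding path of length at least `n` from `u` has weight at most `c` times its length. -/
def Cheap (u : ℤ × ℤ) (n : ℕ) (c : ℝ) : Set (Sym2 (ℤ × ℤ) → ℝ) :=
  ⋃ k : ℕ, ⋃ f : Fin (n + k) → Fin 4, {ω | (trail (List.ofFn f) u).Nodup ∧
    ((trail (List.ofFn f) u).map ω).sum ≤ c * (n + k : ℕ)}

theorem not_cheap {u v : ℤ × ℤ} {n : ℕ} {c : ℝ} {ω : Sym2 (ℤ × ℤ) → ℝ} (hω : ω ∉ Cheap u n c)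
    (p : grid.Walk u v) (hp : p.IsPath) (hn : n ≤ p.length) : c * p.length < wt ω p := by
  by_contra h
  push Not at h
  obtain ⟨ds, h1, h2⟩ := walk_trail p
  obtain ⟨k, hk⟩ := Nat.exists_eq_add_of_le hn
  refine hω (Set.mem_iUnion.2 ⟨k, Set.mem_iUnion.2 ⟨fun i => ds[i.val]'(by omega), ?_⟩⟩)
  have e : List.ofFn (fun i : Fin (n + k) => ds[i.val]'(by omega)) = ds :=
    List.ext_getElem (by simp [h1, hk]) (fun i _ _ => by simp)
  simp only [Set.mem_ofPred_eq]
  rw [e, h2, ← hk]
  exact ⟨hp.isTrail.edges_nodup, h⟩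

theorem tendsto_laplace (hG : ∀ᵐ t ∂G, 0 < t) :
    Tendsto (fun k : ℕ => ∫ t, Real.exp (-((k : ℝ) * t)) ∂G) atTop (𝓝 0) := by
  have h := tendsto_integral_of_dominated_convergence (μ := G) (F := fun (k : ℕ) t => Real.exp (-((k : ℝ) * t)))
    (f := fun _ => (0 : ℝ)) (fun _ => 1) (fun k => by fun_prop) (integrable_const 1)
    (fun k => by
      filter_upwards [hG] with t ht
      rw [Real.norm_eq_abs, Real.abs_exp, Real.exp_le_one_iff]
      nlinarith [(Nat.cast_nonneg k : (0 : ℝ) ≤ k)])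
    (by
      filter_upwards [hG] with t ht
      exact Real.tendsto_exp_neg_atTop_nhds_zero.comp (tendsto_natCast_atTop_atTop.atTop_mul_const ht))
  simpa using h

/-- For a law without mass at zero, long cheap paths have exponentially small probability. -/
theorem exists_cheap_rate (hG : ∀ᵐ t ∂G, 0 < t) :
    ∃ c > 0, ∀ u n, law G (Cheap u n c) ≤ ENNReal.ofReal (2 * (1 / 4) ^ n) := by
  obtain ⟨k, hk, hk1⟩ := (((tendsto_laplace G hG).eventually (gt_mem_nhds (by norm_num : (0 : ℝ) < 1 / 32))).and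
    (eventually_ge_atTop 1)).exists
  have hk0 : (0 : ℝ) < k := by exact_mod_cast hk1
  refine ⟨Real.log 2 / k, div_pos (Real.log_pos one_lt_two) hk0, fun u n => ?_⟩
  refine (measure_iUnion_le _).trans ?_
  have hterm : ∀ j : ℕ, law G (⋃ f : Fin (n + j) → Fin 4, {ω | (trail (List.ofFn f) u).Nodup ∧
      ((trail (List.ofFn f) u).map ω).sum ≤ Real.log 2 / k * (n + j : ℕ)}) ≤
      ENNReal.ofReal ((1 / 4) ^ n * (1 / 4) ^ j) := by
    intro j
    refine (measure_iUnion_le _).trans ?_
    rw [tsum_fintype]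
    refine (Finset.sum_le_sum (g := fun _ => ENNReal.ofReal ((1 / 16) ^ (n + j))) fun f _ => ?_).trans ?_
    · by_cases hf : (trail (List.ofFn f) u).Nodup
      · simp only [hf, true_and]
        rw [← ofReal_measureReal]
        refine ENNReal.ofReal_le_ofReal ?_
        have := prob_cheap G (hG.mono fun t ht => ht.le) hk0.le (Real.log 2 / k) _ hf
        rw [length_trail, List.length_ofFn, mul_div_cancel₀ _ hk0.ne', Real.exp_log two_pos] at this
        refine this.trans (pow_le_pow_left₀ (mul_nonneg two_pos.le (integral_nonneg fun t => (Real.exp_pos _).le)) ?_ _)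
        linarith
      · simp [hf]
    · rw [Finset.sum_const, Finset.card_univ, Fintype.card_fun, Fintype.card_fin, Fintype.card_fin,
        nsmul_eq_mul, Nat.cast_pow, ← pow_add, ← ENNReal.ofReal_natCast, ← ENNReal.ofReal_pow (Nat.cast_nonneg _),
        ← ENNReal.ofReal_mul (by positivity), ← mul_pow]
      refine ENNReal.ofReal_le_ofReal (le_of_eq ?_)
      norm_num
  refine (ENNReal.tsum_le_tsum hterm).trans ?_
  rw [← ENNReal.ofReal_tsum_of_nonneg (fun j => by positivity)
    ((summable_geometric_of_lt_one (by norm_num) (by norm_num)).mul_left _), tsum_mul_left,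
    tsum_geometric_of_lt_one (by norm_num) (by norm_num)]
  refine ENNReal.ofReal_le_ofReal ?_
  nlinarith [pow_pos (by norm_num : (0 : ℝ) < 1 / 4) n]

end Vale.Agent.P158.V4
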