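import Vale.Agent.P158.V4.Conc

/-!
P158: the horizontal time constant is positive and is an almost sure eventual lower bound, at every site,
for passage times along the axis.
-/

namespace Vale.Agent.P158.V4

open MeasureTheory Filter

variable (G : Measure ℝ) [IsProbabilityMeasure G]

/-- The horizontal time constant. -/
noncomputable def mu1 : ℝ :=
  ⨅ n : ℕ, (∫ ω, tt ω (0, 0) ((n : ℤ) + 1, 0) ∂law G) / ((n : ℝ) + 1)

theorem l1_le_length {u v : ℤ × ℤ} (p : grid.Walk u v) : l1 u v ≤ p.length := by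
  induction p with
  | nil => simp [l1]
  | cons h p ih =>
    rw [grid_adj_iff] at h
    simp only [abs_eq_max_neg] at h
    simp only [l1, SimpleGraph.Walk.length_cons] at *
    omega

variable {b : ℝ}

theorem good_ae (hG : ∀ᵐ t ∂G, 0 < t ∧ t ≤ b) : ∀ᵐ ω ∂law G, ∀ e, 0 < ω e ∧ ω e ≤ b :=
  law_all G (measurableSet_Ioi.inter measurableSet_Iic) hG

theorem tt_integrable (hG : ∀ᵐ t ∂G, 0 < t ∧ t ≤ b) (u v : ℤ × ℤ) :
    Integrable (fun ω => tt ω u v) (law G) := by
  refine Integrable.of_bound (measurable_tt u v).aestronglyMeasurable (l1 u v * b) ?_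
  filter_upwards [good_ae G hG] with ω hω
  rw [Real.norm_eq_abs, abs_of_nonneg (tt_nonneg fun e => (hω e).1.le)]
  exact tt_le_l1 (fun e => (hω e).1.le) (fun e => (hω e).2) u v

theorem mean_shift (hG : ∀ᵐ t ∂G, 0 < t ∧ t ≤ b) (a u v : ℤ × ℤ) :
    ∫ ω, tt ω (u + a) (v + a) ∂law G = ∫ ω, tt ω u v ∂law G := by
  have hinj : Function.Injective (Sym2.map (· + a)) := Sym2.map.injective (add_left_injective a)
  have hm : Measurable fun ω : Sym2 (ℤ × ℤ) → ℝ => ω ∘ Sym2.map (· + a) :=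
    measurable_pi_iff.2 fun e => measurable_pi_apply _
  have hmap : (law G).map (fun ω => ω ∘ Sym2.map (· + a)) = law G := map_comp_injective G _ hinj
  conv_rhs => rw [← hmap]
  rw [integral_map hm.aemeasurable (measurable_tt u v).aestronglyMeasurable]
  refine integral_congr_ae ?_
  filter_upwards [good_ae G hG] with ω hω
  rw [tt_shift (fun e => (hω e).1.le)]

theorem bddBelow_mu1 (hG : ∀ᵐ t ∂G, 0 < t ∧ t ≤ b) :
    BddBelow (Set.range fun n : ℕ => (∫ ω, tt ω (0, 0) ((n : ℤ) + 1, 0) ∂law G) / ((n : ℝ) + 1)) := by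
  refine ⟨0, ?_⟩
  rintro _ ⟨n, rfl⟩
  refine div_nonneg (integral_nonneg_of_ae ?_) (by positivity)
  filter_upwards [good_ae G hG] with ω hω
  exact tt_nonneg fun e => (hω e).1.le

theorem mu1_mul_le (hG : ∀ᵐ t ∂G, 0 < t ∧ t ≤ b) (u : ℤ × ℤ) (n : ℤ) :
    mu1 G * (n.natAbs : ℝ) ≤ ∫ ω, tt ω u (u.1 + n, u.2) ∂law G := by
  have base : ∀ (w : ℤ × ℤ) (m : ℕ), mu1 G * m ≤ ∫ ω, tt ω w (w.1 + m, w.2) ∂law G := by
    intro w m
    rcases m with - | m
    · simp only [Nat.cast_zero, mul_zero]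
      refine integral_nonneg_of_ae ?_
      filter_upwards [good_ae G hG] with ω hω
      exact tt_nonneg fun e => (hω e).1.le
    · have h : mu1 G ≤ (∫ ω, tt ω (0, 0) ((m : ℤ) + 1, 0) ∂law G) / ((m : ℝ) + 1) :=
        ciInf_le (bddBelow_mu1 G hG) m
      rw [le_div_iff₀ (by positivity)] at h
      have hs := mean_shift G hG w ((0 : ℤ), (0 : ℤ)) ((m : ℤ) + 1, 0)
      rw [show ((0 : ℤ), (0 : ℤ)) + w = w by simp,
        show (((m : ℤ) + 1, (0 : ℤ)) + w) = (w.1 + ((m + 1 : ℕ) : ℤ), w.2) by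
          ext <;> simp; ring] at hs
      rw [hs]
      push_cast
      exact h
  rcases Int.natAbs_eq n with h | h
  · rw [h, Int.natAbs_natCast]
    exact base u _
  · rw [h, Int.natAbs_neg, Int.natAbs_natCast]
    refine (base (u.1 + -(n.natAbs : ℤ), u.2) n.natAbs).trans_eq ?_
    simp only [neg_add_cancel_right]
    refine integral_congr_ae ?_
    filter_upwards [good_ae G hG] with ω hω
    exact tt_comm (fun e => (hω e).1.le) _ _

theorem mu1_pos (hG : ∀ᵐ t ∂G, 0 < t ∧ t ≤ b) : 0 < mu1 G := by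
  obtain ⟨c, hc, hrate⟩ := exists_cheap_rate G (hG.mono fun t ht => ht.1)
  refine lt_of_lt_of_le (half_pos hc) (le_ciInf fun n => ?_)
  rw [le_div_iff₀ (by positivity)]
  set C := Cheap (0, 0) (n + 1) c with hC
  have hCm : MeasurableSet C := by
    rw [hC]
    refine MeasurableSet.iUnion fun k => MeasurableSet.iUnion fun f => ?_
    refine MeasurableSet.inter (MeasurableSet.const _) ?_
    change MeasurableSet {ω : Sym2 (ℤ × ℤ) → ℝ |
      ((trail (List.ofFn f) (0, 0)).map ω).sum ≤ c * ((n + 1 + k : ℕ) : ℝ)}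
    refine measurableSet_le ?_ measurable_const
    generalize trail (List.ofFn f) (0, 0) = l
    induction l with
    | nil => simp
    | cons e l ih =>
      simp only [List.map_cons, List.sum_cons]
      exact (measurable_pi_apply e).add ih
  have hle : ∀ᵐ ω ∂law G, Cᶜ.indicator (fun _ => c * ((n : ℝ) + 1)) ω ≤ tt ω (0, 0) ((n : ℤ) + 1, 0) := by
    filter_upwards [good_ae G hG] with ω hω
    by_cases h : ω ∈ C
    · rw [Set.indicator_of_notMem (by simpa using h)]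
      exact tt_nonneg fun e => (hω e).1.le
    · rw [Set.indicator_of_mem h]
      refine le_tt fun p => le_trans ?_ (wt_bypass_le (fun e => (hω e).1.le) p)
      have hl := l1_le_length p.bypass
      have hl1 : l1 (0, 0) ((n : ℤ) + 1, 0) = n + 1 := by simp [l1]; omega
      rw [hl1] at hl
      refine le_trans ?_ (not_cheap h _ p.bypass_isPath hl).le
      exact mul_le_mul_of_nonneg_left (by exact_mod_cast hl) hc.le
  have h2 := integral_mono_ae ((integrable_const _).indicator hCm.compl) (tt_integrable G hG _ _) hle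
  rw [integral_indicator hCm.compl, setIntegral_const, smul_eq_mul, measureReal_compl hCm, probReal_univ] at h2
  have hC' : (law G).real C ≤ 1 / 2 := by
    refine (ENNReal.toReal_le_of_le_ofReal (by positivity) (hrate _ _)).trans ?_
    rw [pow_succ]
    nlinarith [pow_le_one₀ (n := n) (by norm_num : (0 : ℝ) ≤ 1 / 4) (by norm_num : (1 : ℝ) / 4 ≤ 1),
      pow_nonneg (by norm_num : (0 : ℝ) ≤ 1 / 4) n]
  refine le_trans ?_ h2
  nlinarith [mul_pos hc (by positivity : (0 : ℝ) < (n : ℝ) + 1)]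

theorem ae_squares (hG : ∀ᵐ t ∂G, 0 < t ∧ t ≤ b) :
    ∀ᵐ ω ∂law G, ∀ (u : ℤ × ℤ) (j : ℕ) (s : Bool), ∃ K : ℕ, ∀ k : ℕ, K ≤ k →
      (mu1 G - 1 / ((j : ℝ) + 1)) * (k : ℝ) ^ 2 <
        tt ω u (u.1 + (if s then 1 else -1) * ((k : ℤ) ^ 2), u.2) := by
  obtain ⟨c, hc, hrate⟩ := exists_cheap_rate G (hG.mono fun t ht => ht.1)
  obtain ⟨q, hq⟩ := exists_nat_ge (b / c)
  rw [div_le_iff₀ hc] at hq
  simp only [ae_all_iff]
  intro u j s
  set a : ℝ := 1 / ((j : ℝ) + 1) with ha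
  have ha0 : 0 < a := by positivity
  set v : ℕ → ℤ × ℤ := fun k => (u.1 + (if s then 1 else -1) * ((k : ℤ) ^ 2), u.2) with hv
  set A : ℕ → Set (Sym2 (ℤ × ℤ) → ℝ) := fun k =>
    {ω | tt ω u (v (k + 1)) ≤ ∫ x, tt x u (v (k + 1)) ∂law G - a * ((k : ℝ) + 1) ^ 2}
  have habs : ∀ k : ℕ, ((if s then 1 else -1) * ((k : ℤ) ^ 2)).natAbs = k ^ 2 := fun k => by
    cases s <;> simp [Int.natAbs_pow]
  have hl : ∀ k, l1 u (v k) = k ^ 2 := fun k => by
    simp only [l1, hv, sub_add_cancel_left, Int.natAbs_neg, habs, sub_self, Int.natAbs_zero, add_zero]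
  set B : ℕ → ℝ := fun k => b ^ 2 * (q + 1) / a ^ 2 * (1 / ((k + 1 : ℕ) : ℝ) ^ 2) + 2 * (1 / 4) ^ (k + 1)
  have hA : ∀ k, law G (A k) ≤ ENNReal.ofReal (B k) := by
    intro k
    have hM : l1 u (v (k + 1)) ≤ (q + 1) * (k + 1) ^ 2 := by
      rw [hl]; exact Nat.le_mul_of_pos_left _ (Nat.succ_pos q)
    refine (lower_dev G (hG.mono fun t ht => ⟨ht.1.le, ht.2⟩) hc hrate hM ?_
      (mul_pos ha0 (by positivity))).trans (ENNReal.ofReal_le_ofReal ?_)
    · rw [hl]
      push_cast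
      nlinarith [sq_nonneg ((k : ℝ) + 1), hc]
    · refine add_le_add (le_of_eq ?_) (mul_le_mul_of_nonneg_left ?_ two_pos.le)
      · push_cast
        field_simp
      · exact pow_le_pow_of_le_one (by norm_num) (by norm_num)
          ((Nat.le_self_pow two_ne_zero _).trans (Nat.le_mul_of_pos_left _ (Nat.succ_pos q)))
  have hsum : Summable B := by
    refine ((Summable.comp_injective (Real.summable_one_div_nat_pow.2 one_lt_two)
      Nat.succ_injective).mul_left _).add ?_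
    exact ((summable_geometric_of_lt_one (by norm_num) (by norm_num)).comp_injective
      Nat.succ_injective).mul_left _
  have hb0 : ∀ k, 0 ≤ B k := fun k => by positivity
  have hfin : ∑' k, law G (A k) ≠ ⊤ := by
    refine ne_top_of_le_ne_top ?_ (ENNReal.tsum_le_tsum hA)
    rw [← ENNReal.ofReal_tsum_of_nonneg hb0 hsum]
    exact ENNReal.ofReal_ne_top
  filter_upwards [ae_eventually_notMem hfin] with ω hω
  obtain ⟨K, hK⟩ := eventually_atTop.1 hω
  refine ⟨K + 1, fun k hk => ?_⟩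
  obtain ⟨i, rfl⟩ : ∃ i, k = i + 1 := ⟨k - 1, by omega⟩
  have h := hK i (by omega)
  simp only [A, Set.mem_ofPred_eq, not_le] at h
  have hm := mu1_mul_le G hG u ((if s then 1 else -1) * (((i + 1 : ℕ) : ℤ) ^ 2))
  rw [habs] at hm
  refine lt_of_le_of_lt ?_ h
  simp only [hv, sub_mul] at hm ⊢
  push_cast at hm ⊢
  linarith

/-- Almost surely, at every site, passage times along the axis are eventually at least `(mu1 - ε) |n|`. -/
theorem ae_lower (hG : ∀ᵐ t ∂G, 0 < t ∧ t ≤ b) :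
    ∀ᵐ ω ∂law G, ∀ (u : ℤ × ℤ) (ε : ℝ), 0 < ε → ∃ N : ℕ, ∀ n : ℤ, N ≤ n.natAbs →
      (mu1 G - ε) * (n.natAbs : ℝ) ≤ tt ω u (u.1 + n, u.2) := by
  filter_upwards [ae_squares G hG, good_ae G hG] with ω hsq hω u ε hε
  have h0 : ∀ e, 0 ≤ ω e := fun e => (hω e).1.le
  have hb : 0 ≤ b := (hω s((0, 0), (0, 0))).1.le.trans (hω _).2
  rcases le_or_gt (mu1 G - ε) 0 with hneg | hpos
  · exact ⟨0, fun n _ => le_trans (mul_nonpos_of_nonpos_of_nonneg hneg (Nat.cast_nonneg _)) (tt_nonneg h0)⟩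
  obtain ⟨j, hj⟩ := exists_nat_one_div_lt (half_pos hε)
  obtain ⟨K1, hK1⟩ := hsq u j true
  obtain ⟨K2, hK2⟩ := hsq u j false
  obtain ⟨m, hm⟩ := exists_nat_ge (6 * b / ε)
  refine ⟨(max (max K1 K2) (m + 1)) ^ 2, fun n hn => ?_⟩
  set N := n.natAbs with hN
  set s := N.sqrt
  have hs1 : s * s ≤ N := Nat.sqrt_le N
  have hs2 : N < (s + 1) * (s + 1) := Nat.lt_succ_sqrt N
  have hsm : max (max K1 K2) (m + 1) ≤ s := Nat.le_sqrt'.2 hn
  have hms : 6 * b ≤ ε * s := by
    rw [div_le_iff₀ hε] at hm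
    have : (m : ℝ) ≤ s := by exact_mod_cast (by omega : m ≤ s)
    nlinarith
  obtain ⟨w, hw, hd⟩ : ∃ w : ℤ × ℤ, (mu1 G - ε / 2) * ((s : ℝ) + 1) ^ 2 ≤ tt ω u w ∧
      l1 (u.1 + n, u.2) w ≤ (s + 1) ^ 2 - N := by
    rcases Int.natAbs_eq n with h | h
    · refine ⟨(u.1 + ((s + 1 : ℕ) : ℤ) ^ 2, u.2), ?_, ?_⟩
      · have := hK1 (s + 1) (by omega)
        simp only [if_true, one_mul] at this
        push_cast at this ⊢
        nlinarith
      · simp only [l1, sub_self, Int.natAbs_zero, add_zero]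
        rw [h, ← hN, pow_two, pow_two]
        generalize hQ : (s + 1) * (s + 1) = Q at hs2 ⊢
        rw [show ((s + 1 : ℕ) : ℤ) * ((s + 1 : ℕ) : ℤ) = (Q : ℤ) by rw [← hQ]; push_cast; ring]
        omega
    · refine ⟨(u.1 - ((s + 1 : ℕ) : ℤ) ^ 2, u.2), ?_, ?_⟩
      · have := hK2 (s + 1) (by omega)
        simp only [Bool.false_eq_true, if_false, neg_one_mul, ← sub_eq_add_neg] at this
        push_cast at this ⊢
        nlinarith
      · simp only [l1, sub_self, Int.natAbs_zero, add_zero]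
        rw [h, ← hN, pow_two, pow_two]
        generalize hQ : (s + 1) * (s + 1) = Q at hs2 ⊢
        rw [show ((s + 1 : ℕ) : ℤ) * ((s + 1 : ℕ) : ℤ) = (Q : ℤ) by rw [← hQ]; push_cast; ring]
        omega
  have hgap : (l1 (u.1 + n, u.2) w : ℝ) ≤ 3 * s := by
    have hs3 : (s + 1) ^ 2 ≤ N + 3 * s := by
      nlinarith [hs1, (by omega : 1 ≤ s)]
    have : l1 (u.1 + n, u.2) w ≤ 3 * s := by omega
    exact_mod_cast this
  have h3 := (abs_le.1 (abs_tt_sub_le h0 (fun e => (hω e).2) u w (u.1 + n, u.2))).2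
  rw [show l1 w (u.1 + n, u.2) = l1 (u.1 + n, u.2) w by simp only [l1]; omega] at h3
  have hNs : (N : ℝ) ≤ ((s : ℝ) + 1) ^ 2 := by
    rw [pow_two]; exact_mod_cast hs2.le
  have hss : (s : ℝ) * s ≤ N := by exact_mod_cast hs1
  have hbg := mul_le_mul_of_nonneg_right hgap hb
  nlinarith [mul_le_mul_of_nonneg_left hNs (by linarith : (0 : ℝ) ≤ mu1 G - ε / 2),
    mul_le_mul_of_nonneg_right hms (Nat.cast_nonneg s : (0 : ℝ) ≤ s), mul_le_mul_of_nonneg_left hss hε.le]

end Vale.Agent.P158.V4
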