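import Vale.Agent.P158.V4.StripTime

/-!
P158: horizontal increments of half-plane Busemann functions of cone rays are bounded by the averaged
strip increments (Monge inequality against targets beyond the first visit of a far line).
-/

namespace Vale.Agent.P158.V4

open Filter Topology

variable {ω : Cfg} {r : Ray} {b κ k2 k3 : ℝ}

theorem Rises.eventually_upper (hr : Rises r) (h : ℤ) : ∀ᶠ n in atTop, r.pt n ∈ upper h :=
  (tendsto_atTop.1 hr h).mono fun _ hn => hn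

theorem exists_walk_lt {S : Set Pt} (hS : Linked S) {x y : Pt} (hx : x ∈ S) (hy : y ∈ S) {c : ℝ}
    (h : ttIn S ω x y < c) : ∃ p : grid.Walk x y, (∀ z ∈ p.support, z ∈ S) ∧ wt ω p < c := by
  by_contra hne
  push Not at hne
  exact absurd (le_ttS hS hx hy hne) (not_le.2 h)

/-- The exchange inequality across a strip. -/
theorem strip_exchange (h0 : ∀ e, 0 ≤ ω e) {h H x y z t : ℤ} (hH : h ≤ H) (hxy : x ≤ y) (hzt : z ≤ t) :
    ttIn (strip h H) ω (x, h) (z, H) + ttIn (strip h H) ω (y, h) (t, H) ≤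
      ttIn (strip h H) ω (x, h) (t, H) + ttIn (strip h H) ω (y, h) (z, H) := by
  have hS := linked_strip h H
  have mb : ∀ w, ((w, h) : Pt) ∈ strip h H := fun w => ⟨le_rfl, hH⟩
  have mt : ∀ w, ((w, H) : Pt) ∈ strip h H := fun w => ⟨hH, le_rfl⟩
  rw [← sub_le_iff_le_add]
  refine le_ttS hS (mb x) (mt t) fun p hp => ?_
  rw [sub_le_iff_le_add, ← sub_le_iff_le_add']
  refine le_ttS hS (mb y) (mt z) fun q hq => ?_
  rw [sub_le_iff_le_add']
  obtain ⟨w, hwp, hwq⟩ := strip_cross p q hp hq hxy hzt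
  exact exchange h0 p q hp hq hwp hwq

/-- The averaged increments bound the increments of the half-plane Busemann function. -/
theorem inc_bound (h0 : ∀ e, 0 ≤ ω e) (hb : ∀ e, ω e ≤ b) (hb0 : 0 ≤ b) (hr : IsTail ω r)
    (hrise : Rises r) (hcone : ConeRay κ r) (hκ0 : 0 ≤ κ) (hκ : κ < k2) (h23 : k2 < k3) (u : Pt) :
    busIn (upper u.2) ω r u - busIn (upper u.2) ω r (u.1 + 1, u.2) ≤ low k2 k3 b ω u := by
  obtain ⟨ux, h⟩ := u
  dsimp only
  set S := upper h
  set H := busIn S ω r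
  refine le_of_forall_pos_le_add fun η hη => ?_
  suffices hev : ∀ᶠ L : ℕ in atTop, H (ux, h) - H (ux + 1, h) - η ≤ cinc k2 k3 b L ω (ux, h) by
    obtain ⟨L0, hL0⟩ := eventually_atTop.1 hev
    rw [← sub_le_iff_le_add]
    exact (le_ciInf fun j => hL0 _ (by omega)).trans (le_ciSup (bddAbove_inf_cinc hb0 ω _) L0)
  have hev := hrise.eventually_upper h
  have hlink : Linked S := linked_upper' h
  have hx : ((ux, h) : Pt) ∈ S := le_refl h
  have hy : ((ux + 1, h) : Pt) ∈ S := le_refl h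
  obtain ⟨M1, hM1⟩ := hr.busIn_le h0 hlink hev
  obtain ⟨M2, hM2⟩ := exists_seg_walk hr
  obtain ⟨M3, hM3⟩ := eventually_atTop.1 hev
  obtain ⟨M4, hM4⟩ := eventually_atTop.1 hcone
  set N0 := max (max M1 M2) (max M3 M4)
  obtain ⟨m, hm0, hm⟩ : ∃ m, N0 ≤ m ∧ ttIn S ω (ux + 1, h) (r.pt m) - r.acc m < H (ux + 1, h) + η := by
    obtain ⟨m, h1, h2⟩ := ((eventually_ge_atTop N0).and
      ((hr.tendsto_busIn h0 hlink hev hy).eventually_lt_const
        (show H (ux + 1, h) < H (ux + 1, h) + η by linarith))).exists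
    exact ⟨m, h1, h2⟩
  obtain ⟨q0, hq0, hq0w⟩ := exists_walk_lt hlink hy (hM3 m (by omega))
    (show ttIn S ω (ux + 1, h) (r.pt m) < H (ux + 1, h) + η + r.acc m by linarith)
  obtain ⟨D, hD⟩ : ∃ D : ℤ, (∀ z ∈ q0.support, z.2 ≤ D) ∧ ∀ k, N0 ≤ k → k ≤ m → (r.pt k).2 ≤ D := by
    obtain ⟨D, hD⟩ := ((q0.support.toFinset ∪ (Finset.Icc N0 m).image r.pt).image Prod.snd).bddAbove
    exact ⟨D, fun z hz => hD (Finset.mem_image_of_mem _
      (Finset.mem_union_left _ (List.mem_toFinset.2 hz))), fun k hk hk' => hD (Finset.mem_image_of_mem _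
      (Finset.mem_union_right _ (Finset.mem_image_of_mem _ (Finset.mem_Icc.2 ⟨hk, hk'⟩))))⟩
  have hgap : 0 < k2 - κ := sub_pos.2 hκ
  have hwin : 0 < k3 - k2 := sub_pos.2 h23
  obtain ⟨L0, hL0⟩ := exists_nat_ge (max (((D - h + 1 : ℤ) : ℝ))
    (max ((κ * |(h : ℝ)| + |(ux : ℝ)|) / (k2 - κ)) (1 / (k3 - k2))))
  refine eventually_atTop.2 ⟨L0, fun L hL => ?_⟩
  have hL' : (L0 : ℝ) ≤ L := by exact_mod_cast hL
  simp only [max_le_iff] at hL0
  have g1 : D + 1 ≤ h + (L : ℤ) := by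
    have : ((D - h + 1 : ℤ) : ℝ) ≤ ((L : ℤ) : ℝ) := by push_cast at hL0 ⊢; linarith [hL0.1]
    have := Int.cast_le.1 this
    omega
  have g2 := (div_le_iff₀ hgap).1 (hL0.2.1.trans hL')
  have g3 := (div_le_iff₀ hwin).1 (hL0.2.2.trans hL')
  -- the first visit of the far line after `N0`
  set s : ℕ → Pt := fun k => r.pt (N0 + k)
  have hs : ∀ k, grid.Adj (s k) (s (k + 1)) := fun k => hr.adj (N0 + k)
  have hs0 : (s 0).2 ≤ h + L := by
    have := hD.2 N0 le_rfl hm0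
    simp only [s, Nat.add_zero]
    omega
  obtain ⟨n, hn⟩ := exists_firstVisit hs hs0 (by
    obtain ⟨K, hK⟩ := eventually_atTop.1 (tendsto_atTop.1 hrise (h + L))
    exact ⟨K, hK _ (by omega)⟩)
  have hnm : m ≤ N0 + n := by
    by_contra hlt
    have := hD.2 (N0 + n) (by omega) (by omega)
    have := hn.1
    simp only [s] at this
    omega
  obtain ⟨z, H'⟩ : ∃ z : ℤ, r.pt (N0 + n) = (z, h + L) := ⟨(r.pt (N0 + n)).1, Prod.ext rfl hn.1⟩
  have hzc : |(z : ℝ)| ≤ κ * |((h + L : ℤ) : ℝ)| := by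
    have := hM4 (N0 + n) (by omega)
    rwa [H'] at this
  have hstrip : ∀ k, N0 ≤ k → k ≤ N0 + n → r.pt k ∈ strip h (h + L) := by
    intro k hk hk'
    obtain ⟨i, rfl⟩ := Nat.exists_eq_add_of_le hk
    exact ⟨hM3 _ (by omega), hn.below hs hs0 i (by omega)⟩
  -- the strip time from the right point is almost the half-plane Busemann function
  have upY : ttIn (strip h (h + L)) ω (ux + 1, h) (z, h + L) - r.acc (N0 + n) ≤ H (ux + 1, h) + η := by
    obtain ⟨-, w, hw, hws, -⟩ := hM2 m (N0 + n) (by omega) hnm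
    have h1 : ttS ω (strip h (h + L)) (ux + 1, h) (z, h + L) ≤
        wt ω ((q0.append w).copy rfl H') := ttS_le h0 _ fun v hv => by
      rw [SimpleGraph.Walk.support_copy] at hv
      rcases (SimpleGraph.Walk.mem_support_append_iff _ _).1 hv with hv | hv
      · have := hD.1 v hv
        exact ⟨hq0 v hv, by omega⟩
      · obtain ⟨k, hk, hk', rfl⟩ := hws v hv
        exact hstrip k (by omega) hk'
    have h2 : wt ω ((q0.append w).copy rfl H') = wt ω q0 + wt ω w := by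
      simp [wt]
    simp only [ttIn_eq]
    linarith
  -- the strip time from the left point dominates it
  have lowX : H (ux, h) ≤ ttIn (strip h (h + L)) ω (ux, h) (z, h + L) - r.acc (N0 + n) := by
    have h1 := hM1 (ux, h) hx (N0 + n) (by omega)
    rw [H'] at h1
    refine h1.trans (sub_le_sub_right ?_ _)
    exact le_ttS (linked_strip _ _) ⟨le_rfl, by omega⟩ ⟨by dsimp only; omega, le_rfl⟩
      fun p hp => ttS_le h0 p fun v hv => (hp v hv).1
  rw [cinc_eq h0 hb hb0]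
  have hN : 0 < winN k2 k3 L := by
    have : ⌈k2 * (L : ℝ)⌉ < ⌈k3 * (L : ℝ)⌉ := by
      rw [Int.lt_iff_add_one_le, ← Int.ceil_add_one]
      exact Int.ceil_le_ceil (by linarith)
    simp only [winN]
    omega
  refine le_trans (b := ttIn (strip h (h + L)) ω (ux, h) (z, h + L) -
    ttIn (strip h (h + L)) ω (ux + 1, h) (z, h + L)) (by linarith) ?_
  rw [inc, le_div_iff₀ (by exact_mod_cast hN)]
  refine le_trans (le_of_eq ?_) (Finset.card_nsmul_le_sum _ _
    (ttIn (strip h (h + L)) ω (ux, h) (z, h + L) - ttIn (strip h (h + L)) ω (ux + 1, h) (z, h + L))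
    fun i _ => ?_)
  · simp [mul_comm]
  · have hzt : z ≤ ux + winL k2 L + i + 1 := by
      have h1 : (winL k2 L : ℝ) ≥ k2 * L := Int.le_ceil _
      have h2 : |((h + L : ℤ) : ℝ)| ≤ |(h : ℝ)| + L := by
        push_cast
        exact (abs_add_le _ _).trans (by simp)
      have h3 := mul_le_mul_of_nonneg_left h2 hκ0
      have : (z : ℝ) ≤ ((ux + winL k2 L + i + 1 : ℤ) : ℝ) := by
        push_cast
        linarith [le_abs_self (z : ℝ), neg_abs_le (ux : ℝ), (Nat.cast_nonneg i : (0 : ℝ) ≤ i)]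
      exact Int.cast_le.1 this
    have := strip_exchange h0 (h := h) (H := h + L) (x := ux) (y := ux + 1) (by omega) (by omega) hzt
    linarith

/-- The forward bound at `u` beyond the distance `j0`. -/
def Fwd (k2 k3 b m1 : ℝ) (j0 : ℕ) (ω : Cfg) (u : Pt) : Prop :=
  ∀ j : ℕ, j0 ≤ j → ∑ i ∈ Finset.range j, low k2 k3 b ω (u.1 + i, u.2) ≤ m1 * j

theorem measurableSet_fwd (k2 k3 b m1 : ℝ) (j0 : ℕ) (u : Pt) :
    MeasurableSet {ω : Cfg | Fwd k2 k3 b m1 j0 ω u} := by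
  simp only [Fwd, Set.ofPred_forall]
  exact MeasurableSet.iInter fun j => MeasurableSet.iInter fun _ =>
    measurableSet_le (Finset.measurable_sum _ fun _ _ => measurable_low _) measurable_const

theorem fwd_bound (h0 : ∀ e, 0 ≤ ω e) (hb : ∀ e, ω e ≤ b) (hb0 : 0 ≤ b) (hr : IsTail ω r)
    (hrise : Rises r) (hcone : ConeRay κ r) (hκ0 : 0 ≤ κ) (hκ : κ < k2) (h23 : k2 < k3) {m1 : ℝ}
    (hm1 : 0 ≤ m1) {j0 : ℕ} {u : Pt} (hF : Fwd k2 k3 b m1 j0 ω u) (j : ℕ) :
    busIn (upper u.2) ω r u - busIn (upper u.2) ω r (u.1 + j, u.2) ≤ m1 * j + b * j0 := by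
  rcases Nat.lt_or_ge j j0 with hj | hj
  · have h1 := hr.busIn_le_add h0 (linked_upper' u.2) (hrise.eventually_upper u.2)
      (p := u) (q := (u.1 + j, u.2)) (le_refl u.2) (le_refl u.2)
    have h2 : ttIn (upper u.2) ω u (u.1 + j, u.2) ≤ b * j := by
      refine (ttIn_le_l1 h0 hb _ _ fun z hz hz' => ?_).trans_eq (by simp [l1, mul_comm])
      rw [mem_upper]
      dsimp only at hz
      omega
    have h3 : b * j ≤ b * j0 := mul_le_mul_of_nonneg_left (by exact_mod_cast hj.le) hb0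
    have h4 : 0 ≤ m1 * j := by positivity
    linarith
  · have htel := Finset.sum_range_sub' (fun i : ℕ => busIn (upper u.2) ω r (u.1 + i, u.2)) j
    simp only [Nat.cast_zero, add_zero, Nat.cast_succ, ← add_assoc] at htel
    rw [← htel]
    refine le_trans (Finset.sum_le_sum (g := fun i : ℕ => low k2 k3 b ω (u.1 + i, u.2)) fun i _ =>
      inc_bound h0 hb hb0 hr hrise hcone hκ0 hκ h23 (u.1 + (i : ℤ), u.2)) ((hF j hj).trans ?_)
    have : 0 ≤ b * j0 := by positivity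
    linarith

/-- A ray carried by a symmetry of the lattice. -/
def Ray.map (φ : grid →g grid) (r : Ray) : Ray := ⟨fun n => φ (r.pt n), r.acc⟩

theorem IsTail.map (hr : IsTail ω r) (h0 : ∀ e, 0 ≤ ω e) (φ : grid →g grid) (h1 : ∀ z, φ (φ z) = z) :
    IsTail (ω ∘ Sym2.map φ) (r.map φ) := by
  obtain ⟨M, hM⟩ := hr.geo
  refine ⟨fun n => φ.map_adj (hr.adj n), fun a b hab => hr.inj ?_, M, fun i j hi hij => ⟨?_, ?_⟩⟩
  · simpa [Ray.map, h1] using congrArg φ hab
  · rw [tt_map h0 φ φ h1 h1]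
    simp only [Ray.map, h1]
    exact (hM i j hi hij).1
  · simpa [Ray.map, h1] using (hM i j hi hij).2

theorem bus_map (h0 : ∀ e, 0 ≤ ω e) (φ : grid →g grid) (h1 : ∀ z, φ (φ z) = z) (r : Ray) (p : Pt) :
    bus (ω ∘ Sym2.map φ) (r.map φ) (φ p) = bus ω r p := by
  unfold bus
  congr 1
  funext n
  rw [tt_map h0 φ φ h1 h1]
  simp [Ray.map, h1]

theorem busIn_map (φ : grid →g grid) (h1 : ∀ z, φ (φ z) = z) (S : Set Pt) (r : Ray) (p : Pt) :
    busIn (φ ⁻¹' S) (ω ∘ Sym2.map φ) (r.map φ) (φ p) = busIn S ω r p := by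
  unfold busIn
  congr 1
  funext n
  rw [ttIn_map φ φ h1 h1]
  simp [Ray.map, h1]

theorem flipX_flipX (z : Pt) : flipX (flipX z) = z :=
  Prod.ext (neg_neg z.1) rfl

theorem flip2_flip2 (z : Pt) : flip2 (flip2 z) = z :=
  Prod.ext rfl (neg_neg z.2)

/-- Both one-sided bounds together bound the drop of the half-plane Busemann function along the line. -/
theorem drop_bound (h0 : ∀ e, 0 ≤ ω e) (hb : ∀ e, ω e ≤ b) (hb0 : 0 ≤ b) (hr : IsTail ω r)
    (hrise : Rises r) (hcone : ConeRay κ r) (hκ0 : 0 ≤ κ) (hκ : κ < k2) (h23 : k2 < k3) {m1 : ℝ}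
    (hm1 : 0 ≤ m1) {j0 : ℕ} {u : Pt} (hF : Fwd k2 k3 b m1 j0 ω u)
    (hF' : Fwd k2 k3 b m1 j0 (ω ∘ Sym2.map flipX) (flipX u)) (x : ℤ) :
    busIn (upper u.2) ω r u - busIn (upper u.2) ω r (x, u.2) ≤
      m1 * |((x - u.1 : ℤ) : ℝ)| + b * j0 := by
  rcases le_total u.1 x with h | h
  · have := fwd_bound h0 hb hb0 hr hrise hcone hκ0 hκ h23 hm1 hF (x - u.1).toNat
    rw [show u.1 + ((x - u.1).toNat : ℤ) = x by omega] at this
    rwa [abs_of_nonneg (by exact_mod_cast (by omega : (0 : ℤ) ≤ x - u.1)),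
      show ((x - u.1 : ℤ) : ℝ) = (((x - u.1).toNat : ℕ) : ℝ) by
        rw [← Int.cast_natCast, Int.toNat_of_nonneg (by omega)]]
  · have hcone' : ConeRay κ (r.map flipX) := hcone.mono fun n hn => by
      show |((-(r.pt n).1 : ℤ) : ℝ)| ≤ κ * |(((r.pt n).2 : ℤ) : ℝ)|
      rwa [Int.cast_neg, abs_neg]
    have hset : flipX ⁻¹' upper u.2 = upper u.2 := rfl
    have := fwd_bound (ω := ω ∘ Sym2.map flipX) (fun e => h0 _) (fun e => hb _) hb0
      (hr.map h0 flipX flipX_flipX) (show Rises (r.map flipX) from hrise) hcone' hκ0 hκ h23 hm1 hF'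
      (u.1 - x).toNat
    have e : (((flipX u).1 + ((u.1 - x).toNat : ℤ), (flipX u).2) : Pt) = flipX (x, u.2) := by
      show ((-u.1 + ((u.1 - x).toNat : ℤ), u.2) : Pt) = (-x, u.2)
      congr 1
      omega
    rw [e, show (flipX u).2 = u.2 from rfl] at this
    rw [← hset, busIn_map flipX flipX_flipX, busIn_map flipX flipX_flipX] at this
    rwa [abs_of_nonpos (by exact_mod_cast (by omega : x - u.1 ≤ (0 : ℤ))),
      show -((x - u.1 : ℤ) : ℝ) = (((u.1 - x).toNat : ℕ) : ℝ) by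
        rw [← Int.cast_natCast, Int.toNat_of_nonneg (by omega), ← Int.cast_neg, neg_sub]]

end Vale.Agent.P158.V4
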