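import Vale.Agent.P158.V4.Defs

/-!
P158: supporting functionals of a lattice norm along the slopes of the upper half-plane.
-/

namespace Vale.Agent.P158.V4

open Filter Topology

namespace IsLatticeNorm

variable {μ : ℝ × ℝ → ℝ} (h : IsLatticeNorm μ)
include h

theorem zero : μ (0, 0) = 0 := by
  have := h.homog 0 le_rfl (0, 0)
  rw [zero_smul, zero_mul] at this
  exact this

theorem neg (z : ℝ × ℝ) : μ (-z) = μ z := by
  obtain ⟨x, y⟩ := z
  rw [Prod.neg_mk, h.flip, ← h.swap, h.flip, h.swap]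

theorem scale (a x y : ℝ) (ha : 0 ≤ a) : μ (a * x, a * y) = a * μ (x, y) := by
  simpa using h.homog a ha (x, y)

theorem nonneg (z : ℝ × ℝ) : 0 ≤ μ z := by
  obtain ⟨c, hc, hpos⟩ := h.pos
  exact le_trans (by positivity) (hpos z.1 z.2)

theorem axis_pos : 0 < μ (1, 0) := by
  obtain ⟨c, hc, hpos⟩ := h.pos
  have := hpos 1 0
  simp only [abs_one, abs_zero, add_zero, mul_one] at this
  linarith

theorem pos_of_ne {z : ℝ × ℝ} (hz : z ≠ 0) : 0 < μ z := by
  obtain ⟨c, hc, hpos⟩ := h.pos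
  refine lt_of_lt_of_le ?_ (hpos z.1 z.2)
  refine mul_pos hc ?_
  by_contra hle
  exact hz (Prod.ext (abs_eq_zero.1 (by linarith [abs_nonneg z.1, abs_nonneg z.2]))
    (abs_eq_zero.1 (by linarith [abs_nonneg z.1, abs_nonneg z.2])))

theorem horizontal (x : ℝ) : μ (x, 0) = |x| * μ (1, 0) := by
  rcases le_total 0 x with hx | hx
  · rw [abs_of_nonneg hx, ← h.scale x 1 0 hx, mul_one, mul_zero]
  · rw [abs_of_nonpos hx, ← h.scale (-x) 1 0 (by linarith), mul_one, mul_zero, h.flip]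

theorem vertical (y : ℝ) : μ (0, y) = |y| * μ (1, 0) := by
  rw [← h.swap, h.horizontal]

theorem le_l1 (z : ℝ × ℝ) : μ z ≤ μ (1, 0) * (|z.1| + |z.2|) := by
  have := h.tri (z.1, 0) (0, z.2)
  rw [h.horizontal, h.vertical, Prod.mk_add_mk, add_zero, zero_add] at this
  linarith

theorem sub_le (z w : ℝ × ℝ) : μ z - μ w ≤ μ (1, 0) * (|z.1 - w.1| + |z.2 - w.2|) := by
  have h1 := h.tri w (z - w)
  have h2 := h.le_l1 (z - w)
  rw [add_sub_cancel] at h1
  simp only [Prod.fst_sub, Prod.snd_sub] at h2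
  linarith

theorem continuous : Continuous μ := by
  have hm := h.axis_pos
  have : LipschitzWith (Real.toNNReal (2 * μ (1, 0))) μ := by
    refine LipschitzWith.of_le_add_mul _ fun z w => ?_
    have h1 := h.sub_le z w
    have hx : |z.1 - w.1| ≤ dist z w := by
      rw [← Real.dist_eq, Prod.dist_eq]; exact le_max_left _ _
    have hy : |z.2 - w.2| ≤ dist z w := by
      rw [← Real.dist_eq, Prod.dist_eq]; exact le_max_right _ _
    rw [Real.coe_toNNReal _ (by linarith)]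
    nlinarith
  exact this.continuous

/-- Every point has a supporting functional. -/
theorem exists_supports (θ : ℝ × ℝ) : ∃ ρ, Supports μ θ ρ := by
  set f : (ℝ × ℝ) →ₗ.[ℝ] ℝ := LinearPMap.mkSpanSingleton' θ (μ θ) (fun c hc => by
    rcases smul_eq_zero.1 hc with hc | hc
    · simp [hc]
    · have : μ θ = 0 := by rw [hc]; exact h.zero
      simp [this])
  obtain ⟨g, hg1, hg2⟩ := exists_extension_of_le_sublinear f μ (fun c hc z => h.homog c hc.le z) h.tri
    (by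
      rintro ⟨x, hx⟩
      obtain ⟨c, rfl⟩ := Submodule.mem_span_singleton.1 hx
      rw [LinearPMap.mkSpanSingleton'_apply]
      simp only [RingHom.id_apply, smul_eq_mul]
      rcases le_total 0 c with hc | hc
      · exact (h.homog c hc θ).symm.le
      · nlinarith [h.nonneg θ, h.nonneg (c • θ)])
  refine ⟨(g (1, 0), g (0, 1)), ?_⟩
  have hlin : ∀ z : ℝ × ℝ, g (1, 0) * z.1 + g (0, 1) * z.2 = g z := by
    intro z
    have : z = z.1 • ((1 : ℝ), (0 : ℝ)) + z.2 • ((0 : ℝ), (1 : ℝ)) := by ext <;> simp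
    conv_rhs => rw [this, map_add, map_smul, map_smul, smul_eq_mul, smul_eq_mul]
    ring
  refine ⟨fun z => (hlin z).trans_le (hg2 z), (hlin θ).trans ?_⟩
  exact (hg1 ⟨θ, Submodule.mem_span_singleton_self θ⟩).trans
    (LinearPMap.mkSpanSingleton'_apply_self _ _ _ _)

theorem supports_bound {θ ρ : ℝ × ℝ} (hρ : Supports μ θ ρ) :
    |ρ.1| ≤ μ (1, 0) ∧ |ρ.2| ≤ μ (1, 0) := by
  have h1 := hρ.1 (1, 0)
  have h2 := hρ.1 (-1, 0)
  have h3 := hρ.1 (0, 1)
  have h4 := hρ.1 (0, -1)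
  rw [h.horizontal] at h2
  rw [h.vertical] at h3 h4
  simp at h1 h2 h3 h4
  exact ⟨abs_le.2 ⟨by linarith, h1⟩, abs_le.2 ⟨by linarith, h3⟩⟩

theorem supports_neg {θ ρ : ℝ × ℝ} (hρ : Supports μ θ ρ) : Supports μ (-θ) (-ρ) := by
  refine ⟨fun z => ?_, ?_⟩
  · have := hρ.1 (-z)
    rw [h.neg] at this
    simp at this ⊢
    linarith
  · rw [h.neg, ← hρ.2]
    simp

theorem supports_flip {x y a b : ℝ} (hρ : Supports μ (x, y) (a, b)) :
    Supports μ (-x, y) (-a, b) := by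
  refine ⟨fun z => ?_, ?_⟩
  · have := hρ.1 (-z.1, z.2)
    rw [h.flip] at this
    simp at this ⊢
    linarith
  · rw [h.flip, ← hρ.2]
    simp

theorem supports_smul_iff {θ ρ : ℝ × ℝ} {a : ℝ} (ha : 0 < a) :
    Supports μ (a • θ) ρ ↔ Supports μ θ ρ := by
  constructor <;> rintro ⟨h1, h2⟩ <;> refine ⟨h1, ?_⟩
  · rw [h.homog a ha.le] at h2
    simp at h2
    nlinarith
  · rw [h.homog a ha.le, ← h2]
    simp
    ring

/-- Every supporting functional on the axis is extreme. -/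
theorem axis_supports {θ ρ : ℝ × ℝ} (hθ : θ ≠ 0) (h2 : θ.2 = 0) (hρ : Supports μ θ ρ) :
    |ρ.1| = μ (1, 0) := by
  obtain ⟨x, y⟩ := θ
  simp only at h2
  subst h2
  have hx : x ≠ 0 := fun hx => hθ (by simp [hx])
  have h1 := hρ.2
  rw [h.horizontal] at h1
  simp only [mul_zero, add_zero] at h1
  refine le_antisymm (h.supports_bound hρ).1 ?_
  have h3 : |ρ.1| * |x| = |x| * μ (1, 0) := by
    rw [← abs_mul, h1, abs_of_nonneg (mul_nonneg (abs_nonneg _) h.axis_pos.le)]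
  exact le_of_eq (mul_left_cancel₀ (abs_ne_zero.2 hx) (by linarith))

/-- The horizontal component of the supporting functional increases with the slope. -/
theorem supports_mono {s t : ℝ} {ρ σ : ℝ × ℝ} (hst : s < t) (hρ : Supports μ (s, 1) ρ)
    (hσ : Supports μ (t, 1) σ) : ρ.1 ≤ σ.1 := by
  have h1 := hρ.1 (t, 1)
  have h2 := hσ.1 (s, 1)
  have h3 := hρ.2
  have h4 := hσ.2
  simp only at h1 h2 h3 h4
  nlinarith

theorem increment_le {z d ρ : ℝ × ℝ} (hρ : Supports μ (z + d) ρ) :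
    μ (z + d) - μ z ≤ ρ.1 * d.1 + ρ.2 * d.2 := by
  have h1 := hρ.1 z
  have h2 := hρ.2
  simp only [Prod.fst_add, Prod.snd_add] at h2
  linarith

theorem increment_ge {z d ρ : ℝ × ℝ} (hρ : Supports μ z ρ) :
    ρ.1 * d.1 + ρ.2 * d.2 ≤ μ (z + d) - μ z := by
  have h1 := hρ.1 (z + d)
  have h2 := hρ.2
  simp only [Prod.fst_add, Prod.snd_add] at h1
  linarith

theorem supports_of_dir {x y : ℝ} {ρ : ℝ × ℝ} (hy : 0 < y) :
    Supports μ (x, y) ρ ↔ Supports μ (x / y, 1) ρ := by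
  rw [← h.supports_smul_iff hy (θ := (x / y, 1))]
  have : y • (x / y, (1 : ℝ)) = (x, y) := by
    ext
    · simp only [Prod.smul_fst, smul_eq_mul]
      field_simp
    · simp
  rw [this]

/-- A bound on horizontal increments above the axis by the supporting functionals near the slope. -/
theorem hor_increment_le {x y d : ℝ} (hy : 0 < y) {A B : ℝ}
    (hA : ∀ ρ, Supports μ ((x + d) / y, 1) ρ → ρ.1 * d ≤ A)
    (hB : ∀ ρ, Supports μ (x / y, 1) ρ → B ≤ ρ.1 * d) :
    μ (x + d, y) - μ (x, y) ≤ A ∧ B ≤ μ (x + d, y) - μ (x, y) := by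
  obtain ⟨ρ, hρ⟩ := h.exists_supports (x + d, y)
  obtain ⟨σ, hσ⟩ := h.exists_supports (x, y)
  have e : ((x, y) : ℝ × ℝ) + (d, 0) = (x + d, y) := by simp
  have h1 := h.increment_le (z := (x, y)) (d := (d, 0)) (by rw [e]; exact hρ)
  have h2 := h.increment_ge (d := (d, 0)) hσ
  rw [e] at h1 h2
  simp only [mul_zero, add_zero] at h1 h2
  exact ⟨h1.trans (hA ρ ((h.supports_of_dir hy).1 hρ)),
    (hB σ ((h.supports_of_dir hy).1 hσ)).trans h2⟩

/-- Limits of supporting functionals are supporting functionals. -/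
theorem supports_of_tendsto {θ ρ : ℕ → ℝ × ℝ} {θ₀ ρ₀ : ℝ × ℝ} (hs : ∀ n, Supports μ (θ n) (ρ n))
    (hθ : Tendsto θ atTop (𝓝 θ₀)) (hρ : Tendsto ρ atTop (𝓝 ρ₀)) : Supports μ θ₀ ρ₀ := by
  have h1 := (continuous_fst.tendsto _).comp hρ
  have h2 := (continuous_snd.tendsto _).comp hρ
  refine ⟨fun z => le_of_tendsto' ((h1.mul_const z.1).add (h2.mul_const z.2))
    fun n => (hs n).1 z, ?_⟩
  have h3 := (continuous_fst.tendsto _).comp hθ
  have h4 := (continuous_snd.tendsto _).comp hθ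
  exact tendsto_nhds_unique (((h1.mul h3).add (h2.mul h4)).congr fun n => (hs n).2)
    ((h.continuous.tendsto _).comp hθ)

omit h in
theorem isCompact_box (r : ℝ) :
    IsCompact (Set.Icc (-r) r ×ˢ Set.Icc (-r) r : Set (ℝ × ℝ)) :=
  isCompact_Icc.prod isCompact_Icc

theorem supports_mem_box {θ ρ : ℝ × ℝ} (hρ : Supports μ θ ρ) :
    ρ ∈ Set.Icc (-μ (1, 0)) (μ (1, 0)) ×ˢ Set.Icc (-μ (1, 0)) (μ (1, 0)) :=
  ⟨abs_le.1 (h.supports_bound hρ).1, abs_le.1 (h.supports_bound hρ).2⟩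

theorem strictSlope_of {κ : ℝ} (hκ : 0 ≤ κ)
    (hs : ∀ ρ, Supports μ (κ, 1) ρ → |ρ.1| ≠ μ (1, 0)) : StrictSlope μ κ := by
  refine ⟨hκ, ?_⟩
  by_contra hne
  push Not at hne
  choose ρ hρ hge using fun n : ℕ => hne (κ + 1 / ((n : ℝ) + 1)) (by
    have : (0 : ℝ) < 1 / ((n : ℝ) + 1) := by positivity
    linarith)
  obtain ⟨ρ₀, -, φ, hφ, hlim⟩ := (isCompact_box (μ (1, 0))).tendsto_subseq
    (x := ρ) fun n => h.supports_mem_box (hρ n)
  have hθ : Tendsto (fun n : ℕ => ((κ + 1 / ((n : ℝ) + 1) : ℝ), (1 : ℝ))) atTop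
      (𝓝 (κ, 1)) := by
    refine Tendsto.prodMk_nhds ?_ tendsto_const_nhds
    simpa using tendsto_one_div_add_atTop_nhds_zero_nat.const_add κ
  have hsup := h.supports_of_tendsto (fun n => hρ (φ n)) (hθ.comp hφ.tendsto_atTop) hlim
  refine hs ρ₀ hsup (le_antisymm (h.supports_bound hsup).1 ?_)
  refine le_trans ?_ (le_abs_self _)
  exact ge_of_tendsto' ((continuous_fst.tendsto _).comp hlim) fun n => hge (φ n)

theorem strictSlope_of_dir {θ : ℝ × ℝ} (h2 : θ.2 ≠ 0)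
    (hs : ∀ ρ, Supports μ θ ρ → |ρ.1| ≠ μ (1, 0)) : StrictSlope μ |θ.1 / θ.2| := by
  obtain ⟨x, y⟩ := θ
  refine h.strictSlope_of (abs_nonneg _) fun ρ hρ => ?_
  have key : ∃ σ : ℝ × ℝ, Supports μ (x / y, 1) σ ∧ |σ.1| = |ρ.1| := by
    rcases le_total 0 (x / y) with hxy | hxy
    · exact ⟨ρ, by rwa [abs_of_nonneg hxy] at hρ, rfl⟩
    · rw [abs_of_nonpos hxy] at hρ
      have := h.supports_flip (a := ρ.1) (b := ρ.2) hρ
      rw [neg_neg] at this
      exact ⟨_, this, abs_neg _⟩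
  obtain ⟨σ, hσ, habs⟩ := key
  rw [← habs]
  rcases lt_or_gt_of_ne h2 with hy | hy
  · have hy' : 0 < -y := neg_pos.2 hy
    have hσ' : Supports μ (-x, -y) σ := (h.supports_of_dir hy').2 (by rwa [neg_div_neg_eq])
    have := h.supports_neg hσ'
    rw [Prod.neg_mk, neg_neg, neg_neg] at this
    simpa using hs _ this
  · exact hs σ ((h.supports_of_dir hy).2 hσ)

theorem strictSlope_bound {κ : ℝ} (hκ : StrictSlope μ κ) :
    ∃ κ' > κ, ∃ a, 0 ≤ a ∧ a < μ (1, 0) ∧
      ∀ s ρ, |s| ≤ κ' → Supports μ (s, 1) ρ → |ρ.1| ≤ a := by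
  obtain ⟨h0, κ', hκ', hlt⟩ := hκ
  obtain ⟨σ, hσ⟩ := h.exists_supports (κ', 1)
  have hb : ∀ s ρ, |s| ≤ (κ + κ') / 2 → Supports μ (s, 1) ρ → |ρ.1| ≤ σ.1 := by
    intro s ρ hs hρ
    rw [abs_le] at hs
    have h1 := h.supports_mono (show s < κ' by linarith) hρ hσ
    have h2 := h.supports_mono (show -s < κ' by linarith)
      (h.supports_flip (a := ρ.1) (b := ρ.2) hρ) hσ
    exact abs_le.2 ⟨by linarith, h1⟩
  obtain ⟨ρ, hρ⟩ := h.exists_supports (0, 1)
  refine ⟨(κ + κ') / 2, by linarith, σ.1, (abs_nonneg _).trans (hb 0 ρ (by simp; linarith) hρ),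
    hlt σ hσ, hb⟩

/-- Two supporting functionals at one point pin the minimisers of their mean. -/
theorem pin {c : ℝ} {ρ σ : ℝ × ℝ} (hρ : Supports μ (c, 1) ρ) (hσ : Supports μ (c, 1) σ)
    (z : ℝ × ℝ) :
    |ρ.1 - σ.1| / 2 * |z.1 - c * z.2| ≤
      μ z - ((ρ.1 + σ.1) / 2 * z.1 + (ρ.2 + σ.2) / 2 * z.2) := by
  have h1 := hρ.1 z
  have h2 := hσ.1 z
  have h3 : ρ.2 - σ.2 = -(c * (ρ.1 - σ.1)) := by
    have := hρ.2
    have := hσ.2
    simp only at *
    linarith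
  rw [show |ρ.1 - σ.1| / 2 * |z.1 - c * z.2| = |(ρ.1 - σ.1) / 2 * (z.1 - c * z.2)| by
    rw [abs_mul, abs_div, abs_two]]
  have e : (ρ.1 - σ.1) / 2 * (z.1 - c * z.2) =
      (ρ.1 - σ.1) / 2 * z.1 + (ρ.2 - σ.2) / 2 * z.2 := by rw [h3]; ring
  rw [e, abs_le]
  constructor <;> nlinarith

theorem finite_jumps {η : ℝ} (hη : 0 < η) : {c | Jump μ η c}.Finite := by
  choose! ρ σ hρ hσ hgap using fun c (hc : Jump μ η c) => hc
  set m := μ (1, 0)
  refine Set.Finite.of_finite_image (f := fun c => ⌊(ρ c).1 / η⌋) ?_ ?_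
  · refine (Set.finite_Icc ⌊-m / η⌋ ⌊m / η⌋).subset ?_
    rintro _ ⟨c, hc, rfl⟩
    have := abs_le.1 (h.supports_bound (hρ c hc)).1
    exact ⟨Int.floor_le_floor (div_le_div_of_nonneg_right this.1 hη.le),
      Int.floor_le_floor (div_le_div_of_nonneg_right this.2 hη.le)⟩
  · intro c hc c' hc' e
    by_contra hne
    have step : ∀ a b, Jump μ η a → Jump μ η b → a < b → ⌊(ρ a).1 / η⌋ < ⌊(ρ b).1 / η⌋ := by
      intro a b ha hb hab
      have h1 := h.supports_mono hab (hρ a ha) (hσ b hb)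
      have h2 := hgap b hb
      have h3 : (ρ a).1 / η + 1 ≤ (ρ b).1 / η := by
        rw [div_add_one hη.ne']
        exact div_le_div_of_nonneg_right (by linarith) hη.le
      have h4 := Int.floor_le_floor h3
      rw [Int.floor_add_one] at h4
      omega
    rcases lt_or_gt_of_ne hne with hlt | hlt
    · exact (step c c' hc hc' hlt).ne e
    · exact (step c' c hc' hc hlt).ne e.symm

theorem finite_jumps_Icc {η : ℝ} (hη : 0 < η) (κ : ℝ) :
    {c | Jump μ η c ∧ |c| ≤ κ}.Finite :=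
  (h.finite_jumps hη).subset fun _ hc => hc.1

/-- One-sided limits of the horizontal components agree. -/
theorem limit_side {s t : ℕ → ℝ} {ρ σ : ℕ → ℝ × ℝ} {c : ℝ} {a b : ℝ}
    (hρ : ∀ n, Supports μ (s n, 1) (ρ n)) (hσ : ∀ n, Supports μ (t n, 1) (σ n))
    (hs : Tendsto s atTop (𝓝 c)) (ht : Tendsto t atTop (𝓝 c))
    (ha : Tendsto (fun n => (ρ n).1) atTop (𝓝 a)) (hb : Tendsto (fun n => (σ n).1) atTop (𝓝 b))
    (hside : (∀ n, c < s n ∧ c < t n) ∨ ∀ n, s n < c ∧ t n < c) : a = b := by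
  rcases hside with hside | hside
  · refine le_antisymm ?_ ?_
    · refine ge_of_tendsto' hb fun k => le_of_tendsto ha ?_
      filter_upwards [hs.eventually_lt_const (hside k).2] with n hn
      exact h.supports_mono hn (hρ n) (hσ k)
    · refine ge_of_tendsto' ha fun k => le_of_tendsto hb ?_
      filter_upwards [ht.eventually_lt_const (hside k).1] with n hn
      exact h.supports_mono hn (hσ n) (hρ k)
  · refine le_antisymm ?_ ?_
    · refine le_of_tendsto' ha fun k => ge_of_tendsto hb ?_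
      filter_upwards [ht.eventually_const_lt (hside k).1] with n hn
      exact h.supports_mono hn (hρ k) (hσ n)
    · refine le_of_tendsto' hb fun k => ge_of_tendsto ha ?_
      filter_upwards [hs.eventually_const_lt (hside k).2] with n hn
      exact h.supports_mono hn (hσ k) (hρ n)

theorem normSmooth : NormSmoothStmt μ := by
  intro η hη κ
  by_contra hne
  push Not at hne
  choose s hs hfar hnot using fun n : ℕ => hne (1 / ((n : ℝ) + 1)) (by positivity)
  simp only [Smooth] at hnot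
  push Not at hnot
  choose t t' ρ σ ht ht' hρ hσ hgap using hnot
  obtain ⟨⟨c, ρ₀, σ₀⟩, -, φ, hφ, hlim⟩ :=
    ((isCompact_Icc (a := -κ) (b := κ)).prod
      ((isCompact_box (μ (1, 0))).prod (isCompact_box (μ (1, 0))))).tendsto_subseq
      (x := fun n => (s n, ρ n, σ n))
      fun n => ⟨abs_le.1 (hs n), h.supports_mem_box (hρ n), h.supports_mem_box (hσ n)⟩
  have hc : Tendsto (fun n => s (φ n)) atTop (𝓝 c) := (continuous_fst.tendsto _).comp hlim
  have hρl : Tendsto (fun n => ρ (φ n)) atTop (𝓝 ρ₀) :=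
    ((continuous_fst.comp continuous_snd).tendsto _).comp hlim
  have hσl : Tendsto (fun n => σ (φ n)) atTop (𝓝 σ₀) :=
    ((continuous_snd.comp continuous_snd).tendsto _).comp hlim
  have hδ := (tendsto_one_div_add_atTop_nhds_zero_nat (𝕜 := ℝ)).comp hφ.tendsto_atTop
  have near : ∀ u : ℕ → ℝ, (∀ n, |u n - s n| ≤ 1 / ((n : ℝ) + 1)) →
      Tendsto (fun n => u (φ n)) atTop (𝓝 c) := by
    intro u hu
    have h0 : Tendsto (fun n => u (φ n) - s (φ n)) atTop (𝓝 0) :=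
      squeeze_zero_norm (fun n => hu (φ n)) hδ
    simpa using h0.add hc
  have htl := near t ht
  have htl' := near t' ht'
  have hone : Tendsto (fun _ : ℕ => (1 : ℝ)) atTop (𝓝 1) := tendsto_const_nhds
  have hS := h.supports_of_tendsto (fun n => hρ (φ n)) (htl.prodMk_nhds hone) hρl
  have hS' := h.supports_of_tendsto (fun n => hσ (φ n)) (htl'.prodMk_nhds hone) hσl
  have hρ1 := (continuous_fst.tendsto _).comp hρl
  have hσ1 := (continuous_fst.tendsto _).comp hσl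
  have hdiff : 2 * η ≤ |ρ₀.1 - σ₀.1| :=
    ge_of_tendsto' ((hρ1.sub hσ1).abs) fun n => (hgap (φ n)).le
  have hJ : Jump μ η c := by
    rcases le_abs.1 hdiff with hd | hd
    · exact ⟨ρ₀, σ₀, hS, hS', by linarith⟩
    · exact ⟨σ₀, ρ₀, hS', hS, by linarith⟩
  have hsides : ∀ n, (c < t n ∧ c < t' n) ∨ (t n < c ∧ t' n < c) := by
    intro n
    have h1 := abs_le.1 (ht n)
    have h2 := abs_le.1 (ht' n)
    rcases lt_abs.1 (hfar n c hJ) with h3 | h3
    · exact Or.inl ⟨by linarith, by linarith⟩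
    · exact Or.inr ⟨by linarith, by linarith⟩
  have hsub : ∀ ψ : ℕ → ℕ, StrictMono ψ →
      ((∀ n, c < t (φ (ψ n)) ∧ c < t' (φ (ψ n))) ∨ ∀ n, t (φ (ψ n)) < c ∧ t' (φ (ψ n)) < c) →
      ρ₀.1 = σ₀.1 := fun ψ hψ hside =>
    h.limit_side (fun n => hρ (φ (ψ n))) (fun n => hσ (φ (ψ n))) (htl.comp hψ.tendsto_atTop)
      (htl'.comp hψ.tendsto_atTop) (hρ1.comp hψ.tendsto_atTop) (hσ1.comp hψ.tendsto_atTop) hside
  have heq : ρ₀.1 = σ₀.1 := by
    by_cases hf : ∃ᶠ n in atTop, c < t (φ n) ∧ c < t' (φ n)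
    · obtain ⟨ψ, hψ, hψ'⟩ := extraction_of_frequently_atTop hf
      exact hsub ψ hψ (Or.inl hψ')
    · rw [not_frequently] at hf
      obtain ⟨N, hN⟩ := eventually_atTop.1 hf
      exact hsub (fun n => n + N) (fun a b hab => Nat.add_lt_add_right hab N)
        (Or.inr fun n => (hsides _).resolve_left (hN _ (Nat.le_add_left N n)))
  rw [heq, sub_self, abs_zero] at hdiff
  linarith

end IsLatticeNorm

end Vale.Agent.P158.V4
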