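import Vale.Agent.P158.V4.ClassDefs
import Vale.Agent.P158.V4.Norm
import Vale.Agent.P158.V4.Rays

/-!
P158: an end whose limit directions avoid the horizontal extreme functional has a strict slope, and
the two ends of a bigeodesic in one such cone do not turn (note 1433, section 7).
-/

namespace Vale.Agent.P158.V4

open Filter Topology

/-- The position, scaled by its lattice norm. -/
noncomputable def dirOf (z : Pt) : ℝ × ℝ := ((l1 (0, 0) z : ℝ)⁻¹ * z.1, (l1 (0, 0) z : ℝ)⁻¹ * z.2)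

variable {μ : ℝ × ℝ → ℝ} {ω : Cfg}

theorem l1_zero (z : Pt) : (l1 (0, 0) z : ℝ) = |(z.1 : ℝ)| + |(z.2 : ℝ)| := by
  simp only [l1, Nat.cast_add, Nat.cast_natAbs, Int.cast_abs, zero_sub, Int.cast_neg, abs_neg]

theorem abs_dirOf {z : Pt} (hz : z ≠ (0, 0)) : |(dirOf z).1| + |(dirOf z).2| = 1 := by
  have hl : (0 : ℝ) < l1 (0, 0) z := by
    have : l1 (0, 0) z ≠ 0 := fun h => hz (by unfold l1 at h; ext <;> simp at h ⊢ <;> omega)
    exact_mod_cast Nat.pos_of_ne_zero this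
  simp only [dirOf, abs_mul, abs_inv, abs_of_pos hl]
  rw [← mul_add, ← l1_zero, inv_mul_cancel₀ hl.ne']

theorem dirOf_mem_box (z : Pt) : dirOf z ∈ Set.Icc (-1 : ℝ) 1 ×ˢ Set.Icc (-1 : ℝ) 1 := by
  by_cases hz : z = (0, 0)
  · simp [hz, dirOf]
  · have h := abs_dirOf hz
    exact ⟨abs_le.1 (by linarith [abs_nonneg (dirOf z).2]), abs_le.1 (by linarith [abs_nonneg (dirOf z).1])⟩

theorem eventually_l1 {v : ℕ → Pt} (hv : Function.Injective v) (a : Pt) (N : ℕ) :
    ∀ᶠ n in atTop, N < l1 a (v n) := by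
  have hfin : {z : Pt | l1 a z ≤ N}.Finite :=
    ((Set.finite_Icc (a.1 - N) (a.1 + N)).prod (Set.finite_Icc (a.2 - N) (a.2 + N))).subset fun z hz => by
      simp only [Set.mem_ofPred_eq, l1] at hz
      simp only [Set.mem_prod, Set.mem_Icc]
      omega
  have h := (hfin.preimage hv.injOn).eventually_cofinite_notMem
  rw [Nat.cofinite_eq_atTop] at h
  exact h.mono fun n hn => not_le.1 hn

theorem clusterDir_mem {e : ℕ → Pt} (hne : ∀ᶠ n in atTop, e n ≠ (0, 0)) {θ : ℝ × ℝ}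
    (hθ : MapClusterPt θ atTop fun n => dirOf (e n)) : |θ.1| + |θ.2| = 1 := by
  obtain ⟨φ, hφ, hlim⟩ := TopologicalSpace.FirstCountableTopology.tendsto_subseq hθ
  have hl : Tendsto (fun n => |(dirOf (e (φ n))).1| + |(dirOf (e (φ n))).2|) atTop (𝓝 (|θ.1| + |θ.2|)) :=
    ((((continuous_fst.tendsto _).comp hlim).abs).add (((continuous_snd.tendsto _).comp hlim).abs))
  refine tendsto_nhds_unique hl (tendsto_const_nhds.congr' ?_)
  filter_upwards [hφ.tendsto_atTop.eventually hne] with n hn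
  exact (abs_dirOf hn).symm

/-- The limit slopes of an end form a compact set of slopes of strict supporting functionals. -/
theorem exists_end_slope (h : IsLatticeNorm μ) {e : ℕ → Pt} (hinj : Function.Injective e)
    (hdir : ∀ θ, MapClusterPt θ atTop (fun n => dirOf (e n)) →
      ∀ ρ, Supports μ θ ρ → |ρ.1| ≠ μ (1, 0)) :
    ∃ κ, StrictSlope μ κ ∧ ∀ κ', κ < κ' → ∀ᶠ n in atTop,
      |((e n).1 : ℝ)| < κ' * |((e n).2 : ℝ)| := by
  set d := fun n => dirOf (e n) with hd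
  have hne : ∀ᶠ n in atTop, e n ≠ (0, 0) := (eventually_l1 hinj (0, 0) 0).mono fun n hn he => by
    rw [he] at hn; simp [l1] at hn
  have hbox : IsCompact (Set.Icc (-1 : ℝ) 1 ×ˢ Set.Icc (-1 : ℝ) 1) := isCompact_Icc.prod isCompact_Icc
  have hclosed : IsClosed {θ | MapClusterPt θ atTop d} := isClosed_setOf_clusterPt
  have hmem : {θ | MapClusterPt θ atTop d} ⊆ Set.Icc (-1 : ℝ) 1 ×ˢ Set.Icc (-1 : ℝ) 1 := fun θ hθ => by
    have := clusterDir_mem hne hθ
    exact ⟨abs_le.1 (by linarith [abs_nonneg θ.2]), abs_le.1 (by linarith [abs_nonneg θ.1])⟩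
  have hnonempty : {θ | MapClusterPt θ atTop d}.Nonempty := by
    obtain ⟨θ, -, hθ⟩ := hbox.exists_mapClusterPt (f := atTop) (u := d)
      (tendsto_principal.2 (Eventually.of_forall fun n => dirOf_mem_box (e n)))
    exact ⟨θ, hθ⟩
  have hy : ∀ θ, MapClusterPt θ atTop d → θ.2 ≠ 0 := fun θ hθ h0 => by
    obtain ⟨ρ, hρ⟩ := h.exists_supports θ
    have hθ0 : θ ≠ 0 := fun h00 => by simpa [h00] using clusterDir_mem hne hθ
    exact hdir θ hθ ρ hρ (h.axis_supports hθ0 h0 hρ)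
  obtain ⟨θ, hθ, hmax⟩ := (hbox.of_isClosed_subset hclosed hmem).exists_isMaxOn hnonempty
    (f := fun θ : ℝ × ℝ => |θ.1 / θ.2|)
    ((continuous_fst.continuousOn.div continuous_snd.continuousOn hy).abs)
  refine ⟨|θ.1 / θ.2|, h.strictSlope_of_dir (hy θ hθ) (hdir θ hθ), fun κ' hκ' => ?_⟩
  by_contra hev
  simp only [not_eventually, not_lt] at hev
  obtain ⟨φ, hφ, hφ'⟩ := extraction_of_frequently_atTop hev
  obtain ⟨z, -, ψ, hψ, hlim⟩ := hbox.tendsto_subseq (x := fun n => d (φ n)) fun n => dirOf_mem_box _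
  have hz : MapClusterPt z atTop d :=
    (hlim.mapClusterPt).of_comp ((hφ.comp hψ).tendsto_atTop)
  have hbad : κ' * |z.2| ≤ |z.1| := by
    refine le_of_tendsto_of_tendsto' (((continuous_snd.tendsto _).comp hlim).abs.const_mul κ')
      ((continuous_fst.tendsto _).comp hlim).abs fun n => ?_
    have := hφ' (ψ n)
    simp only [Function.comp_apply, hd, dirOf, abs_mul, abs_inv, Nat.abs_cast]
    rw [mul_left_comm]
    exact mul_le_mul_of_nonneg_left this (by positivity)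
  have hle : |z.1 / z.2| ≤ |θ.1 / θ.2| := hmax hz
  rw [abs_div, div_le_iff₀ (abs_pos.2 (hy z hz))] at hle
  nlinarith [abs_pos.2 (hy z hz)]

theorem eventually_sign {e : ℕ → Pt} (hadj : ∀ n, grid.Adj (e n) (e (n + 1)))
    (hne : ∀ᶠ n in atTop, (e n).2 ≠ 0) :
    (∀ᶠ n in atTop, 0 < (e n).2) ∨ ∀ᶠ n in atTop, (e n).2 < 0 := by
  obtain ⟨N, hN⟩ := eventually_atTop.1 hne
  have step : ∀ n, N ≤ n → ((0 < (e N).2 → 0 < (e n).2) ∧ ((e N).2 < 0 → (e n).2 < 0)) := by
    intro n hn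
    induction n, hn using Nat.le_induction with
    | base => exact ⟨id, id⟩
    | succ n hn ih =>
      have h1 := hadj n
      rw [grid_adj_iff] at h1
      have h2 := hN (n + 1) (by omega)
      simp only [abs_eq_max_neg] at h1
      exact ⟨fun h0 => by have := ih.1 h0; omega, fun h0 => by have := ih.2 h0; omega⟩
  rcases lt_or_gt_of_ne (hN N le_rfl) with h0 | h0
  · exact Or.inr (eventually_atTop.2 ⟨N, fun n hn => (step n hn).2 h0⟩)
  · exact Or.inl (eventually_atTop.2 ⟨N, fun n hn => (step n hn).1 h0⟩)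

theorem exists_height {e : ℕ → Pt} (hadj : ∀ n, grid.Adj (e n) (e (n + 1)))
    (hup : Tendsto (fun n => (e n).2) atTop atTop) {N : ℕ} {H : ℤ} (hH : (e N).2 ≤ H) :
    ∃ n, N ≤ n ∧ (e n).2 = H := by
  classical
  have hex : ∃ n, N ≤ n ∧ H ≤ (e n).2 := by
    obtain ⟨n, hn⟩ := ((eventually_ge_atTop N).and (hup.eventually (eventually_ge_atTop H))).exists
    exact ⟨n, hn⟩
  obtain ⟨hn, hn'⟩ := Nat.find_spec hex
  refine ⟨Nat.find hex, hn, le_antisymm ?_ hn'⟩
  rcases Nat.eq_or_lt_of_le hn with heq | hlt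
  · rwa [← heq]
  · have hmin := Nat.find_min hex (show Nat.find hex - 1 < Nat.find hex by omega)
    have h1 := hadj (Nat.find hex - 1)
    rw [show Nat.find hex - 1 + 1 = Nat.find hex by omega, grid_adj_iff] at h1
    simp only [abs_eq_max_neg] at h1
    have : (e (Nat.find hex - 1)).2 < H := by
      by_contra hle
      exact hmin ⟨by omega, not_lt.1 hle⟩
    omega

/-- Strictly above the horizontal bound inside the cone of a strict slope. -/
theorem cone_excess (h : IsLatticeNorm μ) {κ : ℝ} (hκ : StrictSlope μ κ) :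
    ∃ δ > 0, ∀ x y : ℝ, 0 ≤ y → |x| ≤ κ * y → μ (1, 0) * |x| + δ * y ≤ μ (x, y) := by
  obtain ⟨κ', hκ', a, -, ha, hb⟩ := h.strictSlope_bound hκ
  refine ⟨(μ (1, 0) - a) * (κ' - κ), mul_pos (by linarith) (by linarith), fun x y hy hxy => ?_⟩
  wlog hx : 0 ≤ x generalizing x
  · have := this (-x) (by rwa [abs_neg]) (by linarith)
    rwa [h.flip, abs_neg] at this
  rw [abs_of_nonneg hx] at hxy ⊢
  rcases hy.eq_or_lt with rfl | hy
  · have hx0 : x = 0 := le_antisymm (by simpa using hxy) hx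
    simp [hx0, h.zero]
  have hκ0 : 0 ≤ κ' := hκ.1.trans hκ'.le
  obtain ⟨ρ, hρ⟩ := h.exists_supports (κ', 1)
  have h1 := hρ.1 (x, y)
  have h2 := hρ.2
  simp only at h1 h2
  have h3 : ρ.1 ≤ a := (le_abs_self _).trans (hb κ' ρ (abs_of_nonneg hκ0).le hρ)
  have h4 : μ (1, 0) * κ' ≤ μ (κ', 1) := by
    have h5 := h.tri (κ', 1) (κ', -1)
    have h6 : μ (κ', -1) = μ (κ', 1) := by
      rw [← h.flip κ' (-1), ← h.neg, Prod.neg_mk, neg_neg, neg_neg]
    rw [h6, Prod.mk_add_mk, add_neg_cancel, h.horizontal, abs_of_nonneg (by linarith)] at h5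
    linarith
  nlinarith [mul_le_mul_of_nonneg_left h4 hy.le, mul_le_mul_of_nonneg_right h3 (by nlinarith : 0 ≤ κ' * y - x)]

theorem lane_tt (h0 : ∀ e, 0 ≤ ω e) {v : ℤ → Pt} (hv : IsLane ω v) (i : ℤ) (n : ℕ) :
    tt ω (v i) (v (i + n)) = ∑ k ∈ Finset.range n, ω s(v (i + k), v (i + k + 1)) := by
  refine le_antisymm ?_ (le_tt fun p => hv.geo i n p)
  obtain ⟨p, hp, -, -⟩ := exists_walk_Ico ω (v := fun k : ℕ => v (i + k))
    (fun k => by simpa [add_assoc] using hv.adj (i + k)) 0 n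
  refine le_of_le_of_eq (tt_le h0 (p.copy (u' := v i) (v' := v (i + n)) (by simp) (by simp))) ?_
  have : wt ω (p.copy (u' := v i) (v' := v (i + n)) (by simp) (by simp)) = wt ω p := by simp [wt]
  rw [this, hp]
  rw [Nat.zero_add, ← Finset.range_eq_Ico]
  exact Finset.sum_congr rfl fun k _ => by simp [add_assoc]

theorem lane_tt_add (h0 : ∀ e, 0 ≤ ω e) {v : ℤ → Pt} (hv : IsLane ω v) (m n : ℕ) :
    tt ω (v (-(m : ℤ))) (v n) = tt ω (v (-(m : ℤ))) (v 0) + tt ω (v 0) (v n) := by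
  have h1 := lane_tt h0 hv (-(m : ℤ)) (m + n)
  have h2 := lane_tt h0 hv (-(m : ℤ)) m
  have h3 := lane_tt h0 hv 0 n
  rw [Finset.sum_range_add] at h1
  simp only [neg_add_cancel, Nat.cast_add, neg_add_cancel_left, zero_add, ← add_assoc] at h1 h2 h3
  rw [h1, h2, h3]

theorem IsLane.reverse {v : ℤ → Pt} (hv : IsLane ω v) : IsLane ω fun i => v (-i) := by
  refine ⟨fun i => ?_, hv.inj.comp neg_injective, fun i n p => ?_⟩
  · have := (hv.adj (-(i + 1))).symm
    rwa [show -(i + 1) + 1 = -i by ring] at this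
  · have h := hv.geo (-(i + n)) n (p.reverse.copy rfl (by ring_nf))
    rw [show wt ω (p.reverse.copy rfl (by ring_nf)) = wt ω p by simp [wt, List.sum_reverse]] at h
    refine le_of_eq_of_le ?_ h
    rw [← Finset.sum_range_reflect]
    refine Finset.sum_congr rfl fun k hk => ?_
    rw [Finset.mem_range] at hk
    rw [Sym2.eq_swap, show -(i + (n - 1 - k : ℕ) + 1) = -(i + n) + k by omega,
      show -(i + (n - 1 - k : ℕ)) = -(i + n) + k + 1 by omega]

/-- Two ends in one half-plane contradict the strictness of the slope. -/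
theorem no_turn (h : IsLatticeNorm μ) {κ : ℝ} (hκ : StrictSlope μ κ) (h0 : ∀ e, 0 ≤ ω e) {v : ℤ → Pt}
    (hv : IsLane ω v) (hshape : ∀ ε > 0, ∃ r : ℕ, ∀ R : ℝ, (r : ℝ) ≤ R → ∀ i j : ℤ, i ≤ j →
      (l1 (v 0) (v i) : ℝ) ≤ R → (l1 (v 0) (v j) : ℝ) ≤ R →
      |tt ω (v i) (v j) - μ (toR (v j - v i))| ≤ ε * R) {σ : ℤ} (hσ : σ = 1 ∨ σ = -1)
    (hP : ∀ᶠ n : ℕ in atTop, 0 ≤ σ * (v n - v 0).2 ∧
      |((v n - v 0).1 : ℝ)| ≤ κ * ((σ * (v n - v 0).2 : ℤ) : ℝ))
    (hQ : ∀ᶠ n : ℕ in atTop, 0 ≤ σ * (v (-(n : ℤ)) - v 0).2 ∧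
      |((v (-(n : ℤ)) - v 0).1 : ℝ)| ≤ κ * ((σ * (v (-(n : ℤ)) - v 0).2 : ℤ) : ℝ)) : False := by
  obtain ⟨δ, hδ, hex⟩ := cone_excess h hκ
  have hσ0 : σ * σ = 1 := by rcases hσ with rfl | rfl <;> norm_num
  -- rising sequences
  set e : Bool → ℕ → Pt := fun s n =>
    ((v (if s then (n : ℤ) else -(n : ℤ)) - v 0).1, σ * (v (if s then (n : ℤ) else -(n : ℤ)) - v 0).2)
  have hE : ∀ s, ∀ᶠ n in atTop, 0 ≤ (e s n).2 ∧ |((e s n).1 : ℝ)| ≤ κ * ((e s n).2 : ℝ) := by
    intro s; cases s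
    · simpa [e] using hQ
    · simpa [e] using hP
  have hinj : ∀ s, Function.Injective (e s) := by
    intro s m n hmn
    simp only [e, Prod.mk.injEq] at hmn
    have h2 : (v (if s then (m : ℤ) else -(m : ℤ)) - v 0).2 = (v (if s then (n : ℤ) else -(n : ℤ)) - v 0).2 := by
      have := congrArg (σ * ·) hmn.2
      simpa only [← mul_assoc, hσ0, one_mul] using this
    have := hv.inj (sub_left_injective (Prod.ext hmn.1 h2))
    cases s <;> simpa using this
  have hadj : ∀ s n, grid.Adj (e s n) (e s (n + 1)) := by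
    intro s n
    have ha : ∀ a c : Pt, grid.Adj a c →
        grid.Adj ((a - v 0).1, σ * (a - v 0).2) ((c - v 0).1, σ * (c - v 0).2) := fun a c hac => by
      rw [grid_adj_iff] at hac ⊢
      simpa [← mul_sub, abs_mul, show |σ| = 1 by rcases hσ with rfl | rfl <;> norm_num] using hac
    cases s
    · refine ha _ _ ?_
      have := (hv.adj (-((n : ℤ) + 1))).symm
      rw [show -((n : ℤ) + 1) + 1 = -(n : ℤ) by ring] at this
      simpa using this
    · exact ha _ _ (by simpa using hv.adj n)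
  have hup : ∀ s, Tendsto (fun n => (e s n).2) atTop atTop := by
    intro s
    refine tendsto_atTop.2 fun B => ?_
    obtain ⟨q, hq⟩ := exists_nat_ge ((κ + 1) * max (B : ℝ) 0)
    filter_upwards [hE s, eventually_l1 (hinj s) (0, 0) q] with n hn hn'
    by_contra hlt
    push Not at hlt
    have h2 : ((e s n).2 : ℝ) ≤ max (B : ℝ) 0 := le_max_of_le_left (by exact_mod_cast hlt.le)
    have h3 : (q : ℝ) < |((e s n).1 : ℝ)| + |((e s n).2 : ℝ)| := by
      rw [← l1_zero]; exact_mod_cast hn'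
    have hy : 0 ≤ ((e s n).2 : ℝ) := by exact_mod_cast hn.1
    rw [abs_of_nonneg hy] at h3
    nlinarith [hκ.1, hn.2]
  obtain ⟨r, hr⟩ := hshape (δ / (4 * (κ + 2))) (by have := hκ.1; positivity)
  obtain ⟨N, hN⟩ := eventually_atTop.1 ((hE true).and (hE false))
  set H : ℤ := max (max (e true N).2 (e false N).2) (r + 1)
  obtain ⟨n, hnN, hn⟩ := exists_height (hadj true) (hup true) (show (e true N).2 ≤ H by omega)
  obtain ⟨m, hmN, hm⟩ := exists_height (hadj false) (hup false) (show (e false N).2 ≤ H by omega)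
  have hnb := (hN n hnN).1.2
  have hmb := (hN m hmN).2.2
  rw [hn] at hnb
  rw [hm] at hmb
  simp only [e, if_true, Bool.false_eq_true, if_false] at hn hm hnb hmb
  set a := v n - v 0
  set c := v (-(m : ℤ)) - v 0
  have hH : (1 : ℝ) ≤ H ∧ (r : ℝ) ≤ H := by
    constructor
    · exact_mod_cast (show (1 : ℤ) ≤ H by omega)
    · exact_mod_cast (show (r : ℤ) ≤ H by omega)
  have ha2 : a.2 = σ * H := by rw [← hn, ← mul_assoc, hσ0, one_mul]
  have hc2 : c.2 = σ * H := by rw [← hm, ← mul_assoc, hσ0, one_mul]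
  have habs : |((σ * H : ℤ) : ℝ)| = H := by
    rcases hσ with rfl | rfl <;> push_cast <;> simp [abs_of_nonneg (zero_le_one.trans hH.1)]
  have hl : ∀ z : Pt, |((z - v 0).1 : ℝ)| ≤ κ * H → (z - v 0).2 = σ * H →
      (l1 (v 0) z : ℝ) ≤ (κ + 1) * H := by
    intro z h1 h2
    have : (l1 (v 0) z : ℝ) = |((z - v 0).1 : ℝ)| + |((z - v 0).2 : ℝ)| := by
      simp only [l1, Nat.cast_add, Nat.cast_natAbs, Int.cast_abs, Prod.fst_sub, Prod.snd_sub, Int.cast_sub]
      rw [abs_sub_comm, abs_sub_comm ((v 0).2 : ℝ)]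
    rw [this, h2, habs]
    linarith
  have hR : (r : ℝ) ≤ (κ + 2) * H := by nlinarith [hκ.1]
  have hbig : ∀ z, (l1 (v 0) z : ℝ) ≤ (κ + 1) * H → (l1 (v 0) z : ℝ) ≤ (κ + 2) * H := fun z hz => by
    linarith
  have l0 : (l1 (v 0) (v 0) : ℝ) ≤ (κ + 2) * H := by simp [l1]; nlinarith [hκ.1]
  have la := hbig _ (hl (v n) hnb ha2)
  have lc := hbig _ (hl (v (-(m : ℤ))) hmb hc2)
  have s1 := abs_le.1 (hr _ hR (-(m : ℤ)) 0 (by omega) lc l0)
  have s2 := abs_le.1 (hr _ hR 0 n (by omega) l0 la)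
  have s3 := abs_le.1 (hr _ hR (-(m : ℤ)) n (by omega) lc la)
  have hsum := lane_tt_add h0 hv m n
  have eac : v n - v (-(m : ℤ)) = a - c := by simp only [a, c]; abel
  have ec : v 0 - v (-(m : ℤ)) = -c := by simp only [c]; abel
  rw [eac] at s3
  rw [ec] at s1
  have fy : ∀ x y : ℝ, μ (x, -y) = μ (x, y) := fun x y => by
    rw [← h.flip x (-y), ← h.neg, Prod.neg_mk, neg_neg, neg_neg]
  have tA : μ (1, 0) * |(a.1 : ℝ)| + δ * H ≤ μ (toR a) := by
    have := hex a.1 H (zero_le_one.trans hH.1) hnb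
    rw [show toR a = ((a.1 : ℝ), ((σ * H : ℤ) : ℝ)) by rw [← ha2]; rfl]
    rcases hσ with rfl | rfl
    · simpa using this
    · simpa [fy] using this
  have tC : μ (1, 0) * |(c.1 : ℝ)| + δ * H ≤ μ (toR (-c)) := by
    have := hex c.1 H (zero_le_one.trans hH.1) hmb
    rw [show toR (-c) = (-(c.1 : ℝ), -((σ * H : ℤ) : ℝ)) by rw [← hc2]; simp [toR], ← Prod.neg_mk, h.neg]
    rcases hσ with rfl | rfl
    · simpa using this
    · simpa [fy] using this
  have tAC : μ (toR (a - c)) ≤ μ (1, 0) * |(a.1 : ℝ)| + μ (1, 0) * |(c.1 : ℝ)| := by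
    rw [show toR (a - c) = ((a.1 : ℝ) - c.1, 0) by simp [toR, ha2, hc2], h.horizontal]
    nlinarith [abs_sub (a.1 : ℝ) c.1, h.axis_pos]
  have hε : δ / (4 * (κ + 2)) * ((κ + 2) * H) = δ / 4 * H := by
    have : κ + 2 ≠ 0 := by linarith [hκ.1]
    field_simp
  rw [hε] at s1 s2 s3
  have hδH : 0 < δ * H := mul_pos hδ (by linarith)
  have hd : v n - v 0 = a := rfl
  rw [hd] at s2
  linarith

end Vale.Agent.P158.V4
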