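import Vale.Agent.P158.V4.Geodesic

/-!
P158: tools for geodesics from common far points: exits from a set, frequent choices, and walks
avoiding finitely many edges.
-/

namespace Vale.Agent.P158.V4

open Filter Topology

variable {bb cg : ℝ} {x ω : Cfg} {u v : Pt}

theorem edgeOn_extend_right (h0 : ∀ e, 0 ≤ x e) {q y z w n : Pt} (hy : OnGeo x q z y)
    (h : EdgeOn x q y w n) : EdgeOn x q z w n := by
  refine ⟨h.1, le_antisymm ?_ ?_⟩
  · rw [← hy, ← h.2]
    linarith [tt_triangle h0 n y z]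
  · have h1 : tt x w n ≤ x s(w, n) := (tt_le h0 h.1.toWalk).trans_eq (by simp [wt])
    linarith [tt_triangle h0 q w z, tt_triangle h0 w n z]

theorem exists_exit {u v : Pt} (p : grid.Walk u v) (P : Pt → Prop) (hu : P u) (hv : ¬ P v) :
    ∃ w n, ∃ hadj : grid.Adj w n, ∃ p₁ : grid.Walk u w, ∃ p₂ : grid.Walk n v,
      p = p₁.append (.cons hadj p₂) ∧ P w ∧ ¬ P n := by
  induction p with
  | nil => exact absurd hu hv
  | @cons a a' z hadj p ih =>
    by_cases ha' : P a'
    · obtain ⟨w, n, h, p₁, p₂, rfl, hw, hn⟩ := ih ha' hv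
      exact ⟨w, n, h, .cons hadj p₁, p₂, rfl, hw, hn⟩
    · exact ⟨a, a', hadj, .nil, p, rfl, hu, ha'⟩

theorem frequently_exists {β : Type*} {F : Finset β} {P : β → ℕ → Prop}
    (h : ∃ᶠ N in atTop, ∃ i ∈ F, P i N) : ∃ i ∈ F, ∃ᶠ N in atTop, P i N := by
  by_contra hc
  push Not at hc
  have hev : ∀ i ∈ F, ∀ᶠ N in atTop, ¬ P i N := fun i hi => hc i hi
  exact h ((Finset.eventually_all F).2 hev |>.mono fun N hN => fun ⟨i, hi, hP⟩ => hN i hi hP)

theorem eventually_notMem {r : ℕ → Pt} (hr : Function.Injective r) (S : Finset Pt) :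
    ∀ᶠ N in atTop, r N ∉ S := by
  have := (S.finite_toSet.preimage hr.injOn).eventually_cofinite_notMem
  rw [Nat.cofinite_eq_atTop] at this
  exact this

/-- The first visit of a finite set by a walk. -/
theorem exists_first_mem {u v : Pt} (p : grid.Walk u v) (V : Set Pt)
    (h : ∃ z ∈ p.support, z ∈ V) :
    ∃ r, r ∈ V ∧ ∃ p₁ : grid.Walk u r, ∃ p₂ : grid.Walk r v, p = p₁.append p₂ ∧
      ∀ z ∈ p₁.support, z = r ∨ z ∉ V := by
  induction p with
  | @nil a =>
    obtain ⟨z, hz, hzV⟩ := h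
    simp only [SimpleGraph.Walk.support_nil, List.mem_singleton] at hz
    exact ⟨a, hz ▸ hzV, .nil, .nil, rfl, fun w hw => Or.inl (by simpa using hw)⟩
  | @cons a a' z hadj p ih =>
    by_cases ha : a ∈ V
    · exact ⟨a, ha, .nil, .cons hadj p, rfl, fun w hw => Or.inl (by simpa using hw)⟩
    · obtain ⟨w, hw, hwV⟩ := h
      rw [SimpleGraph.Walk.support_cons, List.mem_cons] at hw
      have hw' : w ∈ p.support := hw.resolve_left fun e => ha (e ▸ hwV)
      obtain ⟨r, hr, p₁, p₂, rfl, hp₁⟩ := ih ⟨w, hw', hwV⟩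
      refine ⟨r, hr, .cons hadj p₁, p₂, rfl, fun t ht => ?_⟩
      rw [SimpleGraph.Walk.support_cons, List.mem_cons] at ht
      rcases ht with rfl | ht
      · exact Or.inr ha
      · exact hp₁ t ht

/-- A walk none of whose edges lies inside a finite set keeps its weight. -/
theorem wt_eq_of_avoid {E : Finset (Sym2 Pt)} {V : Set Pt} (hV : ∀ e ∈ E, ∀ z ∈ e, z ∈ V)
    (heq : ∀ e, e ∉ E → x e = ω e) {r : Pt} (p : grid.Walk u v)
    (hp : ∀ z ∈ p.support, z = r ∨ z ∉ V) : wt x p = wt ω p := by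
  unfold wt
  refine congrArg List.sum (List.map_congr_left fun e he => heq e fun heE => ?_)
  induction e using Sym2.ind with
  | _ a c =>
    have hne : a ≠ c := (p.adj_of_mem_edges he).ne
    rcases hp a (p.fst_mem_support_of_mem_edges he) with ha | ha
    · rcases hp c (p.snd_mem_support_of_mem_edges he) with hc' | hc'
      · exact hne (ha.trans hc'.symm)
      · exact hc' (hV _ heE c (Sym2.mem_mk_right _ _))
    · exact ha (hV _ heE a (Sym2.mem_mk_left _ _))

end Vale.Agent.P158.V4
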