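import Vale.Agent.P158.V4.Faces
import Vale.Agent.P158.V4.Assembly
import Vale.Agent.P158.V4.CrossRays
import Vale.Agent.P158.V4.Split

/-!
P158, note 1446 part D: two barrier rays in opposite diagonal faces confine every other geodesic
ray to one of the two sides of the diagonal, so four barriers confine it to one sector.
-/

namespace Vale.Agent.P158.V4

open Filter Topology

/-- All limit directions of the sequence share a supporting functional with `q`. -/
def DirShares (μ : ℝ × ℝ → ℝ) (q : ℝ × ℝ) (e : ℕ → Pt) : Prop :=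
  ∀ θ, MapClusterPt θ atTop (fun n => dirOf (e n)) → Shares μ q θ

/-- A geodesic ray in the face of the diagonal `q`. -/
def Barrier (μ : ℝ × ℝ → ℝ) (ω : Cfg) (q : ℝ × ℝ) : Prop :=
  ∃ r : Ray, IsTail ω r ∧ DirShares μ q r.pt

/-- Strictly on the upper side of the main diagonal and of its faces. -/
def Above (μ : ℝ × ℝ → ℝ) (θ : ℝ × ℝ) : Prop :=
  θ.1 < θ.2 ∧ ¬ Shares μ (1, 1) θ ∧ ¬ Shares μ (-1, -1) θ

theorem dirOf_neg (z : Pt) : dirOf (-z) = -dirOf z := by
  simp [dirOf, l1]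

theorem dirOf_smul (z : Pt) : toR z = (l1 (0, 0) z : ℝ) • dirOf z := by
  by_cases hz : z = (0, 0)
  · subst hz
    simp [toR, dirOf]
  · have hl : (0 : ℝ) < l1 (0, 0) z := by
      have : l1 (0, 0) z ≠ 0 := fun h => hz (by unfold l1 at h; ext <;> simp at h ⊢ <;> omega)
      exact_mod_cast Nat.pos_of_ne_zero this
    simp [toR, dirOf, hl.ne']

theorem clusterDir_ne_zero {e : ℕ → Pt} (hinj : Function.Injective e) {θ : ℝ × ℝ}
    (hθ : MapClusterPt θ atTop fun n => dirOf (e n)) : θ ≠ 0 := by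
  intro h
  have := clusterDir_mem ((eventually_l1 hinj (0, 0) 0).mono fun n hn he => by
    rw [he] at hn; simp [l1] at hn) hθ
  simp [h] at this

namespace IsLatticeNorm

variable {μ : ℝ × ℝ → ℝ} (h : IsLatticeNorm μ) (hnf : NoFacet μ) (hd1 : μ (1, 1) ≠ μ (1, 0))
  (hd2 : μ (1, 1) ≠ 2 * μ (1, 0))
include h

theorem shares_smul {q θ : ℝ × ℝ} {a : ℝ} (ha : 0 < a) (hs : Shares μ q (a • θ)) : Shares μ q θ := by
  obtain ⟨ρ, h1, h2⟩ := hs
  exact ⟨ρ, h1, (h.supports_smul_iff ha).1 h2⟩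

theorem shares_neg {q θ : ℝ × ℝ} (hs : Shares μ q θ) : Shares μ (-q) (-θ) := by
  obtain ⟨ρ, h1, h2⟩ := hs
  exact ⟨-ρ, h.supports_neg h1, h.supports_neg h2⟩

include hnf hd1 hd2

/-- The face of the diagonal lies in the open quadrant. -/
theorem shares_pos {θ : ℝ × ℝ} (hθ0 : θ ≠ 0) (hs : Shares μ (1, 1) θ) : 0 < θ.1 ∧ 0 < θ.2 := by
  obtain ⟨ρ, hd, hθ⟩ := hs
  -- the two axes are excluded
  have key : ∀ x y : ℝ, (x, y) ≠ (0 : ℝ × ℝ) → ∀ σ, Supports μ (1, 1) σ → Supports μ (x, y) σ →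
      0 < y := by
    intro x y h0 σ h1 h2
    by_contra hy
    push Not at hy
    have hc := h.supports_comb (a := -y) (c := 1) (by linarith) zero_le_one h1 h2
    have hxy : x ≠ y := by
      rintro rfl
      exact h.not_supports_neg (v := (1, 1)) (by simp) (a := -x) (by linarith) (by simp) h0 h1 h2
    rcases lt_or_gt_of_ne hxy with hlt | hlt
    · have h3 : Supports μ (-1, 0) σ := by
        refine (h.supports_smul_iff (a := y - x) (by linarith)).1 ?_
        convert hc using 1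
        ext <;> simp
        ring
      refine h.axis_diag hnf hd1 hd2 (ρ := (σ.2, σ.1)) (h.supports_swap' ?_) (h.supports_swap' h1)
      convert h.supports_comb zero_le_one zero_le_one h3 h1 using 1
      ext <;> simp
    · refine h.axis_diag hnf hd1 hd2 ((h.supports_smul_iff (a := x - y) (by linarith)).1 ?_) h1
      convert hc using 1
      ext <;> simp
      ring
  refine ⟨key θ.2 θ.1 (fun e => hθ0 ?_) _ (h.supports_swap' hd) (h.supports_swap' hθ),
    key θ.1 θ.2 hθ0 ρ hd hθ⟩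
  simp only [Prod.ext_iff, Prod.fst_zero, Prod.snd_zero] at e ⊢
  exact ⟨e.2, e.1⟩

/-- Raising a direction above the diagonal keeps it out of the two faces of the diagonal. -/
theorem above_column {θ η : ℝ × ℝ} (hθ : Above μ θ) {s : ℝ} (hs : 0 ≤ s) (hη0 : η ≠ 0)
    (h1 : η.1 = s * θ.1) (h2 : s * θ.2 ≤ η.2) :
    ¬ (Shares μ (1, 1) η ∨ Shares μ (-1, -1) η) := by
  intro hη
  have hpm : (0 < η.1 ∧ 0 < η.2) ∨ (η.1 < 0 ∧ η.2 < 0) := by
    rcases hη with hη | hη
    · exact Or.inl (h.shares_pos hnf hd1 hd2 hη0 hη)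
    · have := h.shares_pos hnf hd1 hd2 (neg_ne_zero.2 hη0) (by simpa using h.shares_neg hη)
      simp only [Prod.fst_neg, Prod.snd_neg, Left.neg_pos_iff] at this
      exact Or.inr this
  have hs0 : 0 < s := by
    rcases hs.lt_or_eq with hlt | rfl
    · exact hlt
    · rcases hpm with ⟨h3, -⟩ | ⟨h3, -⟩ <;> rw [h1, zero_mul] at h3 <;> exact absurd h3 (lt_irrefl _)
  have hgt : 0 < η.2 - η.1 := by nlinarith [hθ.1]
  set a := (s * θ.2 - η.1) / (η.2 - η.1) with ha
  have ha0 : 0 ≤ a := div_nonneg (by nlinarith [hθ.1]) hgt.le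
  have ha1 : a ≤ 1 := (div_le_one hgt).2 (by linarith)
  have hmul : a * (η.2 - η.1) = s * θ.2 - η.1 := div_mul_cancel₀ _ hgt.ne'
  rcases hη with hη | hη
  · obtain ⟨ρ, hρd, hρη⟩ := hη
    rcases hpm with ⟨h3, -⟩ | ⟨-, h3⟩
    · refine hθ.2.1 (h.shares_smul hs0 ⟨ρ, hρd, ?_⟩)
      convert h.supports_comb (a := a) (c := η.1 * (1 - a)) ha0 (by nlinarith) hρη hρd using 1
      ext <;> simp <;> linarith
    · linarith [(h.shares_pos hnf hd1 hd2 hη0 ⟨ρ, hρd, hρη⟩).2]
  · obtain ⟨ρ, hρd, hρη⟩ := hη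
    rcases hpm with ⟨h3, -⟩ | ⟨h3, -⟩
    · have := h.shares_pos hnf hd1 hd2 (neg_ne_zero.2 hη0)
        (by simpa using h.shares_neg ⟨ρ, hρd, hρη⟩)
      simp only [Prod.fst_neg, Left.neg_pos_iff] at this
      linarith
    · refine hθ.2.2 (h.shares_smul hs0 ⟨ρ, hρd, ?_⟩)
      convert h.supports_comb (a := a) (c := -η.1 * (1 - a)) ha0 (by nlinarith) hρη hρd using 1
      ext <;> simp <;> linarith

/-- Far points in a direction strictly above the diagonal have no barrier points over them. -/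
theorem column_free {z : ℕ → Pt} {θ : ℝ × ℝ}
    (hlim : Tendsto (fun k => dirOf (z k)) atTop (𝓝 θ)) (hl : Tendsto (fun k => l1 (0, 0) (z k)) atTop atTop)
    (hθ : Above μ θ) {e : ℕ → Pt} (he : Function.Injective e)
    (hdir : DirShares μ (1, 1) e ∨ DirShares μ (-1, -1) e) :
    ∀ᶠ k in atTop, ∀ i, ¬ ((e i).1 = (z k).1 ∧ (z k).2 ≤ (e i).2) := by
  classical
  by_contra hev
  simp only [not_eventually, not_forall, not_not] at hev
  obtain ⟨φ, hφ, hbad⟩ := extraction_of_frequently_atTop hev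
  choose i hi using hbad
  set p := fun k => e (i k)
  -- the barrier points go to infinity
  have hθ1 : θ.1 ≠ 0 ∨ 0 < θ.2 := by
    by_cases h' : θ.1 = 0
    · exact Or.inr (h' ▸ hθ.1)
    · exact Or.inl h'
  have hzl : ∀ k, ((z (φ k)).1 : ℝ) = l1 (0, 0) (z (φ k)) * (dirOf (z (φ k))).1 ∧
      ((z (φ k)).2 : ℝ) = l1 (0, 0) (z (φ k)) * (dirOf (z (φ k))).2 := fun k => by
    have := dirOf_smul (z (φ k))
    simpa [toR, Prod.ext_iff] using this
  obtain ⟨c, hc, hlow⟩ : ∃ c > 0, ∀ᶠ k in atTop,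
      c * (l1 (0, 0) (z (φ k)) : ℝ) ≤ l1 (0, 0) (p k) := by
    have hsub := hlim.comp hφ.tendsto_atTop
    rcases hθ1 with h' | h'
    · refine ⟨|θ.1| / 2, by positivity, ?_⟩
      have h1 : Tendsto (fun k => |(dirOf (z (φ k))).1|) atTop (𝓝 |θ.1|) :=
        ((continuous_fst.tendsto _).comp hsub).abs
      filter_upwards [h1.eventually_const_lt (show |θ.1| / 2 < |θ.1| by
        linarith [abs_pos.2 h'])] with k hk
      have e1 : ((p k).1 : ℝ) = (z (φ k)).1 := by exact_mod_cast (hi k).1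
      rw [l1_zero (p k), e1, (hzl k).1, abs_mul, Nat.abs_cast]
      nlinarith [abs_nonneg ((p k).2 : ℝ), (Nat.cast_nonneg _ : (0 : ℝ) ≤ l1 (0, 0) (z (φ k)))]
    · refine ⟨θ.2 / 2, by linarith, ?_⟩
      have h1 : Tendsto (fun k => (dirOf (z (φ k))).2) atTop (𝓝 θ.2) :=
        (continuous_snd.tendsto _).comp hsub
      filter_upwards [h1.eventually_const_lt (show θ.2 / 2 < θ.2 by linarith)] with k hk
      have e1 : ((z (φ k)).2 : ℝ) ≤ (p k).2 := by exact_mod_cast (hi k).2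
      rw [l1_zero (p k)]
      nlinarith [abs_nonneg ((p k).1 : ℝ), le_abs_self ((p k).2 : ℝ), (hzl k).2,
        (Nat.cast_nonneg _ : (0 : ℝ) ≤ l1 (0, 0) (z (φ k)))]
  have hinf : Tendsto i atTop atTop := by
    refine tendsto_atTop.2 fun N => ?_
    have hb : Tendsto (fun k => c * (l1 (0, 0) (z (φ k)) : ℝ)) atTop atTop :=
      (tendsto_natCast_atTop_atTop.comp (hl.comp hφ.tendsto_atTop)).const_mul_atTop hc
    filter_upwards [hlow, hb.eventually_gt_atTop
      (((Finset.range N).sup fun j => l1 (0, 0) (e j) : ℕ) : ℝ)] with k hk hk'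
    by_contra hN
    have : l1 (0, 0) (p k) ≤ (Finset.range N).sup fun j => l1 (0, 0) (e j) :=
      Finset.le_sup (f := fun j => l1 (0, 0) (e j)) (Finset.mem_range.2 (not_le.1 hN))
    have : ((l1 (0, 0) (p k) : ℕ) : ℝ) ≤
        (((Finset.range N).sup fun j => l1 (0, 0) (e j) : ℕ) : ℝ) := by exact_mod_cast this
    linarith
  obtain ⟨k₀, hk₀⟩ := eventually_atTop.1 (hlow.and ((hl.comp hφ.tendsto_atTop).eventually_gt_atTop 0))
  -- a common subsequence
  set s : ℕ → ℝ := fun k => (l1 (0, 0) (z (φ (k₀ + k))) : ℝ) / l1 (0, 0) (p (k₀ + k))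
  have hs : ∀ k, s k ∈ Set.Icc (0 : ℝ) (1 / c) := by
    intro k
    obtain ⟨h1, h2⟩ := hk₀ (k₀ + k) (by omega)
    have h2' : (0 : ℝ) < l1 (0, 0) (z (φ (k₀ + k))) := by exact_mod_cast h2
    have h3 : (0 : ℝ) < l1 (0, 0) (p (k₀ + k)) := lt_of_lt_of_le (mul_pos hc h2') h1
    refine ⟨by positivity, ?_⟩
    rw [div_le_div_iff₀ h3 hc]
    linarith
  obtain ⟨⟨η, t⟩, -, ψ, hψ, hconv⟩ := ((isCompact_Icc.prod isCompact_Icc).prod
    (isCompact_Icc (a := (0 : ℝ)) (b := 1 / c))).tendsto_subseq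
    (x := fun k => (dirOf (p (k₀ + k)), s k)) fun k => ⟨dirOf_mem_box _, hs k⟩
  have hsh : Tendsto (fun k => k₀ + ψ k) atTop atTop :=
    tendsto_atTop_mono (fun k => Nat.le_add_left _ _) hψ.tendsto_atTop
  have hη : Tendsto (fun k => dirOf (p (k₀ + ψ k))) atTop (𝓝 η) :=
    (continuous_fst.tendsto _).comp hconv
  have ht : Tendsto (fun k => s (ψ k)) atTop (𝓝 t) := (continuous_snd.tendsto _).comp hconv
  have hclu : MapClusterPt η atTop fun n => dirOf (e n) := hη.mapClusterPt.of_comp (hinf.comp hsh)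
  have hzz : Tendsto (fun k => dirOf (z (φ (k₀ + ψ k)))) atTop (𝓝 θ) :=
    hlim.comp (hφ.tendsto_atTop.comp hsh)
  have hrel : ∀ k, (dirOf (p (k₀ + k))).1 = s k * (dirOf (z (φ (k₀ + k)))).1 ∧
      s k * (dirOf (z (φ (k₀ + k)))).2 ≤ (dirOf (p (k₀ + k))).2 := by
    intro k
    obtain ⟨h1, h2⟩ := hk₀ (k₀ + k) (by omega)
    have h2' : (0 : ℝ) < l1 (0, 0) (z (φ (k₀ + k))) := by exact_mod_cast h2
    have h3 : (0 : ℝ) < l1 (0, 0) (p (k₀ + k)) := lt_of_lt_of_le (mul_pos hc h2') h1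
    have e1 : ((z (φ (k₀ + k))).1 : ℝ) = (p (k₀ + k)).1 := by exact_mod_cast (hi (k₀ + k)).1.symm
    have e2 : ((z (φ (k₀ + k))).2 : ℝ) ≤ (p (k₀ + k)).2 := by exact_mod_cast (hi (k₀ + k)).2
    simp only [dirOf, s]
    constructor
    · rw [e1]; field_simp
    · field_simp
      linarith
  refine h.above_column hnf hd1 hd2 hθ (s := t) (ge_of_tendsto' ht fun k => (hs _).1)
    (clusterDir_ne_zero he hclu)
    (tendsto_nhds_unique ((continuous_fst.tendsto _).comp hη)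
      ((ht.mul ((continuous_fst.tendsto _).comp hzz)).congr fun k => ((hrel (ψ k)).1).symm))
    (le_of_tendsto_of_tendsto' (ht.mul ((continuous_snd.tendsto _).comp hzz))
      ((continuous_snd.tendsto _).comp hη) fun k => (hrel (ψ k)).2)
    (hdir.imp (fun hd => hd η hclu) fun hd => hd η hclu)

end IsLatticeNorm

/-- A walk along a straight segment. -/
theorem exists_column (x : ℤ) {a c : ℤ} (h : a ≤ c) :
    ∃ p : grid.Walk (x, a) (x, c), ∀ P ∈ p.support, P.1 = x ∧ a ≤ P.2 ∧ P.2 ≤ c := by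
  set f : ℕ → Pt := fun i => (x, a + i)
  have hf : ∀ i, grid.Adj (f i) (f (i + 1)) := fun i => by
    rw [grid_adj_iff]; simp [f]
  refine ⟨(seg hf (c - a).toNat).copy (by simp [f]) (by simp [f]; omega), fun P hP => ?_⟩
  rw [SimpleGraph.Walk.support_copy] at hP
  obtain ⟨i, hi, rfl⟩ := (mem_seg hf).1 hP
  simp only [f]
  exact ⟨trivial, by omega, by omega⟩

/-- A walk along a horizontal segment. -/
theorem exists_row (y : ℤ) {a c : ℤ} (h : a ≤ c) :
    ∃ p : grid.Walk (a, y) (c, y), ∀ P ∈ p.support, P.2 = y ∧ a ≤ P.1 ∧ P.1 ≤ c := by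
  set f : ℕ → Pt := fun i => (a + i, y)
  have hf : ∀ i, grid.Adj (f i) (f (i + 1)) := fun i => by
    rw [grid_adj_iff]; simp [f]
  refine ⟨(seg hf (c - a).toNat).copy (by simp [f]) (by simp [f]; omega), fun P hP => ?_⟩
  rw [SimpleGraph.Walk.support_copy] at hP
  obtain ⟨i, hi, rfl⟩ := (mem_seg hf).1 hP
  simp only [f]
  exact ⟨trivial, by omega, by omega⟩

/-- The walk between two indices of a sequence of neighbours. -/
theorem exists_between {v : ℕ → Pt} (hv : ∀ i, grid.Adj (v i) (v (i + 1))) {N i j : ℕ} (hi : N ≤ i)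
    (hj : N ≤ j) : ∃ p : grid.Walk (v i) (v j), ∀ P ∈ p.support, ∃ k, N ≤ k ∧ v k = P := by
  rcases le_total i j with h | h
  · obtain ⟨n, rfl⟩ := Nat.exists_eq_add_of_le h
    obtain ⟨p, -, hp, -⟩ := exists_walk_Ico (fun _ => 0) hv i n
    exact ⟨p, fun P hP => let ⟨k, h1, _, e⟩ := hp P hP; ⟨k, hi.trans h1, e.symm⟩⟩
  · obtain ⟨n, rfl⟩ := Nat.exists_eq_add_of_le h
    obtain ⟨p, -, hp, -⟩ := exists_walk_Ico (fun _ => 0) hv j n
    refine ⟨p.reverse, fun P hP => ?_⟩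
    rw [SimpleGraph.Walk.support_reverse, List.mem_reverse] at hP
    obtain ⟨k, h1, _, e⟩ := hp P hP
    exact ⟨k, hj.trans h1, e.symm⟩

/-- A tail meeting another infinitely often follows it. -/
theorem follows_of_meets {bb cg : ℝ} {ω : Cfg} (hg : Good bb cg ω) (hc : 0 < cg) {r e : Ray}
    (hr : IsTail ω r) (he : IsTail ω e)
    (hmeet : ∀ N, ∃ i, N ≤ i ∧ r.pt i ∈ Set.range e.pt) :
    ∀ᶠ k in atTop, r.pt k ∈ Set.range e.pt := by
  classical
  obtain ⟨M, hM⟩ := hr.geo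
  obtain ⟨M', hM'⟩ := exists_seg_walk he
  have hfin : ∀ᶠ i in atTop, ∀ a, e.pt a = r.pt i → M' ≤ a := by
    filter_upwards [eventually_notMem hr.inj ((Finset.range M').image e.pt)] with i hi a ha
    by_contra hlt
    exact hi (Finset.mem_image.2 ⟨a, Finset.mem_range.2 (not_le.1 hlt), ha⟩)
  obtain ⟨N₀, hN₀⟩ := eventually_atTop.1 hfin
  obtain ⟨i, hi, a, ha⟩ := hmeet (max N₀ M)
  refine eventually_atTop.2 ⟨i, fun k hk => ?_⟩
  obtain ⟨j, hj, c, hcj⟩ := hmeet k
  have hgeo : OnGeo ω (r.pt i) (r.pt j) (r.pt k) := by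
    unfold OnGeo
    rw [(hM i k (by omega) hk).1, (hM k j (by omega) hj).1, (hM i j (by omega) (by omega)).1]
    ring
  rw [← ha, ← hcj] at hgeo
  have hwalk : ∃ w : grid.Walk (e.pt a) (e.pt c),
      wt ω w = tt ω (e.pt a) (e.pt c) ∧ ∀ z ∈ w.support, z ∈ Set.range e.pt := by
    rcases le_total a c with hac | hca
    · obtain ⟨h1, w, h2, h3, -⟩ := hM' a c (hN₀ i (by omega) a ha) hac
      exact ⟨w, h2.trans h1.symm, fun z hz => let ⟨l, _, _, h⟩ := h3 z hz; ⟨l, h.symm⟩⟩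
    · obtain ⟨h1, w, h2, h3, -⟩ := hM' c a (hN₀ j (by omega) c hcj) hca
      refine ⟨w.reverse, ?_, fun z hz => ?_⟩
      · rw [show wt ω w.reverse = wt ω w by simp [wt, List.sum_reverse], h2, tt_comm hg.nonneg, h1]
      · rw [SimpleGraph.Walk.support_reverse, List.mem_reverse] at hz
        exact let ⟨l, _, _, h⟩ := h3 z hz; ⟨l, h.symm⟩
  obtain ⟨w, hw, hsupp⟩ := hwalk
  exact hsupp _ (SimpleGraph.Walk.support_bypass_subset_support w (hg.mem_of_onGeo hc (p := w.bypass)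
    ⟨w.bypass_isPath, le_antisymm ((wt_bypass_le hg.nonneg w).trans_eq hw) (tt_le hg.nonneg _)⟩ hgeo))

/-- A tail eventually avoids a barrier or keeps to its face. -/
theorem avoids_or_shares {bb cg : ℝ} {ω : Cfg} {μ : ℝ × ℝ → ℝ} {q : ℝ × ℝ} (hg : Good bb cg ω)
    (hc : 0 < cg) {r e : Ray} (hr : IsTail ω r) (he : IsTail ω e) (hd : DirShares μ q e.pt) :
    (∀ᶠ k in atTop, r.pt k ∉ Set.range e.pt) ∨ DirShares μ q r.pt := by
  classical
  by_cases hmeet : ∀ N, ∃ i, N ≤ i ∧ r.pt i ∈ Set.range e.pt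
  swap
  · push Not at hmeet
    exact Or.inl (eventually_atTop.2 hmeet)
  refine Or.inr fun θ hθ => hd θ ?_
  obtain ⟨φ, hφ, hlim⟩ := MapClusterPt.tendsto_subseq hθ
  obtain ⟨N, hN⟩ := eventually_atTop.1 (follows_of_meets hg hc hr he hmeet)
  choose σ hσ using fun k : ℕ => hN (φ (k + N)) ((Nat.le_add_left _ _).trans (hφ.id_le _))
  have hσinj : Function.Injective σ := fun a c hac => by
    have := hφ.injective (hr.inj ((hσ a).symm.trans (hac ▸ hσ c)))
    omega
  refine MapClusterPt.of_comp (φ := σ) (p := atTop) ?_ (Tendsto.mapClusterPt ?_)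
  · rw [← Nat.cofinite_eq_atTop]
    exact hσinj.tendsto_cofinite
  · refine (hlim.comp (tendsto_add_atTop_nat N)).congr fun k => ?_
    simp only [Function.comp_apply, hσ]

namespace IsLatticeNorm

variable {μ : ℝ × ℝ → ℝ} (h : IsLatticeNorm μ) (hnf : NoFacet μ) (hd1 : μ (1, 1) ≠ μ (1, 0))
  (hd2 : μ (1, 1) ≠ 2 * μ (1, 0))
include h hnf hd1 hd2

/-- A sequence avoiding the two barriers cannot point strictly to both of their sides. -/
theorem not_both_sides {e₁ e₂ r : ℕ → Pt} (ha₁ : ∀ i, grid.Adj (e₁ i) (e₁ (i + 1)))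
    (hi₁ : Function.Injective e₁) (hd₁' : DirShares μ (1, 1) e₁)
    (ha₂ : ∀ i, grid.Adj (e₂ i) (e₂ (i + 1))) (hi₂ : Function.Injective e₂)
    (hd₂' : DirShares μ (-1, -1) e₂) (har : ∀ i, grid.Adj (r i) (r (i + 1)))
    (hir : Function.Injective r) (hav₁ : ∀ᶠ k in atTop, r k ∉ Set.range e₁)
    (hav₂ : ∀ᶠ k in atTop, r k ∉ Set.range e₂) {θ ψ : ℝ × ℝ}
    (hθ : MapClusterPt θ atTop fun n => dirOf (r n)) (hψ : MapClusterPt ψ atTop fun n => dirOf (r n))
    (hA : Above μ θ) (hB : Above μ (-ψ)) : False := by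
  classical
  obtain ⟨mid⟩ : Nonempty (grid.Walk (e₂ 0) (e₁ 0)) := ⟨(exists_short _ _).choose⟩
  obtain ⟨C, hC⟩ : ∃ C : ℕ, ∀ P ∈ mid.support, l1 (0, 0) P < C :=
    ⟨(mid.support.map (l1 (0, 0))).sum + 1,
      fun P hP => Nat.lt_succ_of_le (List.le_sum_of_mem (List.mem_map_of_mem hP))⟩
  have hl1 : Tendsto (fun n => l1 (0, 0) (r n)) atTop atTop :=
    tendsto_atTop.2 fun b => (eventually_l1 hir (0, 0) b).mono fun n hn => hn.le
  have hneg : ∀ (e : ℕ → Pt) (q : ℝ × ℝ), DirShares μ q e → DirShares μ (-q) fun i => -e i := by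
    intro e q hd η hη
    have h1 : MapClusterPt (-η) atTop fun n => dirOf (e n) := by
      have := hη.continuousAt_comp (f := fun x : ℝ × ℝ => -x) continuous_neg.continuousAt
      simpa [Function.comp_def, dirOf_neg] using this
    simpa using h.shares_neg (hd _ h1)
  obtain ⟨φ, hφ, hlim⟩ := MapClusterPt.tendsto_subseq hθ
  obtain ⟨χ, hχ, hlim'⟩ := MapClusterPt.tendsto_subseq hψ
  -- good indices
  have hmidAv : ∀ᶠ k in atTop, r k ∉ mid.support.toFinset := eventually_notMem hir _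
  obtain ⟨N, hN⟩ := eventually_atTop.1 ((hav₁.and hav₂).and (hmidAv.and
    (hl1.eventually_ge_atTop (2 * C + 1))))
  have hz : Tendsto (fun k => l1 (0, 0) (r (φ k))) atTop atTop := hl1.comp hφ.tendsto_atTop
  have hfar₁ : ∀ᶠ k in atTop, (C : ℝ) ≤ |((r (φ k)).1 : ℝ)| ∨ (C : ℝ) ≤ (r (φ k)).2 := by
    have hC' : ∀ᶠ k in atTop, (2 * C + 1 : ℕ) ≤ l1 (0, 0) (r (φ k)) := hz.eventually_ge_atTop _
    by_cases hθ2 : 0 < θ.2
    · filter_upwards [((continuous_snd.tendsto _).comp hlim).eventually_const_lt hθ2, hC'] with k hk hk'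
      have e := dirOf_smul (r (φ k))
      simp only [toR, Prod.ext_iff, Prod.smul_fst, Prod.smul_snd, smul_eq_mul] at e
      have hpos : 0 ≤ ((r (φ k)).2 : ℝ) := by
        rw [e.2]; exact mul_nonneg (Nat.cast_nonneg _) hk.le
      have hk'' : (2 * C + 1 : ℝ) ≤ |((r (φ k)).1 : ℝ)| + |((r (φ k)).2 : ℝ)| := by
        rw [← l1_zero]; exact_mod_cast hk'
      by_contra hno
      push Not at hno
      rw [abs_of_nonneg hpos] at hk''
      linarith
    · have hneg1 : θ.1 < 0 := hA.1.trans_le (not_lt.1 hθ2)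
      filter_upwards [((continuous_fst.tendsto _).comp hlim).abs.eventually_const_lt
        (show |θ.1| / 2 < |θ.1| by linarith [abs_pos.2 hneg1.ne]),
        (tendsto_natCast_atTop_atTop.comp hz).eventually_ge_atTop (2 * (C : ℝ) / |θ.1|)] with k hk hk'
      left
      have e := dirOf_smul (r (φ k))
      simp only [toR, Prod.ext_iff, Prod.smul_fst, Prod.smul_snd, smul_eq_mul] at e
      simp only [Function.comp_apply] at hk hk'
      rw [e.1, abs_mul, Nat.abs_cast]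
      rw [div_le_iff₀ (abs_pos.2 hneg1.ne)] at hk'
      nlinarith [(Nat.cast_nonneg _ : (0 : ℝ) ≤ l1 (0, 0) (r (φ k)))]
  obtain ⟨k₁, hk₁, hk₁N, hk₁o⟩ := ((((h.column_free hnf hd1 hd2 hlim hz hA hi₁ (Or.inl hd₁')).and
      (h.column_free hnf hd1 hd2 hlim hz hA hi₂ (Or.inr hd₂'))).and
      ((hφ.tendsto_atTop.eventually_ge_atTop N).and
        hfar₁))).exists
  have hlimn : Tendsto (fun k => dirOf (-(r (χ k)))) atTop (𝓝 (-ψ)) :=
    hlim'.neg.congr fun k => by simp [dirOf_neg]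
  have hzn : Tendsto (fun k => l1 (0, 0) (-(r (χ k)))) atTop atTop := by
    refine (hl1.comp hχ.tendsto_atTop).congr fun k => ?_
    simp [l1]
  have hfar₂ : ∀ᶠ k in atTop, (C : ℝ) ≤ |((r (χ k)).1 : ℝ)| ∨ ((r (χ k)).2 : ℝ) ≤ -C := by
    have hz' : Tendsto (fun k => l1 (0, 0) (r (χ k))) atTop atTop := hl1.comp hχ.tendsto_atTop
    have hC' : ∀ᶠ k in atTop, (2 * C + 1 : ℕ) ≤ l1 (0, 0) (r (χ k)) := hz'.eventually_ge_atTop _
    by_cases hψ2 : ψ.2 < 0
    · filter_upwards [((continuous_snd.tendsto _).comp hlim').eventually_lt_const hψ2, hC'] with k hk hk'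
      have e := dirOf_smul (r (χ k))
      simp only [toR, Prod.ext_iff, Prod.smul_fst, Prod.smul_snd, smul_eq_mul] at e
      have hneg' : ((r (χ k)).2 : ℝ) ≤ 0 := by
        rw [e.2]; exact mul_nonpos_of_nonneg_of_nonpos (Nat.cast_nonneg _) hk.le
      have hk'' : (2 * C + 1 : ℝ) ≤ |((r (χ k)).1 : ℝ)| + |((r (χ k)).2 : ℝ)| := by
        rw [← l1_zero]; exact_mod_cast hk'
      by_contra hno
      push Not at hno
      rw [abs_of_nonpos hneg'] at hk''
      linarith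
    · have h1 := hB.1
      simp only [Prod.fst_neg, Prod.snd_neg] at h1
      have hpos : 0 < ψ.1 := (not_lt.1 hψ2).trans_lt (by linarith)
      filter_upwards [((continuous_fst.tendsto _).comp hlim').eventually_const_lt
        (show ψ.1 / 2 < ψ.1 by linarith),
        (tendsto_natCast_atTop_atTop.comp hz').eventually_ge_atTop (2 * (C : ℝ) / ψ.1)] with k hk hk'
      left
      have e := dirOf_smul (r (χ k))
      simp only [toR, Prod.ext_iff, Prod.smul_fst, Prod.smul_snd, smul_eq_mul] at e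
      simp only [Function.comp_apply] at hk hk'
      rw [e.1, abs_mul, Nat.abs_cast]
      rw [div_le_iff₀ hpos] at hk'
      nlinarith [le_abs_self (dirOf (r (χ k))).1, (Nat.cast_nonneg _ : (0 : ℝ) ≤ l1 (0, 0) (r (χ k)))]
  obtain ⟨k₂, hk₂, hk₂N, hk₂o⟩ := ((((h.column_free hnf hd1 hd2 hlimn hzn hB
      (e := fun i => -e₁ i) (fun a c e => hi₁ (neg_injective e))
      (Or.inr (by simpa using hneg e₁ _ hd₁'))).and
      (h.column_free hnf hd1 hd2 hlimn hzn hB (e := fun i => -e₂ i)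
        (fun a c e => hi₂ (neg_injective e)) (Or.inl (by simpa using hneg e₂ _ hd₂')))).and
      ((hχ.tendsto_atTop.eventually_ge_atTop N).and
        hfar₂))).exists
  set z₁ := r (φ k₁) with hz₁
  set z₂ := r (χ k₂) with hz₂
  obtain ⟨q, hq⟩ := exists_between har hk₁N hk₂N
  -- the two barriers leave every bounded strip
  have hleave : ∀ (e : ℕ → Pt), Function.Injective e → DirShares μ (1, 1) e →
      ∀ B : ℤ, ∀ᶠ i in atTop, B < (e i).1 := by
    intro e hie hd B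
    by_contra hev
    simp only [not_eventually, not_lt] at hev
    obtain ⟨σ, hσ, hσ'⟩ := extraction_of_frequently_atTop hev
    obtain ⟨η, -, τ, hτ, hconv⟩ := (isCompact_Icc.prod isCompact_Icc).tendsto_subseq
      (x := fun k => dirOf (e (σ k))) fun k => dirOf_mem_box _
    have hclu : MapClusterPt η atTop fun n => dirOf (e n) :=
      hconv.mapClusterPt.of_comp (hσ.comp hτ).tendsto_atTop
    have hpos := (h.shares_pos hnf hd1 hd2 (clusterDir_ne_zero hie hclu) (hd η hclu)).1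
    have hl : Tendsto (fun k => (l1 (0, 0) (e (σ (τ k))) : ℝ)) atTop atTop := by
      have hle : Tendsto (fun n => l1 (0, 0) (e n)) atTop atTop :=
        tendsto_atTop.2 fun b => (eventually_l1 hie (0, 0) b).mono fun n hn => hn.le
      exact (tendsto_natCast_atTop_atTop (R := ℝ)).comp (hle.comp (hσ.comp hτ).tendsto_atTop)
    obtain ⟨k, hk1, hk2⟩ := (((continuous_fst.tendsto _).comp hconv).eventually_const_lt
      (show η.1 / 2 < η.1 by linarith) |>.and (hl.eventually_gt_atTop (2 * |(B : ℝ)| / η.1))).exists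
    have e1 := dirOf_smul (e (σ (τ k)))
    simp only [toR, Prod.ext_iff, Prod.smul_fst, smul_eq_mul] at e1
    have h3 : ((e (σ (τ k))).1 : ℝ) ≤ B := by exact_mod_cast hσ' (τ k)
    rw [div_lt_iff₀ hpos] at hk2
    simp only [Function.comp_apply] at hk1
    nlinarith [le_abs_self (B : ℝ), (Nat.cast_nonneg _ : (0 : ℝ) ≤ l1 (0, 0) (e (σ (τ k))))]
  have hleave₂ : ∀ B : ℤ, ∀ᶠ i in atTop, (e₂ i).1 < B := fun B => by
    filter_upwards [hleave (fun i => -e₂ i) (fun a c e => hi₂ (neg_injective e))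
      (by simpa using hneg e₂ _ hd₂') (-B)] with i hi
    simpa using hi
  -- the vertical sides of the box
  obtain ⟨F₁, hF₁⟩ := eventually_atTop.1 (hleave e₁ hi₁ hd₁' 0)
  obtain ⟨F₂, hF₂⟩ := eventually_atTop.1 (hleave₂ 0)
  set S : List Pt := mid.support ++ q.support ++ (List.range (F₁ + 1)).map e₁ ++
    (List.range (F₂ + 1)).map e₂
  set H : ℤ := ((S.map fun P => P.1.natAbs).sum : ℕ) + 1
  have hS : ∀ P ∈ S, -H ≤ P.1 ∧ P.1 ≤ H := fun P hP => by
    have := List.le_sum_of_mem (List.mem_map_of_mem (f := fun P : Pt => P.1.natAbs) hP)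
    simp only [H]
    omega
  have hH : 0 < H := by simp only [H]; omega
  obtain ⟨n₁, hn₁⟩ := exists_firstVisit (r := fun i => (e₁ i).swap) (H := H)
    (fun i => swapHom.map_adj (ha₁ i))
    (hS (e₁ 0) (List.mem_append_left _ (List.mem_append_right _
      (List.mem_map_of_mem (List.mem_range.2 (Nat.succ_pos _)))))).2
    (let ⟨n, hn⟩ := eventually_atTop.1 (hleave e₁ hi₁ hd₁' H); ⟨n, (hn n le_rfl).le⟩)
  have hflip : ∀ i, grid.Adj (-(e₂ i).1, (e₂ i).2).swap (-(e₂ (i + 1)).1, (e₂ (i + 1)).2).swap := fun i =>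
    swapHom.map_adj (by
      have := ha₂ i
      rw [grid_adj_iff] at this ⊢
      simp only [sub_neg_eq_add] at this ⊢
      rw [show -(e₂ i).1 + (e₂ (i + 1)).1 = -((e₂ i).1 - (e₂ (i + 1)).1) by ring, abs_neg]
      exact this)
  obtain ⟨n₂, hn₂⟩ := exists_firstVisit (r := fun i => (-(e₂ i).1, (e₂ i).2).swap) (H := H) hflip
    (by
      have := (hS (e₂ 0) (List.mem_append_right _
        (List.mem_map_of_mem (List.mem_range.2 (Nat.succ_pos _))))).1
      simp; omega)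
    (let ⟨n, hn⟩ := eventually_atTop.1 (hleave₂ (-H)); ⟨n, by have := hn n le_rfl; simp; omega⟩)
  -- the parts of the barriers inside the box
  have hb₁ : ∀ P ∈ (seg ha₁ n₁).support, -H ≤ P.1 ∧ P.1 ≤ H := by
    intro P hP
    obtain ⟨i, hi, rfl⟩ := (mem_seg ha₁).1 hP
    have hbel := hn₁.below (fun i => swapHom.map_adj (ha₁ i))
      (hS (e₁ 0) (List.mem_append_left _ (List.mem_append_right _
        (List.mem_map_of_mem (List.mem_range.2 (Nat.succ_pos _)))))).2 i hi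
    refine ⟨?_, hbel⟩
    rcases le_or_gt i F₁ with hle | hgt
    · exact (hS _ (List.mem_append_left _ (List.mem_append_right _
        (List.mem_map_of_mem (List.mem_range.2 (Nat.lt_succ_of_le hle)))))).1
    · have := hF₁ i hgt.le; omega
  have hb₂ : ∀ P ∈ (seg ha₂ n₂).support, -H ≤ P.1 ∧ P.1 ≤ H := by
    intro P hP
    obtain ⟨i, hi, rfl⟩ := (mem_seg ha₂).1 hP
    refine ⟨?_, ?_⟩
    · have := hn₂.below hflip (by
        have := (hS (e₂ 0) (List.mem_append_right _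
          (List.mem_map_of_mem (List.mem_range.2 (Nat.succ_pos _))))).1
        simp; omega) i hi
      simp at this; omega
    · rcases le_or_gt i F₂ with hle | hgt
      · exact (hS _ (List.mem_append_right _
          (List.mem_map_of_mem (List.mem_range.2 (Nat.lt_succ_of_le hle))))).2
      · have := hF₂ i hgt.le; omega
  set W := (seg ha₂ n₂).reverse.append (mid.append (seg ha₁ n₁)) with hW
  have hWmem : ∀ P ∈ W.support, (-H ≤ P.1 ∧ P.1 ≤ H) ∧
      (P ∈ Set.range e₁ ∨ P ∈ Set.range e₂ ∨ P ∈ mid.support) := by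
    intro P hP
    simp only [hW, SimpleGraph.Walk.mem_support_append_iff, SimpleGraph.Walk.support_reverse,
      List.mem_reverse] at hP
    rcases hP with hP | hP | hP
    · exact ⟨hb₂ P hP, Or.inr (Or.inl (let ⟨i, _, e⟩ := (mem_seg ha₂).1 hP; ⟨i, e⟩))⟩
    · exact ⟨hS P (List.mem_append_left _ (List.mem_append_left _ (List.mem_append_left _ hP))),
        Or.inr (Or.inr hP)⟩
    · exact ⟨hb₁ P hP, Or.inl (let ⟨i, _, e⟩ := (mem_seg ha₁).1 hP; ⟨i, e⟩)⟩
  -- the box's top and bottom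
  set TN : ℕ := ((W.support ++ q.support).map fun P : Pt => P.2.natAbs).sum with hTN
  set T : ℤ := (TN : ℤ) + 1
  have hT : ∀ P, (P ∈ W.support ∨ P ∈ q.support) → -T < P.2 ∧ P.2 < T := fun P hP => by
    have : P.2.natAbs ≤ TN :=
      List.le_sum_of_mem (List.mem_map_of_mem (f := fun P : Pt => P.2.natAbs) (List.mem_append.2 hP))
    simp only [T]
    omega
  have hz₁b : -H ≤ z₁.1 ∧ z₁.1 ≤ H := hS z₁
    (List.mem_append_left _ (List.mem_append_left _ (List.mem_append_right _ q.start_mem_support)))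
  have hz₂b : -H ≤ z₂.1 ∧ z₂.1 ≤ H := hS z₂
    (List.mem_append_left _ (List.mem_append_left _ (List.mem_append_right _ q.end_mem_support)))
  obtain ⟨row₁, hrow₁⟩ := exists_row T hz₁b.1
  obtain ⟨col₁, hcol₁⟩ := exists_column z₁.1 (hT z₁ (Or.inr q.start_mem_support)).2.le
  obtain ⟨col₂, hcol₂⟩ := exists_column z₂.1 (hT z₂ (Or.inr q.end_mem_support)).1.le
  obtain ⟨row₂, hrow₂⟩ := exists_row (-T) hz₂b.2
  set Q := row₁.append (col₁.reverse.append (q.append (col₂.reverse.append row₂))) with hQ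
  have hQmem : ∀ P ∈ Q.support, (-H ≤ P.1 ∧ P.1 ≤ H) ∧ (P.2 = T ∨ P.2 = -T ∨ P ∈ q.support ∨
      (P.1 = z₁.1 ∧ z₁.2 ≤ P.2) ∨ (P.1 = z₂.1 ∧ P.2 ≤ z₂.2)) := by
    intro P hP
    simp only [hQ, SimpleGraph.Walk.mem_support_append_iff, SimpleGraph.Walk.support_reverse,
      List.mem_reverse] at hP
    rcases hP with hP | hP | hP | hP | hP
    · obtain ⟨a, b, c⟩ := hrow₁ P hP
      exact ⟨⟨b, c.trans hz₁b.2⟩, Or.inl a⟩
    · obtain ⟨a, b, -⟩ := hcol₁ P hP
      exact ⟨a ▸ hz₁b, Or.inr (Or.inr (Or.inr (Or.inl ⟨a, b⟩)))⟩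
    · exact ⟨hS P (List.mem_append_left _ (List.mem_append_left _ (List.mem_append_right _ hP))),
        Or.inr (Or.inr (Or.inl hP))⟩
    · obtain ⟨a, -, c⟩ := hcol₂ P hP
      exact ⟨a ▸ hz₂b, Or.inr (Or.inr (Or.inr (Or.inr ⟨a, c⟩)))⟩
    · obtain ⟨a, b, c⟩ := hrow₂ P hP
      exact ⟨⟨hz₂b.1.trans b, c⟩, Or.inr (Or.inl a)⟩
  obtain ⟨P, hPW, hPQ⟩ := strip_cross_col (h := -H) (H := H) (x := (e₂ n₂).2) (t := (e₁ n₁).2)
    (W.copy (Prod.ext (by have := hn₂.1; simp at this ⊢; omega) rfl)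
      (Prod.ext (by have := hn₁.1; simpa using this) rfl)) Q
    (fun P hP => (hWmem P (by simpa using hP)).1) (fun P hP => (hQmem P hP).1)
    (hT _ (Or.inl W.start_mem_support)).2.le (hT _ (Or.inl W.end_mem_support)).1.le
  rw [SimpleGraph.Walk.support_copy] at hPW
  obtain ⟨-, hW'⟩ := hWmem P hPW
  have hTP := hT P (Or.inl hPW)
  rcases (hQmem P hPQ).2 with hP | hP | hP | hP | hP
  · omega
  · omega
  · obtain ⟨k, hk, rfl⟩ := hq P hP
    obtain ⟨⟨h1, h2⟩, h3, -⟩ := hN k hk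
    rcases hW' with hw | hw | hw
    · exact h1 hw
    · exact h2 hw
    · exact h3 (List.mem_toFinset.2 hw)
  · rcases hW' with ⟨i, rfl⟩ | ⟨i, rfl⟩ | hw
    · exact hk₁.1 i hP
    · exact hk₁.2 i hP
    · have := hC P hw
      simp only [l1] at this
      rcases hk₁o with ho | ho
      · have h4 : (C : ℤ) ≤ |z₁.1| := by exact_mod_cast ho
        rw [← hP.1] at h4
        rcases abs_cases P.1 with ⟨h5, h6⟩ | ⟨h5, h6⟩ <;> omega
      · have : (C : ℤ) ≤ z₁.2 := by exact_mod_cast ho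
        omega
  · rcases hW' with ⟨i, rfl⟩ | ⟨i, rfl⟩ | hw
    · exact hk₂.1 i ⟨by simp [hP.1, hz₂], by simpa [hz₂] using hP.2⟩
    · exact hk₂.2 i ⟨by simp [hP.1, hz₂], by simpa [hz₂] using hP.2⟩
    · have := hC P hw
      simp only [l1] at this
      rcases hk₂o with ho | ho
      · have h4 : (C : ℤ) ≤ |z₂.1| := by exact_mod_cast ho
        rw [← hP.1] at h4
        rcases abs_cases P.1 with ⟨h5, h6⟩ | ⟨h5, h6⟩ <;> omega
      · have : z₂.2 ≤ -(C : ℤ) := by exact_mod_cast ho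
        omega

omit h hnf hd1 hd2 in
theorem north_swap {θ : ℝ × ℝ} : East μ θ ↔ North μ (θ.2, θ.1) := Iff.rfl

omit hnf hd1 hd2 in
/-- A direction on the diagonal shares its functional. -/
theorem shares_self {q : ℝ × ℝ} {c : ℝ} (hc : 0 < c) : Shares μ q (c • q) := by
  obtain ⟨ρ, hρ⟩ := h.exists_supports q
  exact ⟨ρ, hρ, (h.supports_smul_iff hc).2 hρ⟩

omit hnf hd1 hd2 in
theorem shares_swap {q θ : ℝ × ℝ} (hs : Shares μ q θ) : Shares μ (q.2, q.1) (θ.2, θ.1) := by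
  obtain ⟨ρ, h1, h2⟩ := hs
  exact ⟨(ρ.2, ρ.1), h.supports_swap' h1, h.supports_swap' h2⟩

/-- The two closed upper sides meet in the north sector. -/
theorem north_of_sides {θ : ℝ × ℝ} (hθ : θ ≠ 0) (h1 : ¬ Above μ (-θ)) (h2 : ¬ Above μ (θ.1, -θ.2)) :
    North μ θ := by
  by_contra hN
  simp only [North, not_or, not_lt] at hN
  obtain ⟨hle, hn1, hn2⟩ := hN
  have n1 : θ.1 ≤ θ.2 ∨ Shares μ (-1, -1) θ := by
    by_contra hc
    push Not at hc
    refine h1 ⟨by simp only [Prod.fst_neg, Prod.snd_neg]; linarith [hc.1], fun hs => hc.2 ?_,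
      fun hs => hn1 ?_⟩
    · simpa using h.shares_neg hs
    · simpa using h.shares_neg hs
  have n2 : -θ.1 ≤ θ.2 ∨ Shares μ (1, -1) θ := by
    by_contra hc
    push Not at hc
    refine h2 ⟨by linarith [hc.1], fun hs => hc.2 (by simpa using h.shares_neg (h.shares_flip hs)),
      fun hs => hn2 (by simpa using h.shares_neg (h.shares_flip hs))⟩
  have pos : ∀ {η : ℝ × ℝ}, η ≠ 0 → Shares μ (1, 1) η → 0 < η.1 ∧ 0 < η.2 :=
    fun {η} h0 hs => h.shares_pos hnf hd1 hd2 h0 hs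
  have hm : Shares μ (-1, -1) θ → θ.1 < 0 ∧ θ.2 < 0 := fun hs => by
    simpa using pos (neg_ne_zero.2 hθ) (by simpa using h.shares_neg hs)
  have hp : Shares μ (1, -1) θ → 0 < θ.1 ∧ θ.2 < 0 := fun hs => by
    simpa using pos (η := (θ.1, -θ.2)) (fun e => hθ (by simpa [Prod.ext_iff] using e))
      (by simpa using h.shares_flip (h.shares_neg hs))
  rcases n1 with n1 | n1 <;> rcases n2 with n2 | n2
  · rcases le_total 0 θ.1 with hx | hx
    · rw [abs_of_nonneg hx] at hle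
      have he : θ.2 = θ.1 := le_antisymm hle n1
      have hc : 0 < θ.1 := hx.lt_of_ne fun e => hθ (Prod.ext e.symm (he.trans e.symm))
      refine hn1 ?_
      convert h.shares_self (q := (1, 1)) hc using 1
      ext <;> simp [he]
    · rw [abs_of_nonpos hx] at hle
      have he : θ.2 = -θ.1 := le_antisymm hle n2
      have hc : 0 < -θ.1 := (neg_nonneg.2 hx).lt_of_ne
        fun e => hθ (Prod.ext (neg_eq_zero.1 e.symm) (he.trans e.symm))
      refine hn2 ?_
      convert h.shares_self (q := (-1, 1)) hc using 1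
      ext <;> simp [he]
  · linarith [hp n2]
  · linarith [hm n1]
  · linarith [hm n1, hp n2]

/-- With the four barriers every geodesic ray points into one closed sector. -/
theorem confine {bb cg : ℝ} {ω : Cfg} (hg : Good bb cg ω) (hc : 0 < cg)
    (hb₁ : Barrier μ ω (1, 1)) (hb₂ : Barrier μ ω (-1, -1)) (hb₃ : Barrier μ ω (-1, 1))
    (hb₄ : Barrier μ ω (1, -1)) {r : Ray} (hr : IsTail ω r) :
    (∀ θ, MapClusterPt θ atTop (fun n => dirOf (r.pt n)) → North μ θ) ∨
    (∀ θ, MapClusterPt θ atTop (fun n => dirOf (r.pt n)) → East μ θ) ∨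
    (∀ θ, MapClusterPt θ atTop (fun n => dirOf (r.pt n)) → North μ (-θ)) ∨
    (∀ θ, MapClusterPt θ atTop (fun n => dirOf (r.pt n)) → East μ (-θ)) := by
  obtain ⟨e₁, he₁, hd₁'⟩ := hb₁
  obtain ⟨e₂, he₂, hd₂'⟩ := hb₂
  obtain ⟨e₃, he₃, hd₃'⟩ := hb₃
  obtain ⟨e₄, he₄, hd₄'⟩ := hb₄
  rcases avoids_or_shares hg hc hr he₁ hd₁' with a₁ | s
  swap
  · exact Or.inl fun θ hθ => Or.inr (Or.inl (s θ hθ))
  rcases avoids_or_shares hg hc hr he₂ hd₂' with a₂ | s
  swap
  · exact Or.inr (Or.inr (Or.inl fun θ hθ => Or.inr (Or.inl (by simpa using h.shares_neg (s θ hθ)))))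
  rcases avoids_or_shares hg hc hr he₃ hd₃' with a₃ | s
  swap
  · exact Or.inl fun θ hθ => Or.inr (Or.inr (s θ hθ))
  rcases avoids_or_shares hg hc hr he₄ hd₄' with a₄ | s
  swap
  · exact Or.inr (Or.inl fun θ hθ => north_swap.2 (Or.inr (Or.inr (by simpa using h.shares_swap (s θ hθ)))))
  -- the picture reflected in the vertical axis
  set f : Pt → Pt := fun z => (-z.1, z.2)
  have hfi : Function.Injective f := fun a c e => by simpa [f, Prod.ext_iff] using e
  have hfa : ∀ a c, grid.Adj a c → grid.Adj (f a) (f c) := fun a c hac => by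
    rw [grid_adj_iff] at hac ⊢
    simp only [f]
    rw [show -a.1 - -c.1 = -(a.1 - c.1) by ring, abs_neg]
    exact hac
  have hfd : ∀ z, dirOf (f z) = (-(dirOf z).1, (dirOf z).2) := fun z => by simp [f, dirOf, l1]
  have hflipc : Continuous fun x : ℝ × ℝ => ((-x.1, x.2) : ℝ × ℝ) := by fun_prop
  have hmap : ∀ (e : ℕ → Pt) η, MapClusterPt η atTop (fun n => dirOf (e n)) →
      MapClusterPt (-η.1, η.2) atTop fun n => dirOf (f (e n)) := fun e η hη => by
    have := hη.continuousAt_comp (f := fun x : ℝ × ℝ => (-x.1, x.2)) hflipc.continuousAt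
    simpa [Function.comp_def, hfd] using this
  have hfs : ∀ (e : ℕ → Pt) (q : ℝ × ℝ), DirShares μ q e → DirShares μ (-q.1, q.2) fun i => f (e i) := by
    intro e q hd η hη
    have := hmap _ η hη
    simp only [f, neg_neg] at this
    simpa using h.shares_flip (hd _ this)
  have hav : ∀ (e : ℕ → Pt), (∀ᶠ k in atTop, r.pt k ∉ Set.range e) →
      ∀ᶠ k in atTop, f (r.pt k) ∉ Set.range fun i => f (e i) := fun e he => by
    filter_upwards [he] with k hk ⟨i, hi⟩
    exact hk ⟨i, hfi hi⟩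
  have side₁ : (∀ θ, MapClusterPt θ atTop (fun n => dirOf (r.pt n)) → ¬ Above μ θ) ∨
      ∀ θ, MapClusterPt θ atTop (fun n => dirOf (r.pt n)) → ¬ Above μ (-θ) := by
    by_contra hno
    push Not at hno
    obtain ⟨⟨θ, h1, h2⟩, ψ, h3, h4⟩ := hno
    exact h.not_both_sides hnf hd1 hd2 he₁.adj he₁.inj hd₁' he₂.adj he₂.inj hd₂' hr.adj hr.inj a₁ a₂
      h1 h3 h2 h4
  have side₂ : (∀ θ, MapClusterPt θ atTop (fun n => dirOf (r.pt n)) → ¬ Above μ (-θ.1, θ.2)) ∨
      ∀ θ, MapClusterPt θ atTop (fun n => dirOf (r.pt n)) → ¬ Above μ (θ.1, -θ.2) := by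
    by_contra hno
    push Not at hno
    obtain ⟨⟨θ, h1, h2⟩, ψ, h3, h4⟩ := hno
    exact h.not_both_sides hnf hd1 hd2 (fun i => hfa _ _ (he₃.adj i)) (hfi.comp he₃.inj)
      (by simpa using hfs _ _ hd₃') (fun i => hfa _ _ (he₄.adj i)) (hfi.comp he₄.inj)
      (by simpa using hfs _ _ hd₄') (fun i => hfa _ _ (hr.adj i)) (hfi.comp hr.inj) (hav _ a₃)
      (hav _ a₄) (hmap _ θ h1) (hmap _ ψ h3) h2 (by simpa using h4)
  have hne : ∀ θ, MapClusterPt θ atTop (fun n => dirOf (r.pt n)) → θ ≠ 0 :=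
    fun θ hθ => clusterDir_ne_zero hr.inj hθ
  have hab : ∀ θ : ℝ × ℝ, Above μ (θ.2, θ.1) → Above μ (-θ) := fun θ ⟨u1, u2, u3⟩ =>
    ⟨by simp only [Prod.fst_neg, Prod.snd_neg]; linarith, fun hs => u3 (by
      simpa using h.shares_neg (h.shares_swap hs)), fun hs => u2 (by
      simpa using h.shares_neg (h.shares_swap hs))⟩
  rcases side₁ with s₁ | s₁ <;> rcases side₂ with s₂ | s₂
  · exact Or.inr (Or.inr (Or.inl fun θ hθ => h.north_of_sides hnf hd1 hd2
      (neg_ne_zero.2 (hne θ hθ)) (by simpa using s₁ θ hθ) (by simpa using s₂ θ hθ)))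
  · refine Or.inr (Or.inl fun θ hθ => north_swap.2 (h.north_of_sides hnf hd1 hd2
      (fun e => hne θ hθ (by simpa [Prod.ext_iff, and_comm] using e)) (fun ha => s₁ θ hθ ?_)
      fun ha => s₂ θ hθ ?_))
    · simpa using hab (-θ) (by simpa using ha)
    · simpa using hab (-θ.1, θ.2) (by simpa using ha)
  · refine Or.inr (Or.inr (Or.inr fun θ hθ => north_swap.2 (h.north_of_sides hnf hd1 hd2
      (fun e => hne θ hθ (by simpa [Prod.ext_iff, and_comm] using e)) (fun ha => s₁ θ hθ ?_)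
      fun ha => s₂ θ hθ ?_)))
    · simpa using hab θ (by simpa using ha)
    · simpa using hab (θ.1, -θ.2) (by simpa using ha)
  · exact Or.inl fun θ hθ => h.north_of_sides hnf hd1 hd2 (hne θ hθ) (s₁ θ hθ) (s₂ θ hθ)

end IsLatticeNorm

end Vale.Agent.P158.V4
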