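import Vale.Agent.P158.V4.CocycleDrift
import Vale.Agent.P158.V4.Confine
import Vale.Agent.P158.V4.Increment

/-!
P158, note 1446 part C: almost surely each diagonal has a barrier, a geodesic ray all whose limit
directions share a supporting functional with it.
-/

namespace Vale.Agent.P158.V4

open MeasureTheory Filter Topology

/-- Module Barrier: almost surely the four diagonals have barriers. -/
def BarrierStmt (G : Measure ℝ) (μ : ℝ × ℝ → ℝ) : Prop :=
  ∀ᵐ ω ∂law G, Barrier μ ω (1, 1) ∧ Barrier μ ω (-1, -1) ∧ Barrier μ ω (-1, 1) ∧ Barrier μ ω (1, -1)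

variable {μ : ℝ × ℝ → ℝ}

/-- Following the greedy edges from the origin gives a geodesic ray along which the cocycle falls. -/
theorem exists_greedy_ray {b : ℝ} {X : St} (hX : Reg b X) (hgr : ∀ u, Greedy X u)
    (hpos : ∀ e, 0 < X.1 e) :
    ∃ x : ℕ → Pt, x 0 = (0, 0) ∧ Function.Injective x ∧
      IsTail X.1 ⟨x, fun n => -X.2 (x n)⟩ ∧ ∀ n, tt X.1 (0, 0) (x n) = -X.2 (x n) := by
  choose d hd using hgr
  set x : ℕ → Pt := fun n => (fun u => u + step (d u))^[n] (0, 0) with hx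
  have hs : ∀ n, x (n + 1) = x n + step (d (x n)) := fun n => by
    simp only [hx, Function.iterate_succ_apply']
  have hadj : ∀ n, grid.Adj (x n) (x (n + 1)) := fun n => by
    rw [hs]; exact adj_step _ _
  have hstep : ∀ n, X.2 (x n) = X.1 s(x n, x (n + 1)) + X.2 (x (n + 1)) := fun n => by
    rw [hs]; exact hd _
  have hanti : StrictAnti fun n => X.2 (x n) := strictAnti_nat_of_succ_lt fun n => by
    linarith [hstep n, hpos s(x n, x (n + 1))]
  have hinj : Function.Injective x := fun i j h => hanti.injective (congrArg X.2 h)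
  have hsum : ∀ i j, i ≤ j →
      ∑ k ∈ Finset.Ico i j, X.1 s(x k, x (k + 1)) = X.2 (x i) - X.2 (x j) := by
    intro i j hij
    induction j, hij using Nat.le_induction with
    | base => simp
    | succ j hij ih =>
      rw [Finset.sum_Ico_succ_top hij, ih]
      linarith [hstep j]
  have htt : ∀ i j, i ≤ j → tt X.1 (x i) (x j) = X.2 (x i) - X.2 (x j) := by
    intro i j hij
    obtain ⟨n, rfl⟩ := Nat.exists_eq_add_of_le hij
    refine le_antisymm ?_ (hX.sub_le_tt _ _)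
    obtain ⟨p, hp, -, -⟩ := exists_walk_Ico X.1 hadj i n
    exact (tt_le hX.nonneg p).trans_eq (by rw [hp, hsum _ _ hij])
  have h0 : x 0 = (0, 0) := rfl
  refine ⟨x, h0, hinj, ⟨hadj, hinj, 0, fun i j _ hij => ⟨?_, ?_⟩⟩, fun n => ?_⟩
  · rw [htt i j hij]; simp; ring
  · rw [hsum i j hij]; simp; ring
  · have := htt 0 n (Nat.zero_le n)
    rw [h0, hX.zero] at this
    linarith

variable {G : Measure ℝ} [IsProbabilityMeasure G] {b : ℝ}

/-- The face of the diagonal controls the limit directions of a greedy ray. -/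
theorem greedy_shares (hG : ∀ᵐ t ∂G, 0 < t ∧ t ≤ b) {X : St} (hX : Reg b X)
    (hshape : ∀ ε > 0, ∃ r : ℕ, Shape (mu G) ε r X.1 (0, 0))
    (ρ : Pt → ℝ × ℝ) (hρ : ∀ v, Supports (mu G) (1, 1) (ρ v))
    (hdrift : ∀ v : Pt, X ∉ exceedSt v ((ρ v).1 * v.1 + (ρ v).2 * v.2 + 1))
    {x : ℕ → Pt} (hinj : Function.Injective x)
    (htt : ∀ n, tt X.1 (0, 0) (x n) = -X.2 (x n)) : DirShares (mu G) (1, 1) x := by
  intro θ hθ
  have hμ := isLatticeNorm_mu G hG
  have hb := b_nonneg G hG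
  set m := mu G (1, 0)
  have hm : 0 < m := hμ.axis_pos
  -- the largest value of the face at `θ`
  set F : Set (ℝ × ℝ) := {σ | Supports (mu G) (1, 1) σ}
  have hFc : IsCompact F := by
    refine IsCompact.of_isClosed_subset (IsLatticeNorm.isCompact_box m) ?_ fun σ hσ => hμ.supports_mem_box hσ
    refine isSeqClosed_iff_isClosed.1 fun σ σ₀ hσ hlim => ?_
    exact hμ.supports_of_tendsto hσ tendsto_const_nhds hlim
  obtain ⟨σ₀, hσ₀, hmax⟩ := hFc.exists_isMaxOn ⟨_, hρ (0, 0)⟩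
    (f := fun σ : ℝ × ℝ => σ.1 * θ.1 + σ.2 * θ.2) (by fun_prop)
  refine ⟨σ₀, hσ₀, hσ₀.1, le_antisymm (hσ₀.1 θ) ?_⟩
  set M := σ₀.1 * θ.1 + σ₀.2 * θ.2
  have hne : ∀ᶠ n in atTop, x n ≠ (0, 0) := (eventually_l1 hinj (0, 0) 0).mono fun n hn he => by
    rw [he] at hn; simp [l1] at hn
  obtain ⟨φ, hφ, hlim⟩ := MapClusterPt.tendsto_subseq hθ
  -- it suffices to bound the norm up to `η`
  refine le_of_forall_pos_le_add fun η hη => ?_
  obtain ⟨K, hK⟩ := exists_nat_gt ((2 * m + 2 + 2 * b) / (η / 4))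
  have hK0 : (0 : ℝ) < K := lt_of_le_of_lt (by positivity) hK
  set v : Pt := fl ((K : ℝ) * θ.1, (K : ℝ) * θ.2) with hv
  have hv1 : |(v.1 : ℝ) - K * θ.1| ≤ 1 := by
    rw [hv, abs_le]
    constructor <;> simp only [fl] <;>
      linarith [Int.sub_one_lt_floor ((K : ℝ) * θ.1), Int.floor_le ((K : ℝ) * θ.1)]
  have hv2 : |(v.2 : ℝ) - K * θ.2| ≤ 1 := by
    rw [hv, abs_le]
    constructor <;> simp only [fl] <;>
      linarith [Int.sub_one_lt_floor ((K : ℝ) * θ.2), Int.floor_le ((K : ℝ) * θ.2)]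
  set c : ℝ := (ρ v).1 * v.1 + (ρ v).2 * v.2 + 1 with hc
  have hcK : c ≤ K * M + (2 * m + 1) := by
    have h1 : (ρ v).1 * θ.1 + (ρ v).2 * θ.2 ≤ M := hmax (hρ v)
    obtain ⟨b1, b2⟩ := hμ.supports_bound (hρ v)
    have e1 : (ρ v).1 * ((v.1 : ℝ) - K * θ.1) ≤ m * 1 :=
      (le_abs_self _).trans ((abs_mul _ _).trans_le (mul_le_mul b1 hv1 (abs_nonneg _) hm.le))
    have e2 : (ρ v).2 * ((v.2 : ℝ) - K * θ.2) ≤ m * 1 :=
      (le_abs_self _).trans ((abs_mul _ _).trans_le (mul_le_mul b2 hv2 (abs_nonneg _) hm.le))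
    have := mul_le_mul_of_nonneg_left h1 hK0.le
    linarith
  -- the drift along `v`
  obtain ⟨j₀, hj₀⟩ : ∃ j₀ : ℕ, ∀ j, j₀ ≤ j → -X.2 (j • v) ≤ (c + 1) * j := by
    have h := hdrift v
    simp only [exceedSt, Set.mem_ofPred_eq, not_exists, not_forall] at h
    obtain ⟨r, hr⟩ := h 0
    refine ⟨r, fun j hj => ?_⟩
    have := hr j
    simp only [not_and, not_lt] at this
    simpa using this hj
  obtain ⟨r, hr⟩ := hshape (η / 4) (by positivity)
  -- along the subsequence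
  set L : ℕ → ℝ := fun k => ((l1 ((0, 0) : Pt) (x (φ k)) : ℕ) : ℝ) with hL
  have hLlim : Tendsto L atTop atTop :=
    tendsto_natCast_atTop_atTop.comp ((tendsto_atTop.2 fun N =>
      (eventually_l1 hinj (0, 0) N).mono fun n hn => hn.le).comp hφ.tendsto_atTop)
  set dev : ℕ → ℝ := fun k => |(dirOf (x (φ k))).1 - θ.1| + |(dirOf (x (φ k))).2 - θ.2|
  have hdev : Tendsto dev atTop (𝓝 0) := by
    have h1 := (((continuous_fst.tendsto _).comp hlim).sub_const θ.1).abs
    have h2 := (((continuous_snd.tendsto _).comp hlim).sub_const θ.2).abs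
    simpa [dev] using h1.add h2
  have hzero : Tendsto (fun k => (m + b) * dev k + K * (|M| + b) / L k +
      (η / 4 + η / 4)) atTop (𝓝 ((m + b) * 0 + 0 + (η / 4 + η / 4))) :=
    (((hdev.const_mul (m + b)).add (hLlim.const_div_atTop _)).add tendsto_const_nhds)
  obtain ⟨k, hk1, hk2, hk3⟩ := ((hzero.eventually (eventually_le_nhds
    (show (m + b) * 0 + 0 + (η / 4 + η / 4) < 3 / 4 * η by linarith))).and
    ((hLlim.eventually_ge_atTop ((r : ℝ) + 1 + (K : ℝ) * (j₀ + 1))).and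
      (hφ.tendsto_atTop.eventually hne))).exists
  set z := x (φ k) with hz
  have hL0 : 0 < L k := by
    have : 0 ≤ (K : ℝ) * (j₀ + 1) := by positivity
    linarith [(r.cast_nonneg : (0 : ℝ) ≤ r)]
  have hzd := dirOf_smul z
  simp only [toR, Prod.ext_iff, Prod.smul_fst, Prod.smul_snd, smul_eq_mul] at hzd
  change (z.1 : ℝ) = L k * (dirOf z).1 ∧ (z.2 : ℝ) = L k * (dirOf z).2 at hzd
  set j := ⌊L k / K⌋₊ with hj
  have hj1 : (j : ℝ) * K ≤ L k := by
    rw [← le_div_iff₀ hK0]; exact Nat.floor_le (by positivity)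
  have hj2 : L k < ((j : ℝ) + 1) * K := by
    rw [← div_lt_iff₀ hK0]; exact Nat.lt_floor_add_one _
  have hjj : j₀ ≤ j := by
    refine Nat.le_floor ?_
    rw [le_div_iff₀ hK0]
    have : (K : ℝ) * (j₀ + 1) = j₀ * K + K := by ring
    linarith [(r.cast_nonneg : (0 : ℝ) ≤ r)]
  have hl : (l1 z (j • v) : ℝ) ≤ L k * dev k + (K * (|θ.1| + |θ.2|) + 2 * j) := by
    rw [l1_cast]
    simp only [Prod.smul_fst, Prod.smul_snd]
    simp only [nsmul_eq_mul, Int.cast_mul, Int.cast_natCast, dev, ← hz]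
    have key : ∀ zi di ti vi : ℝ, zi = L k * di → |vi - K * ti| ≤ 1 →
        |zi - j * vi| ≤ L k * |di - ti| + K * |ti| + j := by
      intro zi di ti vi e hvi
      rw [show zi - j * vi = L k * (di - ti) + (L k - j * K) * ti + (j : ℝ) * (K * ti - vi) by
        rw [e]; ring]
      refine (abs_add_three _ _ _).trans (add_le_add (add_le_add ?_ ?_) ?_)
      · rw [abs_mul, abs_of_pos hL0]
      · rw [abs_mul, abs_of_nonneg (by linarith : 0 ≤ L k - j * K)]
        exact mul_le_mul_of_nonneg_right (by linarith) (abs_nonneg _)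
      · rw [abs_mul, Nat.abs_cast, abs_sub_comm]
        exact mul_le_of_le_one_right (Nat.cast_nonneg j) hvi
    linarith [key _ _ _ _ hzd.1 hv1, key _ _ _ _ hzd.2 hv2]
  have hθ1 : |θ.1| + |θ.2| = 1 := clusterDir_mem hne hθ
  rw [hθ1, mul_one] at hl
  -- upper bound through the drift
  have hup : -X.2 z ≤ (c + 1) * j + b * (L k * dev k + (K + 2 * j)) := by
    have h1 := hj₀ j hjj
    have h2 := (abs_le.1 (hX.abs_sub_le z (j • v))).1
    have h3 := mul_le_mul_of_nonneg_left hl hb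
    linarith
  -- lower bound through the shape
  have hlow : mu G θ * L k - m * (L k * dev k) - η / 4 * L k ≤ -X.2 z := by
    rw [← htt (φ k)]
    have hs := abs_le.1 (hr (L k) (by linarith [mul_nonneg hK0.le (by positivity : (0 : ℝ) ≤ (j₀ : ℝ) + 1)])
      (0, 0) z (by simp [l1, hL0.le]) le_rfl)
    rw [show z - ((0, 0) : Pt) = z by simp] at hs
    have h1 := hμ.sub_le (L k • θ) (toR z)
    rw [hμ.homog _ hL0.le] at h1
    simp only [toR, Prod.smul_fst, Prod.smul_snd, smul_eq_mul, hzd.1, hzd.2, ← mul_sub, abs_mul,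
      abs_of_pos hL0, abs_sub_comm θ.1, abs_sub_comm θ.2, ← mul_add] at h1 hs
    linarith [hs.1]
  have h4 : (c + 1) * j ≤ M * L k + K * |M| + (2 * m + 2) * j := by
    have h5 := mul_le_mul_of_nonneg_right (show c + 1 ≤ K * M + (2 * m + 2) by linarith)
      (Nat.cast_nonneg (α := ℝ) j)
    have h6 : K * M * j - M * L k ≤ K * |M| := by
      rcases le_or_gt 0 M with h | h
      · have := mul_le_mul_of_nonneg_left hj1 h
        rw [abs_of_nonneg h]
        linarith [mul_nonneg hK0.le h]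
      · have := mul_le_mul_of_nonpos_left hj2.le h.le
        rw [abs_of_neg h]
        linarith
    linarith
  have h7 : (2 * m + 2 + 2 * b) * j ≤ η / 4 * L k := by
    rw [div_lt_iff₀ (by positivity)] at hK
    have h8 := mul_le_mul_of_nonneg_right hK.le (Nat.cast_nonneg (α := ℝ) j)
    have h9 := mul_le_mul_of_nonneg_left hj1 (show (0 : ℝ) ≤ η / 4 by positivity)
    linarith
  have h11 : (mu G θ - M) * L k ≤
      ((m + b) * dev k + (η / 4 + η / 4)) * L k + K * (|M| + b) := by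
    linarith
  have h12 : mu G θ - M ≤ 3 / 4 * η := by
    refine le_trans ?_ hk1
    rw [show (m + b) * dev k + K * (|M| + b) / L k + (η / 4 + η / 4) =
      (((m + b) * dev k + (η / 4 + η / 4)) * L k + K * (|M| + b)) / L k by
        field_simp; ring]
    rw [le_div_iff₀ hL0]
    exact h11
  linarith

/-- Almost surely the main diagonal has a barrier. -/
theorem ae_barrier_diag (hG : ∀ᵐ t ∂G, 0 < t ∧ t ≤ b) :
    ∀ᵐ ω ∂law G, Barrier (mu G) ω (1, 1) := by
  obtain ⟨ν, hν, hfst, hreg, hmp, hdiag⟩ := exists_cocycle_law hG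
  have hμ := isLatticeNorm_mu G hG
  set F : Set (ℝ × ℝ) := {σ | Supports (mu G) (1, 1) σ}
  have hFc : IsCompact F := by
    refine IsCompact.of_isClosed_subset (IsLatticeNorm.isCompact_box _) ?_ fun σ hσ => hμ.supports_mem_box hσ
    refine isSeqClosed_iff_isClosed.1 fun σ σ₀ hσ hlim => ?_
    exact hμ.supports_of_tendsto hσ tendsto_const_nhds hlim
  choose ρ hρ hmax using fun v : Pt => hFc.exists_isMaxOn (hμ.exists_supports (1, 1))
    (f := fun σ : ℝ × ℝ => σ.1 * (v.1 : ℝ) + σ.2 * (v.2 : ℝ)) (by fun_prop)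
  have hdrift : ∀ᵐ X ∂ν, ∀ v : Pt, X ∉ exceedSt v ((ρ v).1 * v.1 + (ρ v).2 * v.2 + 1) :=
    ae_all_iff.2 fun v => ae_not_exceed hG hfst (hreg.mono fun X h => h.1) hmp hdiag v fun σ hσ => by
      have : σ.1 * (v.1 : ℝ) + σ.2 * (v.2 : ℝ) ≤ (ρ v).1 * v.1 + (ρ v).2 * v.2 := hmax v hσ
      linarith
  have hω : ∀ᵐ X ∂ν, (∀ e, 0 < X.1 e) ∧ ∀ ε > 0, ∃ r : ℕ, Shape (mu G) ε r X.1 (0, 0) := by
    refine ae_of_ae_map (f := (Prod.fst : St → Cfg))
      (p := fun ω : Cfg => (∀ e, 0 < ω e) ∧ ∀ ε > 0, ∃ r : ℕ, Shape (mu G) ε r ω (0, 0))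
      measurable_fst.aemeasurable ?_
    rw [hfst]
    filter_upwards [good_ae G hG, ae_shape G hG (0, 0)] with ω h1 h2
    exact ⟨fun e => (h1 e).1, h2⟩
  have hbar : ∀ᵐ X ∂ν, Barrier (mu G) X.1 (1, 1) := by
    filter_upwards [hreg, hdrift, hω] with X hX hd ho
    obtain ⟨x, -, hinj, htail, htt⟩ := exists_greedy_ray hX.1 hX.2 ho.1
    exact ⟨_, htail, greedy_shares hG hX.1 ho.2 ρ hρ hd hinj htt⟩
  obtain ⟨N, hN, hNm, hN0⟩ := exists_measurable_superset_of_null (ae_iff.1 hbar)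
  refine ae_iff.2 (le_antisymm (ENNReal.le_of_forall_pos_le_add fun ε hε _ => ?_) zero_le)
  obtain ⟨C, hCN, hC, hlt⟩ := hNm.compl.exists_isCompact_lt_add (μ := ν) (measure_ne_top _ _)
    (ENNReal.coe_ne_zero.2 hε.ne')
  have himg : MeasurableSet (Prod.fst '' C) := (hC.image continuous_fst).measurableSet
  calc law G {ω | ¬ Barrier (mu G) ω (1, 1)} ≤ law G (Prod.fst '' C)ᶜ := measure_mono fun ω hω' h => by
        obtain ⟨X, hXC, rfl⟩ := h
        exact hCN hXC (hN hω')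
    _ = ν (Prod.fst ⁻¹' (Prod.fst '' C)ᶜ) := by
        rw [← hfst, Measure.map_apply measurable_fst himg.compl]
    _ ≤ ν Cᶜ := measure_mono fun X hX hXC => hX ⟨X, hXC, rfl⟩
    _ ≤ 0 + ε := by
        rw [prob_compl_eq_one_sub hC.measurableSet, zero_add, tsub_le_iff_left]
        have : ν Nᶜ = 1 := (prob_compl_eq_one_iff hNm).2 hN0
        rw [← this]
        exact hlt.le

omit [IsProbabilityMeasure G] in
theorem dirOf_symm (φ : Pt → Pt) (s₁ s₂ : ℤ) (h1 : |s₁| = 1) (h2 : |s₂| = 1)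
    (hφ : ∀ z : Pt, φ z = (s₁ * z.1, s₂ * z.2)) (z : Pt) :
    dirOf (φ z) = ((s₁ : ℝ) * (dirOf z).1, (s₂ : ℝ) * (dirOf z).2) := by
  have hl : (l1 (0, 0) (φ z) : ℝ) = l1 (0, 0) z := by
    rw [l1_cast, l1_cast, hφ]
    simp only [Int.cast_zero, zero_sub, abs_neg, Int.cast_mul, abs_mul]
    rw [← Int.cast_abs (a := s₁), ← Int.cast_abs (a := s₂), h1, h2]
    simp
  simp only [dirOf, hl]
  rw [hφ]
  push_cast
  ext <;> simp <;> ring

omit [IsProbabilityMeasure G] in
/-- A reflection carries barriers to barriers. -/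
theorem barrier_reflect (hμ : IsLatticeNorm μ) {ω : Cfg} (h0 : ∀ e, 0 ≤ ω e) (φ : grid →g grid)
    (hinv : ∀ z, φ (φ z) = z) (s₁ s₂ : ℤ) (h1 : |s₁| = 1) (h2 : |s₂| = 1)
    (hφ : ∀ z : Pt, φ z = (s₁ * z.1, s₂ * z.2)) (h : Barrier μ (ω ∘ Sym2.map φ) (1, 1)) :
    Barrier μ ω ((s₁ : ℝ), (s₂ : ℝ)) := by
  obtain ⟨r, hr, hd⟩ := h
  refine ⟨r.map φ, ?_, ?_⟩
  · have := hr.map (fun e => h0 _) φ hinv
    rwa [show (ω ∘ Sym2.map φ) ∘ Sym2.map φ = ω from funext fun e => congrArg ω (by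
      induction e using Sym2.ind with
      | _ x y => simp [hinv])] at this
  intro θ hθ
  have hs : ∀ s : ℤ, |s| = 1 → (s : ℝ) = 1 ∨ (s : ℝ) = -1 := fun s hs => by
    rcases abs_eq (zero_le_one) |>.1 hs with rfl | rfl <;> simp
  have hθ' : MapClusterPt ((s₁ : ℝ) * θ.1, (s₂ : ℝ) * θ.2) atTop fun n => dirOf (r.pt n) := by
    have := hθ.continuousAt_comp (f := fun x : ℝ × ℝ => ((s₁ : ℝ) * x.1, (s₂ : ℝ) * x.2))
      (by fun_prop : Continuous fun x : ℝ × ℝ => ((s₁ : ℝ) * x.1, (s₂ : ℝ) * x.2)).continuousAt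
    convert this using 2 with n
    simp only [Ray.map, dirOf_symm φ s₁ s₂ h1 h2 hφ]
    rcases hs _ h1 with e | e <;> rcases hs _ h2 with e' | e' <;> simp [e, e']
  have hS := hd _ hθ'
  rcases hs _ h1 with e | e <;> rcases hs _ h2 with e' | e' <;> rw [e, e'] at hS ⊢ <;>
    simp only [one_mul, neg_mul] at hS
  · simpa using hS
  · simpa using hμ.shares_neg (hμ.shares_flip hS)
  · simpa using hμ.shares_flip hS
  · simpa using hμ.shares_neg hS

/-- Reflection in both axes. -/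
def flipBoth : grid →g grid := flip2.comp flipX

/-- Module Barrier. -/
theorem barrierStmt (hG : ∀ᵐ t ∂G, 0 < t ∧ t ≤ b) : BarrierStmt G (mu G) := by
  have hμ := isLatticeNorm_mu G hG
  have h := ae_barrier_diag hG
  have tr : ∀ φ : grid →g grid, (∀ z, φ (φ z) = z) →
      ∀ᵐ ω ∂law G, Barrier (mu G) (ω ∘ Sym2.map φ) (1, 1) := fun φ hinv =>
    ae_of_ae_map (f := fun ω : Cfg => ω ∘ Sym2.map φ)
      (measurable_pi_iff.2 fun _ => measurable_pi_apply _).aemeasurable (by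
      rw [map_comp_injective G (Sym2.map φ) (Sym2.map.injective fun a c e => by simpa [hinv] using congrArg φ e)]
      exact h)
  have i1 : ∀ z, flipBoth (flipBoth z) = z := fun z => by simp [flipBoth, flip2, flipX]
  have i2 : ∀ z, flipX (flipX z) = z := fun z => by simp [flipX]
  have i3 : ∀ z, flip2 (flip2 z) = z := fun z => by simp [flip2]
  filter_upwards [good_ae G hG, h, tr flipBoth i1, tr flipX i2, tr flip2 i3] with ω hω h1 h2 h3 h4
  have h0 : ∀ e, 0 ≤ ω e := fun e => (hω e).1.le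
  refine ⟨h1, ?_, ?_, ?_⟩
  · simpa using barrier_reflect hμ h0 flipBoth i1 (-1) (-1) (by simp) (by simp)
      (fun z => by simp [flipBoth, flip2, flipX]) h2
  · simpa using barrier_reflect hμ h0 flipX i2 (-1) 1 (by simp) (by simp)
      (fun z => by simp [flipX]) h3
  · simpa using barrier_reflect hμ h0 flip2 i3 1 (-1) (by simp) (by simp)
      (fun z => by simp [flip2]) h4

/-- Almost surely the four diagonals have barriers. -/
theorem ae_barriers (hG : ∀ᵐ t ∂G, 0 < t ∧ t ≤ b) :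
    ∀ᵐ ω ∂law G, Barrier (mu G) ω (1, 1) ∧ Barrier (mu G) ω (-1, -1) ∧
      Barrier (mu G) ω (-1, 1) ∧ Barrier (mu G) ω (1, -1) :=
  barrierStmt hG

end Vale.Agent.P158.V4
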