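import Vale.Agent.P158.V4.TimeConst

/-!
P158: averages along an ergodic stationary sequence rarely exceed a level above the mean (Garsia's
maximal inequality), and ergodicity of translations of the weights.
-/

namespace Vale.Agent.P158.V4

open MeasureTheory Filter Topology
open scoped symmDiff

section Abstract

variable {Ω : Type*} (T : Ω → Ω) (f : Ω → ℝ)

/-- The nonnegative maximum of the first `n` sums along the orbit. -/
noncomputable def mx : ℕ → Ω → ℝ
  | 0, _ => 0
  | n + 1, x => max 0 (f x + mx n (T x))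

theorem mx_nonneg : ∀ (n : ℕ) (x : Ω), 0 ≤ mx T f n x
  | 0, _ => le_rfl
  | _ + 1, _ => le_max_left _ _

theorem mx_mono : ∀ (n : ℕ) (x : Ω), mx T f n x ≤ mx T f (n + 1) x
  | 0, _ => le_max_left _ _
  | n + 1, x => max_le_max le_rfl (by linarith [mx_mono n (T x)])

theorem mx_le_of_le {n m : ℕ} (h : n ≤ m) (x : Ω) : mx T f n x ≤ mx T f m x :=
  monotone_nat_of_le_succ (fun k => mx_mono T f k x) h

theorem sum_le_mx : ∀ (n : ℕ) (x : Ω) (k : ℕ), k ≤ n →
    ∑ i ∈ Finset.range k, f (T^[i] x) ≤ mx T f n x
  | n, x, 0, _ => by simpa using mx_nonneg T f n x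
  | 0, _, k + 1, h => absurd h (by omega)
  | n + 1, x, k + 1, h => by
    refine le_trans ?_ (le_max_right _ _)
    rw [Finset.sum_range_succ']
    simp only [Function.iterate_succ_apply, Function.iterate_zero_apply]
    linarith [sum_le_mx n (T x) k (by omega)]

theorem sub_le_of_pos {n : ℕ} {x : Ω} (h : 0 < mx T f n x) :
    mx T f n x - mx T f n (T x) ≤ f x := by
  cases n with
  | zero => exact absurd h (lt_irrefl _)
  | succ k =>
    have h1 := mx_mono T f k (T x)
    have h2 : mx T f (k + 1) x = f x + mx T f k (T x) := by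
      rw [mx] at h ⊢
      exact max_eq_right ((lt_max_iff.1 h).resolve_left (lt_irrefl _)).le
    linarith

/-- The sums along the orbit exceed the level `c` infinitely often, with some slack. -/
def exceed (c : ℝ) : Set Ω :=
  {x | ∃ n : ℕ, ∀ r : ℕ, ∃ j, r ≤ j ∧
    (c + 1 / ((n : ℝ) + 1)) * j < ∑ i ∈ Finset.range j, f (T^[i] x)}

theorem preimage_exceed {B : ℝ} (hB : ∀ x, |f x| ≤ B) (c : ℝ) : T ⁻¹' exceed T f c = exceed T f c := by
  have slack : ∀ n r : ℕ, ∃ R : ℕ, r ≤ R ∧ ∀ j : ℕ, R ≤ j →
      B + |c| + 1 ≤ (1 / ((n : ℝ) + 1) - 1 / ((n : ℝ) + 2)) * j := by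
    intro n r
    have hd : (0 : ℝ) < 1 / ((n : ℝ) + 1) - 1 / ((n : ℝ) + 2) := by
      rw [sub_pos]
      exact one_div_lt_one_div_of_lt (by positivity) (by linarith)
    refine ⟨max r ⌈(B + |c| + 1) / (1 / ((n : ℝ) + 1) - 1 / ((n : ℝ) + 2))⌉₊, le_max_left _ _,
      fun j hj => ?_⟩
    have := (Nat.le_ceil _).trans (Nat.cast_le.2 ((le_max_right _ _).trans hj) :
      ((⌈(B + |c| + 1) / (1 / ((n : ℝ) + 1) - 1 / ((n : ℝ) + 2))⌉₊ : ℕ) : ℝ) ≤ (j : ℝ))
    rw [div_le_iff₀ hd] at this
    linarith
  have hle : ∀ n : ℕ, (0 : ℝ) < 1 / ((n : ℝ) + 2) ∧ 1 / ((n : ℝ) + 2) ≤ 1 := fun n =>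
    ⟨by positivity, by rw [div_le_one (by positivity)]; linarith [(n.cast_nonneg : (0 : ℝ) ≤ n)]⟩
  ext x
  constructor
  · rintro ⟨n, hn⟩
    refine ⟨n + 1, fun r => ?_⟩
    obtain ⟨R, hR, hR'⟩ := slack n r
    obtain ⟨j, hj, hlt⟩ := hn R
    refine ⟨j + 1, by omega, ?_⟩
    rw [Finset.sum_range_succ']
    simp only [Function.iterate_succ_apply, Function.iterate_zero_apply]
    have h1 := hR' j hj
    have h2 := hle n
    have h3 := abs_le.1 (hB x)
    push_cast
    rw [show (n : ℝ) + 1 + 1 = n + 2 by ring]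
    nlinarith [le_abs_self c]
  · rintro ⟨n, hn⟩
    refine ⟨n + 1, fun r => ?_⟩
    obtain ⟨R, hR, hR'⟩ := slack n (r + 1)
    obtain ⟨j, hj, hlt⟩ := hn R
    obtain ⟨j, rfl⟩ : ∃ k, j = k + 1 := ⟨j - 1, by omega⟩
    refine ⟨j, by omega, ?_⟩
    rw [Finset.sum_range_succ'] at hlt
    simp only [Function.iterate_succ_apply, Function.iterate_zero_apply] at hlt
    have h1 := hR' (j + 1) hj
    have h2 := hle n
    have h3 := abs_le.1 (hB x)
    push_cast at hlt h1 ⊢
    rw [show (n : ℝ) + 1 + 1 = n + 2 by ring]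
    nlinarith [neg_abs_le c]

variable [MeasurableSpace Ω] {T f} {P : Measure Ω} [IsProbabilityMeasure P]

theorem measurable_sum_orbit (hT : Measurable T) (hf : Measurable f) (j : ℕ) :
    Measurable fun x => ∑ i ∈ Finset.range j, f (T^[i] x) :=
  Finset.measurable_sum _ fun i _ => hf.comp (hT.iterate i)

theorem measurableSet_exceed (hT : Measurable T) (hf : Measurable f) (c : ℝ) :
    MeasurableSet (exceed T f c) := by
  have : exceed T f c = ⋃ n : ℕ, ⋂ r : ℕ, ⋃ j ∈ Set.Ici r,
      {x | (c + 1 / ((n : ℝ) + 1)) * j < ∑ i ∈ Finset.range j, f (T^[i] x)} := by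
    ext x
    simp only [exceed, Set.mem_ofPred_eq, Set.mem_iUnion, Set.mem_iInter, Set.mem_Ici, exists_prop]
  rw [this]
  exact MeasurableSet.iUnion fun n => MeasurableSet.iInter fun r =>
    MeasurableSet.biUnion (Set.to_countable _) fun j _ =>
      measurableSet_lt measurable_const (measurable_sum_orbit hT hf j)

/-- Averages beyond a late time exceed a level above the mean only with small probability. -/
theorem tendsto_exceed (hT : MeasurePreserving T P P)
    (herg : ∀ A, MeasurableSet A → T ⁻¹' A = A → P A = 0 ∨ P A = 1) (hf : Measurable f) {B : ℝ}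
    (hB : ∀ x, |f x| ≤ B) {c : ℝ} (hc : ∫ x, f x ∂P < c) :
    Tendsto (fun r : ℕ => P {x | ∃ j, r ≤ j ∧ c * j < ∑ i ∈ Finset.range j, f (T^[i] x)})
      atTop (𝓝 0) := by
  set I := ∫ x, f x ∂P with hI
  set c' := (I + c) / 2 with hc'
  have hA := measurableSet_exceed hT.measurable hf c'
  have hzero : P (exceed T f c') = 0 := by
    rcases herg _ hA (preimage_exceed T f hB c') with h | h
    · exact h
    exfalso
    set g : Ω → ℝ := fun x => f x - c' with hg
    have hgm : Measurable g := hf.sub_const c'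
    have hgi : Integrable g P := Integrable.of_bound hgm.aestronglyMeasurable (B + |c'|)
      (ae_of_all _ fun x => by
        rw [Real.norm_eq_abs]
        exact (abs_sub _ _).trans (by linarith [hB x]))
    have hm : ∀ k, Measurable (mx T g k) := by
      intro k
      induction k with
      | zero => exact measurable_const
      | succ k ih => exact measurable_const.max (hgm.add (ih.comp hT.measurable))
    have hi : ∀ k, Integrable (mx T g k) P := by
      intro k
      induction k with
      | zero => exact integrable_const 0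
      | succ k ih =>
        exact (integrable_const 0).sup (hgi.add
          ((hT.integrable_comp (hm k).aestronglyMeasurable).2 ih))
    set E : ℕ → Set Ω := fun n => {x | 0 < mx T g n x}
    have hE : ∀ n, MeasurableSet (E n) := fun n => measurableSet_lt measurable_const (hm n)
    have hmono : Monotone E := fun a b hab x hx =>
      lt_of_lt_of_le hx (mx_le_of_le T g hab x)
    have h0 : ∀ n, 0 ≤ ∫ x in E n, g x ∂P := by
      intro n
      have hmap : ∫ x, mx T g n (T x) ∂P = ∫ x, mx T g n x ∂P := by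
        have h := integral_map hT.measurable.aemeasurable (μ := P)
          (f := mx T g n) (by rw [hT.map_eq]; exact (hm n).aestronglyMeasurable)
        rw [hT.map_eq] at h
        exact h.symm
      have hiT : Integrable (fun x => mx T g n (T x)) P :=
        (hT.integrable_comp (hm n).aestronglyMeasurable).2 (hi n)
      have hpt : ∀ x, mx T g n x - mx T g n (T x) ≤ (E n).indicator g x := by
        intro x
        by_cases hx : x ∈ E n
        · rw [Set.indicator_of_mem hx]; exact sub_le_of_pos T g hx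
        · rw [Set.indicator_of_notMem hx]
          have h1 : mx T g n x ≤ 0 := not_lt.1 hx
          linarith [mx_nonneg T g n (T x)]
      rw [← integral_indicator (hE n)]
      refine le_trans (le_of_eq ?_) (integral_mono ((hi n).sub hiT) (hgi.indicator (hE n)) hpt)
      rw [Pi.sub_def, integral_sub (hi n) hiT, hmap, sub_self]
    have hsub : exceed T f c' ⊆ ⋃ n, E n := by
      rintro x ⟨n, hn⟩
      obtain ⟨j, hj, hlt⟩ := hn 1
      refine Set.mem_iUnion.2 ⟨j, lt_of_lt_of_le ?_ (sum_le_mx T g j x j le_rfl)⟩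
      simp only [hg, Finset.sum_sub_distrib, Finset.sum_const, Finset.card_range, nsmul_eq_mul]
      have : (0 : ℝ) < 1 / ((n : ℝ) + 1) := by positivity
      have hj' : (0 : ℝ) < j := by exact_mod_cast (show 0 < j by omega)
      nlinarith
    have hfull : ∫ x in ⋃ n, E n, g x ∂P = I - c' := by
      rw [setIntegral_congr_set (t := Set.univ), setIntegral_univ, hg,
        integral_sub ((hgi.add (integrable_const c')).congr (ae_of_all _ fun x => by simp [hg]))
          (integrable_const _)]
      · simp [hI]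
      · rw [ae_eq_univ]
        refine measure_mono_null (Set.compl_subset_compl.2 hsub) ?_
        rw [prob_compl_eq_zero_iff hA]
        exact h
    have := ge_of_tendsto' (tendsto_setIntegral_of_monotone hE hmono hgi.integrableOn) h0
    rw [hfull] at this
    linarith
  have hcap : P (⋂ r : ℕ, {x | ∃ j, r ≤ j ∧ c * j < ∑ i ∈ Finset.range j, f (T^[i] x)}) = 0 := by
    refine measure_mono_null (fun x hx => ?_) hzero
    obtain ⟨n, hn⟩ := exists_nat_one_div_lt (show 0 < c - c' by linarith)
    refine ⟨n, fun r => ?_⟩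
    obtain ⟨j, hj, hlt⟩ := Set.mem_iInter.1 hx r
    exact ⟨j, hj, lt_of_le_of_lt (mul_le_mul_of_nonneg_right (by linarith) (Nat.cast_nonneg j)) hlt⟩
  rw [← hcap]
  refine tendsto_measure_iInter_atTop (fun r => ?_) (fun a b hab x ⟨j, hj, hlt⟩ =>
    ⟨j, hab.trans hj, hlt⟩) ⟨0, measure_ne_top _ _⟩
  refine MeasurableSet.nullMeasurableSet ?_
  have : {x | ∃ j, r ≤ j ∧ c * j < ∑ i ∈ Finset.range j, f (T^[i] x)} =
      ⋃ j ∈ Set.Ici r, {x | c * j < ∑ i ∈ Finset.range j, f (T^[i] x)} := by
    ext x
    simp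
  rw [this]
  exact MeasurableSet.biUnion (Set.to_countable _) fun j _ =>
    measurableSet_lt measurable_const (measurable_sum_orbit hT.measurable hf j)

end Abstract

section Product

variable {ι α : Type*} [MeasurableSpace α] (ν : Measure α) [IsProbabilityMeasure ν]

theorem map_reindex {σ : ι → ι} (hσ : Function.Injective σ) :
    MeasurePreserving (fun ω : ι → α => ω ∘ σ) (Measure.infinitePi fun _ => ν)
      (Measure.infinitePi fun _ => ν) := by
  classical
  refine ⟨by fun_prop, Measure.eq_infinitePi _ fun s t ht => ?_⟩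
  rw [Measure.map_apply (by fun_prop) (MeasurableSet.pi s.countable_toSet fun i _ => ht i)]
  have h : (fun ω : ι → α => ω ∘ σ) ⁻¹' Set.pi (s : Set ι) t =
      Set.pi ((s.image σ : Finset ι) : Set ι) (Function.extend σ t fun _ => Set.univ) := by
    ext ω
    simp [Set.mem_pi, hσ.extend_apply]
  rw [h, Measure.infinitePi_pi, Finset.prod_image fun a _ b _ hab => hσ hab]
  · simp only [hσ.extend_apply]
  · intro i hi
    obtain ⟨k, _, rfl⟩ := Finset.mem_image.1 hi
    rw [hσ.extend_apply]
    exact ht k

theorem iterate_reindex (σ : ι → ι) (n : ℕ) (ω : ι → α) :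
    (fun ω : ι → α => ω ∘ σ)^[n] ω = ω ∘ σ^[n] := by
  induction n generalizing ω with
  | zero => rfl
  | succ n ih =>
    rw [Function.iterate_succ_apply, ih, Function.iterate_succ']
    rfl

/-- A reindexing moving every finite set off itself is ergodic for a product law. -/
theorem reindex_ergodic {σ : ι → ι} (hσ : Function.Injective σ)
    (hfar : ∀ I : Finset ι, ∃ n : ℕ, ∀ i ∈ I, σ^[n] i ∉ I) {A : Set (ι → α)} (hA : MeasurableSet A)
    (hinv : (fun ω : ι → α => ω ∘ σ) ⁻¹' A = A) :
    Measure.infinitePi (fun _ => ν) A = 0 ∨ Measure.infinitePi (fun _ => ν) A = 1 := by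
  classical
  set P := Measure.infinitePi (fun _ : ι => ν)
  have key : ∀ ε : ℝ, 0 < ε → |P.real A - P.real A ^ 2| ≤ 4 * ε := by
    intro ε hε
    obtain ⟨G, hG, hlt⟩ := exists_measure_symmDiff_lt_of_generateFrom_isSetRing (μ := P)
      (C := measurableCylinders fun _ : ι => α) isSetRing_measurableCylinders
      ⟨{Set.univ}, Set.countable_singleton _,
        by simpa using univ_mem_measurableCylinders (fun _ : ι => α), by simp⟩
      generateFrom_measurableCylinders.symm hA (ENNReal.ofReal_pos.mpr hε)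
    have hd : P.real (G ∆ A) ≤ ε := by
      rw [measureReal_def]
      exact ENNReal.toReal_le_of_le_ofReal hε.le hlt.le
    obtain ⟨I, S, hS, rfl⟩ := (mem_measurableCylinders G).mp hG
    obtain ⟨n, hn⟩ := hfar I
    set G := cylinder (α := fun _ : ι => α) I S
    set φ := fun ω : ι → α => ω ∘ σ^[n]
    have hφ : MeasurePreserving φ P P := map_reindex ν (hσ.iterate n)
    have hGm : MeasurableSet G := hS.cylinder
    have hAn : φ ⁻¹' A = A := by
      have : ∀ k, (fun ω : ι → α => ω ∘ σ)^[k] ⁻¹' A = A := by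
        intro k
        induction k with
        | zero => rfl
        | succ k ih => rw [Function.iterate_succ, Set.preimage_comp, ih, hinv]
      have e : φ = (fun ω : ι → α => ω ∘ σ)^[n] := funext fun ω => (iterate_reindex σ n ω).symm
      rw [e, this]
    have hindep : P.real (G ∩ φ ⁻¹' G) = P.real G ^ 2 := by
      have hdis : Disjoint I (I.image σ^[n]) := Finset.disjoint_left.2 fun i hi hi' => by
        obtain ⟨j, hj, rfl⟩ := Finset.mem_image.1 hi'
        exact hn j hj hi
      have hf := ProbabilityTheory.iIndepFun_infinitePi (P := fun _ : ι => ν)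
        (X := fun _ => id) (fun _ => measurable_id)
      have h2 := ((hf.indepFun_finset I (I.image σ^[n]) hdis fun i => measurable_pi_apply i).comp
        (φ := id) (ψ := fun (y : (I.image σ^[n] : Finset ι) → α) (i : I) =>
          y ⟨σ^[n] i, Finset.mem_image_of_mem _ i.2⟩)
        measurable_id (by fun_prop)).measure_inter_preimage_eq_mul S S hS hS
      have h3 : P (G ∩ φ ⁻¹' G) = P G * P (φ ⁻¹' G) := h2
      rw [hφ.measure_preimage hGm.nullMeasurableSet] at h3
      rw [measureReal_def, h3, ENNReal.toReal_mul, measureReal_def, sq]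
    have hshd : P.real (φ ⁻¹' (G ∆ A)) ≤ ε := by
      rw [measureReal_def, hφ.measure_preimage (hGm.symmDiff hA).nullMeasurableSet]
      exact hd
    have le_of : ∀ s t : Set (ι → α), P.real s ≤ P.real t + P.real (t ∆ s) := fun s t =>
      (measureReal_mono fun x hx => by
        by_cases h : x ∈ t
        · exact Or.inl h
        · exact Or.inr (Or.inr ⟨hx, h⟩)).trans (measureReal_union_le _ _)
    have hsub : (G ∩ φ ⁻¹' G) ∆ A ⊆ (G ∆ A) ∪ φ ⁻¹' (G ∆ A) := by
      intro ω hω
      have hA' : φ ω ∈ A ↔ ω ∈ A := Iff.of_eq (congrArg (fun s : Set (ι → α) => ω ∈ s) hAn)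
      simp only [Set.mem_symmDiff, Set.mem_inter_iff, Set.mem_union, Set.mem_preimage] at hω ⊢
      tauto
    have hdd : P.real ((G ∩ φ ⁻¹' G) ∆ A) ≤ 2 * ε :=
      ((measureReal_mono hsub).trans (measureReal_union_le _ _)).trans (by linarith)
    have e1 := le_of A G
    have e2 := le_of G A
    have e3 := le_of A (G ∩ φ ⁻¹' G)
    have e4 := le_of (G ∩ φ ⁻¹' G) A
    rw [symmDiff_comm A G] at e2
    rw [symmDiff_comm A] at e4
    rw [hindep] at e3 e4
    have hg : P.real G ≤ 1 := measureReal_le_one
    have ha : P.real A ≤ 1 := measureReal_le_one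
    have hg0 : 0 ≤ P.real G := measureReal_nonneg
    have ha0 : 0 ≤ P.real A := measureReal_nonneg
    rw [abs_le]
    constructor <;> nlinarith
  have hz : P.real A - P.real A ^ 2 = 0 := by
    by_contra hne
    have hpos := abs_pos.mpr hne
    have := key (|P.real A - P.real A ^ 2| / 8) (by linarith)
    linarith
  rcases mul_eq_zero.mp (show P.real A * (1 - P.real A) = 0 by linear_combination hz) with h | h
  · exact Or.inl ((measureReal_eq_zero_iff).mp h)
  · refine Or.inr ?_
    rw [← ofReal_measureReal (μ := P) (s := A), show P.real A = 1 by linarith, ENNReal.ofReal_one]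

end Product

/-- Translating the edges. -/
def eShift (a : ℤ × ℤ) : Sym2 (ℤ × ℤ) → Sym2 (ℤ × ℤ) := Sym2.map (· + a)

theorem eShift_iterate (a : ℤ × ℤ) (n : ℕ) : (eShift a)^[n] = eShift (n • a) := by
  induction n with
  | zero =>
    funext e
    induction e using Sym2.ind with
    | _ x y => simp [eShift]
  | succ n ih =>
    funext e
    rw [Function.iterate_succ_apply', ih]
    induction e using Sym2.ind with
    | _ x y => simp only [eShift, Sym2.map_mk, succ_nsmul, add_assoc]

theorem shift_preserving (G : Measure ℝ) [IsProbabilityMeasure G] (a : ℤ × ℤ) :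
    MeasurePreserving (fun ω : Sym2 (ℤ × ℤ) → ℝ => ω ∘ eShift a) (law G) (law G) :=
  map_reindex G (Sym2.map.injective (add_left_injective a))

/-- The horizontal translation is ergodic. -/
theorem shift_ergodic (G : Measure ℝ) [IsProbabilityMeasure G]
    {A : Set (Sym2 (ℤ × ℤ) → ℝ)} (hA : MeasurableSet A)
    (hinv : (fun ω : Sym2 (ℤ × ℤ) → ℝ => ω ∘ eShift (1, 0)) ⁻¹' A = A) :
    law G A = 0 ∨ law G A = 1 := by
  refine reindex_ergodic G (σ := eShift (1, 0))
    (Sym2.map.injective (add_left_injective _)) (fun I => ?_) hA hinv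
  let key : Sym2 (ℤ × ℤ) → ℤ := Sym2.lift ⟨fun x y => x.1 + y.1, fun x y => add_comm _ _⟩
  set N := I.sup fun e => (key e).natAbs
  refine ⟨2 * N + 1, fun e he h => ?_⟩
  have h1 : (key e).natAbs ≤ N := Finset.le_sup (f := fun e => (key e).natAbs) he
  have h2 : (key ((eShift (1, 0))^[2 * N + 1] e)).natAbs ≤ N :=
    Finset.le_sup (f := fun e => (key e).natAbs) h
  rw [eShift_iterate] at h2
  induction e using Sym2.ind with
  | _ x y =>
    simp [eShift, key] at h1 h2
    omega

end Vale.Agent.P158.V4
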