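import Vale.Agent.P158.V4.Interfaces

/-!
P158: main argument (note 1433, section 6): the statement that the labels of two selected
bigeodesics give no star boxes.
-/

namespace Vale.Agent.P158.V4

open MeasureTheory Filter Topology

/-- For lanes of the class selected measurably, one in the field and one in a finitely changed
field, the rays of the two labels give almost surely no star box at either end of the first lane. -/
def LaneNullStmt (G : Measure ℝ) (μ : ℝ × ℝ → ℝ) : Prop :=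
  ∀ b : ℝ, ∀ κ, StrictSlope μ κ → ∀ (rr : ℕ → ℕ) (cg : ℝ), 0 < cg →
    (∀ᵐ ω ∂law G, Good b cg ω) →
    ∀ (F : Finset (Sym2 Pt)) (A : Set Marks) (v₁ v₂ : Marks → ℤ → Pt) (u₁ u₂ : Pt)
      (t₂ : Marks → Marks), MeasurableSet A → Measurable t₂ →
      (∀ i z, MeasurableSet {t | v₁ t i = z}) → (∀ i z, MeasurableSet {t | v₂ t i = z}) →
      (∀ t ∈ A, IsLane (cfg G t) (v₁ t) ∧ v₁ t 0 = u₁ ∧ Profile μ κ rr (v₁ t) ∧
        IsLane (cfg G (t₂ t)) (v₂ t) ∧ v₂ t 0 = u₂ ∧ Profile μ κ rr (v₂ t) ∧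
        Good b cg (cfg G t) ∧ Good b cg (cfg G (t₂ t)) ∧
        ∀ e, e ∉ F → cfg G (t₂ t) e = cfg G t e) →
      ∀ᵐ t ∂markLaw, t ∈ A →
        ¬ StarBox (lawSupp G) b cg (cfg G t) (labOf (cfg G t) (v₁ t)).lo.pt
            (labOf (cfg G t) (v₁ t)).up.pt (labOf (cfg G (t₂ t)) (v₂ t)).up.pt ∧
          ¬ StarBox (lawSupp G) b cg (cfg G t) (labOf (cfg G t) (v₁ t)).up.pt
            (labOf (cfg G t) (v₁ t)).lo.pt (labOf (cfg G (t₂ t)) (v₂ t)).lo.pt

end Vale.Agent.P158.V4
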