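import Vale.Agent.P158.V4.StarBase
import Vale.Agent.P158.V4.MainDefs

/-!
P158, module LaneNull, first part: the rays of a lane; mirror images of lanes.
-/

namespace Vale.Agent.P158.V4

open Filter Topology

variable {ω ω' : Cfg} {v : ℤ → Pt} {bb κ : ℝ} {μ : ℝ × ℝ → ℝ} {rr : ℕ → ℕ}

theorem lane_split (hv : IsLane ω v) (h0 : ∀ e, 0 ≤ ω e) {i j k : ℤ} (hij : i ≤ j) (hjk : j ≤ k) :
    tt ω (v i) (v k) = tt ω (v i) (v j) + tt ω (v j) (v k) := by
  obtain ⟨m, rfl⟩ : ∃ m : ℕ, j = i + m := ⟨(j - i).toNat, by omega⟩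
  obtain ⟨n, rfl⟩ : ∃ n : ℕ, k = i + m + n := ⟨(k - (i + m)).toNat, by omega⟩
  have h := hv.tt_eq h0 i (m + n)
  rw [Finset.sum_range_add, ← hv.tt_eq h0 i m] at h
  push_cast at h
  simp only [← add_assoc] at h
  rw [h, hv.tt_eq h0 (i + m) n]

theorem isTail_up (hv : IsLane ω v) (h0 : ∀ e, 0 ≤ ω e) : IsTail ω (labOf ω v).up := by
  refine ⟨fun n => by simpa [labOf] using hv.adj n, fun m n h => Nat.cast_injective (hv.inj h),
    0, fun i j _ hij => ?_⟩
  have h1 : tt ω (v i) (v j) = tt ω (v 0) (v j) - tt ω (v 0) (v i) := by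
    linarith [lane_split hv h0 (i := 0) (j := i) (k := j) (by omega) (by omega)]
  refine ⟨h1, ?_⟩
  obtain ⟨n, rfl⟩ := Nat.exists_eq_add_of_le hij
  refine Eq.trans ?_ h1
  rw [Finset.sum_Ico_eq_sum_range, Nat.add_sub_cancel_left, Nat.cast_add, hv.tt_eq h0]
  simp [labOf, add_assoc]

theorem isTail_lo (hv : IsLane ω v) (h0 : ∀ e, 0 ≤ ω e) : IsTail ω (labOf ω v).lo := by
  refine ⟨fun n => ?_, fun m n h => Nat.cast_injective (neg_injective (hv.inj h)), 0, fun i j _ hij => ?_⟩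
  · have h := (hv.adj (-((n : ℤ) + 1))).symm
    rw [show -((n : ℤ) + 1) + 1 = -(n : ℤ) by ring] at h
    simpa [labOf] using h
  have h1 : tt ω (v (-(i : ℤ))) (v (-(j : ℤ))) =
      tt ω (v (-(j : ℤ))) (v 0) - tt ω (v (-(i : ℤ))) (v 0) := by
    rw [tt_comm h0]
    linarith [lane_split hv h0 (i := -(j : ℤ)) (j := -(i : ℤ)) (k := 0) (by omega) (by omega)]
  refine ⟨h1, ?_⟩
  obtain ⟨n, rfl⟩ := Nat.exists_eq_add_of_le hij
  refine Eq.trans ?_ h1
  rw [Finset.sum_Ico_eq_sum_range, Nat.add_sub_cancel_left, tt_comm h0, Nat.cast_add,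
    show (-(i : ℤ)) = -((i : ℤ) + n) + n by ring, hv.tt_eq h0 (-((i : ℤ) + n)) n,
    ← Finset.sum_range_reflect]
  refine Finset.sum_congr rfl fun k hk => ?_
  rw [Finset.mem_range] at hk
  simp only [labOf]
  rw [Sym2.eq_swap]
  congr 4 <;> omega

theorem bus_lane_up (hv : IsLane ω v) (h0 : ∀ e, 0 ≤ ω e) (n : ℕ) :
    bus ω (labOf ω v).up ((labOf ω v).up.pt n) = -(labOf ω v).up.acc n := by
  refine tendsto_nhds_unique ((isTail_up hv h0).tendsto_bus h0 _)
    (tendsto_const_nhds.congr' (eventually_atTop.2 ⟨n, fun m hm => ?_⟩))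
  simp only [labOf]
  linarith [lane_split hv h0 (i := 0) (j := n) (k := m) (by omega) (by omega)]

theorem bus_lane_lo (hv : IsLane ω v) (h0 : ∀ e, 0 ≤ ω e) (n : ℕ) :
    bus ω (labOf ω v).lo ((labOf ω v).lo.pt n) = -(labOf ω v).lo.acc n := by
  refine tendsto_nhds_unique ((isTail_lo hv h0).tendsto_bus h0 _)
    (tendsto_const_nhds.congr' (eventually_atTop.2 ⟨n, fun m hm => ?_⟩))
  simp only [labOf]
  linarith [lane_split hv h0 (i := -(m : ℤ)) (j := -(n : ℤ)) (k := 0) (by omega) (by omega),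
    tt_comm h0 (v (-(n : ℤ))) (v (-(m : ℤ)))]

/-- The reflected reversed lane. -/
def mirrorLane (v : ℤ → Pt) : ℤ → Pt := fun i => flip2 (v (-i))

theorem isLane_mirror (hv : IsLane ω v) : IsLane (ω ∘ Sym2.map flip2) (mirrorLane v) := by
  have h := hv.reverse
  refine ⟨fun i => flip2.map_adj (h.adj i), fun a c e => h.inj ?_, fun i n p => ?_⟩
  · have := congrArg flip2 e
    simpa [mirrorLane, flip2_flip2] using this
  · have e : ∀ j, flip2 (mirrorLane v j) = v (-j) := fun j => flip2_flip2 _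
    have h1 := h.geo i n ((p.map flip2).copy (e _) (e _))
    refine le_of_eq_of_le ?_ (h1.trans_eq ?_)
    · refine Finset.sum_congr rfl fun k _ => ?_
      simp [mirrorLane, flip2_flip2]
    · unfold wt
      rw [SimpleGraph.Walk.edges_copy, SimpleGraph.Walk.edges_map, List.map_map]

theorem Escape.mirror (h : Escape ω) (h0 : ∀ e, 0 ≤ ω e) : Escape (ω ∘ Sym2.map flip2) := by
  intro u M
  refine ((h (flip2 u) M).image flip2).subset fun z hz => ⟨flip2 z, ?_, flip2_flip2 z⟩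
  simp only [Set.mem_ofPred_eq] at hz ⊢
  rwa [tt_map h0 flip2 flip2 flip2_flip2 flip2_flip2] at hz

theorem SplitsAt.mirror (h0 : ∀ e, 0 ≤ ω e) {a b c : ℕ → Pt} {w : Pt} (h : SplitsAt ω a b c w) :
    SplitsAt (ω ∘ Sym2.map flip2) (fun n => flip2 (a n)) (fun n => flip2 (b n)) (fun n => flip2 (c n))
      (flip2 w) := by
  obtain ⟨n₀, n₁, hne, hf⟩ := h
  refine ⟨flip2 n₀, flip2 n₁, fun e => hne ?_, hf.mono fun N hN => ?_⟩
  · simpa [flip2_flip2] using congrArg flip2 e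
  · have key : ∀ {u v x n : Pt}, EdgeOn ω u v x n →
        EdgeOn (ω ∘ Sym2.map flip2) (flip2 u) (flip2 v) (flip2 x) (flip2 n) := by
      rintro u v x n ⟨hadj, he⟩
      refine ⟨flip2.map_adj hadj, ?_⟩
      simp only [tt_map h0 flip2 flip2 flip2_flip2 flip2_flip2, Function.comp_apply, Sym2.map_mk,
        flip2_flip2]
      exact he
    exact ⟨key hN.1, key hN.2⟩

end Vale.Agent.P158.V4
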