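import Vale.Agent.P158.V4.Confine
import Vale.Agent.P158.V4.LaneNullRays

/-!
P158, note 1446 part E: with the four barriers, both ends of every bigeodesic avoid the extreme
functionals of one common axis.
-/

namespace Vale.Agent.P158.V4

open Filter Topology

/-- In one of the two sectors around the vertical axis. -/
def Vert (μ : ℝ × ℝ → ℝ) (θ : ℝ × ℝ) : Prop := North μ θ ∨ North μ (-θ)

/-- In one of the two sectors around the horizontal axis. -/
def Horiz (μ : ℝ × ℝ → ℝ) (θ : ℝ × ℝ) : Prop := East μ θ ∨ East μ (-θ)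

/-- The shape holds between the points of a lane. -/
def LaneShape (μ : ℝ × ℝ → ℝ) (ω : Cfg) (v : ℤ → Pt) : Prop :=
  ∀ ε > 0, ∃ r : ℕ, ∀ R : ℝ, (r : ℝ) ≤ R → ∀ i j : ℤ, i ≤ j → (l1 (v 0) (v i) : ℝ) ≤ R →
    (l1 (v 0) (v j) : ℝ) ≤ R → |tt ω (v i) (v j) - μ (toR (v j - v i))| ≤ ε * R

theorem laneShape_of_shape {μ : ℝ × ℝ → ℝ} {ω : Cfg} {v : ℤ → Pt}
    (hshape : ∀ ε > 0, ∃ r : ℕ, Shape μ ε r ω (v 0)) : LaneShape μ ω v := fun ε hε =>
  let ⟨r, hr⟩ := hshape ε hε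
  ⟨r, fun R hR i j _ hi hj => hr R hR (v i) (v j) hi hj⟩

theorem LaneShape.reverse {μ : ℝ × ℝ → ℝ} (hμ : IsLatticeNorm μ) {ω : Cfg} (h0 : ∀ e, 0 ≤ ω e)
    {v : ℤ → Pt} (hs : LaneShape μ ω v) : LaneShape μ ω fun i => v (-i) := fun ε hε => by
  obtain ⟨r, hr⟩ := hs ε hε
  refine ⟨r, fun R hR i j hij hi hj => ?_⟩
  simp only [neg_zero] at hi hj
  have := hr R hR (-j) (-i) (by omega) hj hi
  rwa [tt_comm h0, show toR (v (-i) - v (-j)) = -toR (v (-j) - v (-i)) by simp [toR], hμ.neg] at this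

/-- The directions from the origin and from another site have the same limits. -/
theorem clusterDir_sub {e : ℕ → Pt} (hinj : Function.Injective e) (a : Pt) {θ : ℝ × ℝ}
    (hθ : MapClusterPt θ atTop fun n => dirOf (e n - a)) :
    MapClusterPt θ atTop fun n => dirOf (e n) := by
  obtain ⟨φ, hφ, hlim⟩ := MapClusterPt.tendsto_subseq hθ
  refine MapClusterPt.of_comp (φ := φ) (p := atTop) hφ.tendsto_atTop (Tendsto.mapClusterPt ?_)
  set A : ℝ := (l1 (0, 0) a : ℝ)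
  set s := fun k => (l1 (0, 0) (e (φ k)) : ℝ)
  have hs : Tendsto s atTop atTop := by
    have hle : Tendsto (fun n => l1 (0, 0) (e n)) atTop atTop :=
      tendsto_atTop.2 fun b => (eventually_l1 hinj (0, 0) b).mono fun n hn => hn.le
    exact (tendsto_natCast_atTop_atTop (R := ℝ)).comp (hle.comp hφ.tendsto_atTop)
  have hT : Tendsto (fun k => (l1 (0, 0) (e (φ k) - a) : ℝ) / s k) atTop (𝓝 1) := by
    refine tendsto_of_tendsto_of_tendsto_of_le_of_le' (g := fun k => 1 - A / s k)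
      (h := fun k => 1 + A / s k) ?_ ?_ ?_ ?_
    · simpa using tendsto_const_nhds.sub (hs.const_div_atTop A)
    · simpa using tendsto_const_nhds.add (hs.const_div_atTop A)
    all_goals
      filter_upwards [hs.eventually_gt_atTop 0] with k hk
      have h1 := abs_add_le (((e (φ k)).1 : ℝ) - a.1) a.1
      have h2 := abs_add_le (((e (φ k)).2 : ℝ) - a.2) a.2
      have h3 := abs_sub ((e (φ k)).1 : ℝ) a.1
      have h4 := abs_sub ((e (φ k)).2 : ℝ) a.2
      simp only [sub_add_cancel] at h1 h2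
      simp only [A, s, l1_zero, Prod.fst_sub, Prod.snd_sub, Int.cast_sub] at hk ⊢
    · rw [le_div_iff₀ hk, sub_mul, one_mul, div_mul_cancel₀ _ hk.ne']
      linarith
    · rw [div_le_iff₀ hk, add_mul, one_mul, div_mul_cancel₀ _ hk.ne']
      linarith
  have hz : Tendsto (fun k => ((a.1 : ℝ) / s k, (a.2 : ℝ) / s k)) atTop (𝓝 (0, 0)) :=
    (hs.const_div_atTop _).prodMk_nhds (hs.const_div_atTop _)
  have hlim2 := (hT.smul hlim).add hz
  simp only [one_smul, Prod.mk_zero_zero, add_zero] at hlim2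
  refine hlim2.congr' ?_
  filter_upwards [hs.eventually_gt_atTop 0] with k hk
  by_cases h0 : e (φ k) = a
  · simp [h0, dirOf, s, l1, div_eq_inv_mul]
  have hl : (0 : ℝ) < l1 (0, 0) (e (φ k) - a) := by
    have : l1 (0, 0) (e (φ k) - a) ≠ 0 := fun h => h0 (by unfold l1 at h; ext <;> simp at h ⊢ <;> omega)
    exact_mod_cast Nat.pos_of_ne_zero this
  simp only [s] at hk
  simp only [Function.comp_apply, dirOf, s, Prod.smul_mk, Prod.mk_add_mk, smul_eq_mul, Prod.fst_sub,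
    Prod.snd_sub, Int.cast_sub, Prod.mk.injEq]
  simp only [Prod.mk_zero_zero] at hl hk ⊢
  constructor <;> field_simp <;> ring

namespace IsLatticeNorm

variable {μ : ℝ × ℝ → ℝ} (h : IsLatticeNorm μ)
include h

/-- A lane's forward direction shares a supporting functional with the opposite of some backward
direction. -/
theorem exists_partner {ω : Cfg} (h0 : ∀ e, 0 ≤ ω e) {v : ℤ → Pt} (hv : IsLane ω v)
    (hshape : LaneShape μ ω v) {θ : ℝ × ℝ}
    (hθ : MapClusterPt θ atTop fun n : ℕ => dirOf (v n - v 0)) :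
    ∃ φ ρ, MapClusterPt φ atTop (fun n : ℕ => dirOf (v (-(n : ℤ)) - v 0)) ∧
      Supports μ θ ρ ∧ Supports μ (-φ) ρ := by
  classical
  obtain ⟨σ, hσ, hlim⟩ := MapClusterPt.tendsto_subseq hθ
  have hiP : Function.Injective fun n : ℕ => v n - v 0 := fun a c e => by
    simpa using hv.inj (sub_left_injective e)
  have hiQ : Function.Injective fun n : ℕ => v (-(n : ℤ)) - v 0 := fun a c e => by
    simpa using hv.inj (sub_left_injective e)
  -- a backward point at every distance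
  have hback : ∀ L : ℕ, ∃ m : ℕ, l1 (0, 0) (v (-(m : ℤ)) - v 0) = L := by
    intro L
    have hex : ∃ m : ℕ, L ≤ l1 (0, 0) (v (-(m : ℤ)) - v 0) :=
      ((eventually_l1 hiQ (0, 0) L).mono fun n hn => hn.le).exists
    obtain ⟨M, hM, hmin⟩ : ∃ M : ℕ, L ≤ l1 (0, 0) (v (-(M : ℤ)) - v 0) ∧
        ∀ j < M, ¬ L ≤ l1 (0, 0) (v (-(j : ℤ)) - v 0) :=
      ⟨Nat.find hex, Nat.find_spec hex, fun j hj => Nat.find_min hex hj⟩
    refine ⟨M, le_antisymm ?_ hM⟩
    rcases M with _ | j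
    · simp [l1]
    · have h2 := hmin j (Nat.lt_succ_self j)
      have h3 := hv.adj (-((j + 1 : ℕ) : ℤ))
      rw [grid_adj_iff, show -((j + 1 : ℕ) : ℤ) + 1 = -(j : ℤ) by push_cast; ring] at h3
      simp only [l1, Prod.fst_sub, Prod.snd_sub] at h2 ⊢
      generalize v (-((j + 1 : ℕ) : ℤ)) = A at h3 ⊢
      generalize v (-(j : ℤ)) = B at h2 h3 ⊢
      rw [Int.abs_eq_natAbs, Int.abs_eq_natAbs] at h3
      omega
  choose m hm using hback
  set L := fun k => l1 (0, 0) (v (σ k) - v 0) with hL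
  have hLtop : Tendsto L atTop atTop := by
    refine Tendsto.comp (g := fun n : ℕ => l1 (0, 0) (v n - v 0)) ?_ hσ.tendsto_atTop
    exact tendsto_atTop.2 fun b => (eventually_l1 hiP (0, 0) b).mono fun n hn => hn.le
  obtain ⟨φ, -, τ, hτ, hlim'⟩ := (isCompact_Icc.prod isCompact_Icc).tendsto_subseq
    (x := fun k => dirOf (v (-(m (L k) : ℤ)) - v 0)) fun k => dirOf_mem_box _
  have hmtop : Tendsto (fun k => m (L (τ k))) atTop atTop := by
    refine tendsto_atTop.2 fun N => ?_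
    filter_upwards [(hLtop.comp hτ.tendsto_atTop).eventually_gt_atTop
      ((Finset.range N).sup fun j => l1 (0, 0) (v (-(j : ℤ)) - v 0))] with k hk
    by_contra hN
    have h5 : l1 (0, 0) (v (-(m (L (τ k)) : ℤ)) - v 0) ≤ _ :=
      Finset.le_sup (f := fun j : ℕ => l1 (0, 0) (v (-(j : ℤ)) - v 0))
        (Finset.mem_range.2 (not_le.1 hN))
    rw [hm] at h5
    simp only [Function.comp_apply] at hk
    omega
  have hclu : MapClusterPt φ atTop fun n : ℕ => dirOf (v (-(n : ℤ)) - v 0) :=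
    hlim'.mapClusterPt.of_comp hmtop
  have hadd : μ θ + μ (-φ) ≤ μ (θ - φ) := by
    refine le_of_forall_pos_le_add fun δ hδ => ?_
    obtain ⟨r, hr⟩ := hshape (δ / 3) (by linarith)
    have hc := h.continuous
    have t1 : Tendsto (fun k => μ (dirOf (v (σ (τ k)) - v 0)) +
        μ (-dirOf (v (-(m (L (τ k)) : ℤ)) - v 0))) atTop (𝓝 (μ θ + μ (-φ))) :=
      ((hc.tendsto _).comp (hlim.comp hτ.tendsto_atTop)).add ((hc.tendsto _).comp hlim'.neg)
    have t2 : Tendsto (fun k => μ (dirOf (v (σ (τ k)) - v 0) -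
        dirOf (v (-(m (L (τ k)) : ℤ)) - v 0)) + δ) atTop (𝓝 (μ (θ - φ) + δ)) :=
      ((hc.tendsto _).comp ((hlim.comp hτ.tendsto_atTop).sub hlim')).add_const δ
    refine le_of_tendsto_of_tendsto t1 t2 ?_
    filter_upwards [(hLtop.comp hτ.tendsto_atTop).eventually_ge_atTop (r + 1)] with k hk
    simp only [Function.comp_apply] at hk
    set n := σ (τ k)
    set j := m (L (τ k))
    set R : ℕ := L (τ k) with hR
    have hl : ∀ z : Pt, (l1 (v 0) z : ℝ) = l1 (0, 0) (z - v 0) := fun z => by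
      simp [l1, abs_sub_comm]
    have hjl : (l1 (v 0) (v (-(j : ℤ))) : ℝ) ≤ R := by rw [hl, hm]
    have hnl : (l1 (v 0) (v n) : ℝ) ≤ R := by rw [hl]
    have h00 : (l1 (v 0) (v 0) : ℝ) ≤ R := by simp [l1]
    have hrR : (r : ℝ) ≤ R := by exact_mod_cast (by omega : r ≤ R)
    have hRpos : (0 : ℝ) < R := by exact_mod_cast (by omega : 0 < R)
    have s1 := abs_le.1 (hr R hrR (-(j : ℤ)) 0 (by omega) hjl h00)
    have s2 := abs_le.1 (hr R hrR 0 n (by omega) h00 hnl)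
    have s3 := abs_le.1 (hr R hrR (-(j : ℤ)) n (by omega) hjl hnl)
    have hsum := lane_tt_add h0 hv j n
    have ea : toR (v n - v 0) = (R : ℝ) • dirOf (v n - v 0) := dirOf_smul _
    have ec : toR (v (-(j : ℤ)) - v 0) = (R : ℝ) • dirOf (v (-(j : ℤ)) - v 0) := by
      rw [dirOf_smul, hm]
    have eb : toR (v 0 - v (-(j : ℤ))) = -toR (v (-(j : ℤ)) - v 0) := by simp [toR]
    have ed : toR (v n - v (-(j : ℤ))) = toR (v n - v 0) - toR (v (-(j : ℤ)) - v 0) := by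
      simp [toR]
    rw [eb, ec, ← smul_neg, h.homog _ hRpos.le] at s1
    rw [ea, h.homog _ hRpos.le] at s2
    rw [ed, ea, ec, ← smul_sub, h.homog _ hRpos.le] at s3
    refine le_of_mul_le_mul_left ?_ hRpos
    linarith
  obtain ⟨ρ, hρ1, hρ2⟩ := h.exists_supports (θ - φ)
  have h1 := hρ1 θ
  have h2 := hρ1 (-φ)
  simp only [Prod.fst_sub, Prod.snd_sub, Prod.fst_neg, Prod.snd_neg] at hρ2 h2
  refine ⟨φ, ρ, hclu, ⟨hρ1, le_antisymm h1 (by linarith)⟩, hρ1, le_antisymm (hρ1 _) ?_⟩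
  simp only [Prod.fst_neg, Prod.snd_neg]
  linarith

theorem axisX_neg {θ : ℝ × ℝ} (hA : AxisX μ θ) : AxisX μ (-θ) := by
  intro ρ hρ
  have := hA (-ρ) (by simpa using h.supports_neg hρ)
  simpa using this

variable (hnf : NoFacet μ) (hd1 : μ (1, 1) ≠ μ (1, 0)) (hd2 : μ (1, 1) ≠ 2 * μ (1, 0))
include hnf hd1 hd2

theorem axisX_vert {θ : ℝ × ℝ} (hθ0 : θ ≠ 0) (hV : Vert μ θ) : AxisX μ θ := by
  rcases hV with hN | hN
  · exact h.axisX_north hnf hd1 hd2 hθ0 hN
  · simpa using h.axisX_neg (h.axisX_north hnf hd1 hd2 (neg_ne_zero.2 hθ0) hN)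

theorem axisY_horiz {θ : ℝ × ℝ} (hθ0 : θ ≠ 0) (hH : Horiz μ θ) : AxisY μ θ := by
  rcases hH with hE | hE
  · exact h.axisY_east hnf hd1 hd2 hθ0 hE
  · intro ρ hρ
    have := h.axisY_east hnf hd1 hd2 (neg_ne_zero.2 hθ0) hE (-ρ) (h.supports_neg hρ)
    simpa using this

/-- A horizontal direction sharing a functional with a vertical one is vertical too. -/
theorem vert_of_shared {θ ψ ρ : ℝ × ℝ} (hθ0 : θ ≠ 0) (hψ0 : ψ ≠ 0) (hV : Vert μ θ)
    (hH : Horiz μ ψ) (hθ : Supports μ θ ρ) (hψ : Supports μ ψ ρ) : Vert μ ψ := by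
  have key : ∀ θ ψ ρ : ℝ × ℝ, θ ≠ 0 → ψ ≠ 0 → North μ θ → Horiz μ ψ → Supports μ θ ρ →
      Supports μ ψ ρ → North μ ψ := by
    intro θ ψ ρ hθ0 hψ0 hN hH hθ hψ
    rcases hH with hE | hE
    · exact Or.inr (Or.inl ⟨ρ, h.adjacent hnf hd1 hd2 hθ0 hψ0 hN hE hθ hψ, hψ⟩)
    · have h0 : ∀ x : ℝ × ℝ, x ≠ 0 → (-x.1, x.2) ≠ (0 : ℝ × ℝ) :=
        fun x hx e => hx (by simpa [Prod.ext_iff] using e)
      have hE' : East μ (-ψ.1, ψ.2) := by
        unfold East at hE ⊢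
        simpa [Prod.swap] using h.north_flip hE
      have := h.adjacent hnf hd1 hd2 (h0 θ hθ0) (h0 ψ hψ0) (h.north_flip hN) hE'
        (h.supports_flip hθ) (h.supports_flip hψ)
      exact Or.inr (Or.inr ⟨ρ, by simpa using h.supports_flip this, hψ⟩)
  rcases hV with hN | hN
  · exact Or.inl (key θ ψ ρ hθ0 hψ0 hN hH hθ hψ)
  · refine Or.inr (key (-θ) (-ψ) (-ρ) (neg_ne_zero.2 hθ0) (neg_ne_zero.2 hψ0) hN ?_
      (h.supports_neg hθ) (h.supports_neg hψ))
    unfold Horiz at hH ⊢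
    rwa [neg_neg, or_comm]

/-- With the four barriers both ends of a bigeodesic share a strict axis. -/
theorem directed {bb cg : ℝ} {ω : Cfg} (hg : Good bb cg ω) (hc : 0 < cg) {v : ℤ → Pt}
    (hv : IsLane ω v) (hshape : LaneShape μ ω v)
    (hb₁ : Barrier μ ω (1, 1)) (hb₂ : Barrier μ ω (-1, -1)) (hb₃ : Barrier μ ω (-1, 1))
    (hb₄ : Barrier μ ω (1, -1)) :
    (∀ θ, (MapClusterPt θ atTop (fun n : ℕ => dirOf (v n - v 0)) ∨
      MapClusterPt θ atTop (fun n : ℕ => dirOf (v (-(n : ℤ)) - v 0))) → AxisX μ θ) ∨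
    (∀ θ, (MapClusterPt θ atTop (fun n : ℕ => dirOf (v n - v 0)) ∨
      MapClusterPt θ atTop (fun n : ℕ => dirOf (v (-(n : ℤ)) - v 0))) → AxisY μ θ) := by
  have h0 := hg.nonneg
  have hiP : Function.Injective fun n : ℕ => v n := fun a c e => by simpa using hv.inj e
  have hiQ : Function.Injective fun n : ℕ => v (-(n : ℤ)) := fun a c e => by simpa using hv.inj e
  have sect : ∀ {r : Ray}, IsTail ω r →
      (∀ θ, MapClusterPt θ atTop (fun n => dirOf (r.pt n - v 0)) → Vert μ θ) ∨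
        ∀ θ, MapClusterPt θ atTop (fun n => dirOf (r.pt n - v 0)) → Horiz μ θ := fun {r} hr => by
    rcases h.confine hnf hd1 hd2 hg hc hb₁ hb₂ hb₃ hb₄ hr with s | s | s | s
    · exact Or.inl fun θ hθ => Or.inl (s θ (clusterDir_sub hr.inj _ hθ))
    · exact Or.inr fun θ hθ => Or.inl (s θ (clusterDir_sub hr.inj _ hθ))
    · exact Or.inl fun θ hθ => Or.inr (s θ (clusterDir_sub hr.inj _ hθ))
    · exact Or.inr fun θ hθ => Or.inr (s θ (clusterDir_sub hr.inj _ hθ))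
  have neP : ∀ θ, MapClusterPt θ atTop (fun n : ℕ => dirOf (v n - v 0)) → θ ≠ 0 :=
    fun θ hθ => clusterDir_ne_zero hiP (clusterDir_sub hiP _ hθ)
  have neQ : ∀ θ, MapClusterPt θ atTop (fun n : ℕ => dirOf (v (-(n : ℤ)) - v 0)) → θ ≠ 0 :=
    fun θ hθ => clusterDir_ne_zero hiQ (clusterDir_sub hiQ _ hθ)
  have vneg : ∀ θ, Vert μ θ → Vert μ (-θ) := fun θ hV => by
    unfold Vert at hV ⊢
    rwa [neg_neg, or_comm]
  have hneg : ∀ θ, Horiz μ θ → Horiz μ (-θ) := fun θ hH => by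
    unfold Horiz at hH ⊢
    rwa [neg_neg, or_comm]
  rcases sect (isTail_up hv h0) with sP | sP <;>
    rcases sect (isTail_lo hv h0) with sQ | sQ
  · exact Or.inl fun θ hθ => hθ.elim (fun e => h.axisX_vert hnf hd1 hd2 (neP θ e) (sP θ e))
      fun e => h.axisX_vert hnf hd1 hd2 (neQ θ e) (sQ θ e)
  · refine Or.inl fun θ hθ => hθ.elim (fun e => h.axisX_vert hnf hd1 hd2 (neP θ e) (sP θ e)) fun e => ?_
    obtain ⟨φ, ρ, hφ, hs1, hs2⟩ := h.exists_partner h0 hv.reverse (hshape.reverse h h0)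
      (θ := θ) (by simpa using e)
    have hφ' : MapClusterPt φ atTop fun n : ℕ => dirOf (v n - v 0) := by simpa using hφ
    exact h.axisX_vert hnf hd1 hd2 (neQ θ e) (h.vert_of_shared hnf hd1 hd2
      (neg_ne_zero.2 (neP φ hφ')) (neQ θ e) (vneg φ (sP φ hφ')) (sQ θ e) hs2 hs1)
  · refine Or.inl fun θ hθ => hθ.elim (fun e => ?_) fun e => h.axisX_vert hnf hd1 hd2 (neQ θ e) (sQ θ e)
    obtain ⟨φ, ρ, hφ, hs1, hs2⟩ := h.exists_partner h0 hv hshape e
    exact h.axisX_vert hnf hd1 hd2 (neP θ e) (h.vert_of_shared hnf hd1 hd2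
      (neg_ne_zero.2 (neQ φ hφ)) (neP θ e) (vneg φ (sQ φ hφ)) (sP θ e) hs2 hs1)
  · exact Or.inr fun θ hθ => hθ.elim (fun e => h.axisY_horiz hnf hd1 hd2 (neP θ e) (sP θ e))
      fun e => h.axisY_horiz hnf hd1 hd2 (neQ θ e) (sQ θ e)

end IsLatticeNorm

end Vale.Agent.P158.V4
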