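import Vale.Agent.P158.V4.StarBase

/-!
P158: the label of a bigeodesic: calibrated, of cost zero, and its route through a line.
-/

namespace Vale.Agent.P158.V4

open Filter Topology

variable {ω ω' : Cfg} {v : ℤ → Pt}

/-- The weight of a segment of a path of sites. -/
noncomputable def laneSum (v : ℤ → Pt) (y : Cfg) (i : ℤ) (n : ℕ) : ℝ :=
  ∑ k ∈ Finset.range n, y s(v (i + k), v (i + k + 1))

theorem laneSum_add (v : ℤ → Pt) (y : Cfg) (i : ℤ) (m n : ℕ) :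
    laneSum v y i (m + n) = laneSum v y i m + laneSum v y (i + m) n := by
  simp only [laneSum, Finset.sum_range_add, Nat.cast_add, add_assoc]

namespace IsLane

theorem seg_walk (hv : IsLane ω v) (i : ℤ) : ∀ n : ℕ, ∃ w : grid.Walk (v i) (v (i + n)),
    (∀ y : Cfg, wt y w = laneSum v y i n) ∧ ∀ z ∈ w.support, ∃ k : ℕ, k ≤ n ∧ z = v (i + k) := by
  intro n
  induction n with
  | zero =>
    refine ⟨SimpleGraph.Walk.nil.copy rfl (by simp), fun y => by simp [wt, laneSum], fun z hz => ?_⟩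
    simp only [SimpleGraph.Walk.support_copy, SimpleGraph.Walk.support_nil, List.mem_singleton] at hz
    exact ⟨0, le_rfl, by simp [hz]⟩
  | succ n ih =>
    obtain ⟨w, hw, hs⟩ := ih
    have hadj : grid.Adj (v (i + n)) (v (i + (n + 1 : ℕ))) := by
      rw [Nat.cast_succ, ← add_assoc]; exact hv.adj _
    refine ⟨w.concat hadj, fun y => ?_, fun z hz => ?_⟩
    · rw [laneSum, Finset.sum_range_succ, ← laneSum, ← hw y]
      simp [wt, add_assoc]
    · rw [SimpleGraph.Walk.support_concat, List.mem_append, List.mem_singleton] at hz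
      rcases hz with hz | rfl
      · obtain ⟨k, hk, rfl⟩ := hs z hz
        exact ⟨k, by omega, rfl⟩
      · exact ⟨n + 1, le_rfl, rfl⟩

theorem tt_laneSum (hv : IsLane ω v) (h0 : ∀ e, 0 ≤ ω e) (i : ℤ) (n : ℕ) :
    tt ω (v i) (v (i + n)) = laneSum v ω i n := lane_tt h0 hv i n

theorem tt_add (hv : IsLane ω v) (h0 : ∀ e, 0 ≤ ω e) {i j k : ℤ} (hij : i ≤ j) (hjk : j ≤ k) :
    tt ω (v i) (v k) = tt ω (v i) (v j) + tt ω (v j) (v k) := by
  obtain ⟨m, rfl⟩ := Int.le.dest hij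
  obtain ⟨n, rfl⟩ := Int.le.dest hjk
  rw [hv.tt_laneSum h0 i m, hv.tt_laneSum h0 (i + m) n, add_assoc, ← Nat.cast_add,
    hv.tt_laneSum h0 i (m + n), laneSum_add]

theorem tail_up (hv : IsLane ω v) (h0 : ∀ e, 0 ≤ ω e) : IsTail ω (labOf ω v).up := by
  refine ⟨fun n => by simpa [labOf] using hv.adj n,
    fun a b h => by simpa using hv.inj h, 0, fun i j _ hij => ?_⟩
  obtain ⟨n, rfl⟩ := Nat.exists_eq_add_of_le hij
  have h1 := hv.tt_add h0 (i := 0) (j := (i : ℤ)) (k := ((i + n : ℕ) : ℤ)) (by omega) (by omega)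
  have h2 := hv.tt_laneSum h0 (i : ℤ) n
  simp only [labOf] at *
  refine ⟨by linarith, ?_⟩
  rw [Nat.cast_add] at h1 ⊢
  rw [show tt ω (v 0) (v ((i : ℤ) + n)) - tt ω (v 0) (v i) = laneSum v ω i n by linarith,
    Finset.sum_Ico_eq_sum_range, Nat.add_sub_cancel_left, laneSum]
  exact Finset.sum_congr rfl fun k _ => by simp

theorem tail_lo (hv : IsLane ω v) (h0 : ∀ e, 0 ≤ ω e) : IsTail ω (labOf ω v).lo := by
  have h := hv.reverse.tail_up h0
  have he : (labOf ω fun i => v (-i)).up = (labOf ω v).lo := by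
    simp only [labOf, neg_zero]
    congr 1
    funext n
    exact tt_comm h0 _ _
  rwa [he] at h

theorem isLab (hv : IsLane ω v) (h0 : ∀ e, 0 ≤ ω e) (hr : Rises (labOf ω v).up)
    (hf : Falls (labOf ω v).lo) : IsLab ω (labOf ω v) :=
  ⟨hv.tail_lo h0, hv.tail_up h0, hf, hr⟩

theorem excess_eq (hv : IsLane ω v) (h0 : ∀ e, 0 ≤ ω e) (n : ℕ) : excess ω (labOf ω v) n = 0 := by
  simp only [excess, labOf]
  linarith [hv.tt_add h0 (i := -(n : ℤ)) (j := 0) (k := (n : ℤ)) (by omega) (by omega)]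

theorem bounded (hv : IsLane ω v) (h0 : ∀ e, 0 ≤ ω e) : Bounded ω (labOf ω v) :=
  ⟨0, by rintro _ ⟨n, rfl⟩; rw [hv.excess_eq h0]⟩

theorem total_eq (hv : IsLane ω v) (h0 : ∀ e, 0 ≤ ω e) : total ω (labOf ω v) = 0 := by
  have : excess ω (labOf ω v) = fun _ => (0 : ℝ) := funext (hv.excess_eq h0)
  unfold total
  rw [this]
  exact tendsto_const_nhds.limUnder_eq

theorem bus_zero (hv : IsLane ω v) (h0 : ∀ e, 0 ≤ ω e) :
    bus ω (labOf ω v).lo (v 0) = 0 ∧ bus ω (labOf ω v).up (v 0) = 0 := by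
  refine ⟨tendsto_nhds_unique ((hv.tail_lo h0).tendsto_bus h0 _) ?_,
    tendsto_nhds_unique ((hv.tail_up h0).tendsto_bus h0 _) ?_⟩ <;>
    simp [labOf, tt_comm h0 (v 0)]

theorem calib (hv : IsLane ω v) (h0 : ∀ e, 0 ≤ ω e) : Calib ω (labOf ω v) v := by
  constructor
  · intro i j hij
    refine tendsto_nhds_unique ((hv.tail_lo h0).tendsto_bus h0 _)
      ((((hv.tail_lo h0).tendsto_bus h0 _).add_const _).congr' ?_)
    filter_upwards [eventually_ge_atTop (-i).toNat] with n hn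
    simp only [labOf]
    rw [tt_comm h0 (v j), tt_comm h0 (v i) (v (-(n : ℤ))),
      hv.tt_add h0 (i := -(n : ℤ)) (j := i) (k := j) (by omega) hij]
    ring
  · intro i j hij
    refine tendsto_nhds_unique ((hv.tail_up h0).tendsto_bus h0 _)
      ((((hv.tail_up h0).tendsto_bus h0 _).const_add _).congr' ?_)
    filter_upwards [eventually_ge_atTop j.toNat] with n hn
    simp only [labOf]
    rw [hv.tt_add h0 (i := i) (j := j) (k := (n : ℤ)) hij (by omega)]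
    ring

theorem gsum_zero (hv : IsLane ω v) (h0 : ∀ e, 0 ≤ ω e) : gsum ω (labOf ω v) (v 0) = 0 := by
  rw [gsum, (hv.bus_zero h0).1, (hv.bus_zero h0).2, add_zero]

theorem gsum_min (hv : IsLane ω v) (h0 : ∀ e, 0 ≤ ω e) (hr : Rises (labOf ω v).up)
    (hf : Falls (labOf ω v).lo) (p : Pt) : gsum ω (labOf ω v) (v 0) ≤ gsum ω (labOf ω v) p := by
  rw [hv.gsum_zero h0, ← hv.total_eq h0]
  exact (hv.isLab h0 hr hf).total_le_gsum h0 (hv.bounded h0) p

theorem inCone {κ K rad : ℝ} (hv : IsLane ω v) (h0 : ∀ e, 0 ≤ ω e)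
    (hr : Rises (labOf ω v).up) (hf : Falls (labOf ω v).lo) (hcu : ConeRay κ (labOf ω v).up)
    (hcl : ConeRay κ (labOf ω v).lo) (hst : Steered κ K rad ω (v 0)) (i : ℤ) :
    InCone K rad (v 0) (v i) := by
  by_contra hn
  rcases le_total 0 i with hi | hi
  · have := hst.full _ (hv.tail_up h0) hcu (Or.inl hr) _ hn
    linarith [(hv.calib h0).up 0 i hi]
  · have := hst.full _ (hv.tail_lo h0) hcl (Or.inr hf) _ hn
    linarith [(hv.calib h0).lo i 0 hi, tt_comm h0 (v 0) (v i)]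

end IsLane

/-- The first and last visits of the level of `v 0`. -/
theorem lane_visits (hadj : ∀ i, grid.Adj (v i) (v (i + 1))) (h : (v 0).2 = 0)
    (hr : Rises ⟨fun n => v n, fun _ => 0⟩) (hf : Falls ⟨fun n => v (-n), fun _ => 0⟩) :
    ∃ iy ix : ℤ, iy ≤ 0 ∧ 0 ≤ ix ∧ (v iy).2 = 0 ∧ (v ix).2 = 0 ∧
      (∀ i, i ≤ iy → (v i).2 ≤ 0) ∧ ∀ i, ix ≤ i → 0 ≤ (v i).2 := by
  obtain ⟨N, hN⟩ := eventually_atTop.1 (hf.eventually_lower (-1))
  obtain ⟨M, hM⟩ := eventually_atTop.1 (hr.eventually_upper 1)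
  simp only [lower, upper, Set.mem_ofPred_eq] at hN hM
  obtain ⟨iy, hy, hy'⟩ := Int.exists_least_of_bdd (P := fun i => 0 ≤ (v i).2)
    ⟨-(N : ℤ), fun z hz => by
      by_contra hc
      have := hN (-z).toNat (by omega)
      rw [show -(((-z).toNat : ℕ) : ℤ) = z by omega] at this
      omega⟩ ⟨0, h.ge⟩
  obtain ⟨ix, hx, hx'⟩ := Int.exists_greatest_of_bdd (P := fun i => (v i).2 ≤ 0)
    ⟨(M : ℤ), fun z hz => by
      by_contra hc
      have := hM z.toNat (by omega)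
      rw [show ((z.toNat : ℕ) : ℤ) = z by omega] at this
      omega⟩ ⟨0, h.le⟩
  have hy0 := hy' 0 h.ge
  have hx0 := hx' 0 h.le
  have hy1 : ∀ i, i < iy → (v i).2 < 0 := fun i hi => by
    by_contra hc
    have := hy' i (not_lt.1 hc)
    omega
  have hx1 : ∀ i, ix < i → 0 < (v i).2 := fun i hi => by
    by_contra hc
    have := hx' i (not_lt.1 hc)
    omega
  have ay : grid.Adj (v (iy - 1)) (v iy) := by simpa using hadj (iy - 1)
  have := adj_snd_le ay
  have := adj_snd_le (hadj ix)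
  have := hy1 (iy - 1) (by omega)
  have := hx1 (ix + 1) (by omega)
  refine ⟨iy, ix, hy0, hx0, by omega, by omega, fun i hi => ?_, fun i hi => ?_⟩
  · rcases eq_or_lt_of_le hi with rfl | hi'
    · omega
    · exact (hy1 i hi').le
  · rcases eq_or_lt_of_le hi with rfl | hi'
    · omega
    · exact (hx1 i hi').le

/-- The route of the label through the visits, in a configuration with cheaper weights on the lane,
is at most minus the saving on any finite piece. -/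
theorem route_lane_le (hv : IsLane ω v) (h0 : ∀ e, 0 ≤ ω e) (h0' : ∀ e, 0 ≤ ω' e)
    (hL : IsLab ω' (labOf ω v)) {iy ix : ℤ} (hy0 : iy ≤ 0) (hx0 : 0 ≤ ix) (hy : (v iy).2 = 0)
    (hx : (v ix).2 = 0) (hlow : ∀ i, i ≤ iy → (v i).2 ≤ 0) (hup : ∀ i, ix ≤ i → 0 ≤ (v i).2)
    (hle : ∀ i, ω' s(v i, v (i + 1)) ≤ ω s(v i, v (i + 1))) (n₀ : ℕ) :
    route ω' (labOf ω v) 0 0 (v iy) (v ix) ≤ laneSum v ω' 0 n₀ - laneSum v ω 0 n₀ := by
  have hevl : ∀ᶠ n in atTop, (labOf ω v).lo.pt n ∈ lower 0 := hL.falls.eventually_lower 0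
  have hevu : ∀ᶠ n in atTop, (labOf ω v).up.pt n ∈ upper 0 := hL.rises.eventually_upper 0
  obtain ⟨A, hA⟩ := hL.lo.busIn_le h0' (linked_lower 0) hevl
  obtain ⟨B, hB⟩ := hL.up.busIn_le h0' (linked_upper 0) hevu
  obtain ⟨n, hn⟩ : ∃ n, n = A + B + n₀ + (-iy).toNat + ix.toNat := ⟨_, rfl⟩
  obtain ⟨m₁, hm₁⟩ := Int.le.dest (show -(n : ℤ) ≤ iy by omega)
  obtain ⟨m₂, hm₂⟩ := Int.le.dest (show iy ≤ ix by omega)
  obtain ⟨m₃, hm₃⟩ := Int.le.dest (show ix ≤ (n : ℤ) by omega)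
  obtain ⟨w₁, hw₁, hs₁⟩ := hv.seg_walk (-(n : ℤ)) m₁
  obtain ⟨w₂, hw₂, -⟩ := hv.seg_walk iy m₂
  obtain ⟨w₃, hw₃, hs₃⟩ := hv.seg_walk ix m₃
  have b1 : busIn (lower 0) ω' (labOf ω v).lo (v iy) ≤ laneSum v ω' (-(n : ℤ)) m₁ -
      tt ω (v (-(n : ℤ))) (v 0) := by
    refine (hA (v iy) hy.le n (by omega)).trans (sub_le_sub_right ?_ _)
    refine (ttS_le h0' (w₁.copy rfl (by rw [hm₁])).reverse fun z hz => ?_).trans_eq ?_
    · rw [SimpleGraph.Walk.support_reverse, List.mem_reverse, SimpleGraph.Walk.support_copy] at hz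
      obtain ⟨k, hk, rfl⟩ := hs₁ z hz
      exact hlow _ (by omega)
    · rw [wt_reverse, ← hw₁ ω']
      simp [wt]
  have b2 : tt ω' (v iy) (v ix) ≤ laneSum v ω' iy m₂ :=
    (tt_le h0' (w₂.copy rfl (by rw [hm₂]))).trans_eq (by rw [← hw₂ ω']; simp [wt])
  have b3 : busIn (upper 0) ω' (labOf ω v).up (v ix) ≤ laneSum v ω' ix m₃ -
      tt ω (v 0) (v n) := by
    refine (hB (v ix) hx.ge n (by omega)).trans (sub_le_sub_right ?_ _)
    refine (ttS_le h0' (w₃.copy rfl (by rw [hm₃]; rfl)) fun z hz => ?_).trans_eq ?_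
    · rw [SimpleGraph.Walk.support_copy] at hz
      obtain ⟨k, hk, rfl⟩ := hs₃ z hz
      exact hup _ (by omega)
    · rw [← hw₃ ω']
      simp [wt]
  have htot : ∀ y : Cfg, laneSum v y (-(n : ℤ)) m₁ + laneSum v y iy m₂ + laneSum v y ix m₃ =
      laneSum v y (-(n : ℤ)) n + laneSum v y 0 n₀ + laneSum v y (n₀ : ℤ) (n - n₀) := by
    intro y
    conv_lhs => rw [← hm₁, show ix = -(n : ℤ) + ((m₁ + m₂ : ℕ) : ℤ) by omega]
    rw [← laneSum_add, ← laneSum_add, show m₁ + m₂ + m₃ = n + (n₀ + (n - n₀)) by omega,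
      laneSum_add, laneSum_add, neg_add_cancel, zero_add, add_assoc]
  have hmono : ∀ i k, laneSum v ω' i k ≤ laneSum v ω i k := fun i k =>
    Finset.sum_le_sum fun j _ => hle _
  have e1 := hv.tt_laneSum h0 (-(n : ℤ)) n
  have e2 := hv.tt_laneSum h0 0 n₀
  have e3 := hv.tt_laneSum h0 (n₀ : ℤ) (n - n₀)
  rw [neg_add_cancel] at e1
  rw [zero_add] at e2
  rw [show (n₀ : ℤ) + ((n - n₀ : ℕ) : ℤ) = n by omega] at e3
  have e4 := hv.tt_add h0 (i := 0) (j := (n₀ : ℤ)) (k := (n : ℤ)) (by omega) (by omega)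
  have := htot ω'
  unfold route
  linarith [hmono (-(n : ℤ)) n, hmono (n₀ : ℤ) (n - n₀)]

end Vale.Agent.P158.V4
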