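import Vale.Agent.P158.V4.CocycleLimit
import Vale.Agent.P158.V4.Ergodic

/-!
P158, note 1446 part C: along every lattice direction the invariant cocycle grows at most like the
largest value of a functional supporting the norm at the diagonal.
-/

namespace Vale.Agent.P158.V4

open MeasureTheory Filter Topology

/-- The maximal lemma of Garsia for a finite invariant measure. -/
theorem garsia {Ω : Type*} [MeasurableSpace Ω] {T : Ω → Ω} {P : Measure Ω} [IsFiniteMeasure P]
    (hT : MeasurePreserving T P P) {g : Ω → ℝ} (hg : Measurable g) {C : ℝ} (hC : ∀ x, |g x| ≤ C)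
    (hpos : ∀ᵐ x ∂P, ∃ n, 0 < mx T g n x) : 0 ≤ ∫ x, g x ∂P := by
  have hgi : Integrable g P := Integrable.of_bound hg.aestronglyMeasurable C (ae_of_all _ hC)
  have hm : ∀ k, Measurable (mx T g k) := by
    intro k
    induction k with
    | zero => exact measurable_const
    | succ k ih => exact measurable_const.max (hg.add (ih.comp hT.measurable))
  have hi : ∀ k, Integrable (mx T g k) P := by
    intro k
    induction k with
    | zero => exact integrable_const 0
    | succ k ih =>
      exact (integrable_const 0).sup (hgi.add ((hT.integrable_comp (hm k).aestronglyMeasurable).2 ih))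
  set E : ℕ → Set Ω := fun n => {x | 0 < mx T g n x}
  have hE : ∀ n, MeasurableSet (E n) := fun n => measurableSet_lt measurable_const (hm n)
  have hmono : Monotone E := fun a b hab x hx => lt_of_lt_of_le hx (mx_le_of_le T g hab x)
  have h0 : ∀ n, 0 ≤ ∫ x in E n, g x ∂P := by
    intro n
    have hmap : ∫ x, mx T g n (T x) ∂P = ∫ x, mx T g n x ∂P := by
      have h := integral_map hT.measurable.aemeasurable (μ := P)
        (f := mx T g n) (by rw [hT.map_eq]; exact (hm n).aestronglyMeasurable)
      rw [hT.map_eq] at h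
      exact h.symm
    have hiT : Integrable (fun x => mx T g n (T x)) P :=
      (hT.integrable_comp (hm n).aestronglyMeasurable).2 (hi n)
    have hpt : ∀ x, mx T g n x - mx T g n (T x) ≤ (E n).indicator g x := by
      intro x
      by_cases hx : x ∈ E n
      · rw [Set.indicator_of_mem hx]; exact sub_le_of_pos T g hx
      · rw [Set.indicator_of_notMem hx]
        have h1 : mx T g n x ≤ 0 := not_lt.1 hx
        linarith [mx_nonneg T g n (T x)]
    rw [← integral_indicator (hE n)]
    refine le_trans (le_of_eq ?_) (integral_mono ((hi n).sub hiT) (hgi.indicator (hE n)) hpt)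
    rw [Pi.sub_def, integral_sub (hi n) hiT, hmap, sub_self]
  have h := ge_of_tendsto' (tendsto_setIntegral_of_monotone hE hmono hgi.integrableOn) h0
  have hun : (⋃ n, E n) =ᵐ[P] Set.univ :=
    ae_eq_univ.2 (measure_mono_null (fun x hx hp => hx (Set.mem_iUnion.2 hp)) (ae_iff.1 hpos))
  rwa [setIntegral_congr_set hun, setIntegral_univ] at h

variable {G : Measure ℝ} [IsProbabilityMeasure G] {b : ℝ}

/-- Passage times integrated over any event are at most its mass times the time constant. -/
theorem setIntegral_tt_le (hG : ∀ᵐ t ∂G, 0 < t ∧ t ≤ b) {ν : Measure St} [IsProbabilityMeasure ν]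
    (hfst : ν.map Prod.fst = law G) (A : Set St) (z : ℝ × ℝ) {η : ℝ} (hη : 0 < η) :
    ∀ᶠ n : ℕ in atTop, ∫ X in A, tt X.1 (0, 0) (fl ((n : ℝ) * z.1, (n : ℝ) * z.2)) ∂ν ≤
      (ν.real A * mu G z + η) * n := by
  obtain ⟨C, hC, hdev⟩ := exists_dev G hG
  have hb := b_nonneg G hG
  set ε : ℝ := η / 3 with hε
  have hε0 : 0 < ε := by positivity
  set K : ℝ := |z.1| + |z.2| + 2 with hK
  have hK1 : 1 ≤ K := by linarith [abs_nonneg z.1, abs_nonneg z.2]
  filter_upwards [(exists_mu_lim G hG z).eventually (eventually_le_nhds (lt_add_of_pos_right _ hε0)),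
    (tendsto_const_div_atTop_nhds_zero_nat (K * b * C * (K + 1) / ε ^ 2)).eventually
      (eventually_le_nhds hε0), eventually_ge_atTop 1] with n hn1 hn2 hn
  set y : Pt := fl ((n : ℝ) * z.1, (n : ℝ) * z.2) with hy
  have hn' : (1 : ℝ) ≤ n := by exact_mod_cast hn
  rw [div_le_iff₀ (by linarith)] at hn1 hn2
  set L : ℝ := ((l1 ((0, 0) : Pt) y : ℕ) : ℝ) with hL
  have hLK : L ≤ K * n := by
    rw [hL, l1_cast]
    simp only [Int.cast_zero, zero_sub, abs_neg]
    have key : ∀ x : ℝ, |((⌊(n : ℝ) * x⌋ : ℤ) : ℝ)| ≤ n * |x| + 1 := fun x => by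
      rw [← Nat.abs_cast n, ← abs_mul, Nat.abs_cast, abs_le]
      exact ⟨by linarith [Int.sub_one_lt_floor ((n : ℝ) * x), neg_abs_le ((n : ℝ) * x)],
        by linarith [Int.floor_le ((n : ℝ) * x), le_abs_self ((n : ℝ) * x)]⟩
    have k1 := key z.1
    have k2 := key z.2
    simp only [hy, fl]
    rw [show K * n = n * |z.1| + n * |z.2| + 2 * n by rw [hK]; ring]
    linarith
  set m : ℝ := mean G y with hm
  set W : Set Cfg := {ω : Cfg | ε * n ≤ |tt ω (0, 0) y - m|}
  have hWm : MeasurableSet W :=
    measurableSet_le measurable_const ((measurable_tt _ _).sub measurable_const).abs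
  set S : Set St := Prod.fst ⁻¹' W with hS
  have hSm : MeasurableSet S := measurable_fst hWm
  have hSr : ν.real S ≤ C * (L + 1) / (ε * n) ^ 2 := by
    rw [measureReal_def, hS, ← Measure.map_apply measurable_fst hWm, hfst]
    refine ENNReal.toReal_le_of_le_ofReal (by positivity) ?_
    have := hdev (0, 0) y (ε * n) (by positivity)
    rwa [show y - ((0, 0) : Pt) = y by simp] at this
  have hgood : ∀ᵐ X ∂ν, ∀ e, 0 < X.1 e ∧ X.1 e ≤ b :=
    ae_of_ae_map measurable_fst.aemeasurable (by rw [hfst]; exact good_ae G hG)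
  have hint : Integrable (fun X : St => tt X.1 (0, 0) y) ν := by
    refine Integrable.of_bound ((measurable_tt _ _).comp measurable_fst).aestronglyMeasurable (L * b) ?_
    filter_upwards [hgood] with X hX
    rw [Real.norm_eq_abs, abs_of_nonneg (tt_nonneg fun e => (hX e).1.le)]
    exact tt_le_l1 (fun e => (hX e).1.le) (fun e => (hX e).2) _ _
  have hind : Integrable (S.indicator fun _ : St => L * b) ν := (integrable_const _).indicator hSm
  have hpt : ∀ᵐ X ∂ν, tt X.1 (0, 0) y ≤ (m + ε * n) + S.indicator (fun _ => L * b) X := by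
    filter_upwards [hgood] with X hX
    by_cases hXS : X ∈ S
    · rw [Set.indicator_of_mem hXS]
      have : 0 ≤ m + ε * n := add_nonneg (mean_nonneg G hG _) (by positivity)
      linarith [tt_le_l1 (fun e => (hX e).1.le) (fun e => (hX e).2) (0, 0) y]
    · rw [Set.indicator_of_notMem hXS, add_zero]
      simp only [hS, W, Set.mem_preimage, Set.mem_ofPred_eq, not_le] at hXS
      linarith [le_abs_self (tt X.1 (0, 0) y - m)]
  have h := integral_mono_ae hint.integrableOn ((integrable_const (m + ε * n)).add hind).integrableOn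
    (ae_restrict_of_ae (s := A) hpt)
  simp only [Pi.add_apply] at h
  rw [integral_add (integrable_const _) hind.integrableOn, setIntegral_const, smul_eq_mul] at h
  have h1 : ∫ X in A, S.indicator (fun _ => L * b) X ∂ν ≤ ν.real S * (L * b) := by
    refine (setIntegral_le_integral hind (ae_of_all _ fun X =>
      Set.indicator_nonneg (fun _ _ => by positivity) X)).trans_eq ?_
    rw [integral_indicator_const _ hSm, smul_eq_mul]
  have h2 : ν.real S * (L * b) ≤ ε * n := by
    refine le_trans (mul_le_mul_of_nonneg_right hSr (by positivity)) ?_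
    have h3 : C * (L + 1) * (L * b) ≤ C * ((K + 1) * n) * (K * n * b) :=
      mul_le_mul (mul_le_mul_of_nonneg_left (by linarith) hC) (mul_le_mul_of_nonneg_right hLK hb)
        (by positivity) (by positivity)
    rw [div_mul_eq_mul_div, div_le_iff₀ (by positivity)]
    refine h3.trans (le_of_eq_of_le ?_ (mul_le_mul_of_nonneg_right hn2 (sq_nonneg (ε * (n : ℝ)))) |>.trans
      (le_of_eq ?_))
    · field_simp
    · ring
  have hA1 : ν.real A ≤ 1 := measureReal_le_one
  have hA0 : 0 ≤ ν.real A := measureReal_nonneg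
  have h4 : ν.real A * (m + ε * n) ≤ (ν.real A * mu G z) * n + 2 * (ε * n) := by
    have h5 : ν.real A * m ≤ ν.real A * ((mu G z + ε) * n) := mul_le_mul_of_nonneg_left hn1 hA0
    have h6 : ν.real A * (ε * n) ≤ 1 * (ε * n) := mul_le_mul_of_nonneg_right hA1 (by positivity)
    linarith
  have h7 : η * n = 3 * (ε * n) := by rw [hε]; ring
  linarith

/-- The event that the cocycle exceeds the speed `c` along `v` infinitely often. -/
def exceedSt (v : Pt) (c : ℝ) : Set St :=
  {X | ∃ n : ℕ, ∀ r : ℕ, ∃ j : ℕ, r ≤ j ∧ (c + 1 / ((n : ℝ) + 1)) * j < -X.2 (j • v)}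

theorem measurableSet_exceedSt (v : Pt) (c : ℝ) : MeasurableSet (exceedSt v c) := by
  have : exceedSt v c = ⋃ n : ℕ, ⋂ r : ℕ, ⋃ j ∈ Set.Ici r,
      {X : St | (c + 1 / ((n : ℝ) + 1)) * j < -X.2 (j • v)} := by
    ext X
    simp only [exceedSt, Set.mem_ofPred_eq, Set.mem_iUnion, Set.mem_iInter, Set.mem_Ici, exists_prop]
  rw [this]
  exact MeasurableSet.iUnion fun n => MeasurableSet.iInter fun r =>
    MeasurableSet.biUnion (Set.to_countable _) fun j _ =>
      measurableSet_lt measurable_const ((measurable_pi_apply _).comp measurable_snd).neg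

theorem exceedSt_move {X : St} (hX : Reg b X) (a v : Pt) {c : ℝ} (h : X ∈ exceedSt v c) :
    moveSt a X ∈ exceedSt v c := by
  obtain ⟨n, hn⟩ := h
  refine ⟨n + 1, fun r => ?_⟩
  set d : ℝ := 1 / ((n : ℝ) + 1) - 1 / ((n : ℝ) + 2)
  have hd : 0 < d := sub_pos.2 (one_div_lt_one_div_of_lt (by positivity) (by linarith))
  set C : ℝ := (l1 a (0, 0) : ℝ) * b
  obtain ⟨j, hj, hlt⟩ := hn (max r ⌈2 * C / d⌉₊)
  refine ⟨j, le_trans (le_max_left _ _) hj, ?_⟩
  have h1 : 2 * C ≤ d * j := by
    have := (Nat.le_ceil (2 * C / d)).trans (Nat.cast_le.2 ((le_max_right _ _).trans hj))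
    rw [div_le_iff₀ hd] at this
    linarith
  have h2 := abs_le.1 (hX.abs_sub_le a (0, 0))
  rw [hX.zero, sub_zero] at h2
  have h3 := abs_le.1 (hX.abs_sub_le (j • v + a) (j • v))
  rw [show (l1 (j • v + a) (j • v) : ℝ) = l1 a (0, 0) by simp [l1]] at h3
  simp only [moveSt]
  push_cast
  rw [show (n : ℝ) + 1 + 1 = n + 2 by ring]
  have : (c + 1 / ((n : ℝ) + 2)) * j + d * j = (c + 1 / ((n : ℝ) + 1)) * j := by simp only [d]; ring
  linarith

/-- Almost surely the cocycle grows along `v` at most at any speed above all functionals supporting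
at the diagonal. -/
theorem ae_not_exceed (hG : ∀ᵐ t ∂G, 0 < t ∧ t ≤ b) {ν : Measure St} [IsProbabilityMeasure ν]
    (hfst : ν.map Prod.fst = law G) (hreg : ∀ᵐ X ∂ν, Reg b X)
    (hmp : ∀ a, MeasurePreserving (moveSt a) ν ν)
    (hdiag : mu G (1, 1) ≤ (∫ X, -X.2 (1, 0) ∂ν) + ∫ X, -X.2 (0, 1) ∂ν) (v : Pt) {c : ℝ}
    (hc : ∀ ρ, Supports (mu G) (1, 1) ρ → ρ.1 * v.1 + ρ.2 * v.2 < c) :
    ∀ᵐ X ∂ν, X ∉ exceedSt v c := by
  set A := exceedSt v c with hA
  have hAm : MeasurableSet A := measurableSet_exceedSt v c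
  have hb := b_nonneg G hG
  have hμ := isLatticeNorm_mu G hG
  have hinv : ∀ a, moveSt a ⁻¹' A =ᵐ[ν] A := fun a => by
    filter_upwards [hreg] with X hX
    refine propext ⟨fun h => ?_, exceedSt_move hX a v⟩
    have h' := exceedSt_move (hX.move a) (-a) v h
    rwa [moveSt_moveSt, neg_add_cancel, ← Prod.mk_zero_zero, moveSt_zero hX.zero] at h'
  have hint : ∀ u : Pt, Integrable (fun X : St => -X.2 u) ν := fun u => by
    refine Integrable.of_bound ((measurable_pi_apply u).comp measurable_snd).neg.aestronglyMeasurable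
      (l1 u (0, 0) * b) ?_
    filter_upwards [hreg] with X hX
    have h := hX.abs_sub_le u (0, 0)
    rw [hX.zero, sub_zero] at h
    rwa [Real.norm_eq_abs, abs_neg]
  -- linearity and the bound on any invariant event
  have lin : ∀ B : Set St, MeasurableSet B → (∀ a, moveSt a ⁻¹' B =ᵐ[ν] B) →
      (∀ u : Pt, ∫ X in B, -X.2 u ∂ν =
        u.1 * (∫ X in B, -X.2 (1, 0) ∂ν) + u.2 * ∫ X in B, -X.2 (0, 1) ∂ν) ∧
      ∀ z : ℝ × ℝ, z.1 * (∫ X in B, -X.2 (1, 0) ∂ν) + z.2 * (∫ X in B, -X.2 (0, 1) ∂ν) ≤
        ν.real B * mu G z := by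
    intro B hB hBinv
    set g : Pt → ℝ := fun u => ∫ X in B, -X.2 u ∂ν with hg
    have hadd : ∀ u w, g (u + w) = g u + g w := by
      intro u w
      have hres : MeasurePreserving (moveSt u) (ν.restrict B) (ν.restrict B) := by
        have h := (hmp u).restrict_preimage hB
        rwa [Measure.restrict_congr_set (hBinv u)] at h
      have h1 : ∫ X in B, -(moveSt u X).2 w ∂ν = g w := by
        have h := integral_map hres.measurable.aemeasurable (μ := ν.restrict B)
          (f := fun X : St => -X.2 w) (by rw [hres.map_eq]; exact (hint w).integrableOn.aestronglyMeasurable)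
        rw [hres.map_eq] at h
        exact h.symm
      have h2 : Integrable (fun X => -(moveSt u X).2 w) (ν.restrict B) :=
        (hres.integrable_comp (hint w).integrableOn.aestronglyMeasurable).2 (hint w).integrableOn
      rw [← h1, hg, ← integral_add (hint u).integrableOn h2]
      refine integral_congr_ae (ae_of_all _ fun X => ?_)
      simp only [moveSt]
      rw [add_comm u w]
      ring
    have hlin : ∀ u : Pt, g u = u.1 * g (1, 0) + u.2 * g (0, 1) := by
      intro u
      let φ : Pt →+ ℝ := AddMonoidHom.mk' g hadd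
      have : φ (u.1 • ((1, 0) : Pt) + u.2 • ((0, 1) : Pt)) =
          (u.1 : ℝ) * φ (1, 0) + (u.2 : ℝ) * φ (0, 1) := by
        rw [map_add, map_zsmul, map_zsmul, zsmul_eq_mul, zsmul_eq_mul]
      rwa [show u.1 • ((1, 0) : Pt) + u.2 • ((0, 1) : Pt) = u by ext <;> simp] at this
    refine ⟨hlin, fun z => le_of_forall_pos_le_add fun η hη => ?_⟩
    refine le_of_tendsto (f := fun n : ℕ => g (fl ((n : ℝ) * z.1, (n : ℝ) * z.2)) / n) (x := atTop) ?_ ?_
    · refine (((tendsto_floor_div z.1).mul_const (g (1, 0))).add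
        ((tendsto_floor_div z.2).mul_const (g (0, 1)))).congr fun n => ?_
      rw [hlin (fl ((n : ℝ) * z.1, (n : ℝ) * z.2))]
      simp only [fl]
      ring
    · filter_upwards [setIntegral_tt_le hG hfst B z hη, eventually_gt_atTop 0] with n hn hn0
      rw [div_le_iff₀ (Nat.cast_pos.2 hn0)]
      refine le_trans (integral_mono_ae (hint _).integrableOn ?_ (ae_restrict_of_ae ?_)) hn
      · refine Integrable.integrableOn (Integrable.of_bound
          ((measurable_tt _ _).comp measurable_fst).aestronglyMeasurable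
          (l1 (0, 0) (fl ((n : ℝ) * z.1, (n : ℝ) * z.2)) * b) ?_)
        filter_upwards [hreg] with X hX
        rw [Real.norm_eq_abs, abs_of_nonneg (tt_nonneg hX.nonneg)]
        exact tt_le_l1 hX.nonneg (fun e => (hX.mem e).2) _ _
      · filter_upwards [hreg] with X hX
        have := hX.sub_le_tt (0, 0) (fl ((n : ℝ) * z.1, (n : ℝ) * z.2))
        rw [hX.zero] at this
        linarith
  obtain ⟨hlinA, hboundA⟩ := lin A hAm hinv
  have hboundC := (lin Aᶜ hAm.compl fun a => by rw [Set.preimage_compl]; exact (hinv a).compl).2 (1, 1)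
  by_contra hne
  have hp : 0 < ν.real A := by
    refine ENNReal.toReal_pos (fun h0 => hne ?_) (measure_ne_top _ _)
    exact measure_eq_zero_iff_ae_notMem.1 h0
  set p := ν.real A
  set e₁ := ∫ X in A, -X.2 (1, 0) ∂ν
  set e₂ := ∫ X in A, -X.2 (0, 1) ∂ν
  have hsupp : Supports (mu G) (1, 1) (e₁ / p, e₂ / p) := by
    have key : ∀ z : ℝ × ℝ, e₁ / p * z.1 + e₂ / p * z.2 ≤ mu G z := fun z => by
      rw [div_mul_eq_mul_div, div_mul_eq_mul_div, ← add_div, div_le_iff₀ hp]
      linarith [hboundA z]
    refine ⟨key, le_antisymm (key (1, 1)) ?_⟩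
    simp only [mul_one]
    rw [← add_div, le_div_iff₀ hp]
    rw [← integral_add_compl hAm (hint (1, 0)), ← integral_add_compl hAm (hint (0, 1))] at hdiag
    rw [measureReal_compl hAm, probReal_univ, one_mul, one_mul] at hboundC
    linarith
  have hv := hc _ hsupp
  set f : St → ℝ := fun X => incr b hb v X - c with hf
  have hres : MeasurePreserving (moveSt v) (ν.restrict A) (ν.restrict A) := by
    have h := (hmp v).restrict_preimage hAm
    rwa [Measure.restrict_congr_set (hinv v)] at h
  have horb : ∀ X : St, Reg b X → ∀ j : ℕ,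
      ∑ i ∈ Finset.range j, f ((moveSt v)^[i] X) = -X.2 (j • v) - c * j := by
    intro X hX j
    induction j generalizing X with
    | zero =>
      have h0 := hX.zero
      simp only [Prod.mk_zero_zero] at h0
      simp [h0]
    | succ j ih =>
      rw [Finset.sum_range_succ']
      simp only [Function.iterate_succ_apply, Function.iterate_zero_apply]
      rw [ih _ (hX.move v)]
      simp only [hf, incr_eq hb v hX, moveSt, succ_nsmul]
      push_cast
      ring
  have hf0 := garsia hres (g := f) ((incr b hb v).continuous.measurable.sub_const c)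
    (C := ‖incr b hb v‖ + |c|) (fun X => (abs_sub _ _).trans
      (add_le_add ((incr b hb v).norm_coe_le_norm X) le_rfl)) (by
    filter_upwards [ae_restrict_mem hAm, ae_restrict_of_ae hreg] with X hXA hX
    obtain ⟨n, hn⟩ := hXA
    obtain ⟨j, hj, hlt⟩ := hn 1
    refine ⟨j, lt_of_lt_of_le ?_ (sum_le_mx _ f j X j le_rfl)⟩
    rw [horb X hX]
    have : 0 < 1 / ((n : ℝ) + 1) * j := by
      have : 0 < (j : ℝ) := by exact_mod_cast hj
      positivity
    linarith)
  have hf1 : ∫ X in A, f X ∂ν = (v.1 : ℝ) * e₁ + (v.2 : ℝ) * e₂ - c * p := by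
    rw [← hlinA v, hf, integral_sub ((incr b hb v).integrable _) (integrable_const _), setIntegral_const,
      smul_eq_mul, integral_congr_ae (ae_restrict_of_ae (hreg.mono fun X hX => incr_eq hb v hX))]
    ring
  rw [hf1] at hf0
  have h5 := mul_lt_mul_of_pos_right hv hp
  rw [add_mul, mul_assoc, mul_assoc, mul_comm (v.1 : ℝ), mul_comm (v.2 : ℝ), ← mul_assoc, ← mul_assoc,
    div_mul_cancel₀ _ hp.ne', div_mul_cancel₀ _ hp.ne'] at h5
  linarith

end Vale.Agent.P158.V4
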