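import Vale.Agent.P158.V4.Defs

/-!
P158: the tilt of the field of marks (note 1433, section 3): definitions and the module's statements.

An edge carries a mark `(U, W)` in the unit square and the weight `qf G U`. The inverse tilt
`raise1 q δ` moves a band of small `U` up and then takes a root; it is monotone in `δ`.
-/

namespace Vale.Agent.P158.V4

open MeasureTheory Filter Topology

/-- Marks of the edges. -/
abbrev Marks : Type := Sym2 Pt → ℝ × ℝ

/-- The uniform law on the unit square. -/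
noncomputable def unitSquare : Measure (ℝ × ℝ) :=
  (volume.restrict (Set.Icc (0 : ℝ) 1)).prod (volume.restrict (Set.Icc (0 : ℝ) 1))

/-- The law of the marks. -/
noncomputable def markLaw : Measure Marks := Measure.infinitePi fun _ : Sym2 Pt => unitSquare

/-- The quantile function of a law on the line. -/
noncomputable def qf (G : Measure ℝ) (u : ℝ) : ℝ := sInf {t | u ≤ G.real (Set.Iic t)}

/-- The weights given by the marks. -/
noncomputable def cfg (G : Measure ℝ) (s : Marks) : Cfg := fun e => qf G (s e).1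

/-- The band part of the inverse tilt. -/
noncomputable def bandUp (q δ : ℝ) (x : ℝ × ℝ) : ℝ × ℝ :=
  let d := δ * (1 - 2 * q) / (q + δ * (1 - 2 * q))
  if x.1 < q then
    (if x.2 < d then (2 * q + x.1 / q * (1 - 2 * q), δ * x.2 / d) else (x.1, (x.2 - d) / (1 - d)))
  else if 2 * q ≤ x.1 then (x.1, δ + (1 - δ) * x.2) else x

/-- The inverse tilt of one mark. -/
noncomputable def raise1 (q δ : ℝ) (x : ℝ × ℝ) : ℝ × ℝ :=
  ((bandUp q δ x).1 ^ (1 / (1 + δ)), (bandUp q δ x).2)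

/-- The band part of the tilt. -/
noncomputable def bandDown (q δ : ℝ) (x : ℝ × ℝ) : ℝ × ℝ :=
  let d := δ * (1 - 2 * q) / (q + δ * (1 - 2 * q))
  if 2 * q ≤ x.1 then
    (if x.2 < δ then (q * (x.1 - 2 * q) / (1 - 2 * q), d * x.2 / δ) else (x.1, (x.2 - δ) / (1 - δ)))
  else if x.1 < q then (x.1, d + (1 - d) * x.2) else x

/-- The tilt of one mark. -/
noncomputable def lower1 (q δ : ℝ) (x : ℝ × ℝ) : ℝ × ℝ := bandDown q δ (x.1 ^ (1 + δ), x.2)

/-- The distance of an edge from a site: the larger one over its two ends, rounded at `r`. -/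
noncomputable def edgeN (K r : ℝ) (u : Pt) (e : Sym2 Pt) : ℝ :=
  Sym2.lift ⟨fun a b =>
      max (max (max |((a.2 - u.2 : ℤ) : ℝ)| (|((a.1 - u.1 : ℤ) : ℝ)| / K)) r)
        (max (max |((b.2 - u.2 : ℤ) : ℝ)| (|((b.1 - u.1 : ℤ) : ℝ)| / K)) r),
    fun a b => max_comm _ _⟩ e

open Classical in
/-- The profile of the tilt around one site: `1 / (√S N)` up to the radius `2 ^ S r`, on edges of
the lattice only. -/
noncomputable def prof1 (K r : ℝ) (S : ℕ) (u : Pt) (e : Sym2 Pt) : ℝ :=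
  if e ∈ grid.edgeSet ∧ edgeN K r u e ≤ 2 ^ S * r then 1 / (Real.sqrt S * edgeN K r u e) else 0

/-- The profile of the tilt around several sites. -/
noncomputable def prof (K r : ℝ) (S : ℕ) (C : Finset Pt) (e : Sym2 Pt) : ℝ :=
  (insert (0 : ℝ) (C.image fun u => prof1 K r S u e)).max' (Finset.insert_nonempty _ _)

/-- The inverse tilt around several sites. -/
noncomputable def raise (q K r : ℝ) (S : ℕ) (C : Finset Pt) (s : Marks) : Marks :=
  fun e => raise1 q (prof K r S C e) (s e)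

/-- The tilt around several sites. -/
noncomputable def lower' (q K r : ℝ) (S : ℕ) (C : Finset Pt) (s : Marks) : Marks :=
  fun e => lower1 q (prof K r S C e) (s e)

/-- The decrease of the weight of an edge under the tilt at `u`. -/
noncomputable def saving (G : Measure ℝ) (q K r : ℝ) (S : ℕ) (u : Pt) (s : Marks) (e : Sym2 Pt) :
    ℝ :=
  qf G (s e).1 - qf G (lower' q K r S {u} s e).1

/-- Module Tilt: the law of the weights, monotonicity and locality. -/
def TiltBasicStmt (G : Measure ℝ) : Prop :=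
  (∀ x, G {x} = 0) →
  markLaw.map (cfg G) = law G ∧
  (∀ᵐ s ∂markLaw, ∀ e, (s e).1 ∈ Set.Ioo (0 : ℝ) 1 ∧ (s e).2 ∈ Set.Ico (0 : ℝ) 1) ∧
  (StrictMonoOn (qf G) (Set.Ioo 0 1)) ∧
  ∀ q ∈ Set.Ioo (0 : ℝ) (1 / 4), ∀ x : ℝ × ℝ, x.1 ∈ Set.Ioo (0 : ℝ) 1 → x.2 ∈ Set.Ico (0 : ℝ) 1 →
    raise1 q 0 x = x ∧ (∀ δ ∈ Set.Icc (0 : ℝ) (1 / 2),
      raise1 q δ (lower1 q δ x) = x ∧ lower1 q δ (raise1 q δ x) = x) ∧
    (∀ δ ∈ Set.Icc (0 : ℝ) 1, (raise1 q δ x).1 ∈ Set.Ioo (0 : ℝ) 1) ∧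
    ∀ δ δ', 0 ≤ δ → δ < δ' → δ' ≤ 1 → (raise1 q δ x).1 < (raise1 q δ' x).1

/-- Module Tilt: the raised field is comparable, with a constant independent of the number of
scales for one centre. -/
def TiltProbStmt : Prop :=
  ∀ q ∈ Set.Ioo (0 : ℝ) (1 / 4), ∀ K : ℝ, 1 ≤ K → ∃ r₀ C : ℝ, 0 < C ∧
    (∀ r : ℝ, r₀ ≤ r → ∀ (S : ℕ) (u : Pt), 1 ≤ S → ∀ E : Set Marks, MeasurableSet E →
      markLaw.real E ^ 2 ≤ C * markLaw.real (raise q K r S {u} ⁻¹' E)) ∧
    (∀ (r : ℝ) (S : ℕ), r₀ ≤ r → 1 ≤ S → ∀ n : ℕ, ∃ Cn : ℝ, 0 < Cn ∧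
      ∀ U : Finset Pt, U.card ≤ n → ∀ E : Set Marks, MeasurableSet E →
        markLaw.real E ^ 2 ≤ Cn * markLaw.real (raise q K r S U ⁻¹' E)) ∧
    ∀ (r : ℝ) (S : ℕ) (U : Finset Pt), r₀ ≤ r → 1 ≤ S → ∀ E : Set Marks, MeasurableSet E →
      markLaw E = 0 → markLaw (raise q K r S U ⁻¹' E) = 0

/-- Module Tilt: a path chosen through the weights alone gains `c √S` under the tilt at its site,
with high probability: `pick` lists its edges and may depend on the first coordinates of the marks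
only; the hypothesis on it is a piece of sufficient length in each dyadic annulus. -/
def TiltGainStmt (G : Measure ℝ) : Prop :=
  (∀ᵐ t ∂G, 0 < t) → ∃ q ∈ Set.Ioo (0 : ℝ) (1 / 4), ∀ K : ℝ, 1 ≤ K →
    ∃ c : ℝ, 0 < c ∧ ∀ ε > 0, ∃ r₀ : ℝ, ∀ r : ℝ, r₀ ≤ r → ∃ S₀ : ℕ, ∀ S ≥ S₀, ∀ u : Pt,
      ∀ pick : (Sym2 Pt → ℝ) → List (Sym2 Pt), (∀ l, MeasurableSet {t | pick t = l}) →
        markLaw {s | (pick fun e => (s e).1).Nodup ∧
          (∀ j : ℕ, j < S →
            ∃ (a z : Pt) (p : grid.Walk a z), p.IsPath ∧ p.edges <:+: (pick fun e => (s e).1) ∧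
              (2 : ℝ) ^ j * r / 4 ≤ p.length ∧
              ∀ e ∈ p.edges, 2 ^ j * r < edgeN K r u e ∧ edgeN K r u e ≤ 2 ^ (j + 1) * r) ∧
          ((pick fun e => (s e).1).map (saving G q K r S u s)).sum < c * Real.sqrt S}
        ≤ ENNReal.ofReal ε

end Vale.Agent.P158.V4
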