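import Mathlib
import Vale.Agent.P158.V4.TiltDefs

/-!
P158: one mark under the tilt. The two maps are inverse to each other, the inverse tilt increases
with the parameter, and the tilted law has a density whose square integrates to `1 + O(δ ^ 2)`.
-/

namespace Vale.Agent.P158.V4

open MeasureTheory Set
open scoped ENNReal

variable {q δ : ℝ}

/-- The width of the band. -/
noncomputable def bandD (q δ : ℝ) : ℝ := δ * (1 - 2 * q) / (q + δ * (1 - 2 * q))

theorem bandUp_eq (q δ : ℝ) (x : ℝ × ℝ) : bandUp q δ x =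
    if x.1 < q then
      (if x.2 < bandD q δ then (2 * q + x.1 / q * (1 - 2 * q), δ * x.2 / bandD q δ)
        else (x.1, (x.2 - bandD q δ) / (1 - bandD q δ)))
    else if 2 * q ≤ x.1 then (x.1, δ + (1 - δ) * x.2) else x := rfl

theorem bandDown_eq (q δ : ℝ) (x : ℝ × ℝ) : bandDown q δ x =
    if 2 * q ≤ x.1 then
      (if x.2 < δ then (q * (x.1 - 2 * q) / (1 - 2 * q), bandD q δ * x.2 / δ)
        else (x.1, (x.2 - δ) / (1 - δ)))
    else if x.1 < q then (x.1, bandD q δ + (1 - bandD q δ) * x.2) else x := rfl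

section band

variable (hq : q ∈ Ioo (0 : ℝ) (1 / 4)) (hδ : 0 ≤ δ)

include hq hδ

theorem band_den_pos : 0 < q + δ * (1 - 2 * q) := by
  have h1 := hq.1; have h2 := hq.2
  have : 0 ≤ δ * (1 - 2 * q) := mul_nonneg hδ (by linarith)
  linarith

theorem bandD_nonneg : 0 ≤ bandD q δ := by
  have h2 := hq.2
  exact div_nonneg (mul_nonneg hδ (by linarith)) (band_den_pos hq hδ).le

theorem bandD_lt_one : bandD q δ < 1 := by
  rw [bandD, div_lt_one (band_den_pos hq hδ)]
  linarith [hq.1]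

theorem inv_one_sub_bandD : 1 / (1 - bandD q δ) = 1 + δ * (1 - 2 * q) / q := by
  have h := band_den_pos hq hδ
  have hq0 := hq.1.ne'
  rw [bandD, one_sub_div h.ne', add_sub_cancel_right, one_div_div]
  field_simp

theorem bandD_pos (h : 0 < δ) : 0 < bandD q δ :=
  div_pos (mul_pos h (by linarith [hq.2])) (band_den_pos hq hδ)

end band

theorem bandD_eq_zero (h : δ = 0) : bandD q δ = 0 := by simp [bandD, h]

theorem bandUp_bandDown (hq : q ∈ Ioo (0 : ℝ) (1 / 4)) (hδ : δ ∈ Icc (0 : ℝ) (1 / 2)) {y : ℝ × ℝ}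
    (h1 : y.1 < 1) (h2 : 0 ≤ y.2) : bandUp q δ (bandDown q δ y) = y := by
  obtain ⟨y1, y2⟩ := y
  simp only at h1 h2
  have hq0 := hq.1
  have hq2 : 0 < 1 - 2 * q := by linarith [hq.2]
  have hd0 := bandD_nonneg hq hδ.1
  have hd1 := bandD_lt_one hq hδ.1
  rw [bandDown_eq, bandUp_eq]
  by_cases a : 2 * q ≤ y1
  · by_cases b : y2 < δ
    · have hδ' : 0 < δ := h2.trans_lt b
      have hdp := bandD_pos hq hδ.1 hδ'
      have e1 : q * (y1 - 2 * q) / (1 - 2 * q) < q := by
        rw [div_lt_iff₀ hq2]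
        exact mul_lt_mul_of_pos_left (by linarith) hq0
      have e2 : bandD q δ * y2 / δ < bandD q δ := by
        rw [div_lt_iff₀ hδ']
        exact mul_lt_mul_of_pos_left b hdp
      simp only [if_pos a, if_pos b, if_pos e1, if_pos e2, Prod.mk.injEq]
      constructor
      · field_simp
        ring
      · field_simp
    · have e1 : ¬ y1 < q := by linarith
      simp only [if_pos a, if_neg b, if_neg e1, Prod.mk.injEq, true_and]
      have : (1 - δ) ≠ 0 := by linarith [hδ.2]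
      field_simp
      ring
  · by_cases c : y1 < q
    · have e2 : ¬ bandD q δ + (1 - bandD q δ) * y2 < bandD q δ := by
        have := mul_nonneg (sub_nonneg.2 hd1.le) h2
        linarith
      simp only [if_neg a, if_pos c, if_neg e2, Prod.mk.injEq, true_and]
      have : (1 - bandD q δ) ≠ 0 := by linarith
      field_simp
      ring
    · simp only [if_neg a, if_neg c]

theorem bandDown_bandUp (hq : q ∈ Ioo (0 : ℝ) (1 / 4)) (hδ : δ ∈ Icc (0 : ℝ) (1 / 2)) {x : ℝ × ℝ}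
    (h0 : 0 ≤ x.1) (h2 : 0 ≤ x.2) : bandDown q δ (bandUp q δ x) = x := by
  obtain ⟨x1, x2⟩ := x
  simp only at h0 h2
  have hq0 := hq.1
  have hq2 : 0 < 1 - 2 * q := by linarith [hq.2]
  have hd0 := bandD_nonneg hq hδ.1
  have hd1 := bandD_lt_one hq hδ.1
  rw [bandUp_eq, bandDown_eq]
  by_cases a : x1 < q
  · by_cases b : x2 < bandD q δ
    · have hdp : 0 < bandD q δ := h2.trans_lt b
      have hδ' : 0 < δ := by
        rcases hδ.1.lt_or_eq with h | h
        · exact h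
        · exact absurd (bandD_eq_zero h.symm) hdp.ne'
      have e1 : 2 * q ≤ 2 * q + x1 / q * (1 - 2 * q) := by
        have := mul_nonneg (div_nonneg h0 hq0.le) hq2.le
        linarith
      have e2 : δ * x2 / bandD q δ < δ := by
        rw [div_lt_iff₀ hdp]
        exact mul_lt_mul_of_pos_left b hδ'
      simp only [if_pos a, if_pos b, if_pos e1, if_pos e2, Prod.mk.injEq]
      constructor
      · rw [add_sub_cancel_left, ← mul_assoc, mul_div_cancel_right₀ _ hq2.ne',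
          mul_div_cancel₀ _ hq0.ne']
      · field_simp
    · have e1 : ¬ 2 * q ≤ x1 := by linarith
      simp only [if_pos a, if_neg b, if_neg e1, Prod.mk.injEq, true_and]
      have : (1 - bandD q δ) ≠ 0 := by linarith
      field_simp
      ring
  · by_cases c : 2 * q ≤ x1
    · have e2 : ¬ δ + (1 - δ) * x2 < δ := by
        have := mul_nonneg (sub_nonneg.2 (show δ ≤ 1 by linarith [hδ.2])) h2
        linarith
      simp only [if_neg a, if_pos c, if_neg e2, Prod.mk.injEq, true_and]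
      have : (1 - δ) ≠ 0 := by linarith [hδ.2]
      field_simp
      ring
    · simp only [if_neg a, if_neg c]

theorem bandUp_fst (q δ : ℝ) (x : ℝ × ℝ) : (bandUp q δ x).1 =
    if x.1 < q ∧ x.2 < bandD q δ then 2 * q + x.1 / q * (1 - 2 * q) else x.1 := by
  rw [bandUp_eq]
  by_cases a : x.1 < q <;> by_cases b : x.2 < bandD q δ <;> simp [a, b] <;> split_ifs <;> rfl

theorem bandUp_fst_mem (hq : q ∈ Ioo (0 : ℝ) (1 / 4)) (δ : ℝ) {x : ℝ × ℝ}
    (hx : x.1 ∈ Ioo (0 : ℝ) 1) : (bandUp q δ x).1 ∈ Ioo (0 : ℝ) 1 := by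
  have hq0 := hq.1
  have hq2 : 0 < 1 - 2 * q := by linarith [hq.2]
  rw [bandUp_fst]
  split_ifs with h
  · have h1 : x.1 / q < 1 := (div_lt_one hq0).2 h.1
    have h2 : 0 ≤ x.1 / q := (div_pos hx.1 hq0).le
    constructor
    · nlinarith
    · nlinarith
  · exact hx

theorem bandUp_fst_mono (hq : q ∈ Ioo (0 : ℝ) (1 / 4)) {δ' : ℝ} (hδ : 0 ≤ δ) (hle : δ ≤ δ')
    {x : ℝ × ℝ} (h0 : 0 ≤ x.1) : (bandUp q δ x).1 ≤ (bandUp q δ' x).1 := by
  have hq0 := hq.1
  have hq2 : 0 < 1 - 2 * q := by linarith [hq.2]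
  have hd : bandD q δ ≤ bandD q δ' := by
    rw [bandD, bandD, div_le_div_iff₀ (band_den_pos hq hδ) (band_den_pos hq (hδ.trans hle))]
    have := mul_nonneg (mul_nonneg hq0.le hq2.le) (sub_nonneg.2 hle)
    linarith
  rw [bandUp_fst, bandUp_fst]
  have hnn : 0 ≤ x.1 / q * (1 - 2 * q) := mul_nonneg (div_nonneg h0 hq0.le) hq2.le
  split_ifs with h h' h'
  · exact le_rfl
  · exact absurd ⟨h.1, h.2.trans_le hd⟩ h'
  · linarith [h'.1]
  · exact le_rfl

theorem raise1_zero (hq : q ∈ Ioo (0 : ℝ) (1 / 4)) {x : ℝ × ℝ} (h2 : 0 ≤ x.2) :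
    raise1 q 0 x = x := by
  have hd : bandD q 0 = 0 := bandD_eq_zero rfl
  have : bandUp q 0 x = x := by
    rw [bandUp_eq, hd]
    simp [not_lt.2 h2]
  rw [raise1, this]
  simp

theorem lower1_zero (hq : q ∈ Ioo (0 : ℝ) (1 / 4)) {x : ℝ × ℝ} (h2 : 0 ≤ x.2) :
    lower1 q 0 x = x := by
  have hd : bandD q 0 = 0 := bandD_eq_zero rfl
  rw [lower1, bandDown_eq, hd]
  simp [not_lt.2 h2]

theorem raise1_lower1 (hq : q ∈ Ioo (0 : ℝ) (1 / 4)) (hδ : δ ∈ Icc (0 : ℝ) (1 / 2)) {x : ℝ × ℝ}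
    (h1 : x.1 ∈ Ioo (0 : ℝ) 1) (h2 : 0 ≤ x.2) : raise1 q δ (lower1 q δ x) = x := by
  have h : x.1 ^ (1 + δ) < 1 := Real.rpow_lt_one h1.1.le h1.2 (by linarith [hδ.1])
  rw [raise1, lower1, bandUp_bandDown (y := (x.1 ^ (1 + δ), x.2)) hq hδ h h2]
  simp only
  rw [one_div, Real.rpow_rpow_inv h1.1.le (by linarith [hδ.1])]

theorem lower1_raise1 (hq : q ∈ Ioo (0 : ℝ) (1 / 4)) (hδ : δ ∈ Icc (0 : ℝ) (1 / 2)) {x : ℝ × ℝ}
    (h1 : x.1 ∈ Ioo (0 : ℝ) 1) (h2 : 0 ≤ x.2) : lower1 q δ (raise1 q δ x) = x := by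
  rw [raise1, lower1]
  simp only
  rw [one_div, Real.rpow_inv_rpow (bandUp_fst_mem hq δ h1).1.le (by linarith [hδ.1]), Prod.mk.eta]
  exact bandDown_bandUp hq hδ h1.1.le h2

theorem raise1_fst_mem (hq : q ∈ Ioo (0 : ℝ) (1 / 4)) (hδ : 0 ≤ δ) {x : ℝ × ℝ}
    (h1 : x.1 ∈ Ioo (0 : ℝ) 1) : (raise1 q δ x).1 ∈ Ioo (0 : ℝ) 1 := by
  obtain ⟨a, b⟩ := bandUp_fst_mem hq δ h1
  exact ⟨Real.rpow_pos_of_pos a _, Real.rpow_lt_one a.le b (by positivity)⟩

theorem raise1_strictMono (hq : q ∈ Ioo (0 : ℝ) (1 / 4)) {δ' : ℝ} (hδ : 0 ≤ δ) (hlt : δ < δ')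
    {x : ℝ × ℝ} (h1 : x.1 ∈ Ioo (0 : ℝ) 1) : (raise1 q δ x).1 < (raise1 q δ' x).1 := by
  obtain ⟨a, b⟩ := bandUp_fst_mem hq δ' h1
  calc (raise1 q δ x).1 ≤ (bandUp q δ' x).1 ^ (1 / (1 + δ)) :=
        Real.rpow_le_rpow (bandUp_fst_mem hq δ h1).1.le (bandUp_fst_mono hq hδ hlt.le h1.1.le)
          (by positivity)
    _ < (raise1 q δ' x).1 :=
        Real.rpow_lt_rpow_of_exponent_gt a b
          (one_div_lt_one_div_of_lt (by positivity) (by linarith))

theorem measurable_bandUp (q δ : ℝ) : Measurable (bandUp q δ) := by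
  have h : bandUp q δ = fun x : ℝ × ℝ => if x.1 < q then
      (if x.2 < bandD q δ then (2 * q + x.1 / q * (1 - 2 * q), δ * x.2 / bandD q δ)
        else (x.1, (x.2 - bandD q δ) / (1 - bandD q δ)))
      else if 2 * q ≤ x.1 then (x.1, δ + (1 - δ) * x.2) else x := rfl
  rw [h]
  exact Measurable.ite (measurableSet_lt measurable_fst measurable_const)
    (Measurable.ite (measurableSet_lt measurable_snd measurable_const) (by fun_prop) (by fun_prop))
    (Measurable.ite (measurableSet_le measurable_const measurable_fst) (by fun_prop) measurable_id)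

theorem measurable_bandDown (q δ : ℝ) : Measurable (bandDown q δ) := by
  have h : bandDown q δ = fun x : ℝ × ℝ => if 2 * q ≤ x.1 then
      (if x.2 < δ then (q * (x.1 - 2 * q) / (1 - 2 * q), bandD q δ * x.2 / δ)
        else (x.1, (x.2 - δ) / (1 - δ)))
      else if x.1 < q then (x.1, bandD q δ + (1 - bandD q δ) * x.2) else x := rfl
  rw [h]
  exact Measurable.ite (measurableSet_le measurable_const measurable_fst)
    (Measurable.ite (measurableSet_lt measurable_snd measurable_const) (by fun_prop) (by fun_prop))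
    (Measurable.ite (measurableSet_lt measurable_fst measurable_const) (by fun_prop) measurable_id)

theorem measurable_raise1 (q δ : ℝ) : Measurable (raise1 q δ) :=
  (((measurable_bandUp q δ).fst).pow_const _).prodMk (measurable_bandUp q δ).snd

theorem measurable_lower1 (q δ : ℝ) : Measurable (lower1 q δ) :=
  (measurable_bandDown q δ).comp ((measurable_fst.pow_const _).prodMk measurable_snd)

/-! The density of the tilted law. -/

theorem unitSquare_eq : unitSquare =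
    (volume.restrict (Ioo (0 : ℝ) 1)).prod (volume.restrict (Ioo (0 : ℝ) 1)) := by
  rw [unitSquare, restrict_Ioo_eq_restrict_Icc]

instance isProbabilityMeasure_unitSquare : IsProbabilityMeasure unitSquare := by
  have : IsProbabilityMeasure (volume.restrict (Icc (0 : ℝ) 1)) := ⟨by simp⟩
  unfold unitSquare
  infer_instance

theorem ae_unitSquare :
    ∀ᵐ x ∂unitSquare, x.1 ∈ Ioo (0 : ℝ) 1 ∧ x.2 ∈ Ioo (0 : ℝ) 1 := by
  rw [unitSquare_eq, Measure.prod_restrict]
  exact ae_restrict_mem (measurableSet_Ioo.prod measurableSet_Ioo)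

/-- Affine change of variables on an interval. -/
theorem lintegral_affine {c : ℝ} (hc : 0 < c) {a b a' b' : ℝ} (e : ℝ) (g : ℝ → ℝ≥0∞)
    (ha : c * a + e = a') (hb : c * b + e = b') :
    ∫⁻ x in Ioo a' b', g x = ENNReal.ofReal c * ∫⁻ x in Ioo a b, g (c * x + e) := by
  have him : (fun x => c * x + e) '' Ioo a b = Ioo a' b' := by
    rw [← ha, ← hb]
    ext y
    constructor
    · rintro ⟨x, ⟨h1, h2⟩, rfl⟩
      exact ⟨by nlinarith, by nlinarith⟩
    · rintro ⟨h1, h2⟩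
      refine ⟨(y - e) / c, ⟨?_, ?_⟩, by field_simp; ring⟩
      · rw [lt_div_iff₀ hc]; linarith
      · rw [div_lt_iff₀ hc]; linarith
  rw [← him, lintegral_image_eq_lintegral_deriv_mul_of_monotoneOn measurableSet_Ioo
    (f' := fun _ => c) (fun x _ => by
      simpa using (((hasDerivAt_id x).const_mul c).add_const e).hasDerivWithinAt)
    (fun x _ y _ hxy => by nlinarith) g, lintegral_const_mul' _ _ ENNReal.ofReal_ne_top]

/-- Change of variables by a positive power on the unit interval. -/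
theorem lintegral_power {r : ℝ} (hr : 0 < r) (g : ℝ → ℝ≥0∞) :
    ∫⁻ u in Ioo (0 : ℝ) 1, g u =
      ∫⁻ x in Ioo (0 : ℝ) 1, ENNReal.ofReal (r * x ^ (r - 1)) * g (x ^ r) := by
  have him : (fun x : ℝ => x ^ r) '' Ioo (0 : ℝ) 1 = Ioo (0 : ℝ) 1 := by
    ext y
    constructor
    · rintro ⟨x, ⟨h1, h2⟩, rfl⟩
      exact ⟨Real.rpow_pos_of_pos h1 _, Real.rpow_lt_one h1.le h2 hr⟩
    · rintro ⟨h1, h2⟩
      exact ⟨y ^ r⁻¹, ⟨Real.rpow_pos_of_pos h1 _, Real.rpow_lt_one h1.le h2 (inv_pos.2 hr)⟩,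
        Real.rpow_inv_rpow h1.le hr.ne'⟩
  conv_lhs => rw [← him]
  rw [lintegral_image_eq_lintegral_deriv_mul_of_monotoneOn measurableSet_Ioo
    (f' := fun x => r * x ^ (r - 1))
    (fun x hx => (Real.hasDerivAt_rpow_const (Or.inl hx.1.ne')).hasDerivWithinAt)
    (fun x hx y _ hxy => Real.rpow_le_rpow hx.1.le hxy hr.le) g]

/-- The density of the power part of the tilt. -/
noncomputable def phi (δ u : ℝ) : ℝ := 1 / (1 + δ) * u ^ (1 / (1 + δ) - 1)

/-- The density of the tilted law of one mark. -/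
noncomputable def dens (q δ : ℝ) (y : ℝ × ℝ) : ℝ :=
  if y.1 < q then
    (if y.2 < bandD q δ then phi δ ((1 - 2 * q) / q * y.1 + 2 * q) else phi δ y.1) /
      (1 - bandD q δ)
  else if y.1 < 2 * q then phi δ y.1 else (1 - δ) * phi δ y.1

theorem measurable_phi (δ : ℝ) : Measurable (phi δ) :=
  (measurable_id.pow_const _).const_mul _

theorem measurable_dens (q δ : ℝ) : Measurable (dens q δ) := by
  have h1 : Measurable fun y : ℝ × ℝ => phi δ ((1 - 2 * q) / q * y.1 + 2 * q) :=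
    (measurable_phi δ).comp (by fun_prop)
  have h2 : Measurable fun y : ℝ × ℝ => phi δ y.1 := (measurable_phi δ).comp measurable_fst
  exact Measurable.ite (measurableSet_lt measurable_fst measurable_const)
    ((Measurable.ite (measurableSet_lt measurable_snd measurable_const) h1 h2).div_const _)
    (Measurable.ite (measurableSet_lt measurable_fst measurable_const) h2 (h2.const_mul _))

theorem phi_pos (hδ : 0 ≤ δ) {u : ℝ} (hu : 0 < u) : 0 < phi δ u :=
  mul_pos (by positivity) (Real.rpow_pos_of_pos hu _)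

theorem dens_pos (hq : q ∈ Ioo (0 : ℝ) (1 / 4)) (hδ : δ ∈ Icc (0 : ℝ) (1 / 2)) {y : ℝ × ℝ}
    (hy : 0 < y.1) : 0 < dens q δ y := by
  have hd := bandD_lt_one hq hδ.1
  have hT : 0 < (1 - 2 * q) / q * y.1 + 2 * q := by
    have := mul_pos (div_pos (by linarith [hq.2] : (0 : ℝ) < 1 - 2 * q) hq.1) hy
    linarith [hq.1]
  rw [dens]
  split_ifs
  · exact div_pos (phi_pos hδ.1 hT) (by linarith)
  · exact div_pos (phi_pos hδ.1 hy) (by linarith)
  · exact phi_pos hδ.1 hy
  · exact mul_pos (by linarith [hδ.2]) (phi_pos hδ.1 hy)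

theorem setLIntegral_split {a b c : ℝ} (hab : a < b) (hbc : b ≤ c) (g : ℝ → ℝ≥0∞) :
    ∫⁻ x in Ioo a c, g x = (∫⁻ x in Ioo a b, g x) + ∫⁻ x in Ioo b c, g x := by
  rw [← Ioo_union_Ico_eq_Ioo hab hbc, lintegral_union measurableSet_Ico
    (Set.disjoint_left.2 fun x hx hx' => (not_le.2 hx.2) hx'.1),
    setLIntegral_congr (Ioo_ae_eq_Ico (μ := volume) (a := b) (b := c)).symm]

theorem bandDown_bottom {u w : ℝ} (hq : q ∈ Ioo (0 : ℝ) (1 / 4)) (hu : u < q) :
    bandDown q δ (u, w) = (u, bandD q δ + (1 - bandD q δ) * w) := by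
  rw [bandDown_eq, if_neg (by simp only; linarith [hq.1]), if_pos hu]

theorem bandDown_mid {u w : ℝ} (hu : q ≤ u) (hu' : u < 2 * q) :
    bandDown q δ (u, w) = (u, w) := by
  rw [bandDown_eq, if_neg (by simp only; linarith), if_neg (by simp only; linarith)]

theorem bandDown_top {u w : ℝ} (hu : 2 * q ≤ u) : bandDown q δ (u, w) =
    if w < δ then (q * (u - 2 * q) / (1 - 2 * q), bandD q δ * w / δ)
      else (u, (w - δ) / (1 - δ)) := by
  rw [bandDown_eq, if_pos hu]

/-- The change of variables for the tilt of one mark. -/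
theorem lintegral_lower1 (hq : q ∈ Ioo (0 : ℝ) (1 / 4)) (hδ : δ ∈ Ioc (0 : ℝ) (1 / 2))
    {g : ℝ × ℝ → ℝ≥0∞} (hg : Measurable g) :
    ∫⁻ x, g (lower1 q δ x) ∂unitSquare = ∫⁻ y, ENNReal.ofReal (dens q δ y) * g y ∂unitSquare := by
  have hδ0 := hδ.1
  have hq0 := hq.1
  have hq2 : 0 < 1 - 2 * q := by linarith [hq.2]
  have h2q : 2 * q < 1 := by linarith
  set d := bandD q δ with hd
  have hd0 : 0 < d := bandD_pos hq hδ0.le hδ0
  have hd1 : d < 1 := bandD_lt_one hq hδ0.le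
  have h1δ : 0 < 1 - δ := by linarith [hδ.2]
  have h1d : 0 < 1 - d := by linarith
  rw [unitSquare_eq, lintegral_prod (fun x => g (lower1 q δ x)) (hg.comp (measurable_lower1 q δ)).aemeasurable,
    lintegral_prod (fun y => ENNReal.ofReal (dens q δ y) * g y)
      (((measurable_dens q δ).ennreal_ofReal).fun_mul hg).aemeasurable]
  set h : ℝ → ℝ≥0∞ := fun u => ∫⁻ w in Ioo (0 : ℝ) 1, g (bandDown q δ (u, w)) with hh
  have e0 : ∫⁻ x in Ioo (0 : ℝ) 1, ∫⁻ w in Ioo (0 : ℝ) 1, g (lower1 q δ (x, w)) =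
      ∫⁻ u in Ioo (0 : ℝ) 1, ENNReal.ofReal (phi δ u) * h u := by
    change ∫⁻ x in Ioo (0 : ℝ) 1, h (x ^ (1 + δ)) = _
    rw [lintegral_power (r := 1 / (1 + δ)) (by positivity)]
    refine setLIntegral_congr_fun measurableSet_Ioo fun u hu => ?_
    simp only [phi]
    rw [one_div, Real.rpow_inv_rpow hu.1.le (by linarith)]
  rw [e0]
  have hw1 : ∀ G : ℝ → ℝ≥0∞, ∫⁻ w in Ioo (0 : ℝ) 1, G w =
      (∫⁻ w in Ioo (0 : ℝ) d, G w) + ∫⁻ w in Ioo d 1, G w :=
    fun G => setLIntegral_split hd0 hd1.le G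
  have hbot : ∀ u, u < q → h u =
      ENNReal.ofReal (1 / (1 - d)) * ∫⁻ w in Ioo d 1, g (u, w) := by
    intro u hu
    rw [lintegral_affine (c := 1 - d) h1d (a := 0) (b := 1) d (fun w => g (u, w)) (by ring)
      (by ring), ← mul_assoc, ← ENNReal.ofReal_mul (by positivity), one_div,
      inv_mul_cancel₀ h1d.ne', ENNReal.ofReal_one, one_mul]
    refine lintegral_congr fun w => ?_
    rw [bandDown_bottom hq hu, add_comm]
  have htop : ∀ u, 2 * q ≤ u → h u =
      ENNReal.ofReal (δ / d) * (∫⁻ w in Ioo (0 : ℝ) d,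
          g (q * (u - 2 * q) / (1 - 2 * q), w)) +
        ENNReal.ofReal (1 - δ) * ∫⁻ w in Ioo (0 : ℝ) 1, g (u, w) := by
    intro u hu
    rw [hh]
    simp only
    rw [setLIntegral_split hδ0 (by linarith [hδ.2] : δ ≤ 1)]
    congr 1
    · rw [lintegral_affine (c := δ / d) (div_pos hδ0 hd0) (a := 0) (b := d) 0
        (fun w => g (bandDown q δ (u, w))) (by ring) (by field_simp; ring)]
      congr 1
      refine setLIntegral_congr_fun measurableSet_Ioo fun w hw => ?_
      have hlt : δ / d * w + 0 < δ := by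
        rw [add_zero, div_mul_eq_mul_div, div_lt_iff₀ hd0]
        exact mul_lt_mul_of_pos_left hw.2 hδ0
      simp only [bandDown_top hu, if_pos hlt, ← hd]
      congr 2
      field_simp
      ring
    · rw [lintegral_affine (c := 1 - δ) h1δ (a := 0) (b := 1) δ
        (fun w => g (bandDown q δ (u, w))) (by ring) (by ring)]
      congr 1
      refine setLIntegral_congr_fun measurableSet_Ioo fun w hw => ?_
      have hle : ¬ (1 - δ) * w + δ < δ := by
        have := mul_pos h1δ hw.1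
        linarith
      simp only [bandDown_top hu, if_neg hle]
      congr 2
      field_simp
      ring
  have hmid : ∀ u, q ≤ u → u < 2 * q → h u = ∫⁻ w in Ioo (0 : ℝ) 1, g (u, w) := fun u h1 h2 =>
    lintegral_congr fun w => by rw [bandDown_mid h1 h2]
  set R : ℝ → ℝ≥0∞ := fun u =>
    ∫⁻ w in Ioo (0 : ℝ) 1, ENNReal.ofReal (dens q δ (u, w)) * g (u, w) with hR
  change _ = ∫⁻ u in Ioo (0 : ℝ) 1, R u
  set X : ℝ → ℝ≥0∞ := fun u => ENNReal.ofReal (phi δ u) * (ENNReal.ofReal (δ / d) *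
    ∫⁻ w in Ioo (0 : ℝ) d, g (q * (u - 2 * q) / (1 - 2 * q), w)) with hX
  have hpφ : ∀ u, 0 < u → 0 ≤ phi δ u := fun u hu => (phi_pos hδ0.le hu).le
  rw [setLIntegral_split hq0 (by linarith : q ≤ 1),
    setLIntegral_split (by linarith : q < 2 * q) h2q.le,
    setLIntegral_split (a := 0) (b := q) (c := 1) hq0 (by linarith : q ≤ 1) R,
    setLIntegral_split (by linarith : q < 2 * q) h2q.le R]
  have hmidEq : ∫⁻ u in Ioo q (2 * q), ENNReal.ofReal (phi δ u) * h u =
      ∫⁻ u in Ioo q (2 * q), R u := by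
    refine setLIntegral_congr_fun measurableSet_Ioo fun u hu => ?_
    simp only [hR, hmid u hu.1.le hu.2, dens, not_lt.2 hu.1.le, hu.2, if_true, if_false]
    rw [lintegral_const_mul' _ _ ENNReal.ofReal_ne_top]
  have htopEq : ∫⁻ u in Ioo (2 * q) 1, ENNReal.ofReal (phi δ u) * h u =
      (∫⁻ u in Ioo (2 * q) 1, X u) + ∫⁻ u in Ioo (2 * q) 1, R u := by
    have hmX : Measurable X := by
      refine ((measurable_phi δ).ennreal_ofReal).mul (Measurable.const_mul ?_ _)
      exact Measurable.lintegral_prod_right' (ν := volume.restrict (Ioo (0 : ℝ) d))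
        (f := fun p : ℝ × ℝ => g (q * (p.1 - 2 * q) / (1 - 2 * q), p.2))
        (hg.comp (by fun_prop))
    rw [← lintegral_add_left hmX]
    refine setLIntegral_congr_fun measurableSet_Ioo fun u hu => ?_
    simp only [hR, hX, htop u hu.1.le, dens, not_lt.2 (show q ≤ u by linarith [hu.1]),
      not_lt.2 hu.1.le, if_false]
    rw [mul_add, lintegral_const_mul' _ _ ENNReal.ofReal_ne_top,
      ENNReal.ofReal_mul h1δ.le, ← mul_assoc (ENNReal.ofReal (phi δ u)) (ENNReal.ofReal (1 - δ)),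
      mul_comm (ENNReal.ofReal (phi δ u)) (ENNReal.ofReal (1 - δ))]
  have hbotEq : ∫⁻ u in Ioo (0 : ℝ) q, R u =
      (∫⁻ u in Ioo (0 : ℝ) q, ENNReal.ofReal (phi δ u) * h u) +
        ∫⁻ u in Ioo (2 * q) 1, X u := by
    have hc : 0 < (1 - 2 * q) / q := div_pos hq2 hq0
    rw [lintegral_affine hc (a := 0) (b := q) (2 * q) X (by ring) (by field_simp; ring),
      ← lintegral_const_mul' _ _ ENNReal.ofReal_ne_top, ← lintegral_add_left
        (((measurable_phi δ).ennreal_ofReal).fun_mul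
          (Measurable.lintegral_prod_right' (ν := volume.restrict (Ioo (0 : ℝ) 1))
            (f := fun p : ℝ × ℝ => g (bandDown q δ p))
            (hg.comp (measurable_bandDown q δ))))]
    refine setLIntegral_congr_fun measurableSet_Ioo fun u hu => ?_
    have hT : 0 < (1 - 2 * q) / q * u + 2 * q := by
      have := mul_pos hc hu.1
      linarith
    simp only [hR, hX]
    rw [show (∫⁻ w in Ioo (0 : ℝ) 1, g (bandDown q δ (u, w))) = h u from rfl, hbot u hu.2,
      hw1, add_comm]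
    congr 1
    · rw [← mul_assoc, ← ENNReal.ofReal_mul (hpφ u hu.1),
        ← lintegral_const_mul' _ _ ENNReal.ofReal_ne_top]
      refine setLIntegral_congr_fun measurableSet_Ioo fun w hw => ?_
      simp only [dens, if_pos hu.2, not_lt.2 hw.1.le, ← hd, if_false, mul_one_div]
    · rw [← mul_assoc, ← mul_assoc, ← ENNReal.ofReal_mul hc.le,
        ← ENNReal.ofReal_mul (mul_nonneg hc.le (hpφ _ hT)),
        ← lintegral_const_mul' _ _ ENNReal.ofReal_ne_top]
      refine setLIntegral_congr_fun measurableSet_Ioo fun w hw => ?_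
      have e1 : q * ((1 - 2 * q) / q * u + 2 * q - 2 * q) / (1 - 2 * q) = u := by
        rw [add_sub_cancel_right, ← mul_assoc, mul_div_cancel₀ _ hq0.ne',
          mul_div_cancel_left₀ _ hq2.ne']
      have e2 : (1 - 2 * q) / q * phi δ ((1 - 2 * q) / q * u + 2 * q) * (δ / d) =
          phi δ ((1 - 2 * q) / q * u + 2 * q) / (1 - d) := by
        have hk : (1 - 2 * q) / q * (δ / d) = 1 / (1 - d) := by
          rw [hd, inv_one_sub_bandD hq hδ0.le, bandD]
          field_simp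
        rw [mul_comm ((1 - 2 * q) / q), mul_assoc, hk, mul_one_div]
      simp only [dens, if_pos hu.2, if_pos hw.2, ← hd, e1, e2]
  rw [hmidEq, htopEq, hbotEq]
  ring

/-- The tilted law of one mark. -/
theorem map_lower1 (hq : q ∈ Ioo (0 : ℝ) (1 / 4)) (hδ : δ ∈ Ioc (0 : ℝ) (1 / 2)) :
    unitSquare.map (lower1 q δ) = unitSquare.withDensity fun y => ENNReal.ofReal (dens q δ y) := by
  refine Measure.ext_of_lintegral _ fun g hg => ?_
  rw [lintegral_map hg (measurable_lower1 q δ),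
    lintegral_withDensity_eq_lintegral_mul _ (measurable_dens q δ).ennreal_ofReal hg,
    lintegral_lower1 hq hδ hg]
  rfl

theorem lintegral_dens (hq : q ∈ Ioo (0 : ℝ) (1 / 4)) (hδ : δ ∈ Ioc (0 : ℝ) (1 / 2)) :
    ∫⁻ y, ENNReal.ofReal (dens q δ y) ∂unitSquare = 1 := by
  have h := lintegral_lower1 hq hδ (g := fun _ => 1) measurable_const
  simp only [mul_one, lintegral_const, measure_univ] at h
  exact h.symm

theorem lintegral_sub_one_sq {α : Type*} [MeasurableSpace α] {μ : Measure α}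
    [IsProbabilityMeasure μ] {f : α → ℝ} (hf : Measurable f) (h0 : ∀ᵐ x ∂μ, 0 ≤ f x)
    (h1 : ∫⁻ x, ENNReal.ofReal (f x) ∂μ = 1) :
    (∫⁻ x, ENNReal.ofReal ((f x - 1) ^ 2) ∂μ) + 2 = (∫⁻ x, ENNReal.ofReal (f x ^ 2) ∂μ) + 1 := by
  have hL : (∫⁻ x, ENNReal.ofReal ((f x - 1) ^ 2) + 2 * ENNReal.ofReal (f x) ∂μ) =
      ∫⁻ x, ENNReal.ofReal (f x ^ 2) + 1 ∂μ := by
    refine lintegral_congr_ae ?_
    filter_upwards [h0] with x hx
    rw [← ENNReal.ofReal_ofNat 2, ← ENNReal.ofReal_mul (by norm_num),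
      ← ENNReal.ofReal_add (sq_nonneg _) (by positivity), ← ENNReal.ofReal_one,
      ← ENNReal.ofReal_add (sq_nonneg _) zero_le_one]
    congr 1
    ring
  rw [lintegral_add_left ((hf.sub_const 1).pow_const 2).ennreal_ofReal,
    lintegral_add_left (hf.pow_const 2).ennreal_ofReal, lintegral_const_mul _ hf.ennreal_ofReal,
    h1] at hL
  simpa using hL

theorem lintegral_phi (hδ : 0 ≤ δ) : ∫⁻ u in Ioo (0 : ℝ) 1, ENNReal.ofReal (phi δ u) = 1 := by
  have h := lintegral_power (r := 1 / (1 + δ)) (by positivity) fun _ => 1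
  simp only [mul_one] at h
  exact h.symm.trans (by simp)

theorem lintegral_phi_sq (hδ : δ ∈ Icc (0 : ℝ) (1 / 2)) :
    ∫⁻ u in Ioo (0 : ℝ) 1, ENNReal.ofReal (phi δ u ^ 2) = ENNReal.ofReal (1 / (1 - δ ^ 2)) := by
  obtain ⟨h0, h1⟩ := hδ
  have hr : 0 < (1 - δ) / (1 + δ) := div_pos (by linarith) (by linarith)
  have h := lintegral_power hr fun _ => 1
  simp only [mul_one, lintegral_const, Measure.restrict_apply MeasurableSet.univ, univ_inter,
    Real.volume_Ioo, sub_zero, ENNReal.ofReal_one] at h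
  calc ∫⁻ u in Ioo (0 : ℝ) 1, ENNReal.ofReal (phi δ u ^ 2)
      = ∫⁻ u in Ioo (0 : ℝ) 1, ENNReal.ofReal (1 / (1 - δ ^ 2)) *
          ENNReal.ofReal ((1 - δ) / (1 + δ) * u ^ ((1 - δ) / (1 + δ) - 1)) := by
        refine setLIntegral_congr_fun measurableSet_Ioo fun u hu => ?_
        rw [← ENNReal.ofReal_mul (div_nonneg zero_le_one (by nlinarith)), phi, mul_pow,
          ← Real.rpow_natCast (u ^ _) 2, ← Real.rpow_mul hu.1.le]
        have e : (1 / (1 + δ) - 1) * ((2 : ℕ) : ℝ) = (1 - δ) / (1 + δ) - 1 := by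
          field_simp
          push_cast
          ring
        rw [e]
        congr 1
        have : (1 - δ ^ 2) ≠ 0 := by nlinarith
        field_simp
        ring
    _ = ENNReal.ofReal (1 / (1 - δ ^ 2)) := by
        rw [lintegral_const_mul' _ _ ENNReal.ofReal_ne_top, ← h, mul_one]

theorem lintegral_phi_sub_one_sq (hδ : δ ∈ Icc (0 : ℝ) (1 / 2)) :
    ∫⁻ u in Ioo (0 : ℝ) 1, ENNReal.ofReal ((phi δ u - 1) ^ 2) ≤ ENNReal.ofReal (2 * δ ^ 2) := by
  have : IsProbabilityMeasure (volume.restrict (Ioo (0 : ℝ) 1)) := ⟨by simp⟩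
  have h := lintegral_sub_one_sq (μ := volume.restrict (Ioo (0 : ℝ) 1)) (measurable_phi δ)
    ((ae_restrict_iff' measurableSet_Ioo).2 (Filter.Eventually.of_forall fun u hu =>
      (phi_pos hδ.1 hu.1).le)) (lintegral_phi hδ.1)
  rw [lintegral_phi_sq hδ] at h
  have hle : ENNReal.ofReal (1 / (1 - δ ^ 2)) ≤ ENNReal.ofReal (1 + 2 * δ ^ 2) := by
    refine ENNReal.ofReal_le_ofReal ?_
    have hs : δ ^ 2 ≤ 1 / 4 := by nlinarith [hδ.1, hδ.2]
    rw [div_le_iff₀ (by linarith)]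
    nlinarith
  have h2 := h.le.trans (add_le_add hle le_rfl)
  rw [← ENNReal.ofReal_one, ← ENNReal.ofReal_add (by positivity) zero_le_one,
    show 1 + 2 * δ ^ 2 + 1 = 2 * δ ^ 2 + 2 by ring, ENNReal.ofReal_add (by positivity) (by norm_num),
    ENNReal.ofReal_ofNat] at h2
  exact (ENNReal.add_le_add_iff_right (by simp)).1 h2

/-- The constant of the second moment of the density. -/
noncomputable def densC (q : ℝ) : ℝ := 8 * (1 + 1 / q) ^ 2 + 2 / q ^ 2

/-- The second moment of the density. -/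
theorem lintegral_dens_sq (hq : q ∈ Ioo (0 : ℝ) (1 / 4)) (hδ : δ ∈ Ioc (0 : ℝ) (1 / 2)) :
    ∫⁻ y, ENNReal.ofReal (dens q δ y ^ 2) ∂unitSquare ≤
      ENNReal.ofReal (1 + densC q * δ ^ 2) := by
  obtain ⟨hq0, hq1⟩ := hq
  have hq2 : 0 < 1 - 2 * q := by linarith
  have hδ' : δ ∈ Icc (0 : ℝ) (1 / 2) := ⟨hδ.1.le, hδ.2⟩
  set A : ℝ := 2 * (1 + 1 / q) ^ 2 with hA
  set ψ : ℝ → ℝ := fun u => (1 - 2 * q) / q * u + 2 * q with hψ
  set m : ℝ → ℝ≥0∞ := fun u => ENNReal.ofReal ((phi δ u - 1) ^ 2) +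
    (Iio q).indicator (fun u => ENNReal.ofReal ((phi δ (ψ u) - 1) ^ 2)) u with hm
  have hmm : Measurable m := (((measurable_phi δ).sub_const 1).pow_const 2).ennreal_ofReal.add
    (((((measurable_phi δ).comp (by fun_prop)).sub_const 1).pow_const 2).ennreal_ofReal.indicator
      measurableSet_Iio)
  have key : ∀ c v : ℝ, 0 ≤ c → c ≤ 1 + 1 / q → |c - 1| ≤ δ / q →
      (c * v - 1) ^ 2 ≤ A * (v - 1) ^ 2 + 2 * δ ^ 2 / q ^ 2 := by
    intro c v hc0 hc1 hc2
    have h1 : (c * v - 1) ^ 2 ≤ 2 * (c ^ 2 * (v - 1) ^ 2) + 2 * (c - 1) ^ 2 := by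
      nlinarith [sq_nonneg (c * (v - 1) - (c - 1))]
    have h2 : c ^ 2 ≤ (1 + 1 / q) ^ 2 := pow_le_pow_left₀ hc0 hc1 2
    have h3 : (c - 1) ^ 2 ≤ δ ^ 2 / q ^ 2 := by
      rw [← div_pow, ← sq_abs]
      exact pow_le_pow_left₀ (abs_nonneg _) hc2 2
    have h4 := mul_le_mul_of_nonneg_right h2 (sq_nonneg (v - 1))
    rw [hA, mul_div_assoc]
    linarith
  have hc1 : 1 / (1 - bandD q δ) ≤ 1 + 1 / q ∧ |1 / (1 - bandD q δ) - 1| ≤ δ / q := by
    rw [inv_one_sub_bandD ⟨hq0, hq1⟩ hδ.1.le, add_sub_cancel_left,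
      abs_of_nonneg (div_nonneg (mul_nonneg hδ.1.le hq2.le) hq0.le)]
    have h1 : δ * (1 - 2 * q) / q ≤ δ / q :=
      div_le_div_of_nonneg_right (by nlinarith [hδ.1]) hq0.le
    have h2 : δ / q ≤ 1 / q := div_le_div_of_nonneg_right (by linarith [hδ.2]) hq0.le
    exact ⟨by linarith, h1⟩
  have hδq : δ ≤ δ / q := le_div_self hδ.1.le hq0 (by linarith)
  have hq1' : (1 : ℝ) ≤ 1 + 1 / q := le_add_of_nonneg_right (by positivity)
  have hpt : ∀ y : ℝ × ℝ, ENNReal.ofReal ((dens q δ y - 1) ^ 2) ≤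
      ENNReal.ofReal A * m y.1 + ENNReal.ofReal (2 * δ ^ 2 / q ^ 2) := by
    intro y
    have fin : ∀ c v : ℝ, 0 ≤ c → c ≤ 1 + 1 / q → |c - 1| ≤ δ / q →
        ENNReal.ofReal ((v - 1) ^ 2) ≤ m y.1 →
        ENNReal.ofReal ((c * v - 1) ^ 2) ≤
          ENNReal.ofReal A * m y.1 + ENNReal.ofReal (2 * δ ^ 2 / q ^ 2) := by
      intro c v a1 a2 a3 a4
      refine (ENNReal.ofReal_le_ofReal (key c v a1 a2 a3)).trans ?_
      rw [ENNReal.ofReal_add (by positivity) (by positivity), ENNReal.ofReal_mul (by positivity)]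
      gcongr
    have hd := bandD_lt_one ⟨hq0, hq1⟩ hδ.1.le
    rw [dens]
    split_ifs with a b b
    · rw [div_eq_inv_mul, ← one_div]
      refine fin _ _ (div_nonneg zero_le_one (by linarith)) hc1.1 hc1.2 ?_
      refine le_trans ?_ le_add_self
      rw [Set.indicator_of_mem (show y.1 ∈ Iio q from a)]
    · rw [div_eq_inv_mul, ← one_div]
      exact fin _ _ (div_nonneg zero_le_one (by linarith)) hc1.1 hc1.2 le_self_add
    · rw [← one_mul (phi δ y.1)]
      exact fin 1 _ zero_le_one hq1' (by simpa using div_nonneg hδ.1.le hq0.le) le_self_add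
    · refine fin _ _ (by linarith [hδ.2]) (by linarith [hδ.1]) ?_ le_self_add
      rw [show (1 : ℝ) - δ - 1 = -δ by ring, abs_neg, abs_of_pos hδ.1]
      exact hδq
  have hmint : ∫⁻ u in Ioo (0 : ℝ) 1, m u ≤ ENNReal.ofReal (4 * δ ^ 2) := by
    rw [hm, lintegral_add_left (((measurable_phi δ).sub_const 1).pow_const 2).ennreal_ofReal,
      show (4 : ℝ) * δ ^ 2 = 2 * δ ^ 2 + 2 * δ ^ 2 by ring,
      ENNReal.ofReal_add (by positivity) (by positivity)]
    refine add_le_add (lintegral_phi_sub_one_sq hδ') ?_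
    rw [setLIntegral_indicator measurableSet_Iio,
      show Iio q ∩ Ioo (0 : ℝ) 1 = Ioo 0 q by
        ext u
        simp only [mem_inter_iff, mem_Iio, mem_Ioo]
        constructor
        · rintro ⟨a, b, -⟩; exact ⟨b, a⟩
        · rintro ⟨a, b⟩; exact ⟨b, a, by linarith⟩]
    have hc : 0 < (1 - 2 * q) / q := div_pos hq2 hq0
    have hone : 1 ≤ (1 - 2 * q) / q := by rw [le_div_iff₀ hq0]; linarith
    have h := lintegral_affine hc (a := 0) (b := q) (a' := 2 * q) (b' := 1) (2 * q)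
      (fun u => ENNReal.ofReal ((phi δ u - 1) ^ 2)) (by ring) (by field_simp; ring)
    refine le_trans ?_ ((h.symm.le.trans (lintegral_mono' (Measure.restrict_mono
      (Ioo_subset_Ioo (by linarith) le_rfl) le_rfl) le_rfl)).trans
      (lintegral_phi_sub_one_sq hδ'))
    exact le_mul_of_one_le_left' (ENNReal.one_le_ofReal.2 hone)
  have hint : ∫⁻ y, ENNReal.ofReal ((dens q δ y - 1) ^ 2) ∂unitSquare ≤
      ENNReal.ofReal (densC q * δ ^ 2) := by
    refine (lintegral_mono hpt).trans ?_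
    rw [lintegral_add_right _ measurable_const, lintegral_const, measure_univ, mul_one,
      lintegral_const_mul _ (show Measurable (fun y : ℝ × ℝ => m y.1) from hmm.comp measurable_fst),
      show densC q * δ ^ 2 = A * (4 * δ ^ 2) + 2 * δ ^ 2 / q ^ 2 by rw [densC, hA]; ring,
      ENNReal.ofReal_add (by positivity) (by positivity),
      ENNReal.ofReal_mul (p := A) (q := 4 * δ ^ 2) (by positivity)]
    refine add_le_add (mul_le_mul' le_rfl ?_) le_rfl
    rw [unitSquare_eq, lintegral_prod (fun a : ℝ × ℝ => m a.1) (hmm.comp measurable_fst).aemeasurable]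
    simpa using hmint
  have h := lintegral_sub_one_sq (μ := unitSquare) (measurable_dens q δ)
    (ae_unitSquare.mono fun y hy => (dens_pos ⟨hq0, hq1⟩ hδ' hy.1.1).le)
    (lintegral_dens ⟨hq0, hq1⟩ hδ)
  have hC : 0 ≤ densC q * δ ^ 2 := by unfold densC; positivity
  have h2 := h.symm.le.trans (add_le_add hint le_rfl)
  rw [← ENNReal.ofReal_ofNat 2, ← ENNReal.ofReal_add hC (by norm_num),
    show densC q * δ ^ 2 + 2 = (1 + densC q * δ ^ 2) + 1 by ring,
    ENNReal.ofReal_add (by positivity) zero_le_one, ENNReal.ofReal_one] at h2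
  exact (ENNReal.add_le_add_iff_right ENNReal.one_ne_top).1 h2

end Vale.Agent.P158.V4
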