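import Mathlib
import Vale.Agent.P158.V4.TiltMap

/-!
P158: the marks give the law of the weights, the quantile function of a law without atoms is
strictly increasing, and the basic properties of the tilt.
-/

namespace Vale.Agent.P158.V4

open MeasureTheory Set ProbabilityTheory Filter Topology
open scoped ENNReal

variable {G : Measure ℝ} [IsProbabilityMeasure G]

theorem qf_eq_sInf (u : ℝ) : qf G u = sInf {t | u ≤ cdf G t} := by
  simp only [qf, cdf_eq_real]

theorem qf_le_iff {u : ℝ} (hu : u ∈ Ioo (0 : ℝ) 1) (t : ℝ) : qf G u ≤ t ↔ u ≤ cdf G t := by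
  obtain ⟨a, ha⟩ := ((tendsto_cdf_atBot G).eventually (gt_mem_nhds hu.1)).exists
  obtain ⟨c, hc⟩ := ((tendsto_cdf_atTop G).eventually (lt_mem_nhds hu.2)).exists
  have hb : BddBelow {t | u ≤ cdf G t} := ⟨a, fun t ht => le_of_not_gt fun hlt =>
    absurd (lt_of_le_of_lt ((cdf G).mono hlt.le) ha) (not_lt.2 ht)⟩
  have hne : {t | u ≤ cdf G t}.Nonempty := ⟨c, hc.le⟩
  rw [qf_eq_sInf]
  refine ⟨fun h => ?_, fun h => csInf_le hb h⟩
  have hr : Tendsto (cdf G) (𝓝[>] t) (𝓝 (cdf G t)) :=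
    ((cdf G).right_continuous t).mono_left (nhdsWithin_mono _ Ioi_subset_Ici_self)
  refine ge_of_tendsto hr ?_
  filter_upwards [self_mem_nhdsWithin] with s hs
  obtain ⟨w, hw, hws⟩ := exists_lt_of_csInf_lt hne (lt_of_le_of_lt h hs)
  exact le_trans hw ((cdf G).mono hws.le)

theorem qf_of_notMem {u : ℝ} (hu : u ∉ Ioo (0 : ℝ) 1) (h1 : u ≠ 1) : qf G u = 0 := by
  rw [qf_eq_sInf]
  by_cases h : u ≤ 0
  · rw [show {t | u ≤ cdf G t} = univ from eq_univ_of_forall fun t => h.trans (cdf_nonneg G t)]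
    exact Real.sInf_univ
  · have h2 : 1 < u := by
      rcases lt_or_ge u 1 with h' | h'
      · exact absurd ⟨lt_of_not_ge h, h'⟩ hu
      · exact lt_of_le_of_ne h' (Ne.symm h1)
    rw [show {t | u ≤ cdf G t} = ∅ from
      eq_empty_of_forall_notMem fun t ht => absurd ((cdf_le_one G t).trans_lt h2) (not_lt.2 ht)]
    exact Real.sInf_empty

theorem measurable_qf : Measurable (qf G) := by
  refine measurable_of_Iic fun t => ?_
  have h : qf G ⁻¹' Iic t = (Ioo 0 1 ∩ Iic (cdf G t)) ∪ ((Ioo (0 : ℝ) 1)ᶜ ∩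
      {u | (if u = 1 then qf G 1 else 0) ≤ t}) := by
    ext u
    simp only [mem_preimage, mem_Iic, mem_union, mem_inter_iff, mem_compl_iff, mem_ofPred_eq]
    by_cases hu : u ∈ Ioo (0 : ℝ) 1
    · simp [hu, qf_le_iff hu]
    · by_cases h1 : u = 1
      · subst h1; simp
      · simp [hu, h1, qf_of_notMem hu h1]
  rw [h]
  exact (measurableSet_Ioo.inter measurableSet_Iic).union (measurableSet_Ioo.compl.inter
    (measurableSet_le (Measurable.ite (measurableSet_singleton 1) measurable_const measurable_const)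
      measurable_const))

theorem map_qf : (volume.restrict (Icc (0 : ℝ) 1)).map (qf G) = G := by
  refine Measure.ext_of_Iic _ _ fun t => ?_
  rw [Measure.map_apply measurable_qf measurableSet_Iic, ← restrict_Ioo_eq_restrict_Icc,
    Measure.restrict_apply (measurable_qf measurableSet_Iic)]
  have h : qf G ⁻¹' Iic t ∩ Ioo 0 1 = Ioo (0 : ℝ) 1 ∩ Iic (cdf G t) := by
    ext u
    simp only [mem_inter_iff, mem_preimage, mem_Iic]
    exact ⟨fun ⟨a, b⟩ => ⟨b, (qf_le_iff b t).1 a⟩, fun ⟨a, b⟩ => ⟨(qf_le_iff a t).2 b, a⟩⟩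
  have e : volume (Ioo (0 : ℝ) 1 ∩ Iic (cdf G t)) = volume (Ioc (0 : ℝ) 1 ∩ Iic (cdf G t)) :=
    measure_congr (ae_eq_set_inter Ioo_ae_eq_Ioc (Filter.EventuallyEq.refl _ _))
  rw [h, e,
    Ioc_inter_Iic, Real.volume_Ioc, sub_zero, min_eq_right (cdf_le_one G t), ofReal_cdf]

theorem cdf_qf (hatom : ∀ x, G {x} = 0) {u : ℝ} (hu : u ∈ Ioo (0 : ℝ) 1) :
    cdf G (qf G u) = u := by
  refine le_antisymm ?_ ((qf_le_iff hu _).1 le_rfl)
  have hl : Tendsto (cdf G) (𝓝[<] qf G u) (𝓝 (Function.leftLim (cdf G) (qf G u))) :=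
    (cdf G).mono.tendsto_leftLim _
  have hle : Function.leftLim (cdf G) (qf G u) ≤ u := by
    refine le_of_tendsto hl ?_
    filter_upwards [self_mem_nhdsWithin] with s hs
    exact le_of_not_ge fun h => absurd ((qf_le_iff hu s).2 h) (not_le.2 hs)
  have h0 := (cdf G).measure_singleton (qf G u)
  rw [measure_cdf, hatom] at h0
  have := ENNReal.ofReal_eq_zero.1 h0.symm
  linarith

theorem strictMonoOn_qf (hatom : ∀ x, G {x} = 0) : StrictMonoOn (qf G) (Ioo 0 1) := by
  intro u hu v hv huv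
  refine lt_of_not_ge fun h => ?_
  have := (cdf G).mono h
  rw [cdf_qf hatom hu, cdf_qf hatom hv] at this
  linarith

theorem map_cfg : markLaw.map (cfg G) = law G := by
  have h1 : unitSquare.map (fun x : ℝ × ℝ => qf G x.1) = G := by
    have : IsProbabilityMeasure (volume.restrict (Icc (0 : ℝ) 1)) := ⟨by simp⟩
    rw [show (fun x : ℝ × ℝ => qf G x.1) = qf G ∘ Prod.fst from rfl,
      ← Measure.map_map measurable_qf measurable_fst, unitSquare, Measure.map_fst_prod,
      measure_univ, one_smul, map_qf]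
  calc markLaw.map (cfg G)
      = Measure.infinitePi fun _ : Sym2 Pt => unitSquare.map fun x => qf G x.1 :=
        Measure.infinitePi_map_pi _ fun _ => measurable_qf.comp measurable_fst
    _ = law G := by simp only [h1]

theorem ae_marks : ∀ᵐ s ∂markLaw, ∀ e, (s e).1 ∈ Ioo (0 : ℝ) 1 ∧ (s e).2 ∈ Ioo (0 : ℝ) 1 := by
  refine ae_all_iff.2 fun e => ?_
  have h : markLaw.map (fun s => s e) = unitSquare :=
    Measure.infinitePi_map_eval _ e
  have h' := ae_unitSquare
  rw [← h] at h'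
  have hm : MeasurableSet {x : ℝ × ℝ | x.1 ∈ Ioo (0 : ℝ) 1 ∧ x.2 ∈ Ioo (0 : ℝ) 1} :=
    (measurableSet_Ioo.preimage measurable_fst).inter (measurableSet_Ioo.preimage measurable_snd)
  exact (ae_map_iff (measurable_pi_apply e).aemeasurable hm).1 h'

/-- The basic properties of the tilt. -/
theorem tiltBasicStmt : TiltBasicStmt G := by
  intro hatom
  refine ⟨map_cfg, ae_marks.mono fun s hs e => ⟨(hs e).1, (hs e).2.1.le, (hs e).2.2⟩,
    strictMonoOn_qf hatom, fun q hq x h1 h2 => ⟨raise1_zero hq h2.1, fun δ hδ => ⟨?_, ?_⟩,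
      fun δ hδ => raise1_fst_mem hq hδ.1 h1,
      fun δ δ' h0 hlt _ => raise1_strictMono hq h0 hlt h1⟩⟩
  · exact raise1_lower1 hq hδ h1 h2.1
  · exact lower1_raise1 hq hδ h1 h2.1

end Vale.Agent.P158.V4
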