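import Vale.Agent.P158.V4.CocycleDepth
import Vale.Agent.P158.V4.TiltBasic

/-!
P158, note 1446 part B: a translation invariant law of configurations with a greedy cocycle of full
diagonal drift, as a limit of averaged passage times to diagonal half planes.
-/

namespace Vale.Agent.P158.V4

open MeasureTheory Filter Topology BoundedContinuousFunction

/-- States with weights in `[0, b]` and values at most the trivial bound. -/
def stBox (b : ℝ) : Set St :=
  (Set.univ.pi fun _ : Sym2 Pt => Set.Icc (0 : ℝ) b) ×ˢ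
    Set.univ.pi fun u : Pt => Set.Icc (-((l1 u (0, 0) : ℝ) * b)) ((l1 u (0, 0) : ℝ) * b)

theorem isCompact_stBox (b : ℝ) : IsCompact (stBox b) :=
  (isCompact_univ_pi fun _ => isCompact_Icc).prod (isCompact_univ_pi fun _ => isCompact_Icc)

theorem Reg.mem_stBox {b : ℝ} {X : St} (h : Reg b X) : X ∈ stBox b := by
  refine ⟨fun e _ => h.mem e, fun u _ => ?_⟩
  have := h.abs_sub_le u (0, 0)
  rw [h.zero, sub_zero] at this
  exact Set.mem_Icc.2 (abs_le.1 this)

theorem isClosed_reg (b : ℝ) : IsClosed {X : St | Reg b X} := by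
  have h : {X : St | Reg b X} = ((⋂ e, {X : St | X.1 e ∈ Set.Icc 0 b}) ∩ {X : St | X.2 (0, 0) = 0}) ∩
      ⋂ u, ⋂ z, ⋂ (_ : grid.Adj u z), {X : St | X.2 u ≤ X.1 s(u, z) + X.2 z} := by
    ext X
    simp only [Set.mem_ofPred_eq, Set.mem_inter_iff, Set.mem_iInter]
    exact ⟨fun h => ⟨⟨h.mem, h.zero⟩, h.step⟩, fun h => ⟨h.1.1, h.1.2, h.2⟩⟩
  rw [h]
  exact ((isClosed_iInter fun e => isClosed_Icc.preimage (by fun_prop)).inter
    (isClosed_eq (by fun_prop) continuous_const)).inter
    (isClosed_iInter fun u => isClosed_iInter fun z => isClosed_iInter fun _ =>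
      isClosed_le (by fun_prop) (by fun_prop))

theorem isClosed_greedy (u : Pt) : IsClosed {X : St | Greedy X u} := by
  simp only [Greedy, Set.ofPred_exists]
  exact isClosed_iUnion_of_finite fun d => isClosed_eq (by fun_prop) (by fun_prop)

variable (G : Measure ℝ) [IsProbabilityMeasure G]

/-- The average over the first half planes of the laws of the states. -/
noncomputable def avgLaw (n : ℕ) : Measure St :=
  ((n + 1 : ℕ) : ENNReal)⁻¹ •
    ∑ k ∈ Finset.range (n + 1), (law G).map (depthSt ((k : ℤ) + 1))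

theorem avgLaw_apply (n : ℕ) (S : Set St) (hS : MeasurableSet S) :
    avgLaw G n S = ((n + 1 : ℕ) : ENNReal)⁻¹ *
      ∑ k ∈ Finset.range (n + 1), law G (depthSt ((k : ℤ) + 1) ⁻¹' S) := by
  simp only [avgLaw, Measure.smul_apply, Measure.coe_finset_sum, Finset.sum_apply, smul_eq_mul]
  congr 1
  exact Finset.sum_congr rfl fun k _ => Measure.map_apply (measurable_depthSt _) hS

instance avgLaw_prob (n : ℕ) : IsProbabilityMeasure (avgLaw G n) := by
  refine ⟨?_⟩
  rw [avgLaw_apply G n _ MeasurableSet.univ]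
  simp only [Set.preimage_univ, measure_univ, Finset.sum_const, Finset.card_range, nsmul_eq_mul,
    mul_one]
  exact ENNReal.inv_mul_cancel (by simp) (ENNReal.natCast_ne_top _)

theorem integral_avgLaw (n : ℕ) (g : St →ᵇ ℝ) :
    ∫ X, g X ∂avgLaw G n = (((n + 1 : ℕ) : ℝ))⁻¹ *
      ∑ k ∈ Finset.range (n + 1), ∫ ω, g (depthSt ((k : ℤ) + 1) ω) ∂law G := by
  have hp : ∀ k : ℕ, IsProbabilityMeasure ((law G).map (depthSt ((k : ℤ) + 1))) := fun k =>
    Measure.isProbabilityMeasure_map (measurable_depthSt _).aemeasurable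
  rw [avgLaw, integral_smul_measure, integral_finsetSum_measure fun k _ => g.integrable _,
    ENNReal.toReal_inv, ENNReal.toReal_natCast, smul_eq_mul]
  congr 1
  exact Finset.sum_congr rfl fun k _ =>
    integral_map (measurable_depthSt _).aemeasurable g.continuous.aestronglyMeasurable

/-- Clamped minus value at a site. -/
noncomputable def incr (b : ℝ) (hb : 0 ≤ b) (a : Pt) : St →ᵇ ℝ :=
  BoundedContinuousFunction.ofNormedAddCommGroup
    (fun X : St => max (-((l1 a (0, 0) : ℝ) * b)) (min ((l1 a (0, 0) : ℝ) * b) (-X.2 a)))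
    (by fun_prop) ((l1 a (0, 0) : ℝ) * b) fun X => by
      have h : 0 ≤ (l1 a (0, 0) : ℝ) * b := by positivity
      rw [Real.norm_eq_abs, abs_le]
      exact ⟨le_max_left _ _, max_le (by linarith) (min_le_left _ _)⟩

theorem incr_eq {b : ℝ} (hb : 0 ≤ b) (a : Pt) {X : St} (h : Reg b X) : incr b hb a X = -X.2 a := by
  have h' := abs_le.1 (h.abs_sub_le a (0, 0))
  rw [h.zero, sub_zero] at h'
  show max _ (min _ (-X.2 a)) = -X.2 a
  rw [min_eq_right (by linarith), max_eq_right (by linarith)]

variable {b : ℝ}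

theorem integral_depth_shift (hG : ∀ᵐ t ∂G, 0 < t ∧ t ≤ b) (a : Pt) (s : ℤ) :
    ∫ ω, depth ω (s + (a.1 + a.2)) a ∂law G = ∫ ω, depth ω s (0, 0) ∂law G := by
  conv_rhs => rw [← map_moveCfg G a]
  rw [integral_map (measurable_moveCfg a).aemeasurable (measurable_depth _ _).aestronglyMeasurable]
  refine integral_congr_ae ?_
  filter_upwards [good_ae G hG] with ω hω
  rw [depth_move (fun e => (hω e).1.le), show ((0, 0) : Pt) + a = a by simp]

theorem integrable_depth (hG : ∀ᵐ t ∂G, 0 < t ∧ t ≤ b) (s : ℤ) (x : Pt) :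
    Integrable (fun ω => depth ω s x) (law G) := by
  refine Integrable.of_bound (measurable_depth _ _).aestronglyMeasurable (l1 x (s, 0) * b) ?_
  filter_upwards [good_ae G hG] with ω hω
  rw [Real.norm_eq_abs, abs_of_nonneg (depth_nonneg (fun e => (hω e).1.le) _ _)]
  exact (depth_le (fun e => (hω e).1.le) (y := (s, 0)) (by simp) _).trans
    (tt_le_l1 (fun e => (hω e).1.le) (fun e => (hω e).2) _ _)

/-- The averaged drift of a unit step towards the half planes telescopes. -/
theorem integral_incr (hG : ∀ᵐ t ∂G, 0 < t ∧ t ≤ b) (hb : 0 ≤ b) {a : Pt} (ha : a.1 + a.2 = 1)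
    (n : ℕ) :
    ∫ X, incr b hb a X ∂avgLaw G n = (∫ ω, depth ω ((n + 1 : ℕ) : ℤ) (0, 0) ∂law G) / (n + 1 : ℕ) := by
  rw [integral_avgLaw, div_eq_inv_mul]
  congr 1
  set F : ℕ → ℝ := fun k => ∫ ω, depth ω (k : ℤ) (0, 0) ∂law G with hF
  have h0 : F 0 = 0 := by
    refine integral_eq_zero_of_ae ?_
    filter_upwards [good_ae G hG] with ω hω
    refine le_antisymm ?_ (depth_nonneg (fun e => (hω e).1.le) _ _)
    refine (depth_le (fun e => (hω e).1.le) (y := (0, 0)) (by simp) _).trans_eq ?_
    exact le_antisymm ((tt_le (fun e => (hω e).1.le) .nil).trans_eq (by simp [wt]))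
      (tt_nonneg fun e => (hω e).1.le)
  have hk : ∀ k : ℕ, ∫ ω, incr b hb a (depthSt ((k : ℤ) + 1) ω) ∂law G = F (k + 1) - F k := by
    intro k
    rw [hF]
    simp only [Nat.cast_add, Nat.cast_one]
    rw [← integral_depth_shift G hG a k, ha, ← integral_sub (integrable_depth G hG _ _) (integrable_depth G hG _ _)]
    refine integral_congr_ae ?_
    filter_upwards [good_ae G hG] with ω hω
    rw [incr_eq hb a (reg_depthSt b (fun e => ⟨(hω e).1.le, (hω e).2⟩) _)]
    simp [depthSt]
  rw [Finset.sum_congr rfl fun k _ => hk k, Finset.sum_range_sub F, h0, sub_zero]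

theorem avgLaw_reg (hG : ∀ᵐ t ∂G, 0 < t ∧ t ≤ b) (n : ℕ) : avgLaw G n {X | Reg b X} = 1 := by
  rw [← prob_compl_eq_zero_iff (isClosed_reg b).measurableSet,
    avgLaw_apply G n _ (isClosed_reg b).measurableSet.compl]
  refine mul_eq_zero_of_right _ (Finset.sum_eq_zero fun k _ => ?_)
  exact measure_mono_null (fun ω hω (h : ∀ e, 0 < ω e ∧ ω e ≤ b) =>
    hω (reg_depthSt b (fun e => ⟨(h e).1.le, (h e).2⟩) _)) (ae_iff.1 (good_ae G hG))

theorem avgLaw_greedy (hG : ∀ᵐ t ∂G, 0 < t ∧ t ≤ b) (u : Pt) (n : ℕ) :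
    avgLaw G n {X | Greedy X u}ᶜ ≤ ((u.1 + u.2).toNat : ENNReal) / (n + 1 : ℕ) := by
  rw [avgLaw_apply G n _ (isClosed_greedy u).measurableSet.compl, ENNReal.div_eq_inv_mul]
  refine mul_le_mul' le_rfl ((Finset.sum_le_sum (g := fun k => if k < (u.1 + u.2).toNat then 1 else 0)
    fun k _ => ?_).trans ?_)
  · split_ifs with hk
    · exact prob_le_one
    · exact le_of_eq (measure_mono_null (fun ω hω (h : ∀ e, 0 < ω e ∧ ω e ≤ b) =>
        hω (greedy_depthSt (fun e => (h e).1.le) (by omega))) (ae_iff.1 (good_ae G hG)))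
  · rw [Finset.sum_boole]
    exact Nat.cast_le.2 ((Finset.card_le_card fun k hk =>
      Finset.mem_range.2 (Finset.mem_filter.1 hk).2).trans (Finset.card_range _).le)

theorem avgLaw_fst (n : ℕ) : (avgLaw G n).map Prod.fst = law G := by
  ext S hS
  rw [Measure.map_apply measurable_fst hS, avgLaw_apply G n _ (measurable_fst hS)]
  simp only [show ∀ k : ℕ, depthSt ((k : ℤ) + 1) ⁻¹' (Prod.fst ⁻¹' S) = S from fun k => rfl,
    Finset.sum_const, Finset.card_range, nsmul_eq_mul]
  rw [← mul_assoc, ENNReal.inv_mul_cancel (by simp) (ENNReal.natCast_ne_top _), one_mul]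

theorem avgLaw_move (hG : ∀ᵐ t ∂G, 0 < t ∧ t ≤ b) {a : Pt} (ha : a.1 + a.2 = 1) (g : St →ᵇ ℝ)
    (n : ℕ) : |∫ X, g (moveSt a X) ∂avgLaw G n - ∫ X, g X ∂avgLaw G n| ≤ 2 * ‖g‖ / (n + 1 : ℕ) := by
  set F : ℕ → ℝ := fun k => ∫ ω, g (depthSt (k : ℤ) ω) ∂law G with hF
  have hmove : ∀ k : ℕ, ∫ ω, g (moveSt a (depthSt ((k : ℤ) + 1) ω)) ∂law G = F k := by
    intro k
    rw [hF]
    dsimp only
    conv_rhs => rw [← map_moveCfg G a]
    rw [integral_map (μ := law G) (measurable_moveCfg a).aemeasurable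
      (f := fun ω => g (depthSt (k : ℤ) ω))
      (g.continuous.measurable.comp (measurable_depthSt _)).aestronglyMeasurable]
    refine integral_congr_ae ?_
    filter_upwards [good_ae G hG] with ω hω
    rw [← moveSt_depthSt (fun e => (hω e).1.le), ha]
  have h1 := integral_avgLaw G n (g.compContinuous ⟨moveSt a, continuous_moveSt a⟩)
  simp only [BoundedContinuousFunction.compContinuous_apply, ContinuousMap.coe_mk, hmove] at h1
  have h2 : ∀ k : ℕ, ∫ ω, g (depthSt ((k : ℤ) + 1) ω) ∂law G = F (k + 1) := fun k => by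
    simp only [hF, Nat.cast_add, Nat.cast_one]
  rw [h1, integral_avgLaw, ← mul_sub, ← Finset.sum_sub_distrib, div_eq_inv_mul, abs_mul,
    abs_of_nonneg (by positivity)]
  simp only [h2, Finset.sum_range_sub' F]
  refine mul_le_mul_of_nonneg_left ?_ (by positivity)
  have hb' : ∀ k, |F k| ≤ ‖g‖ := fun k => by
    rw [← Real.norm_eq_abs]
    exact (norm_integral_le_of_norm_le_const (ae_of_all _ fun ω => g.norm_coe_le_norm _)).trans_eq
      (by simp)
  refine (abs_sub _ _).trans ?_
  linarith [hb' 0, hb' (n + 1)]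

variable {G}

/-- An invariant law of configurations with a greedy cocycle and full diagonal drift. -/
theorem exists_cocycle_law (hG : ∀ᵐ t ∂G, 0 < t ∧ t ≤ b) :
    ∃ ν : Measure St, IsProbabilityMeasure ν ∧ ν.map Prod.fst = law G ∧
      (∀ᵐ X ∂ν, Reg b X ∧ ∀ u, Greedy X u) ∧ (∀ a, MeasurePreserving (moveSt a) ν ν) ∧
      mu G (1, 1) ≤ (∫ X, -X.2 (1, 0) ∂ν) + ∫ X, -X.2 (0, 1) ∂ν := by
  have hb : 0 ≤ b := b_nonneg G hG
  set P : ℕ → ProbabilityMeasure St := fun n => ⟨avgLaw G n, avgLaw_prob G n⟩ with hP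
  have htight : IsTightMeasureSet {((μ : ProbabilityMeasure St) : Measure St) | μ ∈ Set.range P} := by
    rw [isTightMeasureSet_iff_exists_isCompact_measure_compl_le]
    refine fun ε _ => ⟨stBox b, isCompact_stBox b, ?_⟩
    rintro _ ⟨_, ⟨n, rfl⟩, rfl⟩
    refine le_of_le_of_eq (measure_mono (Set.compl_subset_compl.2 fun X hX => Reg.mem_stBox hX))
      ((prob_compl_eq_zero_iff (isClosed_reg b).measurableSet).2 (avgLaw_reg G hG n)) |>.trans zero_le
  set U := Ultrafilter.of (atTop : Filter ℕ)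
  obtain ⟨ν, -, hν⟩ := (isCompact_closure_of_isTightMeasureSet htight).ultrafilter_le_nhds (U.map P)
    (tendsto_principal.2 (Eventually.of_forall fun n => subset_closure (Set.mem_range_self n)))
  have hlim : Tendsto P U (𝓝 ν) := hν
  have hU : (U : Filter ℕ) ≤ atTop := Ultrafilter.of_le atTop
  have hint : ∀ g : St →ᵇ ℝ, Tendsto (fun n => ∫ X, g X ∂avgLaw G n) U (𝓝 (∫ X, g X ∂(ν : Measure St))) :=
    fun g => ProbabilityMeasure.tendsto_iff_forall_integral_tendsto.1 hlim g
  have hclosed : ∀ F : Set St, IsClosed F → Tendsto (fun n => avgLaw G n F) U (𝓝 1) →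
      ∀ᵐ X ∂(ν : Measure St), X ∈ F := by
    intro F hF h1
    have h := ProbabilityMeasure.limsup_measure_closed_le_of_tendsto hlim hF
    simp only [hP, ProbabilityMeasure.coe_mk] at h
    rw [h1.limsup_eq] at h
    refine ae_iff.2 ?_
    change (ν : Measure St) Fᶜ = 0
    rw [prob_compl_eq_zero_iff hF.measurableSet]
    exact le_antisymm prob_le_one h
  have hreg : ∀ᵐ X ∂(ν : Measure St), Reg b X :=
    hclosed {X | Reg b X} (isClosed_reg b) (tendsto_const_nhds.congr fun n => (avgLaw_reg G hG n).symm)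
  have hgr : ∀ᵐ X ∂(ν : Measure St), ∀ u, Greedy X u := by
    refine ae_all_iff.2 fun u => hclosed {X | Greedy X u} (isClosed_greedy u) ?_
    have h0 : Tendsto (fun n => avgLaw G n {X | Greedy X u}ᶜ) atTop (𝓝 0) := by
      refine tendsto_of_tendsto_of_tendsto_of_le_of_le tendsto_const_nhds ?_ (fun n => zero_le)
        (avgLaw_greedy G hG u)
      have := ENNReal.Tendsto.const_div (a := ((u.1 + u.2).toNat : ENNReal))
        (ENNReal.tendsto_nat_nhds_top.comp (tendsto_add_atTop_nat 1)) (Or.inr (ENNReal.natCast_ne_top _))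
      simpa [Function.comp_def] using this
    have h1 := ENNReal.Tendsto.sub (tendsto_const_nhds (x := (1 : ENNReal))) (h0.mono_left hU)
      (Or.inl ENNReal.one_ne_top)
    rw [tsub_zero] at h1
    refine h1.congr fun n => ?_
    rw [prob_compl_eq_one_sub (isClosed_greedy u).measurableSet,
      ENNReal.sub_sub_cancel ENNReal.one_ne_top prob_le_one]
  have hfst : (ν : Measure St).map Prod.fst = law G := by
    have h := ProbabilityMeasure.tendsto_map_of_tendsto_of_continuous P ν hlim
      (continuous_fst : Continuous (Prod.fst : St → Cfg))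
    have h2 : (fun n => (P n).map (continuous_fst : Continuous (Prod.fst : St → Cfg)).measurable.aemeasurable) =
        fun _ => (⟨law G, inferInstance⟩ : ProbabilityMeasure Cfg) :=
      funext fun n => Subtype.ext (avgLaw_fst G n)
    rw [h2] at h
    exact congrArg (fun μ : ProbabilityMeasure Cfg => (μ : Measure Cfg))
      (tendsto_nhds_unique h tendsto_const_nhds)
  have hinv : ∀ a : Pt, a.1 + a.2 = 1 → MeasurePreserving (moveSt a) (ν : Measure St) ν := by
    intro a ha
    have hm : Measurable (moveSt a) := (continuous_moveSt a).measurable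
    have := Measure.isProbabilityMeasure_map (μ := (ν : Measure St)) hm.aemeasurable
    refine ⟨hm, ext_of_forall_integral_eq_of_IsFiniteMeasure fun g => ?_⟩
    rw [integral_map hm.aemeasurable g.continuous.aestronglyMeasurable]
    refine sub_eq_zero.1 (tendsto_nhds_unique ((hint (g.compContinuous ⟨moveSt a, continuous_moveSt a⟩)).sub
      (hint g)) ?_)
    refine squeeze_zero_norm (fun n => avgLaw_move G hG ha g n) ?_
    exact ((tendsto_const_div_atTop_nhds_zero_nat (2 * ‖g‖)).comp (tendsto_add_atTop_nat 1)).mono_left hU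
  have hadd : ∀ a c : Pt, MeasurePreserving (moveSt a) (ν : Measure St) ν →
      MeasurePreserving (moveSt c) (ν : Measure St) ν →
      MeasurePreserving (moveSt (a + c)) (ν : Measure St) ν := by
    intro a c ha hc
    have h := ha.comp hc
    rwa [show moveSt a ∘ moveSt c = moveSt (a + c) from funext fun X => moveSt_moveSt a c X] at h
  have hzero : MeasurePreserving (moveSt (0, 0)) (ν : Measure St) ν :=
    ⟨(continuous_moveSt _).measurable, by
      exact (Measure.map_congr (g := id) (hreg.mono fun X hX => moveSt_zero hX.zero)).trans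
        Measure.map_id⟩
  have hneg : ∀ a : Pt, MeasurePreserving (moveSt a) (ν : Measure St) ν →
      MeasurePreserving (moveSt (-a)) (ν : Measure St) ν := by
    intro a ha
    refine ⟨(continuous_moveSt _).measurable, ?_⟩
    conv_lhs => rw [← ha.map_eq]
    rw [Measure.map_map (continuous_moveSt _).measurable ha.measurable,
      show moveSt (-a) ∘ moveSt a = moveSt (-a + a) from funext fun X => moveSt_moveSt _ _ X,
      neg_add_cancel]
    exact hzero.map_eq
  have hall : ∀ a : Pt, MeasurePreserving (moveSt a) (ν : Measure St) ν := by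
    have hline : ∀ e : Pt, e.1 + e.2 = 1 → ∀ k : ℤ, MeasurePreserving (moveSt (k • e)) (ν : Measure St) ν := by
      intro e he k
      induction k with
      | zero => rw [zero_smul, ← Prod.mk_zero_zero]; exact hzero
      | succ k ih => rw [add_smul, one_smul]; exact hadd _ _ ih (hinv e he)
      | pred k ih => rw [sub_smul, one_smul, sub_eq_add_neg]; exact hadd _ _ ih (hneg e (hinv e he))
    intro a
    have := hadd _ _ (hline (1, 0) (by simp) a.1) (hline (0, 1) (by simp) a.2)
    rwa [show a.1 • ((1, 0) : Pt) + a.2 • ((0, 1) : Pt) = a by ext <;> simp] at this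
  refine ⟨ν, inferInstance, hfst, hreg.and hgr, hall, ?_⟩
  have key : ∀ a : Pt, a.1 + a.2 = 1 → mu G (1, 1) / 2 ≤ ∫ X, -X.2 a ∂(ν : Measure St) := by
    intro a ha
    rw [← integral_congr_ae (hreg.mono fun X hX => incr_eq hb a hX)]
    refine le_of_forall_pos_le_add fun η hη => ?_
    rw [← sub_le_iff_le_add]
    refine ge_of_tendsto (hint (incr b hb a)) ?_
    filter_upwards [hU ((tendsto_add_atTop_nat 1).eventually (eventually_depth_mean hG hη))] with n hn
    rw [integral_incr G hG hb ha, le_div_iff₀ (by positivity)]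
    exact hn
  linarith [key (1, 0) (by simp), key (0, 1) (by simp)]

end Vale.Agent.P158.V4
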