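import Vale.Agent.P158.V4.Norm

/-!
P158, note 1446 part A: a lattice norm none of whose flat segments joins two kinks has, for every
direction, an axis along which its supporting functionals are not extreme; directions of two
adjacent sectors with a common functional lie in the face of the diagonal between the sectors.
-/

namespace Vale.Agent.P158.V4

open Filter Topology

/-- Two different functionals support `μ` at `v`. -/
def Kink (μ : ℝ × ℝ → ℝ) (v : ℝ × ℝ) : Prop :=
  ∃ ρ σ, Supports μ v ρ ∧ Supports μ v σ ∧ ρ ≠ σ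

/-- No flat segment of `μ` joins two kinks. -/
def NoFacet (μ : ℝ × ℝ → ℝ) : Prop :=
  ∀ v w ρ, v.1 * w.2 ≠ v.2 * w.1 → Supports μ v ρ → Supports μ w ρ → Kink μ v → Kink μ w → False

/-- `θ` shares a supporting functional with `q`. -/
def Shares (μ : ℝ × ℝ → ℝ) (q θ : ℝ × ℝ) : Prop := ∃ ρ, Supports μ q ρ ∧ Supports μ θ ρ

/-- The closed sector around the positive vertical axis. -/
def North (μ : ℝ × ℝ → ℝ) (θ : ℝ × ℝ) : Prop :=
  |θ.1| < θ.2 ∨ Shares μ (1, 1) θ ∨ Shares μ (-1, 1) θ

/-- The closed sector around the positive horizontal axis. -/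
def East (μ : ℝ × ℝ → ℝ) (θ : ℝ × ℝ) : Prop := North μ θ.swap

/-- No supporting functional at `θ` is extreme along the horizontal axis. -/
def AxisX (μ : ℝ × ℝ → ℝ) (θ : ℝ × ℝ) : Prop := ∀ ρ, Supports μ θ ρ → |ρ.1| ≠ μ (1, 0)

/-- No supporting functional at `θ` is extreme along the vertical axis. -/
def AxisY (μ : ℝ × ℝ → ℝ) (θ : ℝ × ℝ) : Prop := ∀ ρ, Supports μ θ ρ → |ρ.2| ≠ μ (1, 0)

namespace IsLatticeNorm

variable {μ : ℝ × ℝ → ℝ} (h : IsLatticeNorm μ)
include h

theorem supports_swap' {x y a b : ℝ} (hρ : Supports μ (x, y) (a, b)) :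
    Supports μ (y, x) (b, a) := by
  refine ⟨fun z => ?_, ?_⟩
  · have := hρ.1 (z.2, z.1)
    rw [h.swap] at this
    simp at this ⊢
    linarith
  · rw [h.swap, ← hρ.2]
    simp
    ring

theorem supports_comb {v w ρ : ℝ × ℝ} {a c : ℝ} (ha : 0 ≤ a) (hc : 0 ≤ c)
    (hv : Supports μ v ρ) (hw : Supports μ w ρ) : Supports μ (a • v + c • w) ρ := by
  refine ⟨hv.1, le_antisymm (hv.1 _) ?_⟩
  refine (h.tri _ _).trans_eq ?_
  rw [h.homog a ha, h.homog c hc, ← hv.2, ← hw.2]
  simp
  ring

theorem not_supports_neg {v w ρ : ℝ × ℝ} (hv0 : v ≠ 0) {a : ℝ} (ha : 0 ≤ a) (hw : w = -(a • v))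
    (hw0 : w ≠ 0) (hv : Supports μ v ρ) (hws : Supports μ w ρ) : False := by
  have h1 := hv.2
  have h2 := hws.2
  have h3 := h.pos_of_ne hv0
  have h4 := h.pos_of_ne hw0
  subst hw
  simp at h2
  nlinarith

omit h in
/-- A supporting functional extreme in the first coordinate supports the horizontal axis. -/
theorem supports_axis {θ ρ : ℝ × ℝ} (hρ : Supports μ θ ρ) (he : ρ.1 = μ (1, 0)) :
    Supports μ (1, 0) ρ := ⟨hρ.1, by simp [he]⟩

variable (hnf : NoFacet μ)
include hnf

/-- Every functional supporting at a direction of the diagonal's face supports the diagonal. -/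
theorem absorb {θ ρ : ℝ × ℝ} (hθ0 : θ ≠ 0) (hD : Shares μ (1, 1) θ) (hρ : Supports μ θ ρ) :
    Supports μ (1, 1) ρ := by
  obtain ⟨x, y⟩ := θ
  obtain ⟨⟨s, t⟩, hd, hθ⟩ := hD
  by_contra hno
  have hne : ρ ≠ (s, t) := fun e => hno (e ▸ hd)
  have hxy : x ≠ y := by
    rintro rfl
    rcases lt_trichotomy x 0 with hx | hx | hx
    · exact h.not_supports_neg (v := (1, 1)) (by simp) (a := -x) (by linarith) (by simp) hθ0 hd hθ
    · exact hθ0 (by simp [hx])
    · refine hno ((h.supports_smul_iff hx).1 ?_)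
      simpa using hρ
  have kθ : Kink μ (x, y) := ⟨ρ, (s, t), hρ, hθ, hne⟩
  by_cases hst : s = t
  · subst hst
    have hanti : x + y ≠ 0 := fun he => by
      have h1 := hθ.2
      have h2 := h.pos_of_ne hθ0
      simp only at h1
      have : s * (x + y) = 0 := by rw [he, mul_zero]
      linarith
    refine hnf (x, y) (y, x) (s, s) ?_ hθ (h.supports_swap' hθ) kθ
      ⟨(ρ.2, ρ.1), (s, s), h.supports_swap' hρ, h.supports_swap' hθ, fun e => hne ?_⟩
    · intro he
      simp only at he
      have : (x - y) * (x + y) = 0 := by linear_combination he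
      rcases mul_eq_zero.1 this with h1 | h1
      · exact hxy (sub_eq_zero.1 h1)
      · exact hanti h1
    · simp only [Prod.mk.injEq] at e
      exact Prod.ext e.2 e.1
  · refine hnf (x, y) (1, 1) (s, t) (by simpa using hxy) hθ hd kθ
      ⟨(s, t), (t, s), hd, h.supports_swap' hd, by simp [hst]⟩

variable (hd1 : μ (1, 1) ≠ μ (1, 0)) (hd2 : μ (1, 1) ≠ 2 * μ (1, 0))
include hd1 hd2

/-- No functional supports both an axis and the adjacent diagonal. -/
theorem axis_diag {ρ : ℝ × ℝ} (h1 : Supports μ (1, 0) ρ) (h2 : Supports μ (1, 1) ρ) : False := by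
  obtain ⟨p, q⟩ := ρ
  have e1 : p = μ (1, 0) := by simpa using h1.2
  have e2 : p + q = μ (1, 1) := by simpa using h2.2
  have hq : q ≠ 0 := fun hq => hd1 (by linarith)
  have hpq : p ≠ q := fun he => hd2 (by linarith)
  refine hnf (1, 0) (1, 1) (p, q) (by simp) h1 h2 ⟨(p, q), (p, -q), h1, ?_, ?_⟩
    ⟨(p, q), (q, p), h2, h.supports_swap' h2, by simp [hpq]⟩
  · simpa using h.supports_swap' (h.supports_flip (h.supports_swap' h1))
  · simp only [ne_eq, Prod.mk.injEq, true_and]
    exact fun he => hq (by linarith)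

omit hnf hd1 hd2 in
theorem shares_flip {θ : ℝ × ℝ} {q : ℝ × ℝ} (hD : Shares μ q θ) :
    Shares μ (-q.1, q.2) (-θ.1, θ.2) := by
  obtain ⟨ρ, h1, h2⟩ := hD
  exact ⟨(-ρ.1, ρ.2), h.supports_flip h1, h.supports_flip h2⟩

omit hnf hd1 hd2 in
theorem north_flip {θ : ℝ × ℝ} (hN : North μ θ) : North μ (-θ.1, θ.2) := by
  rcases hN with hN | hN | hN
  · exact Or.inl (by simpa using hN)
  · exact Or.inr (Or.inr (by simpa using h.shares_flip hN))
  · exact Or.inr (Or.inl (by simpa using h.shares_flip hN))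

theorem axis_right {θ ρ : ℝ × ℝ} (hθ0 : θ ≠ 0) (hN : North μ θ) (hρ : Supports μ θ ρ) :
    ρ.1 ≠ μ (1, 0) := by
  intro he
  have hax := supports_axis hρ he
  rcases hN with hN | hN | hN
  · have hy : 0 < θ.2 := (abs_nonneg _).trans_lt hN
    have hx := (le_abs_self θ.1).trans_lt hN
    have hc := h.supports_comb (a := 1 / θ.2) (c := 1 - θ.1 / θ.2) (by positivity)
      (by rw [sub_nonneg, div_le_one hy]; linarith) hρ hax
    refine h.axis_diag hnf hd1 hd2 hax ?_
    convert hc using 1
    ext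
    · simp; ring
    · simp [hy.ne']
  · exact h.axis_diag hnf hd1 hd2 hax (h.absorb hnf hθ0 hN hρ)
  · have hf := h.supports_flip hρ
    have h0 : (-θ.1, θ.2) ≠ 0 := fun e => hθ0 (by simpa [Prod.ext_iff] using e)
    have hd : Supports μ (1, 1) (-ρ.1, ρ.2) :=
      h.absorb hnf h0 (by simpa using h.shares_flip hN) hf
    have hm : Supports μ (-1, 1) ρ := by simpa using h.supports_flip hd
    refine h.axis_diag hnf hd1 hd2 hax ?_
    convert h.supports_comb (a := 2) (c := 1) (by norm_num) zero_le_one hax hm using 1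
    ext <;> norm_num

/-- In the north sector the horizontal axis is not extreme. -/
theorem axisX_north {θ : ℝ × ℝ} (hθ0 : θ ≠ 0) (hN : North μ θ) : AxisX μ θ := by
  intro ρ hρ he
  rcases eq_or_eq_neg_of_abs_eq he with he' | he'
  · exact h.axis_right hnf hd1 hd2 hθ0 hN hρ he'
  · refine h.axis_right hnf hd1 hd2 (ρ := (-ρ.1, ρ.2)) ?_ (h.north_flip hN)
      (h.supports_flip hρ) (by simp [he'])
    exact fun e => hθ0 (by simpa [Prod.ext_iff] using e)

/-- In the east sector the vertical axis is not extreme. -/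
theorem axisY_east {θ : ℝ × ℝ} (hθ0 : θ ≠ 0) (hE : East μ θ) : AxisY μ θ := by
  intro ρ hρ
  refine h.axisX_north hnf hd1 hd2 (θ := θ.swap) ?_ hE (ρ.2, ρ.1) (h.supports_swap' hρ)
  exact fun e => hθ0 (Prod.swap_injective (by simpa using e))

/-- Directions of the north and east sectors with a common functional share it with the diagonal. -/
theorem adjacent {θ ψ ρ : ℝ × ℝ} (hθ0 : θ ≠ 0) (hψ0 : ψ ≠ 0) (hN : North μ θ) (hE : East μ ψ)
    (hθ : Supports μ θ ρ) (hψ : Supports μ ψ ρ) : Supports μ (1, 1) ρ := by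
  by_cases hθd : Shares μ (1, 1) θ
  · exact h.absorb hnf hθ0 hθd hθ
  by_cases hψd : Shares μ (1, 1) ψ
  · exact h.absorb hnf hψ0 hψd hψ
  exfalso
  -- the vertical axis and the diagonal
  have hvert : Supports μ (0, 1) ρ → Supports μ (1, 1) ρ → False := fun a b =>
    h.axis_diag hnf hd1 hd2 (h.supports_swap' a) (h.supports_swap' b)
  have hswap0 : ψ.swap ≠ 0 := fun e => hψ0 (Prod.swap_injective (by simpa using e))
  have hθl : Shares μ (-1, 1) θ → Supports μ (-1, 1) ρ := fun hs => by
    have h0 : (-θ.1, θ.2) ≠ 0 := fun e => hθ0 (by simpa [Prod.ext_iff] using e)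
    simpa using h.supports_flip (h.absorb hnf h0 (by simpa using h.shares_flip hs) (h.supports_flip hθ))
  have hψl : Shares μ (-1, 1) ψ.swap → Supports μ (1, -1) ρ := fun hs => by
    have h0 : (-ψ.2, ψ.1) ≠ 0 := fun e => hψ0 (by simpa [Prod.ext_iff, and_comm] using e)
    have := h.supports_flip (h.absorb hnf h0 (by simpa using h.shares_flip hs)
      (h.supports_flip (h.supports_swap' hψ)))
    simpa using h.supports_swap' this
  have hψs : ∀ q : ℝ × ℝ, Shares μ q ψ.swap → Shares μ q.swap ψ := by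
    rintro q ⟨σ, h1, h2⟩
    exact ⟨(σ.2, σ.1), h.supports_swap' h1, by simpa using h.supports_swap' h2⟩
  rcases hE with hE | hE | hE
  · simp only [Prod.fst_swap, Prod.snd_swap] at hE
    have hx : 0 < ψ.1 := (abs_nonneg _).trans_lt hE
    obtain ⟨hy1, hy2⟩ := abs_lt.1 hE
    rcases hN with hN | hN | hN
    · have hy : 0 < θ.2 := (abs_nonneg _).trans_lt hN
      obtain ⟨hx1, hx2⟩ := abs_lt.1 hN
      have hdet : 0 < ψ.1 * θ.2 - ψ.2 * θ.1 := by nlinarith
      refine hθd ⟨ρ, ?_, hθ⟩
      convert h.supports_comb (a := (ψ.1 - ψ.2) / (ψ.1 * θ.2 - ψ.2 * θ.1))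
        (c := (θ.2 - θ.1) / (ψ.1 * θ.2 - ψ.2 * θ.1)) (div_nonneg (by linarith) hdet.le)
        (div_nonneg (by linarith) hdet.le) hθ hψ using 1
      ext <;> simp <;> field_simp <;> ring
    · exact hθd hN
    · have hm := hθl hN
      have hv : Supports μ (0, 1) ρ := by
        convert h.supports_comb (a := ψ.1 / (ψ.1 + ψ.2)) (c := 1 / (ψ.1 + ψ.2))
          (div_nonneg hx.le (by linarith)) (div_nonneg zero_le_one (by linarith)) hm hψ using 1
        have hs : ψ.1 + ψ.2 ≠ 0 := by linarith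
        ext <;> simp <;> field_simp <;> ring
      refine h.axis_diag hnf hd1 hd2 (ρ := (ρ.2, -ρ.1)) (h.supports_swap' ?_) (h.supports_swap' ?_)
      · simpa using h.supports_flip hv
      · simpa using h.supports_flip hm
  · exact hψd (hψs _ hE)
  · have hm := hψl hE
    rcases hN with hN | hN | hN
    · have hy : 0 < θ.2 := (abs_nonneg _).trans_lt hN
      obtain ⟨hx1, hx2⟩ := abs_lt.1 hN
      have hv : Supports μ (1, 0) ρ := by
        convert h.supports_comb (a := θ.2 / (θ.2 + θ.1)) (c := 1 / (θ.2 + θ.1))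
          (div_nonneg hy.le (by linarith)) (div_nonneg zero_le_one (by linarith)) hm hθ using 1
        have hs : θ.2 + θ.1 ≠ 0 := by linarith
        ext <;> simp <;> field_simp <;> ring
      refine h.axis_diag hnf hd1 hd2 (ρ := (ρ.1, -ρ.2)) ?_ ?_
      · simpa using h.supports_swap' (h.supports_flip (h.supports_swap' hv))
      · simpa using h.supports_swap' (h.supports_flip (h.supports_swap' hm))
    · exact hθd hN
    · exact h.not_supports_neg (v := (1, -1)) (w := (-1, 1)) (by simp) zero_le_one (by simp)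
        (by simp) hm (hθl hN)

omit hd1 hd2 in
/-- Off the axis a functional extreme along it is the only one: strictness holds if one supporting
functional is strict. -/
theorem extreme_unique {θ ρ σ : ℝ × ℝ} (hθ : θ.2 ≠ 0) (hσ : Supports μ θ σ)
    (he : σ.1 = μ (1, 0)) (hρ : Supports μ θ ρ) : ρ = σ := by
  by_contra hne
  obtain ⟨x, y⟩ := θ
  obtain ⟨p, t⟩ := σ
  have hax := supports_axis hσ he
  simp only at hθ
  by_cases ht : t = 0
  · subst ht
    have hf : ∀ a c : ℝ, Supports μ (x, y) (a, c) → Supports μ (x, -y) (a, -c) := fun a c hs => by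
      simpa using h.supports_swap' (h.supports_flip (h.supports_swap' hs))
    have hx : x ≠ 0 := fun hx => by
      have h1 := hσ.2
      have h2 := h.pos_of_ne (z := (x, y)) (by simp [hθ])
      subst hx
      simp at h1
      linarith
    refine hnf (x, y) (x, -y) (p, 0) ?_ hσ (by simpa using hf p 0 hσ) ⟨ρ, (p, 0), hρ, hσ, hne⟩
      ⟨(ρ.1, -ρ.2), (p, 0), hf ρ.1 ρ.2 hρ, by simpa using hf p 0 hσ, fun e => hne ?_⟩
    · simp only [ne_eq]
      intro e
      have : x * y = 0 := by linarith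
      rcases mul_eq_zero.1 this with h1 | h1
      · exact hx h1
      · exact hθ h1
    · simp only [Prod.mk.injEq, neg_eq_zero] at e
      exact Prod.ext e.1 e.2
  · refine hnf (x, y) (1, 0) (p, t) (by simpa using fun e => hθ e.symm) hσ hax
      ⟨ρ, (p, t), hρ, hσ, hne⟩ ⟨(p, t), (p, -t), hax, ?_, ?_⟩
    · simpa using h.supports_swap' (h.supports_flip (h.supports_swap' hax))
    · simp only [ne_eq, Prod.mk.injEq, true_and]
      exact fun e => ht (by linarith)

end IsLatticeNorm

end Vale.Agent.P158.V4
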