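import Vale.Agent.P158.V4.Mean

/-!
P158: the time constant in every direction is a symmetric norm.
-/

namespace Vale.Agent.P158.V4

open MeasureTheory Filter Topology

variable (G : Measure ℝ) [IsProbabilityMeasure G] {b : ℝ}

/-- The lattice point below a point of the plane. -/
noncomputable def fl (z : ℝ × ℝ) : ℤ × ℤ := (⌊z.1⌋, ⌊z.2⌋)

/-- A lattice point as a point of the plane. -/
def rvec (z : ℤ × ℤ) : ℝ × ℝ := ((z.1 : ℝ), (z.2 : ℝ))

/-- The time constant. -/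
noncomputable def mu (z : ℝ × ℝ) : ℝ :=
  limUnder atTop fun n : ℕ => mean G (fl ((n : ℝ) * z.1, (n : ℝ) * z.2)) / n

theorem l1_cast (y w : ℤ × ℤ) :
    (l1 y w : ℝ) = |(y.1 : ℝ) - w.1| + |(y.2 : ℝ) - w.2| := by
  simp only [l1, Nat.cast_add, Nat.cast_natAbs, Int.cast_abs, Int.cast_sub]

theorem b_nonneg (hG : ∀ᵐ t ∂G, 0 < t ∧ t ≤ b) : 0 ≤ b := by
  obtain ⟨t, ht⟩ := hG.exists
  linarith

theorem mean_zero (hG : ∀ᵐ t ∂G, 0 < t ∧ t ≤ b) : mean G (0, 0) = 0 :=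
  le_antisymm
    (by
      refine integral_nonpos_of_ae ?_
      filter_upwards [good_ae G hG] with ω hω
      simpa [wt] using tt_le (fun e => (hω e).1.le) (SimpleGraph.Walk.nil : grid.Walk ((0 : ℤ), (0 : ℤ)) (0, 0)))
    (mean_nonneg G hG _)

theorem exists_mu_lim (hG : ∀ᵐ t ∂G, 0 < t ∧ t ≤ b) (z : ℝ × ℝ) :
    Tendsto (fun n : ℕ => mean G (fl ((n : ℝ) * z.1, (n : ℝ) * z.2)) / n) atTop (𝓝 (mu G z)) := by
  have hb := b_nonneg G hG
  set a : ℕ → ℝ := fun n => mean G (fl ((n : ℝ) * z.1, (n : ℝ) * z.2)) + 2 * b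
  have hsub : Subadditive a := by
    intro m k
    set x := fl ((m : ℝ) * z.1, (m : ℝ) * z.2)
    set y := fl ((k : ℝ) * z.1, (k : ℝ) * z.2)
    set w := fl (((m + k : ℕ) : ℝ) * z.1, ((m + k : ℕ) : ℝ) * z.2)
    have h1 := mean_add_le G hG x y
    have h2 := (abs_le.1 (abs_mean_sub_le G hG w (x + y))).2
    have h3 : l1 w (x + y) ≤ 2 := by
      have e1 := Int.le_floor_add ((m : ℝ) * z.1) ((k : ℝ) * z.1)
      have e2 := Int.le_floor_add_floor ((m : ℝ) * z.1) ((k : ℝ) * z.1)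
      have e3 := Int.le_floor_add ((m : ℝ) * z.2) ((k : ℝ) * z.2)
      have e4 := Int.le_floor_add_floor ((m : ℝ) * z.2) ((k : ℝ) * z.2)
      simp only [l1, x, y, w, fl, Nat.cast_add, add_mul, Prod.fst_add, Prod.snd_add]
      omega
    have h4 : (l1 w (x + y) : ℝ) * b ≤ 2 * b := mul_le_mul_of_nonneg_right (by exact_mod_cast h3) hb
    simp only [a, x, y, w] at *
    linarith
  have hbdd : BddBelow (Set.range fun n => a n / n) := by
    refine ⟨0, ?_⟩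
    rintro _ ⟨n, rfl⟩
    exact div_nonneg (add_nonneg (mean_nonneg G hG _) (by positivity)) (Nat.cast_nonneg n)
  have h := (hsub.tendsto_lim hbdd).sub (tendsto_const_div_atTop_nhds_zero_nat (2 * b))
  rw [sub_zero] at h
  refine tendsto_nhds_limUnder ⟨hsub.lim, h.congr fun n => ?_⟩
  simp only [a]
  ring

/-- Mean passage times along any sequence of displacements with asymptotic velocity `z`. -/
theorem tendsto_mean (hG : ∀ᵐ t ∂G, 0 < t ∧ t ≤ b) {z : ℝ × ℝ} {y : ℕ → ℤ × ℤ}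
    (h1 : Tendsto (fun n => ((y n).1 : ℝ) / n) atTop (𝓝 z.1))
    (h2 : Tendsto (fun n => ((y n).2 : ℝ) / n) atTop (𝓝 z.2)) :
    Tendsto (fun n => mean G (y n) / n) atTop (𝓝 (mu G z)) := by
  have hb := b_nonneg G hG
  have hd : Tendsto (fun n : ℕ => b * (|((y n).1 : ℝ) / n - z.1| + |((y n).2 : ℝ) / n - z.2|) + 2 * b / n)
      atTop (𝓝 0) := by
    have := ((((h1.sub_const z.1).abs).add ((h2.sub_const z.2).abs)).const_mul b).add
      (tendsto_const_div_atTop_nhds_zero_nat (2 * b))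
    simpa using this
  have h := (exists_mu_lim G hG z).add (squeeze_zero_norm' (a := fun n : ℕ =>
    b * (|((y n).1 : ℝ) / n - z.1| + |((y n).2 : ℝ) / n - z.2|) + 2 * b / n)
    (f := fun n : ℕ => mean G (y n) / n - mean G (fl ((n : ℝ) * z.1, (n : ℝ) * z.2)) / n) ?_ hd)
  · simpa using h
  filter_upwards [eventually_gt_atTop 0] with n hn
  have hn' : (0 : ℝ) < n := by exact_mod_cast hn
  set w := fl ((n : ℝ) * z.1, (n : ℝ) * z.2) with hw
  have key : ∀ (p : ℤ) (x : ℝ), |(p : ℝ) - ⌊(n : ℝ) * x⌋| ≤ n * |(p : ℝ) / n - x| + 1 := fun p x => by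
    rw [show (n : ℝ) * |(p : ℝ) / n - x| = |(p : ℝ) - n * x| by
      conv_lhs => rw [← abs_of_pos hn', ← abs_mul, abs_of_pos hn', mul_sub, mul_div_cancel₀ _ hn'.ne']]
    calc |(p : ℝ) - ⌊(n : ℝ) * x⌋| ≤ |(p : ℝ) - n * x| + |(n : ℝ) * x - ⌊(n : ℝ) * x⌋| := abs_sub_le _ _ _
      _ ≤ _ := add_le_add le_rfl (by rw [Int.self_sub_floor, Int.abs_fract]; exact (Int.fract_lt_one _).le)
  rw [Real.norm_eq_abs, ← sub_div, abs_div, abs_of_pos hn', div_le_iff₀ hn', add_mul, div_mul_cancel₀ _ hn'.ne']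
  refine (abs_mean_sub_le G hG (y n) w).trans ?_
  rw [l1_cast, hw]
  have k1 := key (y n).1 z.1
  have k2 := key (y n).2 z.2
  simp only [fl]
  nlinarith

theorem tendsto_floor_div (x : ℝ) : Tendsto (fun n : ℕ => ((⌊(n : ℝ) * x⌋ : ℤ) : ℝ) / n) atTop (𝓝 x) := by
  refine tendsto_of_tendsto_of_tendsto_of_le_of_le'
    (g := fun n : ℕ => x - 1 / (n : ℝ))
    (by simpa using (tendsto_const_div_atTop_nhds_zero_nat (1 : ℝ)).const_sub x) tendsto_const_nhds ?_ ?_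
  · filter_upwards [eventually_gt_atTop 0] with n hn
    have hn' : (0 : ℝ) < n := by exact_mod_cast hn
    rw [le_div_iff₀ hn', sub_mul, div_mul_cancel₀ _ hn'.ne']
    linarith [Int.sub_one_lt_floor ((n : ℝ) * x)]
  · filter_upwards [eventually_gt_atTop 0] with n hn
    have hn' : (0 : ℝ) < n := by exact_mod_cast hn
    rw [div_le_iff₀ hn', mul_comm x]
    exact Int.floor_le _

theorem mu_zero (hG : ∀ᵐ t ∂G, 0 < t ∧ t ≤ b) : mu G (0, 0) = 0 :=
  tendsto_nhds_unique (tendsto_mean G hG (z := (0, 0)) (y := fun _ => (0, 0)) (by simp) (by simp))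
    (by simp [mean_zero G hG])

theorem mu_nonneg (hG : ∀ᵐ t ∂G, 0 < t ∧ t ≤ b) (z : ℝ × ℝ) : 0 ≤ mu G z :=
  ge_of_tendsto' (exists_mu_lim G hG z) fun n => div_nonneg (mean_nonneg G hG _) (Nat.cast_nonneg n)

theorem mu_add_le (hG : ∀ᵐ t ∂G, 0 < t ∧ t ≤ b) (z w : ℝ × ℝ) : mu G (z + w) ≤ mu G z + mu G w := by
  have h : Tendsto (fun n : ℕ => mean G (fl ((n : ℝ) * z.1, (n : ℝ) * z.2) + fl ((n : ℝ) * w.1, (n : ℝ) * w.2)) / n)
      atTop (𝓝 (mu G (z + w))) := by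
    refine tendsto_mean G hG ?_ ?_
    · simpa [fl, add_div] using (tendsto_floor_div z.1).add (tendsto_floor_div w.1)
    · simpa [fl, add_div] using (tendsto_floor_div z.2).add (tendsto_floor_div w.2)
  refine le_of_tendsto_of_tendsto' h ((exists_mu_lim G hG z).add (exists_mu_lim G hG w)) fun n => ?_
  rw [← add_div]
  exact div_le_div_of_nonneg_right (mean_add_le G hG _ _) (Nat.cast_nonneg n)

theorem mu_smul (hG : ∀ᵐ t ∂G, 0 < t ∧ t ≤ b) {a : ℝ} (ha : 0 ≤ a) (z : ℝ × ℝ) :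
    mu G (a * z.1, a * z.2) = a * mu G z := by
  rcases ha.eq_or_lt with rfl | ha
  · simp [mu_zero G hG]
  set k : ℕ → ℕ := fun n => ⌊(n : ℝ) * a⌋₊
  have hk : Tendsto k atTop atTop :=
    tendsto_nat_floor_atTop.comp (tendsto_natCast_atTop_atTop.atTop_mul_const ha)
  have hkn : Tendsto (fun n : ℕ => (k n : ℝ) / n) atTop (𝓝 a) := by
    refine (tendsto_floor_div a).congr fun n => ?_
    simp only [k]
    rw [natCast_floor_eq_intCast_floor (by positivity : (0 : ℝ) ≤ (n : ℝ) * a)]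
  have hc : ∀ x : ℝ, Tendsto (fun n : ℕ => ((⌊(k n : ℝ) * x⌋ : ℤ) : ℝ) / n) atTop (𝓝 (a * x)) := fun x => by
    rw [mul_comm]
    refine (((tendsto_floor_div x).comp hk).mul hkn).congr' ?_
    filter_upwards [hk.eventually (eventually_gt_atTop 0)] with n hn
    simp only [Function.comp_apply]
    exact div_mul_div_cancel₀ (Nat.cast_ne_zero.2 hn.ne')
  refine tendsto_nhds_unique (tendsto_mean G hG (z := (a * z.1, a * z.2))
    (y := fun n => fl ((k n : ℝ) * z.1, (k n : ℝ) * z.2)) (hc z.1) (hc z.2)) ?_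
  rw [mul_comm]
  refine (((exists_mu_lim G hG z).comp hk).mul hkn).congr' ?_
  filter_upwards [hk.eventually (eventually_gt_atTop 0)] with n hn
  simp only [Function.comp_apply]
  exact div_mul_div_cancel₀ (Nat.cast_ne_zero.2 hn.ne')

theorem mu_neg (hG : ∀ᵐ t ∂G, 0 < t ∧ t ≤ b) (z : ℝ × ℝ) : mu G (-z) = mu G z := by
  refine tendsto_nhds_unique (tendsto_mean G hG (y := fun n : ℕ => -fl ((n : ℝ) * z.1, (n : ℝ) * z.2)) ?_ ?_)
    ((exists_mu_lim G hG z).congr fun n => by rw [mean_neg G hG])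
  · simpa [fl, neg_div] using (tendsto_floor_div z.1).neg
  · simpa [fl, neg_div] using (tendsto_floor_div z.2).neg

theorem mu_flip (hG : ∀ᵐ t ∂G, 0 < t ∧ t ≤ b) (x y : ℝ) : mu G (-x, y) = mu G (x, y) := by
  refine tendsto_nhds_unique (tendsto_mean G hG (z := (-x, y))
    (y := fun n : ℕ => (-⌊(n : ℝ) * x⌋, ⌊(n : ℝ) * y⌋)) ?_ (tendsto_floor_div y))
    ((exists_mu_lim G hG (x, y)).congr fun n => ?_)
  · simpa [neg_div] using (tendsto_floor_div x).neg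
  · exact congrArg (· / (n : ℝ)) (mean_flip G hG (⌊(n : ℝ) * x⌋, ⌊(n : ℝ) * y⌋)).symm

theorem mu_flip' (hG : ∀ᵐ t ∂G, 0 < t ∧ t ≤ b) (x y : ℝ) : mu G (x, -y) = mu G (x, y) := by
  rw [← mu_neg G hG, Prod.neg_mk, neg_neg, mu_flip G hG]

theorem mu_swap (hG : ∀ᵐ t ∂G, 0 < t ∧ t ≤ b) (x y : ℝ) : mu G (y, x) = mu G (x, y) :=
  tendsto_nhds_unique (tendsto_mean G hG (z := (y, x))
    (y := fun n : ℕ => (⌊(n : ℝ) * y⌋, ⌊(n : ℝ) * x⌋)) (tendsto_floor_div y) (tendsto_floor_div x))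
    ((exists_mu_lim G hG (x, y)).congr fun n =>
      congrArg (· / (n : ℝ)) (mean_swap G hG (⌊(n : ℝ) * x⌋, ⌊(n : ℝ) * y⌋)).symm)

theorem abs_mu_sub_le (hG : ∀ᵐ t ∂G, 0 < t ∧ t ≤ b) (z w : ℝ × ℝ) :
    |mu G z - mu G w| ≤ b * (|z.1 - w.1| + |z.2 - w.2|) := by
  have h := ((exists_mu_lim G hG z).sub (exists_mu_lim G hG w)).abs
  have hg : Tendsto (fun n : ℕ => b * (|((⌊(n : ℝ) * z.1⌋ : ℤ) : ℝ) / n - ((⌊(n : ℝ) * w.1⌋ : ℤ) : ℝ) / n| +
      |((⌊(n : ℝ) * z.2⌋ : ℤ) : ℝ) / n - ((⌊(n : ℝ) * w.2⌋ : ℤ) : ℝ) / n|)) atTop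
      (𝓝 (b * (|z.1 - w.1| + |z.2 - w.2|))) :=
    ((((tendsto_floor_div z.1).sub (tendsto_floor_div w.1)).abs).add
      (((tendsto_floor_div z.2).sub (tendsto_floor_div w.2)).abs)).const_mul b
  refine le_of_tendsto_of_tendsto' h hg fun n => ?_
  simp only [← sub_div, abs_div, Nat.abs_cast, ← add_div, mul_div_assoc']
  refine div_le_div_of_nonneg_right ((abs_mean_sub_le G hG _ _).trans_eq ?_) (Nat.cast_nonneg n)
  rw [l1_cast, mul_comm]
  rfl

theorem mu_le_mean (hG : ∀ᵐ t ∂G, 0 < t ∧ t ≤ b) (z : ℤ × ℤ) : mu G (rvec z) ≤ mean G z := by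
  have hmul : ∀ n : ℕ, mean G ((n : ℤ) * z.1, (n : ℤ) * z.2) ≤ n * mean G z := by
    intro n
    induction n with
    | zero => simp [mean_zero G hG]
    | succ n ih =>
      have h := mean_add_le G hG ((n : ℤ) * z.1, (n : ℤ) * z.2) z
      rw [show ((n : ℤ) * z.1, (n : ℤ) * z.2) + z = (((n + 1 : ℕ) : ℤ) * z.1, ((n + 1 : ℕ) : ℤ) * z.2) by
        ext <;> simp [add_mul]] at h
      push_cast at h ⊢
      linarith
  refine le_of_tendsto (tendsto_mean G hG (z := rvec z) (y := fun n : ℕ => ((n : ℤ) * z.1, (n : ℤ) * z.2)) ?_ ?_) ?_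
  · refine tendsto_const_nhds.congr' ?_
    filter_upwards [eventually_gt_atTop 0] with n hn
    have : (n : ℝ) ≠ 0 := Nat.cast_ne_zero.2 hn.ne'
    simp only [rvec, Int.cast_mul, Int.cast_natCast]
    field_simp
  · refine tendsto_const_nhds.congr' ?_
    filter_upwards [eventually_gt_atTop 0] with n hn
    have : (n : ℝ) ≠ 0 := Nat.cast_ne_zero.2 hn.ne'
    simp only [rvec, Int.cast_mul, Int.cast_natCast]
    field_simp
  · filter_upwards [eventually_gt_atTop 0] with n hn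
    rw [div_le_iff₀ (by exact_mod_cast hn)]
    exact (hmul n).trans_eq (mul_comm _ _)

theorem mu_axis (hG : ∀ᵐ t ∂G, 0 < t ∧ t ≤ b) : mu G (1, 0) = mu1 G := by
  refine le_antisymm (le_ciInf fun n => ?_) ?_
  · rw [le_div_iff₀ (by positivity), mul_comm, ← mu_smul G hG (by positivity : (0 : ℝ) ≤ (n : ℝ) + 1)]
    exact le_of_eq_of_le (by simp [rvec]) (mu_le_mean G hG ((n : ℤ) + 1, 0))
  · refine ge_of_tendsto ((exists_mu_lim G hG (1, 0)).comp (tendsto_add_atTop_nat 1)) ?_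
    filter_upwards with n
    refine (ciInf_le (bddBelow_mu1 G hG) n).trans_eq ?_
    simp [fl, mean]

/-- The time constant dominates its value on either axis. -/
theorem mu_ge_axis (hG : ∀ᵐ t ∂G, 0 < t ∧ t ≤ b) (z : ℝ × ℝ) : mu1 G * |z.1| ≤ mu G z := by
  have h := mu_add_le G hG (|z.1|, z.2) (|z.1|, -z.2)
  rw [mu_flip' G hG, show (|z.1|, z.2) + (|z.1|, -z.2) = ((2 * |z.1|) * (1 : ℝ), (2 * |z.1|) * (0 : ℝ)) by
    ext <;> simp <;> ring, mu_smul G hG (by positivity) (1, 0), mu_axis G hG] at h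
  have : mu G (|z.1|, z.2) = mu G z := by
    rcases abs_choice z.1 with e | e <;> rw [e]
    exact mu_flip G hG _ _
  linarith

theorem mu_ge_axis' (hG : ∀ᵐ t ∂G, 0 < t ∧ t ≤ b) (z : ℝ × ℝ) : mu1 G * |z.2| ≤ mu G z := by
  rw [← mu_swap G hG z.1 z.2]
  exact mu_ge_axis G hG (z.2, z.1)

theorem mu_pos (hG : ∀ᵐ t ∂G, 0 < t ∧ t ≤ b) {z : ℝ × ℝ} (hz : z ≠ 0) : 0 < mu G z := by
  rcases (by
    by_contra h
    push_neg at h
    exact hz (Prod.ext h.1 h.2) : z.1 ≠ 0 ∨ z.2 ≠ 0) with h | h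
  · exact lt_of_lt_of_le (mul_pos (mu1_pos G hG) (abs_pos.2 h)) (mu_ge_axis G hG z)
  · exact lt_of_lt_of_le (mul_pos (mu1_pos G hG) (abs_pos.2 h)) (mu_ge_axis' G hG z)

end Vale.Agent.P158.V4
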