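import Vale.Agent.P158.V4.Defs
import Vale.Agent.P158.V4.Mu

/-!
P158: the shape theorem, uniform over balls around each site.
-/

namespace Vale.Agent.P158.V4

open MeasureTheory Filter Topology

variable (G : Measure ℝ) [IsProbabilityMeasure G] {b : ℝ}

theorem abs_tt_sub_le₂ {ω : Cfg} (h0 : ∀ e, 0 ≤ ω e) (hb : ∀ e, ω e ≤ b) (p q p' q' : Pt) :
    |tt ω p q - tt ω p' q'| ≤ ((l1 p p' : ℝ) + l1 q q') * b := by
  have h1 := abs_tt_sub_le h0 hb p q q'
  have h2 := abs_tt_sub_le h0 hb q' p p'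
  rw [tt_comm h0 q' p, tt_comm h0 q' p'] at h2
  calc |tt ω p q - tt ω p' q'| ≤ |tt ω p q - tt ω p q'| + |tt ω p q' - tt ω p' q'| := abs_sub_le _ _ _
    _ ≤ _ := (add_le_add h1 h2).trans_eq (by ring)

theorem abs_mu_disp_le (hG : ∀ᵐ t ∂G, 0 < t ∧ t ≤ b) (p q p' q' : Pt) :
    |mu G (toR (q - p)) - mu G (toR (q' - p'))| ≤ ((l1 p p' : ℝ) + l1 q q') * b := by
  refine (abs_mu_sub_le G hG _ _).trans ?_
  rw [l1_cast, l1_cast, mul_comm]
  refine mul_le_mul_of_nonneg_right ?_ (b_nonneg G hG)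
  simp only [toR, Prod.fst_sub, Prod.snd_sub, Int.cast_sub]
  have e1 := abs_sub (((q.1 : ℝ)) - q'.1) ((p.1 : ℝ) - p'.1)
  have e2 := abs_sub (((q.2 : ℝ)) - q'.2) ((p.2 : ℝ) - p'.2)
  ring_nf at e1 e2 ⊢
  linarith

theorem abs_ediv_sub_le (a : ℤ) (K : ℕ) : |((a / K : ℤ) : ℝ) - (a : ℝ) / K| ≤ 1 := by
  have h : (a / K : ℤ) = ⌊(a : ℝ) / K⌋ := by rw [Int.floor_div_natCast, Int.floor_intCast]
  rw [h, abs_sub_comm, Int.self_sub_floor, Int.abs_fract]
  exact (Int.fract_lt_one _).le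

theorem tendsto_ediv_div (i : ℤ) (K : ℕ) :
    Tendsto (fun n : ℕ => ((i * (n : ℤ) / K : ℤ) : ℝ) / n) atTop (𝓝 ((i : ℝ) / K)) := by
  have h : Tendsto (fun n : ℕ => ((i * (n : ℤ) / K : ℤ) : ℝ) / n - (i : ℝ) / K) atTop (𝓝 0) := by
    refine squeeze_zero_norm' ?_ (tendsto_const_div_atTop_nhds_zero_nat (1 : ℝ))
    filter_upwards [eventually_gt_atTop 0] with n hn
    have hn' : (0 : ℝ) < n := by exact_mod_cast hn
    have h := abs_ediv_sub_le (i * (n : ℤ)) K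
    push_cast at h
    rw [Real.norm_eq_abs, le_div_iff₀ hn', ← abs_of_pos hn', ← abs_mul, abs_of_pos hn', sub_mul,
      div_mul_cancel₀ _ hn'.ne', div_mul_eq_mul_div]
    exact h
  simpa using h.add_const ((i : ℝ) / K)

/-- The lattice point near `u + n i / K`. -/
def node (u i : Pt) (K n : ℕ) : Pt := (u.1 + i.1 * (n : ℤ) / K, u.2 + i.2 * (n : ℤ) / K)

theorem ae_node (hG : ∀ᵐ t ∂G, 0 < t ∧ t ≤ b) (u i i' : Pt) (K : ℕ) {a : ℝ} (ha : 0 < a) :
    ∀ᵐ ω ∂law G, ∀ᶠ k in atTop,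
      |tt ω (node u i K (2 ^ k)) (node u i' K (2 ^ k)) -
        mu G (toR (node u i' K (2 ^ k) - node u i K (2 ^ k)))| ≤ a * (2 : ℝ) ^ k := by
  obtain ⟨C, hC, hdev⟩ := exists_dev G hG
  set y : ℕ → Pt := fun n => node u i' K n - node u i K n
  set z : ℝ × ℝ := (((i'.1 : ℝ) / K) - (i.1 : ℝ) / K, ((i'.2 : ℝ) / K) - (i.2 : ℝ) / K)
  have hy1 : Tendsto (fun n => ((y n).1 : ℝ) / n) atTop (𝓝 z.1) := by
    simpa [y, z, node, sub_div] using (tendsto_ediv_div i'.1 K).sub (tendsto_ediv_div i.1 K)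
  have hy2 : Tendsto (fun n => ((y n).2 : ℝ) / n) atTop (𝓝 z.2) := by
    simpa [y, z, node, sub_div] using (tendsto_ediv_div i'.2 K).sub (tendsto_ediv_div i.2 K)
  have hmu : Tendsto (fun n => mu G (toR (y n)) / n) atTop (𝓝 (mu G z)) := by
    have hd : Tendsto (fun n : ℕ => b * (|((y n).1 : ℝ) / n - z.1| + |((y n).2 : ℝ) / n - z.2|)) atTop (𝓝 0) := by
      simpa using ((((hy1.sub_const z.1).abs).add ((hy2.sub_const z.2).abs)).const_mul b)
    have h := (squeeze_zero_norm' (f := fun n : ℕ => mu G (toR (y n)) / n - mu G z) ?_ hd).add_const (mu G z)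
    · simpa using h
    filter_upwards with n
    have hs := mu_smul G hG (a := (1 : ℝ) / n) (by positivity) (toR (y n))
    rw [div_eq_inv_mul, ← one_div, ← hs]
    refine (abs_mu_sub_le G hG _ _).trans_eq ?_
    simp [toR, div_eq_inv_mul]
  have hzero : Tendsto (fun n => (mean G (y n) - mu G (toR (y n))) / n) atTop (𝓝 0) := by
    simpa [sub_div] using (tendsto_mean G hG hy1 hy2).sub hmu
  have hev : ∀ᶠ k in atTop, |mean G (y (2 ^ k)) - mu G (toR (y (2 ^ k)))| ≤ a / 2 * (2 : ℝ) ^ k := by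
    filter_upwards [(hzero.comp (tendsto_pow_atTop_atTop_of_one_lt (one_lt_two : (1 : ℕ) < 2))).eventually
      (Metric.ball_mem_nhds 0 (half_pos ha))] with k hk
    simp only [Function.comp_apply, Metric.mem_ball, Real.dist_eq, sub_zero, Nat.cast_pow, Nat.cast_ofNat,
      abs_div, abs_pow, abs_two] at hk
    rw [div_lt_iff₀ (by positivity)] at hk
    exact hk.le
  set D : ℝ := |(i.1 : ℝ)| + |(i.2 : ℝ)| + |(i'.1 : ℝ)| + |(i'.2 : ℝ)| + 5
  set B : ℕ → Set Cfg := fun k => {ω | a / 2 * (2 : ℝ) ^ k ≤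
    |tt ω (node u i K (2 ^ k)) (node u i' K (2 ^ k)) - mean G (y (2 ^ k))|}
  have hB : ∀ k, law G (B k) ≤ ENNReal.ofReal (C * D / (a / 2) ^ 2 * (1 / 2) ^ k) := by
    intro k
    refine (hdev _ _ _ (by positivity)).trans (ENNReal.ofReal_le_ofReal ?_)
    have hl : (l1 (node u i K (2 ^ k)) (node u i' K (2 ^ k)) : ℝ) + 1 ≤ D * (2 : ℝ) ^ k := by
      have hpow : (1 : ℝ) ≤ (2 : ℝ) ^ k := one_le_pow₀ one_le_two
      have hK : ∀ c : ℤ, |((c * ((2 ^ k : ℕ) : ℤ) / K : ℤ) : ℝ)| ≤ |(c : ℝ)| * 2 ^ k + 1 := fun c => by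
        have h := abs_ediv_sub_le (c * ((2 ^ k : ℕ) : ℤ)) K
        push_cast at h ⊢
        refine (le_trans ?_ (add_le_add_left h (|(c : ℝ) * 2 ^ k / K|))).trans ?_
        · linarith [abs_sub_abs_le_abs_sub ((c * 2 ^ k / K : ℤ) : ℝ) ((c : ℝ) * 2 ^ k / K)]
        · rw [add_comm]
          refine add_le_add ?_ le_rfl
          rw [abs_div, abs_mul, abs_of_pos (by positivity : (0 : ℝ) < 2 ^ k), Nat.abs_cast]
          rcases Nat.eq_zero_or_pos K with rfl | hK0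
          · simp
          · exact div_le_self (by positivity) (by exact_mod_cast hK0)
      have := hK i.1; have := hK i.2; have := hK i'.1; have := hK i'.2
      rw [l1_cast]
      simp only [node, Int.cast_add, add_sub_add_left_eq_sub, D]
      have := abs_sub ((i.1 * ((2 ^ k : ℕ) : ℤ) / K : ℤ) : ℝ) ((i'.1 * ((2 ^ k : ℕ) : ℤ) / K : ℤ) : ℝ)
      have := abs_sub ((i.2 * ((2 ^ k : ℕ) : ℤ) / K : ℤ) : ℝ) ((i'.2 * ((2 ^ k : ℕ) : ℤ) / K : ℤ) : ℝ)
      nlinarith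
    refine (div_le_div_of_nonneg_right (mul_le_mul_of_nonneg_left hl hC) (by positivity)).trans_eq ?_
    rw [one_div_pow]
    field_simp
  have hfin : ∑' k, law G (B k) ≠ ⊤ := by
    refine ne_top_of_le_ne_top ?_ (ENNReal.tsum_le_tsum hB)
    rw [← ENNReal.ofReal_tsum_of_nonneg (fun k => by positivity)
      ((summable_geometric_of_lt_one (by norm_num) (by norm_num)).mul_left _)]
    exact ENNReal.ofReal_ne_top
  filter_upwards [ae_eventually_notMem hfin] with ω hω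
  filter_upwards [hω, hev] with k hk hk'
  simp only [B, Set.mem_ofPred_eq, not_le] at hk
  refine (abs_sub_le _ (mean G (y (2 ^ k))) _).trans ?_
  linarith

theorem exists_pow_two (R : ℝ) (hR : 1 ≤ R) : ∃ k : ℕ, R ≤ (2 : ℝ) ^ k ∧ (2 : ℝ) ^ k ≤ 2 * R := by
  obtain ⟨k, h1, h2⟩ := exists_nat_pow_near hR one_lt_two
  exact ⟨k + 1, h2.le, by rw [pow_succ]; linarith⟩

/-- The shape theorem around every site at all large scales. -/
theorem ae_shape (hG : ∀ᵐ t ∂G, 0 < t ∧ t ≤ b) (u : Pt) :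
    ∀ᵐ ω ∂law G, ∀ ε > 0, ∃ r : ℕ, Shape (mu G) ε r ω u := by
  have hb := b_nonneg G hG
  have hnode : ∀ᵐ ω ∂law G, ∀ (j K : ℕ) (i i' : Pt), ∀ᶠ k in atTop,
      |tt ω (node u i K (2 ^ k)) (node u i' K (2 ^ k)) -
        mu G (toR (node u i' K (2 ^ k) - node u i K (2 ^ k)))| ≤ 1 / ((j : ℝ) + 1) * (2 : ℝ) ^ k := by
    simp only [ae_all_iff]
    exact fun j K i i' => ae_node G hG u i i' K (by positivity)
  filter_upwards [hnode, good_ae G hG] with ω hω hgood ε hε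
  obtain ⟨j, hj⟩ := exists_nat_one_div_lt (by positivity : 0 < ε / 8)
  obtain ⟨K, hK⟩ := exists_nat_gt (32 * b / ε)
  have hK0 : (0 : ℝ) < K := lt_of_le_of_lt (by positivity) hK
  rw [div_lt_iff₀ hε] at hK
  set S : Finset Pt := Finset.Icc (-((K : ℤ) + 1)) (K + 1) ×ˢ Finset.Icc (-((K : ℤ) + 1)) (K + 1)
  obtain ⟨k₀, hk₀⟩ := eventually_atTop.1
    ((Finset.eventually_all S).2 fun i _ => (Finset.eventually_all S).2 fun i' _ => hω j K i i')
  obtain ⟨r, hr⟩ := exists_nat_ge (max ((2 : ℝ) ^ k₀ + 1) (64 * b / ε))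
  refine ⟨r, fun R hR p q hp hq => ?_⟩
  have hR1 : (2 : ℝ) ^ k₀ + 1 ≤ R := (le_max_left _ _).trans (hr.trans hR)
  have hR2 : 64 * b / ε ≤ R := (le_max_right _ _).trans (hr.trans hR)
  have hpow : (1 : ℝ) ≤ (2 : ℝ) ^ k₀ := one_le_pow₀ one_le_two
  rw [div_le_iff₀ hε] at hR2
  obtain ⟨k, hRk, hkR⟩ := exists_pow_two R (by linarith)
  have hk : k₀ ≤ k := by
    by_contra h
    have := pow_le_pow_right₀ (one_le_two : (1 : ℝ) ≤ 2) (le_of_not_ge h)
    linarith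
  set L : ℝ := (2 : ℝ) ^ k with hL
  have hL0 : 0 < L := by positivity
  -- a node near a given site of the ball
  have approx : ∀ p : Pt, (l1 u p : ℝ) ≤ R → ∃ i ∈ S, (l1 p (node u i K (2 ^ k)) : ℝ) ≤ 2 * (L / K + 1) := by
    intro p hp
    rw [l1_cast] at hp
    have coord : ∀ x w : ℤ, |(w : ℝ) - x| ≤ L → ∃ i : ℤ, i ∈ Finset.Icc (-((K : ℤ) + 1)) (K + 1) ∧
        |(x : ℝ) - ((w + i * ((2 ^ k : ℕ) : ℤ) / K : ℤ) : ℝ)| ≤ L / K + 1 := by
      intro x w hxw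
      set t : ℝ := ((x : ℝ) - w) * K / L with ht
      have h1 := Int.floor_le t
      have h2 := Int.lt_floor_add_one t
      have htK : |t| ≤ K := by
        rw [ht, abs_div, abs_mul, abs_sub_comm, abs_of_pos hK0, abs_of_pos hL0, div_le_iff₀ hL0]
        nlinarith
      refine ⟨⌊t⌋, Finset.mem_Icc.2 ⟨?_, ?_⟩, ?_⟩
      · rw [← Int.cast_le (R := ℝ)]
        push_cast
        linarith [(abs_le.1 htK).1]
      · rw [← Int.cast_le (R := ℝ)]
        push_cast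
        linarith [(abs_le.1 htK).2]
      · have h3 := abs_le.1 (abs_ediv_sub_le (⌊t⌋ * ((2 ^ k : ℕ) : ℤ)) K)
        have e : (x : ℝ) - w = t * (L / K) := by rw [ht]; field_simp
        have g1 : (⌊t⌋ : ℝ) * L / K = (⌊t⌋ : ℝ) * (L / K) := mul_div_assoc _ _ _
        have g2 : 0 < L / K := by positivity
        push_cast at h3 ⊢
        rw [← hL, g1] at h3
        rw [abs_le]
        constructor <;> nlinarith
    obtain ⟨i1, hi1, e1⟩ := coord p.1 u.1 (by linarith [abs_nonneg ((u.2 : ℝ) - p.2)])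
    obtain ⟨i2, hi2, e2⟩ := coord p.2 u.2 (by linarith [abs_nonneg ((u.1 : ℝ) - p.1)])
    refine ⟨(i1, i2), Finset.mem_product.2 ⟨hi1, hi2⟩, ?_⟩
    rw [l1_cast]
    simp only [node]
    linarith
  obtain ⟨i, hi, ei⟩ := approx p hp
  obtain ⟨i', hi', ei'⟩ := approx q hq
  set P := node u i K (2 ^ k)
  set Q := node u i' K (2 ^ k)
  have h1 := abs_tt_sub_le₂ (fun e => (hgood e).1.le) (fun e => (hgood e).2) p q P Q
  have h2 := abs_mu_disp_le G hG p q P Q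
  have h3 : |tt ω P Q - mu G (toR (Q - P))| ≤ 1 / ((j : ℝ) + 1) * L := hk₀ k hk i hi i' hi'
  have h4 : ((l1 p P : ℝ) + l1 q Q) * b ≤ 4 * b * (L / K + 1) := by
    refine (mul_le_mul_of_nonneg_right (add_le_add ei ei') hb).trans_eq ?_
    ring
  have h5 : 32 * b * (L / K) ≤ ε * L := by
    rw [mul_div_assoc', div_le_iff₀ hK0]
    nlinarith
  rw [abs_le] at h1 h2 h3 ⊢
  have h6 : 1 / ((j : ℝ) + 1) * L ≤ ε / 8 * L := mul_le_mul_of_nonneg_right hj.le hL0.le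
  have h7 : ε * L ≤ ε * (2 * R) := mul_le_mul_of_nonneg_left hkR hε.le
  constructor <;> nlinarith

theorem shape_iff {μ : ℝ × ℝ → ℝ} {ε r : ℝ} (hε : 0 ≤ ε) {ω : Cfg} {u : Pt} :
    Shape μ ε r ω u ↔
      ∀ p q : Pt, |tt ω p q - μ (toR (q - p))| ≤ ε * max r (max (l1 u p : ℝ) (l1 u q : ℝ)) := by
  refine ⟨fun h p q => h _ (le_max_left _ _) p q ((le_max_left _ _).trans (le_max_right _ _))
    ((le_max_right _ _).trans (le_max_right _ _)), fun h R hR p q hp hq => (h p q).trans ?_⟩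
  exact mul_le_mul_of_nonneg_left (max_le hR (max_le hp hq)) hε

theorem measurableSet_shape {μ : ℝ × ℝ → ℝ} {ε : ℝ} (hε : 0 ≤ ε) (r : ℝ) (u : Pt) :
    MeasurableSet {ω : Cfg | Shape μ ε r ω u} := by
  simp only [shape_iff hε, Set.ofPred_forall]
  exact MeasurableSet.iInter fun p => MeasurableSet.iInter fun q =>
    measurableSet_le ((measurable_tt p q).sub measurable_const).abs measurable_const

theorem tendsto_shape (hG : ∀ᵐ t ∂G, 0 < t ∧ t ≤ b) {ε : ℝ} (hε : 0 < ε) (u : Pt) :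
    Tendsto (fun r : ℕ => law G {ω | ¬ Shape (mu G) ε r ω u}) atTop (𝓝 0) := by
  set A : ℕ → Set Cfg := fun r => {ω | ¬ Shape (mu G) ε r ω u}
  have hA : ∀ r, MeasurableSet (A r) := fun r => (measurableSet_shape hε.le _ u).compl
  have hanti : Antitone A := fun r r' h ω hω hs => hω fun R hR p q hp hq =>
    hs R ((Nat.cast_le.2 h).trans hR) p q hp hq
  have hnull : law G (⋂ r, A r) = 0 := by
    refine measure_eq_zero_iff_ae_notMem.2 ?_
    filter_upwards [ae_shape G hG u] with ω hω hmem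
    obtain ⟨r, hr⟩ := hω ε hε
    exact Set.mem_iInter.1 hmem r hr
  have h := tendsto_measure_iInter_atTop (μ := law G) (fun r => (hA r).nullMeasurableSet) hanti
    ⟨0, measure_ne_top _ _⟩
  rwa [hnull] at h

theorem isLatticeNorm_mu (hG : ∀ᵐ t ∂G, 0 < t ∧ t ≤ b) : IsLatticeNorm (mu G) where
  homog a ha z := mu_smul G hG ha z
  tri := mu_add_le G hG
  flip := mu_flip G hG
  swap := mu_swap G hG
  pos := ⟨mu1 G / 2, half_pos (mu1_pos G hG), fun x y => by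
    linarith [mu_ge_axis G hG (x, y), mu_ge_axis' G hG (x, y)]⟩

/-- The time constant is the almost sure limit in every direction. -/
theorem isTimeConst_mu (hG : ∀ᵐ t ∂G, 0 < t ∧ t ≤ b) : IsTimeConst G (mu G) := by
  refine ⟨isLatticeNorm_mu G hG, mu_axis G hG, fun z => ?_⟩
  filter_upwards [ae_shape G hG (0, 0)] with ω hω
  set C := |z.1| + |z.2| + 3 with hC
  have hz : Tendsto (fun n : ℕ => mu G (toR (⌊(n : ℝ) * z.1⌋, ⌊(n : ℝ) * z.2⌋)) / n) atTop (𝓝 (mu G z)) := by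
    have hd : Tendsto (fun n : ℕ => b * (|((⌊(n : ℝ) * z.1⌋ : ℤ) : ℝ) / n - z.1| +
        |((⌊(n : ℝ) * z.2⌋ : ℤ) : ℝ) / n - z.2|)) atTop (𝓝 0) := by
      simpa using ((((tendsto_floor_div z.1).sub_const z.1).abs).add
        (((tendsto_floor_div z.2).sub_const z.2).abs)).const_mul b
    have h := (squeeze_zero_norm (f := fun n : ℕ =>
      mu G (toR (⌊(n : ℝ) * z.1⌋, ⌊(n : ℝ) * z.2⌋)) / n - mu G z) (fun n => ?_) hd).add_const (mu G z)
    · simpa using h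
    · rw [div_eq_inv_mul, ← one_div, ← mu_smul G hG (by positivity)]
      refine (abs_mu_sub_le G hG _ _).trans_eq ?_
      simp [toR, div_eq_inv_mul]
  rw [Metric.tendsto_atTop] at hz ⊢
  intro δ hδ
  obtain ⟨N, hN⟩ := hz (δ / 2) (half_pos hδ)
  obtain ⟨r, hr⟩ := hω (δ / (4 * C)) (by positivity)
  refine ⟨max N (r + 1), fun n hn => ?_⟩
  have hn1 : (1 : ℝ) ≤ n := by exact_mod_cast le_trans (Nat.le_add_left 1 r) ((le_max_right _ _).trans hn)
  have hrn : (r : ℝ) ≤ n := by exact_mod_cast (Nat.le_succ r).trans ((le_max_right _ _).trans hn)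
  set w : Pt := (⌊(n : ℝ) * z.1⌋, ⌊(n : ℝ) * z.2⌋) with hw
  have hl : (l1 (0, 0) w : ℝ) ≤ C * n := by
    rw [l1_cast, hw]
    simp only [Int.cast_zero, zero_sub, abs_neg]
    have key : ∀ x : ℝ, |((⌊(n : ℝ) * x⌋ : ℤ) : ℝ)| ≤ n * |x| + 1 := fun x => by
      rw [← Nat.abs_cast n, ← abs_mul, Nat.abs_cast, abs_le]
      exact ⟨by linarith [Int.sub_one_lt_floor ((n : ℝ) * x), neg_abs_le ((n : ℝ) * x)],
        by linarith [Int.floor_le ((n : ℝ) * x), le_abs_self ((n : ℝ) * x)]⟩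
    rw [hC]
    linarith [key z.1, key z.2, show (|z.1| + |z.2| + 3) * n = n * |z.1| + n * |z.2| + 3 * n by ring]
  have h := hr (C * n) (by nlinarith [abs_nonneg z.1, abs_nonneg z.2]) (0, 0) w
    (by simp [l1]; positivity) hl
  rw [show w - ((0 : ℤ), (0 : ℤ)) = w by simp] at h
  have h2 := hN n ((le_max_left _ _).trans hn)
  rw [Real.dist_eq] at h2 ⊢
  have h3 : |tt ω (0, 0) w / n - mu G (toR w) / n| ≤ δ / 4 := by
    rw [← sub_div, abs_div, Nat.abs_cast, div_le_iff₀ (by linarith)]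
    refine h.trans_eq ?_
    have : C ≠ 0 := by positivity
    field_simp
  exact lt_of_le_of_lt (abs_sub_le _ (mu G (toR w) / n) _) (by linarith)

/-- Module Shape. -/
theorem shapeStmt (hG : ∀ᵐ t ∂G, 0 < t ∧ t ≤ b) : ShapeStmt G :=
  ⟨mu G, isTimeConst_mu G hG, fun _ hε u => tendsto_shape G hG hε u⟩

end Vale.Agent.P158.V4
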