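import Vale.Agent.P158.V4.Swap
import Vale.Agent.P158.V4.Assembly

/-!
P158: stars (note 1433, section 5), deterministic basis: translations, rays of the class and pairs
`(y, x)` at which the geodesics of two far ends enter and leave a box.
-/

namespace Vale.Agent.P158.V4

open MeasureTheory Filter Topology

variable {ω : Cfg} {r a b c : Ray} {bb cg κ : ℝ}

/-- Translation of a ray. -/
def Ray.shift (a : Pt) (r : Ray) : Ray := ⟨fun n => r.pt n + a, r.acc⟩

theorem cfg_moveMarks (G : Measure ℝ) (a : Pt) (s : Marks) :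
    cfg G (moveMarks a s) = moveCfg a (cfg G s) := rfl

theorem moveCfg_edge (a u v : Pt) (ω : Cfg) : moveCfg a ω s(u, v) = ω s(u + a, v + a) := by
  simp [moveCfg]

theorem tt_move (h0 : ∀ e, 0 ≤ ω e) (a u v : Pt) :
    tt (moveCfg a ω) u v = tt ω (u + a) (v + a) := tt_shift h0 a u v

theorem IsTail.shift {a : Pt} (hr : IsTail (moveCfg a ω) r) (h0 : ∀ e, 0 ≤ ω e) :
    IsTail ω (r.shift a) := by
  obtain ⟨M, hM⟩ := hr.geo
  refine ⟨fun n => ?_, fun i j h => hr.inj (add_right_cancel h), M, fun i j hi hij => ⟨?_, ?_⟩⟩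
  · exact (Vale.Agent.P158.V4.shift a).map_adj (hr.adj n)
  · rw [Ray.shift, ← tt_move h0]
    exact (hM i j hi hij).1
  · simpa [Ray.shift, moveCfg_edge] using (hM i j hi hij).2

theorem bus_shift (h0 : ∀ e, 0 ≤ ω e) (a : Pt) (r : Ray) (p : Pt) :
    bus ω (r.shift a) (p + a) = bus (moveCfg a ω) r p := by
  unfold bus
  congr 1
  funext n
  rw [tt_move h0]
  rfl

theorem l1_add (u v a : Pt) : l1 (u + a) (v + a) = l1 u v := by
  simp [l1]

theorem SplitsAt.shift {a₀ : Pt} {w : Pt} (h0 : ∀ e, 0 ≤ ω e) {a b c : ℕ → Pt}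
    (h : SplitsAt (moveCfg a₀ ω) a b c w) :
    SplitsAt ω (fun n => a n + a₀) (fun n => b n + a₀) (fun n => c n + a₀) (w + a₀) := by
  obtain ⟨n₀, n₁, hne, hf⟩ := h
  refine ⟨n₀ + a₀, n₁ + a₀, fun e => hne (add_right_cancel e), hf.mono fun N hN => ?_⟩
  have key : ∀ {u v x n : Pt}, EdgeOn (moveCfg a₀ ω) u v x n →
      EdgeOn ω (u + a₀) (v + a₀) (x + a₀) (n + a₀) := by
    rintro u v x n ⟨hadj, he⟩
    rw [tt_move h0, tt_move h0, tt_move h0, moveCfg_edge] at he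
    exact ⟨(Vale.Agent.P158.V4.shift a₀).map_adj hadj, he⟩
  exact ⟨key hN.1, key hN.2⟩

variable {μ : ℝ × ℝ → ℝ} {rr : ℕ → ℕ} {C : ℕ} {w : Pt}

/-- Heights of a ray of bounded slope are unbounded, and it lies in every wider cone. -/
theorem slope_ray {e : ℕ → Pt} (hinj : Function.Injective e) (p : Pt) {κ κ' : ℝ} (hκ : 0 ≤ κ)
    (hκ' : κ < κ')
    (hs : ∀ᶠ n in atTop, |(((e n).1 - p.1 : ℤ) : ℝ)| ≤ κ * |(((e n).2 - p.2 : ℤ) : ℝ)|) :
    Tendsto (fun n => |(((e n).2 : ℤ) : ℝ)|) atTop atTop ∧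
      ∀ᶠ n in atTop, |((e n).1 : ℝ)| ≤ κ' * |((e n).2 : ℝ)| := by
  have hA : 0 < 1 + κ := by linarith
  have htop : Tendsto (fun n => |(((e n).2 : ℤ) : ℝ)|) atTop atTop := by
    refine tendsto_atTop.2 fun M => ?_
    filter_upwards [hs, eventually_l1 hinj p ⌈(1 + κ) * (|M| + |(p.2 : ℝ)|)⌉₊] with n h1 h2
    have h3 : (1 + κ) * (|M| + |(p.2 : ℝ)|) < (l1 p (e n) : ℝ) :=
      (Nat.le_ceil _).trans_lt (by exact_mod_cast h2)
    have h4 : (l1 p (e n) : ℝ) =
        |(((e n).1 - p.1 : ℤ) : ℝ)| + |(((e n).2 - p.2 : ℤ) : ℝ)| := by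
      simp only [l1]
      push_cast
      rw [Nat.cast_natAbs, Nat.cast_natAbs]
      push_cast
      rw [abs_sub_comm (p.1 : ℝ), abs_sub_comm (p.2 : ℝ)]
    have h5 : |M| + |(p.2 : ℝ)| < |(((e n).2 - p.2 : ℤ) : ℝ)| := by
      by_contra hc
      nlinarith [mul_le_mul_of_nonneg_left (not_lt.1 hc) hA.le]
    push_cast at h5
    linarith [le_abs_self M, abs_sub ((e n).2 : ℝ) (p.2 : ℝ)]
  refine ⟨htop, ?_⟩
  filter_upwards [hs, htop.eventually_ge_atTop ((|(p.1 : ℝ)| + κ * |(p.2 : ℝ)|) / (κ' - κ))]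
    with n h1 h2
  rw [div_le_iff₀ (by linarith)] at h2
  push_cast at h1 h2
  nlinarith [abs_sub_abs_le_abs_sub ((e n).1 : ℝ) (p.1 : ℝ),
    mul_le_mul_of_nonneg_left (abs_sub ((e n).2 : ℝ) (p.2 : ℝ)) hκ]

/-- The geodesic from the `N`th point of `a` to that of `b` enters the lower half-plane for the
last time at `y` and leaves the upper one for the first time at `x`, in the weak form used. -/
def PairAt (ω : Cfg) (a b : Ray) (hb ht : ℤ) (y x : Pt) (N : ℕ) : Prop :=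
  ttIn (lower hb) ω y (a.pt N) = tt ω y (a.pt N) ∧
    ttIn (upper ht) ω x (b.pt N) = tt ω x (b.pt N) ∧
    tt ω (a.pt N) y + tt ω y x + tt ω x (b.pt N) = tt ω (a.pt N) (b.pt N)

/-- The facts at a pair that occurs frequently. -/
structure PairFacts (ω : Cfg) (L : Lab) (hb ht : ℤ) (y x : Pt) : Prop where
  bdd : Bounded ω L
  lo : busIn (lower hb) ω L.lo y = bus ω L.lo y
  up : busIn (upper ht) ω L.up x = bus ω L.up x
  eq : bus ω L.lo y + tt ω y x + bus ω L.up x = total ω L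

theorem pairFacts {L : Lab} (hL : IsLab ω L) (h0 : ∀ e, 0 ≤ ω e) {hb ht : ℤ} {y x : Pt}
    (hy : y.2 = hb) (hx : x.2 = ht)
    (h : ∃ᶠ N in atTop, PairAt ω L.lo L.up hb ht y x N) : PairFacts ω L hb ht y x := by
  have t1 := hL.lo.tendsto_bus h0 y
  have t2 := hL.up.tendsto_bus h0 x
  have eqN : ∃ᶠ N in atTop, excess ω L N =
      (tt ω y (L.lo.pt N) - L.lo.acc N) + tt ω y x + (tt ω x (L.up.pt N) - L.up.acc N) :=
    h.mono fun N hN => by
      rw [excess, ← hN.2.2, tt_comm h0 (L.lo.pt N) y]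
      ring
  have hbdd : Bounded ω L := by
    obtain ⟨M₁, hM₁⟩ := hL.lo.bus_le h0
    obtain ⟨M₂, hM₂⟩ := hL.up.bus_le h0
    refine hL.bounded_of_eventually h0 (c := bus ω L.lo y + tt ω y x + bus ω L.up x) fun N => ?_
    obtain ⟨n, hn, hn'⟩ := (frequently_atTop.1 eqN) (N + M₁ + M₂)
    exact ⟨n, by omega, hn' ▸ by linarith [hM₁ y n (by omega), hM₂ x n (by omega)]⟩
  refine ⟨hbdd, ?_, ?_, ?_⟩
  · exact tendsto_nhds_unique_of_frequently_eq
      (hL.lo.tendsto_busIn h0 (linked_lower hb) (hL.falls.eventually_lower hb) (hy.le : y ∈ lower hb))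
      t1 (h.mono fun N hN => by rw [show ttIn _ ω y _ = _ from hN.1])
  · exact tendsto_nhds_unique_of_frequently_eq
      (hL.up.tendsto_busIn h0 (linked_upper ht) (hL.rises.eventually_upper ht) (hx.ge : x ∈ upper ht))
      t2 (h.mono fun N hN => by rw [show ttIn _ ω x _ = _ from hN.2.1])
  · exact (tendsto_nhds_unique_of_frequently_eq (hL.tendsto_excess h0 hbdd)
      ((t1.add_const (tt ω y x)).add t2) eqN).symm

namespace PairFacts

variable {L : Lab} {hb ht : ℤ} {y x : Pt}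

theorem route_eq (h : PairFacts ω L hb ht y x) : route ω L hb ht y x = total ω L := by
  rw [route, h.lo, h.up, h.eq]

theorem bus_y (h : PairFacts ω L hb ht y x) (hL : IsLab ω L) (h0 : ∀ e, 0 ≤ ω e) :
    bus ω L.up y = tt ω y x + bus ω L.up x := by
  have h1 := hL.total_le_gsum h0 h.bdd y
  have h2 := hL.up.bus_le_add h0 y x
  have h3 := h.eq
  unfold gsum at h1
  linarith

theorem bus_x (h : PairFacts ω L hb ht y x) (hL : IsLab ω L) (h0 : ∀ e, 0 ≤ ω e) :
    bus ω L.lo x = tt ω y x + bus ω L.lo y := by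
  have h1 := hL.total_le_gsum h0 h.bdd x
  have h2 := hL.lo.bus_le_add h0 x y
  have h3 := h.eq
  have h4 := tt_comm h0 x y
  unfold gsum at h1
  linarith

theorem mid (h : PairFacts ω L hb ht y x) (hL : IsLab ω L) (h0 : ∀ e, 0 ≤ ω e) {z : Pt}
    (hz : OnGeo ω y x z) : gsum ω L z = total ω L ∧
      bus ω L.lo z = tt ω z y + bus ω L.lo y ∧ bus ω L.up z = tt ω z x + bus ω L.up x := by
  have h1 := hL.total_le_gsum h0 h.bdd z
  have h2 := hL.lo.bus_le_add h0 z y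
  have h3 := hL.up.bus_le_add h0 z x
  have h4 := h.eq
  have h5 : tt ω y z + tt ω z x = tt ω y x := hz
  have h6 := tt_comm h0 y z
  unfold gsum at h1 ⊢
  exact ⟨by linarith, by linarith, by linarith⟩

/-- The geodesic of a pair stays in the cones of both sites when they are steered. -/
theorem inCone {K rad : ℝ} (h : PairFacts ω L hb ht y x) (hL : IsLab ω L) (h0 : ∀ e, 0 ≤ ω e)
    (hsy : Steered κ K rad ω y) (hsx : Steered κ K rad ω x) (hca : ConeRay κ L.lo)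
    (hcb : ConeRay κ L.up) {z : Pt} (hz : OnGeo ω y x z) :
    InCone K rad y z ∧ InCone K rad x z := by
  obtain ⟨-, h2, h3⟩ := h.mid hL h0 hz
  have h5 : tt ω y z + tt ω z x = tt ω y x := hz
  constructor
  · by_contra hn
    have := hsy.full _ hL.up hcb (Or.inl hL.rises) z hn
    linarith [h.bus_y hL h0]
  · by_contra hn
    have := hsx.full _ hL.lo hca (Or.inr hL.falls) z hn
    linarith [h.bus_x hL h0, tt_comm h0 z y, tt_comm h0 z x]

end PairFacts

/-- Geodesics to far points of a class ray keep inside the cone of a steered site. -/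
theorem eventually_geo_inCone {K rad : ℝ} (hr : IsTail ω r) (h0 : ∀ e, 0 ≤ ω e)
    (hst : Steered κ K rad ω w) (hc : ConeRay κ r) (hd : Rises r ∨ Falls r) :
    ∀ᶠ N in atTop, ∀ p : grid.Walk w (r.pt N), wt ω p ≤ tt ω w (r.pt N) →
      ∀ z ∈ p.support, InCone K rad w z := by
  have h := hr.eventually_inside h0 linked_univ (Eventually.of_forall fun _ => Set.mem_univ _)
    (Set.mem_univ w) (Sc := {z | InCone K rad w z}) (fun z _ hz => by
      rw [busIn_univ h0, busIn_univ h0, ttIn_univ h0]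
      exact hst.full r hr hc hd z hz)
  exact h.mono fun N hN p hp =>
    hN p (fun z _ => Set.mem_univ z) (by rw [ttIn_univ h0]; linarith)

theorem lower_hit (hg : Good bb cg ω) (hcg : 0 < cg) {a w : Pt} {hb : ℤ} (h1 : a.2 ≤ hb)
    (h2 : hb ≤ w.2) : ∃ y, y.2 = hb ∧ ∃ p : grid.Walk w a, wt ω p ≤ tt ω w a ∧ y ∈ p.support ∧
      ttIn (lower hb) ω y a = tt ω y a ∧ tt ω a y + tt ω y w = tt ω a w := by
  have h0 := hg.nonneg
  obtain ⟨p, hp⟩ := hg.exists_shortest hcg a w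
  obtain ⟨y, q, s, hy, hpe, hq⟩ := exists_first_hit p hb h1 h2
  have hmem : y ∈ p.support := by
    rw [hpe, SimpleGraph.Walk.mem_support_append_iff]
    exact Or.inl q.end_mem_support
  have hon := onGeo_of_mem h0 hp hmem
  have hw : wt ω q + wt ω s = tt ω a w := by rw [← hp.2, hpe, wt_append]
  have hq2 : wt ω q ≤ tt ω a y := by linarith [hon.ge, tt_le h0 s]
  refine ⟨y, hy, p.reverse, ?_, by simpa using hmem, ?_, hon⟩
  · rw [wt_reverse, hp.2, tt_comm h0]
  · refine le_antisymm ((ttS_le h0 q.reverse fun z hz => ?_).trans ?_)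
      (tt_le_ttS h0 (linked_lower hb) hy.le h1)
    · simp only [SimpleGraph.Walk.support_reverse, List.mem_reverse] at hz
      exact (hq z hz).1
    · rw [wt_reverse, tt_comm h0]
      exact hq2

theorem upper_hit (hg : Good bb cg ω) (hcg : 0 < cg) {b w n : Pt} {ht : ℤ} (h1 : ht ≤ b.2)
    (h2 : n.2 ≤ ht) (hadj : grid.Adj w n) (he : ω s(w, n) + tt ω n b = tt ω w b) :
    ∃ x, x.2 = ht ∧ ∃ p : grid.Walk w b, wt ω p ≤ tt ω w b ∧ x ∈ p.support ∧
      ttIn (upper ht) ω x b = tt ω x b ∧ tt ω n x + tt ω x b = tt ω n b := by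
  have h0 := hg.nonneg
  obtain ⟨p, hp⟩ := hg.exists_shortest hcg n b
  obtain ⟨x, q, s, hx, hpe, hs⟩ :=
    exists_last_visit p ht h1 ⟨n, p.start_mem_support, h2⟩
  have hmem : x ∈ p.support := by
    rw [hpe, SimpleGraph.Walk.mem_support_append_iff]
    exact Or.inl q.end_mem_support
  have hon := onGeo_of_mem h0 hp hmem
  have hw : wt ω q + wt ω s = tt ω n b := by rw [← hp.2, hpe, wt_append]
  refine ⟨x, hx, .cons hadj p, ?_, List.mem_cons_of_mem _ hmem, ?_, hon⟩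
  · rw [← he, ← hp.2]
    simp [wt]
  · exact le_antisymm ((ttS_le h0 s hs).trans (by linarith [hon.ge, tt_le h0 q]))
      (tt_le_ttS h0 (linked_upper ht) hx.ge h1)

theorem finite_cone_level (K rad : ℝ) (w : Pt) (h : ℤ) :
    {z : Pt | z.2 = h ∧ InCone K rad w z}.Finite := by
  set B : ℤ := ⌈K * max |((h - w.2 : ℤ) : ℝ)| rad⌉ with hB
  refine ((Set.finite_Icc (w.1 - B) (w.1 + B)).prod (Set.finite_singleton h)).subset ?_
  rintro z ⟨hz, hz'⟩
  unfold InCone at hz'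
  rw [hz] at hz'
  have h1 : |((z.1 - w.1 : ℤ) : ℝ)| ≤ (B : ℝ) := hz'.trans (Int.le_ceil _)
  rw [← Int.cast_abs, Int.cast_le, abs_le] at h1
  exact Set.mk_mem_prod ⟨by omega, by omega⟩ hz

/-- A site where geodesics part gives two pairs with a common lower end. -/
theorem exists_pairs {K rad : ℝ} (hg : Good bb cg ω) (hcg : 0 < cg) (ha : IsTail ω a)
    (hb' : IsTail ω b) (hc' : IsTail ω c) (hfa : Falls a) (hrb : Rises b) (hrc : Rises c)
    (hca : ConeRay κ a) (hcb : ConeRay κ b) (hcc : ConeRay κ c) (hst : Steered κ K rad ω w)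
    {hb ht : ℤ} (hwb : hb ≤ w.2) (hwt : w.2 + 1 ≤ ht) (hsp : SplitsAt ω a.pt b.pt c.pt w) :
    ∃ y x x' n₀ n₁, y.2 = hb ∧ x.2 = ht ∧ x'.2 = ht ∧ InCone K rad w y ∧ InCone K rad w x ∧
      InCone K rad w x' ∧ n₀ ≠ n₁ ∧ EdgeOn ω y x w n₀ ∧ EdgeOn ω y x' w n₁ ∧
      (∃ᶠ N in atTop, PairAt ω a b hb ht y x N) ∧ ∃ᶠ N in atTop, PairAt ω a c hb ht y x' N := by
  classical
  have h0 := hg.nonneg
  obtain ⟨n₀, n₁, hne, hf⟩ := hsp
  set F := fun h => (finite_cone_level K rad w h).toFinset with hF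
  have step : ∀ {d : Ray} {n : Pt} {N : ℕ},
      (∀ p : grid.Walk w (d.pt N), wt ω p ≤ tt ω w (d.pt N) → ∀ z ∈ p.support, InCone K rad w z) →
      ht ≤ (d.pt N).2 → EdgeOn ω (a.pt N) (d.pt N) w n →
      ∀ y, y.2 = hb → ttIn (lower hb) ω y (a.pt N) = tt ω y (a.pt N) →
        tt ω (a.pt N) y + tt ω y w = tt ω (a.pt N) w →
        ∃ x ∈ F ht, PairAt ω a d hb ht y x N ∧ EdgeOn ω y x w n := by
    intro d n N hcone hlev he y hy hyI hyw
    obtain ⟨hadj, he⟩ := he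
    have hw1 : tt ω w n ≤ ω s(w, n) := (tt_le h0 hadj.toWalk).trans_eq (by simp [wt])
    have he' : ω s(w, n) + tt ω n (d.pt N) = tt ω w (d.pt N) :=
      le_antisymm (by linarith [tt_triangle h0 (a.pt N) w (d.pt N)])
        (by linarith [tt_triangle h0 w n (d.pt N)])
    have hn2 := adj_snd_le hadj
    obtain ⟨x, hx, p, hp, hxp, hxI, hnx⟩ := upper_hit hg hcg hlev (by omega) hadj he'
    have e1 : tt ω y x ≤ tt ω y w + ω s(w, n) + tt ω n x := by
      linarith [tt_triangle h0 y w x, tt_triangle h0 w n x]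
    have e2 := tt_triangle h0 (a.pt N) y (d.pt N)
    have e3 := tt_triangle h0 y x (d.pt N)
    exact ⟨x, by simp only [hF, Set.Finite.mem_toFinset]; exact ⟨hx, hcone p hp x hxp⟩,
      ⟨hyI, hxI, by linarith⟩, hadj, by linarith⟩
  have hev := (eventually_geo_inCone ha h0 hst hca (Or.inr hfa)).and
    ((eventually_geo_inCone hb' h0 hst hcb (Or.inl hrb)).and
    ((eventually_geo_inCone hc' h0 hst hcc (Or.inl hrc)).and
    ((hfa.eventually_lower hb).and ((hrb.eventually_upper ht).and (hrc.eventually_upper ht)))))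
  have key : ∃ᶠ N in atTop, ∃ i ∈ F hb ×ˢ F ht ×ˢ F ht,
      PairAt ω a b hb ht i.1 i.2.1 N ∧ PairAt ω a c hb ht i.1 i.2.2 N ∧
        EdgeOn ω i.1 i.2.1 w n₀ ∧ EdgeOn ω i.1 i.2.2 w n₁ := by
    refine (hf.and_eventually hev).mono ?_
    rintro N ⟨⟨he₀, he₁⟩, hA, hB, hC, hal, hbl, hcl⟩
    obtain ⟨y, hy, p, hp, hyp, hyI, hyw⟩ := lower_hit hg hcg hal hwb
    obtain ⟨x, hxF, hx1, hx2⟩ := step hB hbl he₀ y hy hyI hyw
    obtain ⟨x', hxF', hx1', hx2'⟩ := step hC hcl he₁ y hy hyI hyw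
    refine ⟨(y, x, x'), ?_, hx1, hx1', hx2, hx2'⟩
    simp only [Finset.mem_product]
    exact ⟨by simp only [hF, Set.Finite.mem_toFinset]; exact ⟨hy, hA p hp y hyp⟩, hxF, hxF'⟩
  obtain ⟨⟨y, x, x'⟩, hi, hfr⟩ := frequently_exists key
  simp only [Finset.mem_product, hF, Set.Finite.mem_toFinset, Set.mem_ofPred_eq] at hi
  obtain ⟨N, -, -, he₀, he₁⟩ := hfr.exists
  exact ⟨y, x, x', n₀, n₁, hi.1.1, hi.2.1.1, hi.2.2.1, hi.1.2, hi.2.1.2, hi.2.2.2, hne, he₀, he₁,
    hfr.mono fun N hN => hN.1, hfr.mono fun N hN => hN.2.1⟩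

end Vale.Agent.P158.V4
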