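import Vale.Agent.P158.V4.Class
import Vale.Agent.P158.V4.StarBase
import Vale.Agent.P158.V4.Shape

/-!
P158, note 1446 part B: passage times to the diagonal half planes, states made of a configuration and
a cocycle, and the pointwise properties used in the limit.
-/

namespace Vale.Agent.P158.V4

open MeasureTheory Filter Topology

/-- A configuration with a function of sites. -/
abbrev St : Type := Cfg × (Pt → ℝ)

/-- The passage time to the half plane `s ≤ y.1 + y.2`. -/
noncomputable def depth (ω : Cfg) (s : ℤ) (x : Pt) : ℝ :=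
  ⨅ y : {y : Pt // s ≤ y.1 + y.2}, tt ω x y

/-- The configuration with the increments of the passage time to a half plane. -/
noncomputable def depthSt (s : ℤ) (ω : Cfg) : St :=
  (ω, fun x => depth ω s x - depth ω s (0, 0))

/-- Translation of a state. -/
def moveSt (a : Pt) (X : St) : St := (moveCfg a X.1, fun u => X.2 (u + a) - X.2 a)

/-- Weights in `[0, b]` and a normalised function below every edge weight. -/
structure Reg (b : ℝ) (X : St) : Prop where
  mem : ∀ e, X.1 e ∈ Set.Icc 0 b
  zero : X.2 (0, 0) = 0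
  step : ∀ u z, grid.Adj u z → X.2 u ≤ X.1 s(u, z) + X.2 z

/-- The function is attained through some edge at the site. -/
def Greedy (X : St) (u : Pt) : Prop :=
  ∃ d : Fin 4, X.2 u = X.1 s(u, u + step d) + X.2 (u + step d)

namespace Reg

variable {b : ℝ} {X : St} (h : Reg b X)
include h

theorem nonneg (e : Sym2 Pt) : 0 ≤ X.1 e := (h.mem e).1

theorem sub_le_wt : ∀ {u z : Pt} (p : grid.Walk u z), X.2 u - X.2 z ≤ wt X.1 p
  | _, _, .nil => by simp [wt]
  | _, _, .cons hadj p => by
    have := sub_le_wt p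
    have := h.step _ _ hadj
    simp only [wt, SimpleGraph.Walk.edges_cons, List.map_cons, List.sum_cons] at *
    linarith

theorem sub_le_tt (u z : Pt) : X.2 u - X.2 z ≤ tt X.1 u z := le_tt fun p => h.sub_le_wt p

theorem abs_sub_le (u z : Pt) : |X.2 u - X.2 z| ≤ l1 u z * b := by
  have h0 := h.nonneg
  have hb : ∀ e, X.1 e ≤ b := fun e => (h.mem e).2
  rw [abs_sub_le_iff]
  refine ⟨(h.sub_le_tt u z).trans (tt_le_l1 h0 hb u z), (h.sub_le_tt z u).trans ?_⟩
  rw [tt_comm h0]
  exact tt_le_l1 h0 hb u z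

theorem move (a : Pt) : Reg b (moveSt a X) := by
  refine ⟨fun e => h.mem _, by simp [moveSt, show ((0, 0) : Pt) = 0 from rfl], fun u z huz => ?_⟩
  have := h.step _ _ ((shift a).map_adj huz)
  simp only [shift, RelHom.coeFn_mk] at this
  simp only [moveSt, moveCfg_edge]
  linarith

end Reg

theorem moveSt_zero {X : St} (h : X.2 (0, 0) = 0) : moveSt (0, 0) X = X := by
  refine Prod.ext (moveCfg_zero X.1) (funext fun u => ?_)
  simp [moveSt, show ((0, 0) : Pt) = 0 from rfl] at h ⊢
  simp [h]

theorem moveSt_moveSt (a c : Pt) (X : St) : moveSt a (moveSt c X) = moveSt (a + c) X := by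
  refine Prod.ext (funext fun e => ?_) (funext fun u => ?_)
  · induction e using Sym2.ind with
    | _ x y => simp [moveSt, moveCfg_edge, add_assoc]
  · simp [moveSt, add_assoc]

theorem continuous_moveSt (a : Pt) : Continuous (moveSt a) := by
  unfold moveSt moveCfg
  fun_prop

variable {ω : Cfg}

theorem depth_nonempty (s : ℤ) : Nonempty {y : Pt // s ≤ y.1 + y.2} := ⟨⟨(s, 0), by simp⟩⟩

theorem depth_nonneg (h0 : ∀ e, 0 ≤ ω e) (s : ℤ) (x : Pt) : 0 ≤ depth ω s x :=
  have := depth_nonempty s
  le_ciInf fun _ => tt_nonneg h0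

theorem depth_le (h0 : ∀ e, 0 ≤ ω e) {s : ℤ} {y : Pt} (hy : s ≤ y.1 + y.2) (x : Pt) :
    depth ω s x ≤ tt ω x y :=
  ciInf_le (f := fun y : {y : Pt // s ≤ y.1 + y.2} => tt ω x y)
    ⟨0, by rintro _ ⟨y, rfl⟩; exact tt_nonneg h0⟩ ⟨y, hy⟩

theorem depth_le_add (h0 : ∀ e, 0 ≤ ω e) (s : ℤ) (x z : Pt) :
    depth ω s x ≤ tt ω x z + depth ω s z := by
  have := depth_nonempty s
  rw [← sub_le_iff_le_add']
  refine le_ciInf fun y => ?_
  have := depth_le h0 y.2 x
  have := tt_triangle h0 x z y.1
  linarith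

theorem depth_step (h0 : ∀ e, 0 ≤ ω e) (s : ℤ) {x z : Pt} (h : grid.Adj x z) :
    depth ω s x ≤ ω s(x, z) + depth ω s z :=
  (depth_le_add h0 s x z).trans
    (add_le_add ((tt_le h0 (.cons h .nil)).trans (by simp [wt])) le_rfl)

theorem reg_depthSt (b : ℝ) (hω : ∀ e, ω e ∈ Set.Icc 0 b) (s : ℤ) : Reg b (depthSt s ω) :=
  ⟨hω, by simp [depthSt], fun u z h => by
    have := depth_step (fun e => (hω e).1) s h
    simp only [depthSt]
    linarith⟩

/-- Before the half plane the passage time to it goes through an edge at the site. -/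
theorem greedy_depthSt (h0 : ∀ e, 0 ≤ ω e) {s : ℤ} {x : Pt} (hx : x.1 + x.2 < s) :
    Greedy (depthSt s ω) x := by
  obtain ⟨d, hd⟩ := Finite.exists_min fun d : Fin 4 => ω s(x, x + step d) + depth ω s (x + step d)
  refine ⟨d, ?_⟩
  have hle := depth_step h0 s (adj_step x d)
  have hge : ω s(x, x + step d) + depth ω s (x + step d) ≤ depth ω s x := by
    have := depth_nonempty s
    refine le_ciInf fun ⟨y, hy⟩ => le_tt fun p => ?_
    cases p with
    | nil => exact absurd hy (not_le.2 hx)
    | cons h q =>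
      obtain ⟨d', hd'⟩ := exists_step h
      subst hd'
      refine (hd d').trans ?_
      rw [wt, SimpleGraph.Walk.edges_cons, List.map_cons, List.sum_cons]
      exact add_le_add le_rfl ((depth_le h0 hy _).trans (tt_le h0 q))
  simp only [depthSt]
  linarith

theorem depth_move (h0 : ∀ e, 0 ≤ ω e) (a : Pt) (s : ℤ) (x : Pt) :
    depth (moveCfg a ω) s x = depth ω (s + (a.1 + a.2)) (x + a) := by
  refine Equiv.iInf_congr ((Equiv.addRight a).subtypeEquiv fun y => ?_) fun y => ?_
  · simp only [Equiv.coe_addRight, Prod.fst_add, Prod.snd_add]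
    omega
  · simp [tt_move h0]

/-- Translating the state translates the half plane. -/
theorem moveSt_depthSt (h0 : ∀ e, 0 ≤ ω e) (a : Pt) (s : ℤ) :
    moveSt a (depthSt (s + (a.1 + a.2)) ω) = depthSt s (moveCfg a ω) := by
  refine Prod.ext rfl (funext fun u => ?_)
  simp only [moveSt, depthSt, depth_move h0]
  simp [show ((0, 0) : Pt) = 0 from rfl]

theorem measurable_depth (s : ℤ) (x : Pt) : Measurable fun ω : Cfg => depth ω s x :=
  Measurable.iInf fun y => measurable_tt x y.1

theorem measurable_depthSt (s : ℤ) : Measurable (depthSt s) :=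
  measurable_id.prodMk (measurable_pi_lambda _ fun x => (measurable_depth s x).sub (measurable_depth s _))

variable {G : Measure ℝ} [IsProbabilityMeasure G] {b : ℝ}

/-- A norm of the lattice grows at least like its value on the diagonal. -/
theorem IsLatticeNorm.diag_le {μ : ℝ × ℝ → ℝ} (h : IsLatticeNorm μ) (x y : ℝ) :
    (x + y) * μ (1, 1) ≤ 2 * μ (x, y) := by
  rcases le_or_gt (x + y) 0 with hs | hs
  · have := h.nonneg (x, y)
    have := mul_nonpos_of_nonpos_of_nonneg hs (h.nonneg (1, 1))
    linarith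
  · have := h.tri (x, y) (y, x)
    rw [h.swap x y, show ((x, y) : ℝ × ℝ) + (y, x) = ((x + y) * 1, (x + y) * 1) by
      ext <;> simp [add_comm], h.scale _ _ _ hs.le] at this
    linarith

/-- The mean passage time to far half planes is at least half the diagonal constant. -/
theorem eventually_depth_mean (hG : ∀ᵐ t ∂G, 0 < t ∧ t ≤ b) {η : ℝ} (hη : 0 < η) :
    ∀ᶠ n : ℕ in atTop,
      (mu G (1, 1) / 2 - η) * n ≤ ∫ ω, depth ω n (0, 0) ∂law G := by
  have hμ := isLatticeNorm_mu G hG
  obtain ⟨c, hc, hlow⟩ := hμ.pos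
  set M := mu G (1, 1) / 2 with hM
  have hM0 : 0 < M := half_pos (hμ.pos_of_ne (by simp))
  set δ := min (η / (4 * M)) (1 / 4) with hδ
  have hδ0 : 0 < δ := lt_min (by positivity) (by norm_num)
  obtain ⟨r, hr⟩ := ((((ENNReal.tendsto_toReal ENNReal.zero_ne_top).comp
    (tendsto_shape G hG (show 0 < c * δ by positivity) (0, 0))).eventually
    (eventually_le_nhds (show (0 : ENNReal).toReal < δ by simpa using hδ0)))).exists
  simp only [Function.comp_apply] at hr
  filter_upwards [eventually_ge_atTop r] with n hn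
  set E := {ω : Cfg | Shape (mu G) (c * δ) r ω (0, 0)}
  have hEm : MeasurableSet E := measurableSet_shape (by positivity) _ _
  have hint : Integrable (fun ω => depth ω (n : ℤ) (0, 0)) (law G) := by
    refine Integrable.of_bound (measurable_depth _ _).aestronglyMeasurable
      (l1 ((0, 0) : Pt) ((n : ℤ), 0) * b) ?_
    filter_upwards [good_ae G hG] with ω hω
    rw [Real.norm_eq_abs, abs_of_nonneg (depth_nonneg (fun e => (hω e).1.le) _ _)]
    exact (depth_le (fun e => (hω e).1.le) (by simp) _).trans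
      (tt_le_l1 (fun e => (hω e).1.le) (fun e => (hω e).2) _ _)
  have hpt : ∀ᵐ ω ∂law G, E.indicator (fun _ => (1 - δ) * M * n) ω ≤ depth ω (n : ℤ) (0, 0) := by
    filter_upwards [good_ae G hG] with ω hω
    have h0 : ∀ e, 0 ≤ ω e := fun e => (hω e).1.le
    by_cases hE : ω ∈ E
    · rw [Set.indicator_of_mem hE]
      have := depth_nonempty (n : ℤ)
      refine le_ciInf fun ⟨y, hy⟩ => ?_
      have hy' : (n : ℝ) ≤ (y.1 : ℝ) + y.2 := by exact_mod_cast hy
      have hl : (l1 (0, 0) y : ℝ) = |(y.1 : ℝ)| + |(y.2 : ℝ)| := by rw [l1_cast]; simp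
      have hrl : (r : ℝ) ≤ l1 (0, 0) y := by
        rw [hl]
        have : (r : ℝ) ≤ n := by exact_mod_cast hn
        linarith [le_abs_self (y.1 : ℝ), le_abs_self (y.2 : ℝ)]
      have hs := abs_le.1 (hE _ hrl (0, 0) y (by simp [l1]; positivity) le_rfl)
      rw [show y - ((0, 0) : Pt) = y by simp] at hs
      have h1 : c * (l1 (0, 0) y : ℝ) ≤ mu G (toR y) := hl ▸ hlow y.1 y.2
      have h2 : ((y.1 : ℝ) + y.2) * mu G (1, 1) ≤ 2 * mu G (toR y) := hμ.diag_le _ _
      have h3 : M * n ≤ mu G (toR y) := by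
        have := mul_le_mul_of_nonneg_right hy' (show 0 ≤ mu G (1, 1) from hμ.nonneg _)
        rw [hM]
        linarith
      have h4 : δ * (c * (l1 (0, 0) y : ℝ)) ≤ δ * mu G (toR y) := mul_le_mul_of_nonneg_left h1 hδ0.le
      have h5 : (1 - δ) * (M * n) ≤ (1 - δ) * mu G (toR y) :=
        mul_le_mul_of_nonneg_left h3 (by linarith [min_le_right (η / (4 * M)) (1 / 4 : ℝ)])
      linarith [hs.1]
    · rw [Set.indicator_of_notMem hE]
      exact depth_nonneg h0 _ _
  have h := integral_mono_ae ((integrable_const _).indicator hEm) hint hpt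
  rw [integral_indicator_const _ hEm, smul_eq_mul] at h
  refine le_trans ?_ h
  have hP : 1 - δ ≤ (law G).real E := by
    have : (law G).real Eᶜ ≤ δ := hr
    rw [measureReal_compl hEm, probReal_univ] at this
    linarith
  have hδM : δ * M ≤ η / 4 := by
    refine (mul_le_mul_of_nonneg_right (min_le_left _ _) hM0.le).trans (le_of_eq ?_)
    field_simp
  have hn0 : (0 : ℝ) ≤ n := Nat.cast_nonneg n
  have h6 : (1 - δ) * ((1 - δ) * M * n) ≤ (law G).real E * ((1 - δ) * M * n) :=
    mul_le_mul_of_nonneg_right hP (by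
      have : 0 ≤ 1 - δ := by linarith [min_le_right (η / (4 * M)) (1 / 4 : ℝ)]
      positivity)
  have h7 : 0 ≤ δ * δ * M * n := by positivity
  have h8 : δ * M * n ≤ η / 4 * n := mul_le_mul_of_nonneg_right hδM hn0
  have h9 : 0 ≤ η * n := by positivity
  linarith

end Vale.Agent.P158.V4
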