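import Vale.Agent.P158.V4.Swap
import Vale.Agent.P158.V4.TiltBasic
import Vale.Agent.P158.V4.TiltMap

/-!
P158: the weights of raised marks compared along profiles, and saving on the first edge.
-/

namespace Vale.Agent.P158.V4

open MeasureTheory Filter Topology

/-- Marks inside the open unit square. -/
def OKMarks (s : Marks) : Prop :=
  ∀ e, (s e).1 ∈ Set.Ioo (0 : ℝ) 1 ∧ (s e).2 ∈ Set.Ioo (0 : ℝ) 1

variable {G : Measure ℝ} [IsProbabilityMeasure G] {q K r : ℝ} {T : ℕ} {s : Marks}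

theorem cfg_raise_mono (hatom : ∀ x, G {x} = 0) (hq : q ∈ Set.Ioo (0 : ℝ) (1 / 4)) (hs : OKMarks s)
    {U U' : Finset Pt} {e : Sym2 Pt} (h : prof K r T U e ≤ prof K r T U' e) :
    cfg G (raise q K r T U s) e ≤ cfg G (raise q K r T U' s) e := by
  rcases h.eq_or_lt with h | h
  · simp [cfg, raise, h]
  · exact ((strictMonoOn_qf hatom) (raise1_fst_mem hq (prof_nonneg U e) (hs e).1)
      (raise1_fst_mem hq (prof_nonneg U' e) (hs e).1)
      (raise1_strictMono hq (prof_nonneg U e) h (hs e).1)).le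

theorem cfg_raise_lt (hatom : ∀ x, G {x} = 0) (hq : q ∈ Set.Ioo (0 : ℝ) (1 / 4)) (hs : OKMarks s)
    {U U' : Finset Pt} {e : Sym2 Pt} (h : prof K r T U e < prof K r T U' e) :
    cfg G (raise q K r T U s) e < cfg G (raise q K r T U' s) e :=
  (strictMonoOn_qf hatom) (raise1_fst_mem hq (prof_nonneg U e) (hs e).1)
    (raise1_fst_mem hq (prof_nonneg U' e) (hs e).1)
    (raise1_strictMono hq (prof_nonneg U e) h (hs e).1)

omit [IsProbabilityMeasure G] in
theorem cfg_raise_of_prof_zero (hq : q ∈ Set.Ioo (0 : ℝ) (1 / 4)) (hs : OKMarks s) {U : Finset Pt}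
    {e : Sym2 Pt} (h : prof K r T U e = 0) : cfg G (raise q K r T U s) e = cfg G s e := by
  simp [cfg, raise, h, raise1_zero hq (hs e).2.1.le]

theorem le_cfg_raise (hatom : ∀ x, G {x} = 0) (hq : q ∈ Set.Ioo (0 : ℝ) (1 / 4)) (hs : OKMarks s)
    (U : Finset Pt) (e : Sym2 Pt) : cfg G s e ≤ cfg G (raise q K r T U s) e := by
  rcases (prof_nonneg (K := K) (r := r) (S := T) U e).eq_or_lt with h | h
  · rw [cfg_raise_of_prof_zero hq hs h.symm]
  · refine ((strictMonoOn_qf hatom) (hs e).1 (raise1_fst_mem hq h.le (hs e).1) ?_).le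
    have := raise1_strictMono hq le_rfl h (hs e).1
    rwa [raise1_zero hq (hs e).2.1.le] at this

theorem prof_pair (y x : Pt) (hr : 0 ≤ r) (e : Sym2 Pt) :
    prof K r T {y, x} e = max (prof1 K r T y e) (prof1 K r T x e) := by
  refine le_antisymm ?_ (max_le (prof1_le_prof (by simp) e) (prof1_le_prof (by simp) e))
  rcases prof_cases (K := K) (r := r) (S := T) {y, x} e with h | ⟨u, hu, h⟩
  · rw [h]
    exact le_max_of_le_left (prof1_nonneg hr y e)
  · rw [h]
    simp only [Finset.mem_insert, Finset.mem_singleton] at hu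
    rcases hu with rfl | rfl
    · exact le_max_left _ _
    · exact le_max_right _ _

theorem prof_le_of_forall (hr : 0 ≤ r) {U : Finset Pt} {e : Sym2 Pt} {δ : ℝ} (hδ : 0 ≤ δ)
    (h : ∀ u ∈ U, prof1 K r T u e ≤ δ) : prof K r T U e ≤ δ := by
  rcases prof_cases (K := K) (r := r) (S := T) U e with h' | ⟨u, hu, h'⟩
  · rw [h']; exact hδ
  · rw [h']; exact h u hu

/-- The edges at `u` save at least `g` when their tilt at the centre is undone. -/
def GainAt (G : Measure ℝ) (q r : ℝ) (T : ℕ) (g : ℝ) (u : Pt) (t : Marks) : Prop :=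
  ∀ n, grid.Adj u n →
    g ≤ qf G (t s(u, n)).1 - qf G (lower1 q (1 / (Real.sqrt T * r)) (t s(u, n))).1

omit [IsProbabilityMeasure G] in
/-- A saving at the edges of `u` lowers the Busemann function at `u` by as much. -/
theorem IsTail.busIn_add_le {ω ω' : Cfg} {ray : Ray} {S : Set Pt} (hr : IsTail ω ray)
    (hr' : IsTail ω' ray) (h0 : ∀ e, 0 ≤ ω e)
    (h0' : ∀ e, 0 ≤ ω' e) (hS : Linked S) (hev : ∀ᶠ n in atTop, ray.pt n ∈ S) {u : Pt} (hu : u ∈ S)
    {Sc : Set Pt} (hout : ∀ z ∈ S, z ∉ Sc → busIn S ω ray u + 1 ≤ ttIn S ω u z + busIn S ω ray z)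
    (hle : ∀ a c, a ∈ Sc → c ∈ Sc → grid.Adj a c → ω' s(a, c) ≤ ω s(a, c)) {g : ℝ}
    (hgain : ∀ n, grid.Adj u n → ω' s(u, n) + g ≤ ω s(u, n)) :
    busIn S ω' ray u + g ≤ busIn S ω ray u := by
  refine le_of_forall_pos_le_add fun ε hε => ?_
  refine le_of_tendsto_of_tendsto ((hr'.tendsto_busIn h0' hS hev hu).add_const g)
    ((hr.tendsto_busIn h0 hS hev hu).add_const ε) ?_
  filter_upwards [hr.eventually_inside h0 hS hev hu hout, hev, eventually_notMem hr.inj {u}]
    with n hn hnS hne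
  obtain ⟨p, hp, hw⟩ := exists_walk_lt hS hu hnS (ω := ω)
    (lt_add_of_pos_right (ttIn S ω u (ray.pt n)) (lt_min hε one_half_pos))
  have hin := hn p hp (by linarith [min_le_right ε (1 / 2 : ℝ)])
  have h2 : ttIn S ω' u (ray.pt n) ≤ wt ω' p := ttS_le h0' p hp
  obtain ⟨m, hadj, p', rfl⟩ := SimpleGraph.Walk.exists_eq_cons_of_ne
    (fun e => hne (Finset.mem_singleton.2 e.symm)) p
  have h3 := wt_le_wt_of_support hle p' fun z hz => hin z (List.mem_cons_of_mem _ hz)
  have h4 : ∀ x : Cfg, wt x (SimpleGraph.Walk.cons hadj p') = x s(u, m) + wt x p' := fun x => by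
    simp [wt]
  rw [h4] at h2 hw
  show ttIn S ω' u (ray.pt n) - ray.acc n + g ≤ ttIn S ω u (ray.pt n) - ray.acc n + ε
  linarith [hgain m hadj, min_le_left ε (1 / 2 : ℝ)]

end Vale.Agent.P158.V4
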