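import Vale.Agent.P158.V4.StarBase
import Vale.Agent.P158.V4.TiltCfg
import Vale.Agent.P158.V4.MainDefs

/-!
P158: main argument (note 1433, section 6): lanes claimed after the tilt at their own site, the
coordinate of a label on a window, and the geometric statement used by the count.
-/

namespace Vale.Agent.P158.V4

open MeasureTheory Filter Topology

/-- The parameters of the main count. -/
structure MainData where
  /-- The law. -/
  G : Measure ℝ
  /-- The band. -/
  q : ℝ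
  /-- The aperture of the rays. -/
  κ : ℝ
  /-- The aperture of the cones. -/
  K : ℝ
  /-- The radius of regularity. -/
  rad : ℕ
  /-- The number of scales of the tilt. -/
  S : ℕ
  /-- The bound on the weights. -/
  bb : ℝ
  /-- The constant of growth. -/
  cg : ℝ

namespace MainData

variable (D : MainData)

/-- The site of abscissa `x` on the axis. -/
def ctr (x : ℤ) : Pt := (x, 0)

/-- The field raised at a site of the axis. -/
noncomputable def raised (x : ℤ) (s : Marks) : Marks := raise D.q D.K D.rad D.S {ctr x} s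

/-- The standing assumptions on the parameters. -/
structure Good' : Prop where
  prob : IsProbabilityMeasure D.G
  atom : ∀ x, D.G {x} = 0
  q_mem : D.q ∈ Set.Ioo (0 : ℝ) (1 / 4)
  hK : 1 ≤ D.K
  hrad : 2 ≤ D.rad
  hS : 1 ≤ D.S
  cpos : 0 < D.cg
  supp : ∀ t ∈ lawSupp D.G, 0 ≤ t

/-- A typical field. -/
structure Base (s : Marks) : Prop where
  ok : OKMarks s
  good : Good D.bb D.cg (cfg D.G s)
  tilt_good : ∀ x, Good D.bb D.cg (cfg D.G (D.raised x s))
  elig : ∀ x, Eligible (lawSupp D.G) (cfg D.G (D.raised x s))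

/-- A lane through the site `x` of the axis claimed after the tilt there, with saving `gv`. -/
structure Claim (s : Marks) (gv : ℝ) (x : ℤ) (v : ℤ → Pt) : Prop where
  lane : IsLane (cfg D.G (D.raised x s)) v
  start : v 0 = ctr x
  rises : Rises ⟨fun n => v n, fun _ => 0⟩
  falls : Falls ⟨fun n => v (-n), fun _ => 0⟩
  coneUp : ConeRay D.κ ⟨fun n => v n, fun _ => 0⟩
  coneLo : ConeRay D.κ ⟨fun n => v (-n), fun _ => 0⟩
  steer : Steered D.κ D.K D.rad (cfg D.G (D.raised x s)) (ctr x)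
  gain : ∃ n : ℕ,
    gv ≤ ∑ k ∈ Finset.range n,
      saving D.G D.q D.K D.rad D.S (ctr x) (D.raised x s) s(v k, v ((k : ℤ) + 1))

/-- The label of a claimed lane. -/
noncomputable def lab (s : Marks) (x : ℤ) (v : ℤ → Pt) : Lab := labOf (cfg D.G (D.raised x s)) v

/-- The coordinate of a label on the window `[a, b]` of the axis: lower minus upper increment. -/
noncomputable def coord (s : Marks) (L : Lab) (a b : ℤ) : ℝ :=
  (busIn (lower 0) (cfg D.G s) L.lo (b, 0) - busIn (lower 0) (cfg D.G s) L.lo (a, 0)) -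
    (busIn (upper 0) (cfg D.G s) L.up (b, 0) - busIn (upper 0) (cfg D.G s) L.up (a, 0))

/-- The difference of the coordinates of two claimed lanes. -/
noncomputable def gap (s : Marks) (x₁ : ℤ) (v₁ : ℤ → Pt) (x₂ : ℤ) (v₂ : ℤ → Pt) (a b : ℤ) : ℝ :=
  D.coord s (D.lab s x₂ v₂) a b - D.coord s (D.lab s x₁ v₁) a b

/-- The distance beyond which two tilts on the axis do not interact. -/
noncomputable def dist₁ : ℕ := ⌈2 * (D.K * (2 ^ D.S * D.rad)) + 2⌉₊

/-- No star box at either end of the first lane. -/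
def NoStar (s : Marks) (x₁ : ℤ) (v₁ : ℤ → Pt) (x₂ : ℤ) (v₂ : ℤ → Pt) : Prop :=
  ¬ StarBox (lawSupp D.G) D.bb D.cg (cfg D.G (D.raised x₁ s)) (D.lab s x₁ v₁).lo.pt
      (D.lab s x₁ v₁).up.pt (D.lab s x₂ v₂).up.pt ∧
    ¬ StarBox (lawSupp D.G) D.bb D.cg (cfg D.G (D.raised x₁ s)) (D.lab s x₁ v₁).up.pt
      (D.lab s x₁ v₁).lo.pt (D.lab s x₂ v₂).lo.pt

end MainData

/-- Module MainLane: two claimed lanes of the axis without star boxes have coordinates whose
difference grows with the window, without bound, and reaches the saving when they are far apart. -/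
def MainLaneStmt : Prop :=
  ∀ D : MainData, D.Good' → ∀ s : Marks, D.Base s → ∀ (gv : ℝ) (x₁ x₂ : ℤ) (v₁ v₂ : ℤ → Pt),
    D.Claim s gv x₁ v₁ → D.Claim s gv x₂ v₂ →
    (∀ a b : ℤ, |D.coord s (D.lab s x₁ v₁) a b| ≤
      ttIn (lower 0) (cfg D.G s) (a, 0) (b, 0) + ttIn (upper 0) (cfg D.G s) (a, 0) (b, 0)) ∧
    (D.K * D.rad + 1 < |((x₂ - x₁ : ℤ) : ℝ)| → D.NoStar s x₁ v₁ x₂ v₂ →
      (∀ a b a' b' : ℤ, a' ≤ a → a ≤ b → b ≤ b' →
        |D.gap s x₁ v₁ x₂ v₂ a b| ≤ |D.gap s x₁ v₁ x₂ v₂ a' b'|) ∧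
      (∀ M : ℝ, ∃ L : ℕ, M ≤ |D.gap s x₁ v₁ x₂ v₂ (x₁ - L) (x₁ + L)|) ∧
      ∀ (a b : ℤ) (rad' : ℕ), 2 ^ D.S * D.rad ≤ rad' →
        Steered D.κ D.K rad' (cfg D.G s) (MainData.ctr a) →
        Steered D.κ D.K rad' (cfg D.G s) (MainData.ctr b) →
        (∀ x, x = x₁ ∨ x = x₂ →
          (a : ℝ) + (D.K * (3 * rad') + 1) ≤ (x : ℝ) ∧ (x : ℝ) + (D.K * (3 * rad') + 1) ≤ (b : ℝ)) →
        (D.dist₁ : ℤ) < |x₂ - x₁| → gv ≤ |D.gap s x₁ v₁ x₂ v₂ a b|)

end Vale.Agent.P158.V4
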