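import Vale.Agent.P158.V4.SteerShift
import Vale.Agent.P158.V4.MainBase
import Vale.Agent.P158.V4.LaneLabel

/-!
P158: main count, basic facts: profiles, translations of the tilt, measurability.
-/

namespace Vale.Agent.P158.V4

open MeasureTheory Filter Topology

variable {ω : Cfg} {v : ℤ → Pt}

/-- A quantity evaluated at a countably valued measurable index is measurable. -/
theorem measurable_index {Ω ι β : Type*} [MeasurableSpace Ω] [MeasurableSpace β] [Countable ι]
    {e : Ω → ι} (he : ∀ i, MeasurableSet {t | e t = i}) {F : ι → Ω → β} (hF : ∀ i, Measurable (F i)) :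
    Measurable fun t => F (e t) t := by
  intro B hB
  have h : (fun t => F (e t) t) ⁻¹' B = ⋃ i, {t | e t = i} ∩ F i ⁻¹' B := by
    ext t
    simp
  rw [h]
  exact MeasurableSet.iUnion fun i => (he i).inter (hF i hB)

variable {μ : ℝ × ℝ → ℝ} {κ : ℝ} {rr : ℕ → ℕ}

/-- The ends of a lane with a profile rise, fall, and lie in every wider cone. -/
theorem profile_ends (hP : Profile μ κ rr v) (hinj : Function.Injective v) (hκ : 0 ≤ κ) {κ' : ℝ}
    (hκ' : κ < κ') :
    Rises ⟨fun n => v n, fun _ => 0⟩ ∧ Falls ⟨fun n => v (-n), fun _ => 0⟩ ∧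
      ConeRay κ' ⟨fun n => v n, fun _ => 0⟩ ∧ ConeRay κ' ⟨fun n => v (-n), fun _ => 0⟩ := by
  have hi1 : Function.Injective fun n : ℕ => v n := fun i j h => by exact_mod_cast hinj h
  have hi2 : Function.Injective fun n : ℕ => v (-n) := fun i j h => by
    exact_mod_cast neg_inj.1 (hinj h)
  have hs : ∀ i : ℤ, rr 0 ≤ i.natAbs →
      |(((v i).1 - (v 0).1 : ℤ) : ℝ)| ≤ κ * |(((v i).2 - (v 0).2 : ℤ) : ℝ)| := fun i hi => by
    simpa [SlopeOK] using (hP 0 i hi).1
  have hs1 : ∀ᶠ n : ℕ in atTop, |(((v n).1 - (v 0).1 : ℤ) : ℝ)| ≤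
      κ * |(((v n).2 - (v 0).2 : ℤ) : ℝ)| :=
    eventually_atTop.2 ⟨rr 0, fun n hn => hs n (by simpa using hn)⟩
  have hs2 : ∀ᶠ n : ℕ in atTop, |(((v (-n)).1 - (v 0).1 : ℤ) : ℝ)| ≤
      κ * |(((v (-n)).2 - (v 0).2 : ℤ) : ℝ)| :=
    eventually_atTop.2 ⟨rr 0, fun n hn => hs _ (by simpa using hn)⟩
  obtain ⟨ht1, hc1⟩ := slope_ray hi1 (v 0) hκ hκ' hs1
  obtain ⟨ht2, hc2⟩ := slope_ray hi2 (v 0) hκ hκ' hs2
  refine ⟨tendsto_atTop.2 fun M => ?_, tendsto_atBot.2 fun M => ?_, hc1, hc2⟩
  · filter_upwards [eventually_ge_atTop (rr 0 + 1),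
      ht1.eventually_ge_atTop ((|M| + |(v 0).2| + 1 : ℤ) : ℝ)] with n hn hn'
    rw [← Int.cast_abs, Int.cast_le] at hn'
    have := (hP 0 n (by simp only [Int.natAbs_natCast]; omega)).2.1 (by omega)
    rcases abs_cases M with hM | hM <;> rcases abs_cases ((v 0).2) with hp | hp <;>
      rcases abs_cases ((v n).2) with he | he <;> (show M ≤ (v n).2; omega)
  · filter_upwards [eventually_ge_atTop (rr 0 + 1),
      ht2.eventually_ge_atTop ((|M| + |(v 0).2| + 1 : ℤ) : ℝ)] with n hn hn'
    rw [← Int.cast_abs, Int.cast_le] at hn'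
    have := (hP 0 (-n : ℤ) (by simp only [Int.natAbs_neg, Int.natAbs_natCast]; omega)).2.2 (by omega)
    rcases abs_cases M with hM | hM <;> rcases abs_cases ((v 0).2) with hp | hp <;>
      rcases abs_cases ((v (-n)).2) with he | he <;> (show (v (-n)).2 ≤ M; omega)

theorem tt_eq_ttIn (ω : Cfg) (u w : Pt) : tt ω u w = ttIn Set.univ ω u w :=
  ((Equiv.subtypeUnivEquiv fun p : grid.Walk u w => fun z _ => Set.mem_univ z).iInf_congr
    fun _ => rfl).symm

theorem tt_move_any (ω : Cfg) (a u w : Pt) : tt (moveCfg a ω) u w = tt ω (u + a) (w + a) := by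
  rw [tt_eq_ttIn, tt_eq_ttIn, ← ttIn_move]
  rfl

theorem moveMarks_apply (a x y : Pt) (s : Marks) : moveMarks a s s(x, y) = s s(x + a, y + a) := by
  simp [moveMarks]

theorem moveMarks_move (a c : Pt) (s : Marks) : moveMarks a (moveMarks c s) = moveMarks (a + c) s := by
  funext e
  induction e using Sym2.ind with
  | _ x y => simp [moveMarks, add_assoc]

theorem moveMarks_zero (s : Marks) : moveMarks (0, 0) s = s := by
  funext e
  induction e using Sym2.ind with
  | _ x y => simp [moveMarks, show ((0, 0) : Pt) = 0 from rfl]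

variable {q K r : ℝ} {S : ℕ}

theorem prof1_move (u a : Pt) (e : Sym2 Pt) :
    prof1 K r S (u + a) (Sym2.map (· + a) e) = prof1 K r S u e := by
  induction e using Sym2.ind with
  | _ x y =>
    have h1 : edgeN K r (u + a) s(x + a, y + a) = edgeN K r u s(x, y) := by simp [edgeN]
    have h2 : s(x + a, y + a) ∈ grid.edgeSet ↔ s(x, y) ∈ grid.edgeSet := by
      simp only [SimpleGraph.mem_edgeSet, grid_adj_iff, Prod.fst_add, Prod.snd_add,
        add_sub_add_right_eq_sub]
    rw [Sym2.map_mk, prof1, prof1, h1]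
    exact if_congr (and_congr h2 Iff.rfl) rfl rfl

theorem prof_move (hr : 0 ≤ r) (u a : Pt) (e : Sym2 Pt) :
    prof K r S {u + a} (Sym2.map (· + a) e) = prof K r S {u} e := by
  rw [prof_singleton hr, prof_singleton hr, prof1_move]

theorem raise_move (hr : 0 ≤ r) (u a : Pt) (s : Marks) :
    raise q K r S {u} (moveMarks a s) = moveMarks a (raise q K r S {u + a} s) := by
  funext e
  simp only [raise, moveMarks, Function.comp_apply, prof_move hr]

theorem saving_move (G : Measure ℝ) (hr : 0 ≤ r) (u a x y : Pt) (t : Marks) :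
    saving G q K r S u (moveMarks a t) s(x, y) = saving G q K r S (u + a) t s(x + a, y + a) := by
  simp only [saving, lower', moveMarks_apply]
  rw [← prof_move (K := K) (S := S) hr u a s(x, y), Sym2.map_mk]

theorem measurable_cfg' (G : Measure ℝ) [IsProbabilityMeasure G] : Measurable (cfg G) :=
  measurable_pi_lambda _ fun e => measurable_qf.comp (measurable_fst.comp (measurable_pi_apply e))

theorem measurable_saving (G : Measure ℝ) [IsProbabilityMeasure G] (u : Pt) (e : Sym2 Pt) :
    Measurable fun s : Marks => saving G q K r S u s e :=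
  (measurable_qf.comp (measurable_fst.comp (measurable_pi_apply e))).sub
    (measurable_qf.comp (measurable_fst.comp ((measurable_lower1 q _).comp (measurable_pi_apply e))))

theorem measurable_moveMarks (a : Pt) : Measurable (moveMarks a) :=
  measurable_pi_lambda _ fun _ => measurable_pi_apply _

end Vale.Agent.P158.V4
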