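import Vale.Agent.P158.V4.TimeConst

/-!
P158: shared definitions for the proof that planar first-passage percolation has no bigeodesics in
regular directions (note 1433), and the statements of the modules it is assembled from.
-/

namespace Vale.Agent.P158.V4

open MeasureTheory Filter Topology

/-- Sites. -/
abbrev Pt : Type := ℤ × ℤ

/-- Weight configurations. -/
abbrev Cfg : Type := Sym2 Pt → ℝ

/-- The real point of a site. -/
def toR (z : Pt) : ℝ × ℝ := ((z.1 : ℝ), (z.2 : ℝ))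

/-- The half-plane on or above a level. -/
def upper (h : ℤ) : Set Pt := {z | h ≤ z.2}

/-- The half-plane on or below a level. -/
def lower (h : ℤ) : Set Pt := {z | z.2 ≤ h}

/-- The strip between two levels. -/
def strip (h H : ℤ) : Set Pt := {z | h ≤ z.2 ∧ z.2 ≤ H}

/-- The passage time by walks inside a set of sites. -/
noncomputable def ttIn (S : Set Pt) (ω : Cfg) (u v : Pt) : ℝ :=
  ⨅ p : {p : grid.Walk u v // ∀ z ∈ p.support, z ∈ S}, wt ω p.1

/-- The deterministic properties of a typical configuration. -/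
structure Good (b c : ℝ) (ω : Cfg) : Prop where
  pos : ∀ e, 0 < ω e
  growth : ∀ u, ∃ N, ω ∉ Cheap u N c
  uniq : ∀ (u v : Pt) (p q : grid.Walk u v), p.IsPath → q.IsPath → wt ω p = wt ω q → p = q

/-- A path of sites with a normalisation: `acc` is the passage time along it up to a constant. -/
structure Ray where
  /-- The sites. -/
  pt : ℕ → Pt
  /-- The accumulated passage time. -/
  acc : ℕ → ℝ

/-- The path is eventually a geodesic ray, with `acc` as its weight and as its passage time. -/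
structure IsTail (ω : Cfg) (r : Ray) : Prop where
  adj : ∀ n, grid.Adj (r.pt n) (r.pt (n + 1))
  inj : Function.Injective r.pt
  geo : ∃ M, ∀ i j, M ≤ i → i ≤ j → tt ω (r.pt i) (r.pt j) = r.acc j - r.acc i ∧
    ∑ k ∈ Finset.Ico i j, ω s(r.pt k, r.pt (k + 1)) = r.acc j - r.acc i

/-- The height tends to plus infinity. -/
def Rises (r : Ray) : Prop := Tendsto (fun n => (r.pt n).2) atTop atTop

/-- The height tends to minus infinity. -/
def Falls (r : Ray) : Prop := Tendsto (fun n => (r.pt n).2) atTop atBot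

/-- Eventually inside the double cone of aperture `κ`. -/
def ConeRay (κ : ℝ) (r : Ray) : Prop :=
  ∀ᶠ n in atTop, |((r.pt n).1 : ℝ)| ≤ κ * |((r.pt n).2 : ℝ)|

/-- The Busemann function of a ray. -/
noncomputable def bus (ω : Cfg) (r : Ray) (p : Pt) : ℝ :=
  limUnder atTop fun n => tt ω p (r.pt n) - r.acc n

/-- The Busemann function of a ray with paths kept in `S`. -/
noncomputable def busIn (S : Set Pt) (ω : Cfg) (r : Ray) (p : Pt) : ℝ :=
  limUnder atTop fun n => ttIn S ω p (r.pt n) - r.acc n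

/-- A label: a lower and an upper ray. -/
structure Lab where
  /-- The lower ray. -/
  lo : Ray
  /-- The upper ray. -/
  up : Ray

/-- A label of the configuration. -/
structure IsLab (ω : Cfg) (L : Lab) : Prop where
  lo : IsTail ω L.lo
  up : IsTail ω L.up
  falls : Falls L.lo
  rises : Rises L.up

/-- The cost through a site, relative to the normalisations. -/
noncomputable def gsum (ω : Cfg) (L : Lab) (p : Pt) : ℝ := bus ω L.lo p + bus ω L.up p

/-- The excess sequence of a label. -/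
noncomputable def excess (ω : Cfg) (L : Lab) (n : ℕ) : ℝ :=
  tt ω (L.lo.pt n) (L.up.pt n) - L.lo.acc n - L.up.acc n

/-- The two ends are not at infinitely negative distance. -/
def Bounded (ω : Cfg) (L : Lab) : Prop := BddBelow (Set.range (excess ω L))

/-- The optimal cost of a label. -/
noncomputable def total (ω : Cfg) (L : Lab) : ℝ := limUnder atTop (excess ω L)

/-- A bigeodesic. -/
structure IsLane (ω : Cfg) (v : ℤ → Pt) : Prop where
  adj : ∀ i, grid.Adj (v i) (v (i + 1))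
  inj : Function.Injective v
  geo : ∀ (i : ℤ) (n : ℕ) (p : grid.Walk (v i) (v (i + n))),
    ∑ k ∈ Finset.range n, ω s(v (i + k), v (i + k + 1)) ≤ wt ω p

/-- The label of a bigeodesic, normalised at `v 0`. -/
noncomputable def labOf (ω : Cfg) (v : ℤ → Pt) : Lab where
  lo := ⟨fun n => v (-n), fun n => tt ω (v (-n)) (v 0)⟩
  up := ⟨fun n => v n, fun n => tt ω (v 0) (v n)⟩

/-- The double cone with vertex `u`, rounded at radius `r`. -/
def InCone (K r : ℝ) (u z : Pt) : Prop :=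
  |((z.1 - u.1 : ℤ) : ℝ)| ≤ K * max |((z.2 - u.2 : ℤ) : ℝ)| r

/-- Every ray of aperture `κ` is calibrated from `u` only inside the cone, with a margin of one. -/
structure Steered (κ K r : ℝ) (ω : Cfg) (u : Pt) : Prop where
  full : ∀ ray, IsTail ω ray → ConeRay κ ray → (Rises ray ∨ Falls ray) → ∀ z, ¬ InCone K r u z →
    bus ω ray u + 1 ≤ tt ω u z + bus ω ray z
  above : ∀ ray, IsTail ω ray → ConeRay κ ray → Rises ray → ∀ x : ℤ, |((x - u.1 : ℤ) : ℝ)| ≤ r →
    ∀ z ∈ upper u.2, ¬ InCone K r u z →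
      busIn (upper u.2) ω ray (x, u.2) + 1 ≤
        ttIn (upper u.2) ω (x, u.2) z + busIn (upper u.2) ω ray z
  below : ∀ ray, IsTail ω ray → ConeRay κ ray → Falls ray → ∀ x : ℤ, |((x - u.1 : ℤ) : ℝ)| ≤ r →
    ∀ z ∈ lower u.2, ¬ InCone K r u z →
      busIn (lower u.2) ω ray (x, u.2) + 1 ≤
        ttIn (lower u.2) ω (x, u.2) z + busIn (lower u.2) ω ray z

/-- A norm on the plane with the symmetries of the lattice. -/
structure IsLatticeNorm (μ : ℝ × ℝ → ℝ) : Prop where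
  homog : ∀ a : ℝ, 0 ≤ a → ∀ z, μ (a • z) = a * μ z
  tri : ∀ z w, μ (z + w) ≤ μ z + μ w
  flip : ∀ x y, μ (-x, y) = μ (x, y)
  swap : ∀ x y, μ (y, x) = μ (x, y)
  pos : ∃ c > 0, ∀ x y, c * (|x| + |y|) ≤ μ (x, y)

/-- `ρ` supports `μ` at `θ`. -/
def Supports (μ : ℝ × ℝ → ℝ) (θ ρ : ℝ × ℝ) : Prop :=
  (∀ z : ℝ × ℝ, ρ.1 * z.1 + ρ.2 * z.2 ≤ μ z) ∧ ρ.1 * θ.1 + ρ.2 * θ.2 = μ θ

/-- `c` is a slope at which the supporting functionals jump by more than `η`. -/
def Jump (μ : ℝ × ℝ → ℝ) (η c : ℝ) : Prop :=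
  ∃ ρ ρ', Supports μ (c, 1) ρ ∧ Supports μ (c, 1) ρ' ∧ η < ρ.1 - ρ'.1

/-- Slopes at which all supporting functionals of nearby slopes agree up to `η`. -/
def Smooth (μ : ℝ × ℝ → ℝ) (η δ s : ℝ) : Prop :=
  ∀ s' s'' ρ ρ', |s' - s| ≤ δ → |s'' - s| ≤ δ → Supports μ (s', 1) ρ → Supports μ (s'', 1) ρ' →
    |ρ.1 - ρ'.1| ≤ η

/-- The shape theorem holds around `u` at all scales beyond `r`. -/
def Shape (μ : ℝ × ℝ → ℝ) (ε r : ℝ) (ω : Cfg) (u : Pt) : Prop :=
  ∀ R : ℝ, r ≤ R → ∀ p q : Pt, (l1 u p : ℝ) ≤ R → (l1 u q : ℝ) ≤ R →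
    |tt ω p q - μ (toR (q - p))| ≤ ε * R

/-- `μ` is the time constant of the law. -/
structure IsTimeConst (G : Measure ℝ) (μ : ℝ × ℝ → ℝ) : Prop where
  norm : IsLatticeNorm μ
  axis : μ (1, 0) = mu1 G
  limit : ∀ z : ℝ × ℝ, ∀ᵐ ω ∂law G,
    Tendsto (fun n : ℕ => tt ω (0, 0) (⌊(n : ℝ) * z.1⌋, ⌊(n : ℝ) * z.2⌋) / (n : ℝ)) atTop (𝓝 (μ z))

/-- The scaled slopes with strictly horizontal supporting functional. -/
def StrictSlope (μ : ℝ × ℝ → ℝ) (κ : ℝ) : Prop :=
  0 ≤ κ ∧ ∃ κ' > κ, ∀ ρ, Supports μ (κ', 1) ρ → ρ.1 < μ (1, 0)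

/-- Module Shape. -/
def ShapeStmt (G : Measure ℝ) : Prop :=
  ∃ μ, IsTimeConst G μ ∧ ∀ ε > 0, ∀ u : Pt,
    Tendsto (fun r : ℕ => law G {ω | ¬ Shape μ ε r ω u}) atTop (𝓝 0)

/-- Module Regular. -/
def SteerStmt (G : Measure ℝ) (μ : ℝ × ℝ → ℝ) : Prop :=
  ∀ κ, StrictSlope μ κ → ∃ K : ℝ, 1 ≤ K ∧ ∃ A : ℕ → Pt → Set Cfg,
    (∀ r u, MeasurableSet (A r u)) ∧
    (∀ᵐ ω ∂law G, ∀ (r : ℕ) (u : Pt), ω ∈ A r u → Steered κ K r ω u) ∧
    ∀ u : Pt, Tendsto (fun r => law G (A r u)ᶜ) atTop (𝓝 0)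

/-- Module Norm: away from the jumps the supporting functionals are uniformly continuous. -/
def NormSmoothStmt (μ : ℝ × ℝ → ℝ) : Prop :=
  ∀ η > 0, ∀ κ : ℝ, ∃ δ > 0, ∀ s, |s| ≤ κ →
    (∃ c, Jump μ η c ∧ |s - c| ≤ δ) ∨ Smooth μ (2 * η) δ s

end Vale.Agent.P158.V4
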