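import Vale.Agent.P158.V4.Passage

/-!
P158: planar crossing of lattice walks in strips and half-planes.
-/

namespace Vale.Agent.P158.V4

variable {A B C D z w : ℤ × ℤ}

theorem step_cases (h : grid.Adj A B) :
    (A.1 = B.1 ∧ (B.2 = A.2 + 1 ∨ A.2 = B.2 + 1)) ∨ (A.2 = B.2 ∧ (B.1 = A.1 + 1 ∨ A.1 = B.1 + 1)) := by
  rw [grid_adj_iff] at h
  rcases abs_cases (A.1 - B.1) with h1 | h1 <;> rcases abs_cases (A.2 - B.2) with h2 | h2 <;> omega

/-- Indicator modulo two. -/
def ind (P : Prop) [Decidable P] : ZMod 2 := if P then 1 else 0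

theorem ind_congr {P R : Prop} [Decidable P] [Decidable R] (h : P ↔ R) : ind P = ind R := by
  simp [ind, h]

/-- A vertical step crossing the horizontal level just above `z`, strictly left of `z`. -/
abbrev vert (A B z : ℤ × ℤ) : Prop :=
  A.1 = B.1 ∧ A.1 < z.1 ∧ A.2 ≠ B.2 ∧ min A.2 B.2 = z.2

/-- Parity of the crossings of a walk left of a point. -/
def cut : ∀ {A B : ℤ × ℤ}, grid.Walk A B → ℤ × ℤ → ZMod 2
  | _, _, .nil, _ => 0
  | A, _, .cons (v := A') _ p, z => ind (vert A A' z) + cut p z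

theorem cut_eq_zero {A B : ℤ × ℤ} (p : grid.Walk A B) :
    (∀ P ∈ p.support, P.2 ≤ z.2) ∨ (∀ P ∈ p.support, z.2 < P.2) → cut p z = 0 := by
  induction p with
  | nil => intro _; rfl
  | @cons A A' B hadj p ih =>
    intro h
    have h1 : ¬ vert A A' z := by
      rintro ⟨_, _, h2, h3⟩
      rcases h with h | h
      · have := h A (by simp); have := h A' (by simp); omega
      · have := h A (by simp); have := h A' (by simp); omega
    rw [cut, ih (h.imp (fun h P hP => h P (by simp [hP])) (fun h P hP => h P (by simp [hP]))), ind,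
      if_neg h1, add_zero]

theorem cut_up {A B : ℤ × ℤ} (p : grid.Walk A B) (hz : (z.1, z.2 + 1) ∉ p.support) :
    cut p z + cut p (z.1, z.2 + 1) =
      ind (A.2 = z.2 + 1 ∧ A.1 < z.1) + ind (B.2 = z.2 + 1 ∧ B.1 < z.1) := by
  induction p with
  | @nil A => simp [cut, CharTwo.add_self_eq_zero]
  | @cons A A' B hadj p ih =>
    simp only [SimpleGraph.Walk.support_cons, List.mem_cons, not_or] at hz
    have hA' : (z.1, z.2 + 1) ≠ A' := fun e => hz.2 (e ▸ p.start_mem_support)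
    have hstep := step_cases hadj
    have hzA : ¬ (z.1 = A.1 ∧ z.2 + 1 = A.2) := fun e => hz.1 (Prod.ext e.1 e.2)
    have hzA' : ¬ (z.1 = A'.1 ∧ z.2 + 1 = A'.2) := fun e => hA' (Prod.ext e.1 e.2)
    have key : ind (vert A A' z) + ind (vert A A' (z.1, z.2 + 1)) =
        ind (A.2 = z.2 + 1 ∧ A.1 < z.1) + ind (A'.2 = z.2 + 1 ∧ A'.1 < z.1) := by
      unfold ind vert
      dsimp only
      split_ifs <;> first | decide | (exfalso; omega)
    rw [cut, cut]
    have ih' := ih hz.2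
    linear_combination key + ih' +
      (CharTwo.add_self_eq_zero (ind (A'.2 = z.2 + 1 ∧ A'.1 < z.1)))

theorem cut_right {A B : ℤ × ℤ} (p : grid.Walk A B) (hz : z ∉ p.support) :
    cut p (z.1 + 1, z.2) = cut p z := by
  induction p with
  | nil => rfl
  | @cons A A' B hadj p ih =>
    simp only [SimpleGraph.Walk.support_cons, List.mem_cons, not_or] at hz
    have hA' : z ≠ A' := fun e => hz.2 (e ▸ p.start_mem_support)
    have hzA : ¬ (z.1 = A.1 ∧ z.2 = A.2) := fun e => hz.1 (Prod.ext e.1 e.2)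
    have hzA' : ¬ (z.1 = A'.1 ∧ z.2 = A'.2) := fun e => hA' (Prod.ext e.1 e.2)
    rw [cut, cut, ih hz.2, ind_congr (R := vert A A' z)]
    unfold vert
    dsimp only
    constructor <;> rintro ⟨_, _, _, _⟩ <;> refine ⟨?_, ?_, ?_, ?_⟩ <;> omega

/-- The side of a point with respect to a walk prolonged vertically from both of its ends. -/
def side {A B : ℤ × ℤ} (p : grid.Walk A B) (z : ℤ × ℤ) : ZMod 2 :=
  cut p z + ind (B.2 ≤ z.2 ∧ B.1 < z.1) + ind (z.2 < A.2 ∧ A.1 < z.1)

theorem side_up (p : grid.Walk A B) (hz : (z.1, z.2 + 1) ∉ p.support) :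
    side p (z.1, z.2 + 1) = side p z := by
  have h := cut_up p hz
  have k : ind (B.2 ≤ z.2 + 1 ∧ B.1 < z.1) + ind (z.2 + 1 < A.2 ∧ A.1 < z.1) +
      (ind (B.2 ≤ z.2 ∧ B.1 < z.1) + ind (z.2 < A.2 ∧ A.1 < z.1)) =
      ind (A.2 = z.2 + 1 ∧ A.1 < z.1) + ind (B.2 = z.2 + 1 ∧ B.1 < z.1) := by
    unfold ind
    split_ifs <;> first | decide | (exfalso; omega)
  have h0 : side p (z.1, z.2 + 1) + side p z = 0 := by
    unfold side
    dsimp only
    linear_combination h + k +
      CharTwo.add_self_eq_zero (ind (A.2 = z.2 + 1 ∧ A.1 < z.1) + ind (B.2 = z.2 + 1 ∧ B.1 < z.1))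
  exact CharTwo.add_eq_zero.1 h0

theorem side_right (p : grid.Walk A B) (hz : z ∉ p.support) (hB : ¬ (z.1 = B.1 ∧ B.2 ≤ z.2))
    (hA : ¬ (z.1 = A.1 ∧ z.2 < A.2)) : side p (z.1 + 1, z.2) = side p z := by
  unfold side
  dsimp only
  rw [cut_right p hz,
    ind_congr (P := B.2 ≤ z.2 ∧ B.1 < z.1 + 1) (R := B.2 ≤ z.2 ∧ B.1 < z.1) (by omega),
    ind_congr (P := z.2 < A.2 ∧ A.1 < z.1 + 1) (R := z.2 < A.2 ∧ A.1 < z.1) (by omega)]

theorem side_adj (p : grid.Walk A B) (h : grid.Adj z w) (hz : z ∉ p.support) (hw : w ∉ p.support)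
    (hz2 : A.2 ≤ z.2 ∧ z.2 ≤ B.2) (hw2 : A.2 ≤ w.2 ∧ w.2 ≤ B.2) : side p z = side p w := by
  have noB : ∀ P : ℤ × ℤ, P ∉ p.support → P.2 ≤ B.2 → ¬ (P.1 = B.1 ∧ B.2 ≤ P.2) := by
    rintro P hP h1 ⟨h2, h3⟩
    exact hP ((show B = P from Prod.ext h2.symm (by omega)) ▸ p.end_mem_support)
  rcases step_cases h with ⟨h1, h2 | h2⟩ | ⟨h1, h2 | h2⟩
  · have e : w = (z.1, z.2 + 1) := Prod.ext h1.symm h2
    rw [e] at hw ⊢
    rw [side_up p hw]
  · have e : z = (w.1, w.2 + 1) := Prod.ext h1 h2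
    rw [e] at hz ⊢
    rw [side_up p hz]
  · have e : w = (z.1 + 1, z.2) := Prod.ext h2 h1.symm
    rw [e, side_right p hz (noB z hz hz2.2) (by omega)]
  · have e : z = (w.1 + 1, w.2) := Prod.ext h2 h1
    rw [e, side_right p hw (noB w hw hw2.2) (by omega)]

theorem side_walk (p : grid.Walk A B) {C D : ℤ × ℤ} (q : grid.Walk C D) :
    (∀ P ∈ q.support, P ∉ p.support ∧ A.2 ≤ P.2 ∧ P.2 ≤ B.2) → side p C = side p D := by
  induction q with
  | nil => intro _; rfl
  | @cons C C' D hadj q ih =>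
    intro h
    have hC := h C (by simp)
    have hC' := h C' (by simp)
    rw [side_adj p hadj hC.1 hC'.1 hC.2 hC'.2]
    exact ih fun P hP => h P (by simp [hP])

theorem side_bottom (p : grid.Walk A B) (hp : ∀ P ∈ p.support, A.2 ≤ P.2) {b : ℤ}
    (hb : (b, A.2) ∉ p.support) : side p (b, A.2) = ind (A.1 < b) := by
  have h := side_up p (z := (b, A.2 - 1)) (by simpa using hb)
  dsimp only at h
  rw [sub_add_cancel] at h
  rw [h]
  unfold side
  rw [cut_eq_zero p (Or.inr fun P hP => by have := hp P hP; dsimp only; omega)]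
  have hB := hp B p.end_mem_support
  unfold ind
  dsimp only
  split_ifs <;> first | decide | (exfalso; omega)

theorem side_top (p : grid.Walk A B) (hp : ∀ P ∈ p.support, P.2 ≤ B.2) (d : ℤ) :
    side p (d, B.2) = ind (B.1 < d) := by
  have hA := hp A p.start_mem_support
  unfold side
  rw [cut_eq_zero (z := (d, B.2)) p (Or.inl hp)]
  unfold ind
  dsimp only
  split_ifs <;> first | decide | (exfalso; omega)

/-- Two walks across a strip whose endpoints are in opposite orders meet. -/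
theorem strip_meet (p : grid.Walk A B) (q : grid.Walk C D)
    (hp : ∀ P ∈ p.support, A.2 ≤ P.2 ∧ P.2 ≤ B.2) (hq : ∀ P ∈ q.support, A.2 ≤ P.2 ∧ P.2 ≤ B.2)
    (hC : C.2 = A.2) (hD : D.2 = B.2) (h1 : A.1 ≤ C.1) (h2 : D.1 ≤ B.1) :
    ∃ P, P ∈ p.support ∧ P ∈ q.support := by
  by_contra hne
  push Not at hne
  have hs := side_walk p q fun P hP => ⟨fun h => hne P h hP, hq P hP⟩
  have hCp : C ∉ p.support := fun h => hne C h q.start_mem_support
  have hlt : A.1 < C.1 := lt_of_le_of_ne h1 fun e =>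
    hCp ((show A = C from Prod.ext e hC.symm) ▸ p.start_mem_support)
  rw [show C = (C.1, A.2) from Prod.ext rfl hC, show D = (D.1, B.2) from Prod.ext rfl hD,
    side_bottom p (fun P hP => (hp P hP).1) (by rwa [show (C.1, A.2) = C from Prod.ext rfl hC.symm]),
    side_top p (fun P hP => (hp P hP).2), ind, ind, if_pos hlt, if_neg (not_lt.2 h2)] at hs
  exact one_ne_zero hs

/-- Two points of the base line on either side of the foot of a high walk cannot be joined below
its top without meeting it. -/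
theorem base_meet (p : grid.Walk A B) (q : grid.Walk C D) (hp : ∀ P ∈ p.support, A.2 ≤ P.2)
    (hq : ∀ P ∈ q.support, A.2 ≤ P.2 ∧ P.2 ≤ B.2) (hC : C.2 = A.2) (hD : D.2 = A.2)
    (h1 : C.1 ≤ A.1) (h2 : A.1 ≤ D.1) : ∃ P, P ∈ p.support ∧ P ∈ q.support := by
  by_contra hne
  push Not at hne
  have hs := side_walk p q fun P hP => ⟨fun h => hne P h hP, hq P hP⟩
  have hCp : C ∉ p.support := fun h => hne C h q.start_mem_support
  have hDp : D ∉ p.support := fun h => hne D h q.end_mem_support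
  have hne' : A.1 ≠ D.1 := fun e =>
    hDp ((show A = D from Prod.ext e hD.symm) ▸ p.start_mem_support)
  rw [show C = (C.1, A.2) from Prod.ext rfl hC, show D = (D.1, A.2) from Prod.ext rfl hD,
    side_bottom p hp (by rwa [show (C.1, A.2) = C from Prod.ext rfl hC.symm]),
    side_bottom p hp (by rwa [show (D.1, A.2) = D from Prod.ext rfl hD.symm]),
    ind, ind, if_neg (not_lt.2 h1), if_pos (lt_of_le_of_ne h2 hne')] at hs
  exact one_ne_zero hs.symm

end Vale.Agent.P158.V4
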