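import Mathlib
import Vale.Agent.P158.Tilt
import Vale.Agent.P158.V4.Trails
import Vale.Agent.P158.V4.TiltBasic

/-!
P158: the raised field of marks is comparable with the original one. The squares of the profile of
one site sum to a constant times the aperture, whatever the number of scales.
-/

namespace Vale.Agent.P158.V4

open MeasureTheory Set
open scoped ENNReal

variable {q K r : ℝ} {S : ℕ}

/-- The box around a site. -/
noncomputable def boxPts (K R : ℝ) (u : Pt) : Finset Pt :=
  Finset.Icc (u.1 - (⌈K * R⌉₊ : ℤ)) (u.1 + (⌈K * R⌉₊ : ℤ)) ×ˢ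
    Finset.Icc (u.2 - (⌈R⌉₊ : ℤ)) (u.2 + (⌈R⌉₊ : ℤ))

/-- The lattice edges at the sites of the box. -/
noncomputable def boxEdges (K R : ℝ) (u : Pt) : Finset (Sym2 Pt) :=
  (boxPts K R u ×ˢ (Finset.univ : Finset (Fin 4))).image fun p => s(p.1, p.1 + step p.2)

theorem card_boxPts (hK : 1 ≤ K) {R : ℝ} (hR : 1 ≤ R) (u : Pt) :
    ((boxPts K R u).card : ℝ) ≤ 25 * K * R ^ 2 := by
  have hKR : 1 ≤ K * R := one_le_mul_of_one_le_of_one_le hK hR
  have hn : ∀ (n : ℕ) (a : ℤ), (Finset.Icc (a - (n : ℤ)) (a + (n : ℤ))).card = 2 * n + 1 := by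
    intro n a
    rw [Int.card_Icc]
    omega
  have hb : ∀ x : ℝ, 1 ≤ x → ((2 * ⌈x⌉₊ + 1 : ℕ) : ℝ) ≤ 5 * x := by
    intro x hx
    have := Nat.ceil_lt_add_one (show (0 : ℝ) ≤ x by linarith)
    push_cast
    linarith
  rw [boxPts, Finset.card_product, hn, hn, Nat.cast_mul]
  calc _ ≤ 5 * (K * R) * (5 * R) :=
        mul_le_mul (hb _ hKR) (hb _ hR) (by positivity) (by positivity)
    _ = 25 * K * R ^ 2 := by ring

theorem card_boxEdges (hK : 1 ≤ K) {R : ℝ} (hR : 1 ≤ R) (u : Pt) :
    ((boxEdges K R u).card : ℝ) ≤ 100 * K * R ^ 2 := by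
  refine le_trans (Nat.cast_le.2 Finset.card_image_le) ?_
  rw [Finset.card_product, Nat.cast_mul]
  have := card_boxPts hK hR u
  simp only [Finset.card_univ, Fintype.card_fin, Nat.cast_ofNat]
  linarith

theorem le_edgeN (K r : ℝ) (u : Pt) (e : Sym2 Pt) : r ≤ edgeN K r u e := by
  induction e using Sym2.ind with
  | _ a b => exact le_max_of_le_left (le_max_right _ _)

theorem mem_boxPts_of_le (hK : 1 ≤ K) {R : ℝ} {u a : Pt}
    (h : max (max |((a.2 - u.2 : ℤ) : ℝ)| (|((a.1 - u.1 : ℤ) : ℝ)| / K)) r ≤ R) :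
    a ∈ boxPts K R u := by
  simp only [max_le_iff] at h
  obtain ⟨⟨h2, h1⟩, -⟩ := h
  rw [div_le_iff₀ (by linarith), mul_comm] at h1
  have c1 : |a.1 - u.1| ≤ (⌈K * R⌉₊ : ℤ) := by
    have := h1.trans (Nat.le_ceil _)
    rw [← Int.cast_abs] at this
    exact_mod_cast this
  have c2 : |a.2 - u.2| ≤ (⌈R⌉₊ : ℤ) := by
    have := h2.trans (Nat.le_ceil _)
    rw [← Int.cast_abs] at this
    exact_mod_cast this
  rw [abs_le] at c1 c2
  simp only [boxPts, Finset.mem_product, Finset.mem_Icc]
  omega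

theorem mem_boxEdges_of_le (hK : 1 ≤ K) {R : ℝ} {u : Pt} {e : Sym2 Pt} (he : e ∈ grid.edgeSet)
    (h : edgeN K r u e ≤ R) : e ∈ boxEdges K R u := by
  induction e using Sym2.ind with
  | _ a b =>
    obtain ⟨d, rfl⟩ := exists_step (SimpleGraph.mem_edgeSet grid |>.1 he)
    exact Finset.mem_image.2 ⟨(a, d), Finset.mem_product.2
      ⟨mem_boxPts_of_le hK (le_max_left _ _ |>.trans h), Finset.mem_univ _⟩, rfl⟩

theorem exists_scale {N : ℝ} (h0 : r ≤ N) : ∀ S : ℕ, 1 ≤ S → N ≤ 2 ^ S * r →
    ∃ j < S, 2 ^ j * r ≤ N ∧ N ≤ 2 ^ (j + 1) * r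
  | 0, h, _ => absurd h (by norm_num)
  | n + 1, _, h1 => by
    by_cases hn : 1 ≤ n ∧ N ≤ 2 ^ n * r
    · obtain ⟨j, hj, hj'⟩ := exists_scale h0 n hn.1 hn.2
      exact ⟨j, hj.trans (Nat.lt_succ_self n), hj'⟩
    · refine ⟨n, Nat.lt_succ_self n, ?_, h1⟩
      rcases not_and_or.1 hn with h | h
      · obtain rfl : n = 0 := by omega
        simpa using h0
      · exact (not_le.1 h).le

theorem prof1_nonneg (hr : 0 ≤ r) (u : Pt) (e : Sym2 Pt) : 0 ≤ prof1 K r S u e := by
  unfold prof1
  split_ifs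
  · exact div_nonneg zero_le_one (mul_nonneg (Real.sqrt_nonneg _) (hr.trans (le_edgeN K r u e)))
  · exact le_rfl

theorem prof1_le_half (hr : 2 ≤ r) (hS : 1 ≤ S) (u : Pt) (e : Sym2 Pt) :
    prof1 K r S u e ≤ 1 / 2 := by
  unfold prof1
  split_ifs
  · have h1 : 1 ≤ Real.sqrt S := Real.one_le_sqrt.2 (by exact_mod_cast hS)
    refine one_div_le_one_div_of_le (by norm_num) ?_
    calc (2 : ℝ) = 1 * 2 := (one_mul _).symm
      _ ≤ Real.sqrt S * edgeN K r u e :=
        mul_le_mul h1 (hr.trans (le_edgeN K r u e)) (by norm_num) (Real.sqrt_nonneg _)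
  · norm_num

theorem mem_of_prof1_ne_zero (hK : 1 ≤ K) {u : Pt} {e : Sym2 Pt} (h : prof1 K r S u e ≠ 0) :
    e ∈ boxEdges K (2 ^ S * r) u := by
  unfold prof1 at h
  split_ifs at h with hc
  · exact mem_boxEdges_of_le hK hc.1 hc.2
  · exact absurd rfl h

theorem prof_cases (C : Finset Pt) (e : Sym2 Pt) :
    prof K r S C e = 0 ∨ ∃ u ∈ C, prof K r S C e = prof1 K r S u e := by
  have h := Finset.max'_mem (insert (0 : ℝ) (C.image fun u => prof1 K r S u e))
    (Finset.insert_nonempty _ _)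
  rw [Finset.mem_insert, Finset.mem_image] at h
  rcases h with h | ⟨u, hu, h⟩
  · exact Or.inl h
  · exact Or.inr ⟨u, hu, h.symm⟩

theorem prof_nonneg (C : Finset Pt) (e : Sym2 Pt) : 0 ≤ prof K r S C e :=
  Finset.le_max' _ _ (Finset.mem_insert_self _ _)

theorem prof1_le_prof {C : Finset Pt} {u : Pt} (hu : u ∈ C) (e : Sym2 Pt) :
    prof1 K r S u e ≤ prof K r S C e :=
  Finset.le_max' _ _ (Finset.mem_insert_of_mem (Finset.mem_image_of_mem (fun u => prof1 K r S u e) hu))

theorem prof_singleton (hr : 0 ≤ r) (u : Pt) (e : Sym2 Pt) :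
    prof K r S {u} e = prof1 K r S u e := by
  refine le_antisymm ?_ (prof1_le_prof (Finset.mem_singleton_self u) e)
  rcases prof_cases (K := K) (r := r) (S := S) {u} e with h | ⟨v, hv, h⟩
  · rw [h]; exact prof1_nonneg hr u e
  · rw [Finset.mem_singleton.1 hv] at h; exact h.le

theorem prof_mem (hr : 2 ≤ r) (hS : 1 ≤ S) (C : Finset Pt) (e : Sym2 Pt) :
    prof K r S C e ∈ Icc (0 : ℝ) (1 / 2) := by
  refine ⟨prof_nonneg C e, ?_⟩
  rcases prof_cases (K := K) (r := r) (S := S) C e with h | ⟨u, -, h⟩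
  · rw [h]; norm_num
  · rw [h]; exact prof1_le_half hr hS u e

/-- The edges that the tilt changes. -/
noncomputable def profSupport (K r : ℝ) (S : ℕ) (C : Finset Pt) : Finset (Sym2 Pt) :=
  C.biUnion fun u => boxEdges K (2 ^ S * r) u

theorem prof_eq_zero_of_notMem (hK : 1 ≤ K) {C : Finset Pt} {e : Sym2 Pt}
    (h : e ∉ profSupport K r S C) : prof K r S C e = 0 := by
  rcases prof_cases (K := K) (r := r) (S := S) C e with h' | ⟨u, hu, h'⟩
  · exact h'
  · by_contra hne
    exact h (Finset.mem_biUnion.2 ⟨u, hu, mem_of_prof1_ne_zero hK (by rwa [h'] at hne)⟩)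

/-- The squares of the profile of one site sum to a constant. -/
theorem sum_prof1_sq (hK : 1 ≤ K) (hr : 1 ≤ r) (hS : 1 ≤ S) (u : Pt) (s : Finset (Sym2 Pt)) :
    ∑ e ∈ s, prof1 K r S u e ^ 2 ≤ 400 * K := by
  classical
  have hS0 : (0 : ℝ) < S := by exact_mod_cast hS
  set t : ℕ → ℝ := fun j => 1 / ((S : ℝ) * (2 ^ j * r) ^ 2) with ht
  have h1 : ∀ e, prof1 K r S u e ^ 2 ≤
      ∑ j ∈ Finset.range S, if e ∈ boxEdges K (2 ^ (j + 1) * r) u then t j else 0 := by
    intro e
    have hnn : ∀ j ∈ Finset.range S, (0 : ℝ) ≤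
        if e ∈ boxEdges K (2 ^ (j + 1) * r) u then t j else 0 := fun j _ => by
      split_ifs <;> positivity
    unfold prof1
    split_ifs with hc
    · obtain ⟨j, hj, hj1, hj2⟩ := exists_scale (le_edgeN K r u e) S hS hc.2
      refine le_trans ?_ (Finset.single_le_sum hnn (Finset.mem_range.2 hj))
      rw [if_pos (mem_boxEdges_of_le hK hc.1 hj2), ht]
      simp only
      rw [div_pow, one_pow, mul_pow, Real.sq_sqrt hS0.le]
      have hp : 0 < 2 ^ j * r := by positivity
      refine one_div_le_one_div_of_le (by positivity) ?_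
      exact mul_le_mul_of_nonneg_left (pow_le_pow_left₀ hp.le hj1 2) hS0.le
    · rw [zero_pow two_ne_zero]
      exact Finset.sum_nonneg hnn
  calc ∑ e ∈ s, prof1 K r S u e ^ 2
      ≤ ∑ e ∈ s, ∑ j ∈ Finset.range S,
          if e ∈ boxEdges K (2 ^ (j + 1) * r) u then t j else 0 := Finset.sum_le_sum fun e _ => h1 e
    _ = ∑ j ∈ Finset.range S, ∑ e ∈ s,
          if e ∈ boxEdges K (2 ^ (j + 1) * r) u then t j else 0 := Finset.sum_comm
    _ ≤ ∑ j ∈ Finset.range S, ((boxEdges K (2 ^ (j + 1) * r) u).card : ℝ) * t j := by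
        refine Finset.sum_le_sum fun j _ => ?_
        rw [← Finset.sum_filter, Finset.sum_const, nsmul_eq_mul]
        refine mul_le_mul_of_nonneg_right (Nat.cast_le.2 (Finset.card_le_card fun e he => ?_))
          (by positivity)
        exact (Finset.mem_filter.1 he).2
    _ ≤ ∑ _j ∈ Finset.range S, 400 * K / S := by
        refine Finset.sum_le_sum fun j _ => ?_
        have hp : 0 < 2 ^ j * r := by positivity
        have hR : 1 ≤ 2 ^ (j + 1) * r :=
          one_le_mul_of_one_le_of_one_le (one_le_pow₀ (by norm_num)) hr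
        refine (mul_le_mul_of_nonneg_right (card_boxEdges hK hR u)
          (by positivity : 0 ≤ t j)).trans (le_of_eq ?_)
        rw [ht]
        simp only
        field_simp
        ring
    _ = 400 * K := by
        rw [Finset.sum_const, Finset.card_range, nsmul_eq_mul]
        field_simp

theorem sum_prof_sq (hK : 1 ≤ K) (hr : 1 ≤ r) (hS : 1 ≤ S) (C : Finset Pt)
    (s : Finset (Sym2 Pt)) : ∑ e ∈ s, prof K r S C e ^ 2 ≤ C.card * (400 * K) := by
  have h : ∀ e, prof K r S C e ^ 2 ≤ ∑ u ∈ C, prof1 K r S u e ^ 2 := by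
    intro e
    rcases prof_cases (K := K) (r := r) (S := S) C e with h | ⟨u, hu, h⟩
    · rw [h, zero_pow two_ne_zero]
      exact Finset.sum_nonneg fun u _ => sq_nonneg _
    · rw [h]
      exact Finset.single_le_sum (f := fun u => prof1 K r S u e ^ 2) (fun u _ => sq_nonneg _) hu
  calc ∑ e ∈ s, prof K r S C e ^ 2 ≤ ∑ e ∈ s, ∑ u ∈ C, prof1 K r S u e ^ 2 :=
        Finset.sum_le_sum fun e _ => h e
    _ = ∑ u ∈ C, ∑ e ∈ s, prof1 K r S u e ^ 2 := Finset.sum_comm
    _ ≤ ∑ _u ∈ C, 400 * K := Finset.sum_le_sum fun u _ => sum_prof1_sq hK hr hS u s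
    _ = C.card * (400 * K) := by rw [Finset.sum_const, nsmul_eq_mul]

theorem measurable_raise (q K r : ℝ) (S : ℕ) (C : Finset Pt) :
    Measurable (raise q K r S C) :=
  measurable_pi_lambda _ fun e => (measurable_raise1 q _).comp (measurable_pi_apply e)

theorem measurable_lower' (q K r : ℝ) (S : ℕ) (C : Finset Pt) :
    Measurable (lower' q K r S C) :=
  measurable_pi_lambda _ fun e => (measurable_lower1 q _).comp (measurable_pi_apply e)

instance isProbabilityMeasure_markLaw : IsProbabilityMeasure markLaw := by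
  unfold markLaw; infer_instance

/-- The density of one tilted mark, including no tilt. -/
noncomputable def dens0 (q δ : ℝ) (y : ℝ × ℝ) : ℝ≥0∞ :=
  if δ = 0 then 1 else ENNReal.ofReal (dens q δ y)

theorem measurable_dens0 (q δ : ℝ) : Measurable (dens0 q δ) :=
  Measurable.ite (MeasurableSet.const _) measurable_const (measurable_dens q δ).ennreal_ofReal

theorem map_lower1_eq (hq : q ∈ Ioo (0 : ℝ) (1 / 4)) {δ : ℝ} (hδ : δ ∈ Icc (0 : ℝ) (1 / 2)) :
    unitSquare.map (lower1 q δ) = unitSquare.withDensity (dens0 q δ) := by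
  by_cases h : δ = 0
  · subst h
    have h1 : dens0 q 0 = fun _ : ℝ × ℝ => (1 : ℝ≥0∞) := by
      funext y
      simp [dens0]
    have h2 : lower1 q 0 =ᵐ[unitSquare] id :=
      ae_unitSquare.mono fun x hx => lower1_zero hq hx.2.1.le
    rw [h1, Measure.map_congr h2, Measure.map_id]
    exact withDensity_one.symm
  · have h1 : dens0 q δ = fun y => ENNReal.ofReal (dens q δ y) := by
      funext y
      simp [dens0, h]
    rw [h1, map_lower1 hq ⟨lt_of_le_of_ne hδ.1 (Ne.symm h), hδ.2⟩]

theorem lintegral_dens0_sq (hq : q ∈ Ioo (0 : ℝ) (1 / 4)) {δ : ℝ} (hδ : δ ∈ Icc (0 : ℝ) (1 / 2)) :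
    ∫⁻ y, dens0 q δ y ^ (2 : ℝ) ∂unitSquare ≤ ENNReal.ofReal (Real.exp (densC q * δ ^ 2)) := by
  by_cases h : δ = 0
  · simp [dens0, h]
  · have hδ' : δ ∈ Ioc (0 : ℝ) (1 / 2) := ⟨lt_of_le_of_ne hδ.1 (Ne.symm h), hδ.2⟩
    refine le_trans (le_of_eq ?_) ((lintegral_dens_sq hq hδ').trans
      (ENNReal.ofReal_le_ofReal ((add_comm _ _).le.trans (Real.add_one_le_exp _))))
    refine lintegral_congr_ae (ae_unitSquare.mono fun y hy => ?_)
    simp only [dens0, if_neg h]
    rw [ENNReal.ofReal_rpow_of_nonneg (dens_pos hq hδ hy.1.1).le (by norm_num),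
      show ((2 : ℝ)) = ((2 : ℕ) : ℝ) by norm_num, Real.rpow_natCast]

theorem withDensity_off (q : ℝ) (hK : 1 ≤ K) (C : Finset Pt) :
    ∀ e ∉ profSupport K r S C, unitSquare.withDensity (dens0 q (prof K r S C e)) = unitSquare := by
  intro e he
  rw [prof_eq_zero_of_notMem hK he, show dens0 q 0 = fun _ : ℝ × ℝ => (1 : ℝ≥0∞) by
    funext y; simp [dens0]]
  exact withDensity_one

section field

variable (hq : q ∈ Ioo (0 : ℝ) (1 / 4)) (hK : 1 ≤ K) (hr : 2 ≤ r) (hS : 1 ≤ S)

include hq hr hS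

theorem raise_lower'_ae (C : Finset Pt) :
    ∀ᵐ s ∂markLaw, raise q K r S C (lower' q K r S C s) = s :=
  ae_marks.mono fun s hs => funext fun e =>
    raise1_lower1 hq (prof_mem hr hS C e) (hs e).1 (hs e).2.1.le

/-- The tilted field takes the preimage of an event back to the event. -/
theorem map_lower'_raise (C : Finset Pt) {E : Set Marks} (hE : MeasurableSet E) :
    markLaw.map (lower' q K r S C) (raise q K r S C ⁻¹' E) = markLaw E := by
  rw [Measure.map_apply (measurable_lower' q K r S C) (measurable_raise q K r S C hE)]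
  refine measure_congr ?_
  filter_upwards [raise_lower'_ae hq hr hS C] with s hs
  change (raise q K r S C (lower' q K r S C s) ∈ E) = (s ∈ E)
  rw [hs]

theorem map_lower'_eq (C : Finset Pt) :
    markLaw.map (lower' q K r S C) =
      Measure.infinitePi fun e => unitSquare.withDensity (dens0 q (prof K r S C e)) := by
  have h : ∀ e, unitSquare.withDensity (dens0 q (prof K r S C e)) =
      unitSquare.map (lower1 q (prof K r S C e)) := fun e =>
    (map_lower1_eq hq (prof_mem hr hS C e)).symm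
  simp only [h]
  exact Measure.infinitePi_map_pi _ fun e => measurable_lower1 q _

include hK

/-- The raised field is comparable with the field. -/
theorem sq_le_raise (C : Finset Pt) {E : Set Marks} (hE : MeasurableSet E) :
    markLaw.real E ^ 2 ≤
      Real.exp (densC q * (C.card * (400 * K))) * markLaw.real (raise q K r S C ⁻¹' E) := by
  set s := profSupport K r S C
  have : ∀ e, IsProbabilityMeasure (unitSquare.withDensity (dens0 q (prof K r S C e))) := fun e => by
    rw [← map_lower1_eq hq (prof_mem hr hS C e)]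
    exact Measure.isProbabilityMeasure_map (measurable_lower1 q _).aemeasurable
  have h := tilt_measure_le unitSquare s (fun e => dens0 q (prof K r S C e))
    (fun e => measurable_dens0 q _) (fun e => unitSquare.withDensity (dens0 q (prof K r S C e)))
    (fun e _ => rfl) (withDensity_off q hK C) Real.HolderConjugate.two_two
    (raise q K r S C ⁻¹' E) (measurable_raise q K r S C hE)
  rw [← map_lower'_eq hq hr hS C, map_lower'_raise (K := K) hq hr hS C hE] at h
  have hC : 0 ≤ densC q := by unfold densC; positivity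
  have hprod : ∏ e ∈ s, ∫⁻ y, dens0 q (prof K r S C e) y ^ (2 : ℝ) ∂unitSquare ≤
      ENNReal.ofReal (Real.exp (densC q * (C.card * (400 * K)))) := by
    refine (Finset.prod_le_prod' fun e _ => lintegral_dens0_sq hq (prof_mem hr hS C e)).trans ?_
    rw [← ENNReal.ofReal_prod_of_nonneg fun e _ => (Real.exp_pos _).le, ← Real.exp_sum]
    refine ENNReal.ofReal_le_ofReal (Real.exp_le_exp.2 ?_)
    rw [← Finset.mul_sum]
    exact mul_le_mul_of_nonneg_left (sum_prof_sq hK (by linarith) hS C s) hC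
  change markLaw E ≤ _ ^ (1 / (2 : ℝ)) * markLaw _ ^ (1 / (2 : ℝ)) at h
  have h2 := h.trans (mul_le_mul' (ENNReal.rpow_le_rpow hprod (by norm_num)) le_rfl)
  rw [← ENNReal.mul_rpow_of_nonneg _ _ (by norm_num : (0 : ℝ) ≤ 1 / 2), one_div,
    ENNReal.le_rpow_inv_iff two_pos] at h2
  have h3 := ENNReal.toReal_mono (ENNReal.mul_ne_top ENNReal.ofReal_ne_top (measure_ne_top _ _)) h2
  rw [ENNReal.toReal_mul, ENNReal.toReal_ofReal (Real.exp_pos _).le, ← ENNReal.toReal_rpow,
    show ((2 : ℝ)) = ((2 : ℕ) : ℝ) by norm_num, Real.rpow_natCast] at h3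
  exact h3

/-- The raised field has no new null events. -/
theorem raise_null (C : Finset Pt) {E : Set Marks} (hE : MeasurableSet E) (h0 : markLaw E = 0) :
    markLaw (raise q K r S C ⁻¹' E) = 0 := by
  set s := profSupport K r S C
  have : ∀ e, IsProbabilityMeasure (unitSquare.withDensity (dens0 q (prof K r S C e))) := fun e => by
    rw [← map_lower1_eq hq (prof_mem hr hS C e)]
    exact Measure.isProbabilityMeasure_map (measurable_lower1 q _).aemeasurable
  have h := map_lower'_raise (K := K) hq hr hS C hE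
  rw [map_lower'_eq hq hr hS C, infinitePi_eq_withDensity unitSquare s
    (fun e => dens0 q (prof K r S C e)) (fun e => measurable_dens0 q _) _ (fun e _ => rfl)
    (withDensity_off q hK C), h0, withDensity_apply_eq_zero
    (measurable_tiltDensity _ _ fun e => measurable_dens0 q _)] at h
  refine measure_mono_null_ae ?_ h
  filter_upwards [ae_marks] with σ hσ hm
  refine ⟨?_, hm⟩
  rw [mem_ofPred_eq, tiltDensity, Finset.prod_ne_zero_iff]
  intro e _
  unfold dens0
  split_ifs
  · exact one_ne_zero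
  · exact ENNReal.ofReal_ne_zero_iff.2 (dens_pos hq (prof_mem hr hS C e) (hσ e).1.1)

end field

/-- The raised field is comparable, with a constant independent of the number of scales. -/
theorem tiltProbStmt : TiltProbStmt := by
  intro q hq K hK
  refine ⟨2, Real.exp (densC q * (400 * K)), Real.exp_pos _, fun r hr S u hS E hE => ?_,
    fun r S hr hS n => ⟨Real.exp (densC q * (n * (400 * K))), Real.exp_pos _, fun U hU E hE => ?_⟩,
    fun r S U hr hS E hE h0 => raise_null hq hK hr hS U hE h0⟩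
  · simpa using sq_le_raise hq hK hr hS {u} hE
  · refine (sq_le_raise hq hK hr hS U hE).trans
      (mul_le_mul_of_nonneg_right (Real.exp_le_exp.2 ?_) measureReal_nonneg)
    have hC : 0 ≤ densC q := by unfold densC; positivity
    refine mul_le_mul_of_nonneg_left (mul_le_mul_of_nonneg_right (Nat.cast_le.2 hU) ?_) hC
    linarith

end Vale.Agent.P158.V4
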