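import Mathlib
import Vale.Agent.P158.V4.TiltProb

/-!
P158: a path chosen through the weights alone gains of the order `√S` under the tilt at its site.
By Peierls counting a positive fraction of each annulus piece has marks `U` bounded below, and given
the first coordinates the second ones are independent, so the exponential moment bound applies.
-/

namespace Vale.Agent.P158.V4

open MeasureTheory Set
open scoped ENNReal

/-- The uniform law on the unit interval. -/
noncomputable def unif : Measure ℝ := volume.restrict (Icc (0 : ℝ) 1)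

instance isProbabilityMeasure_unif : IsProbabilityMeasure unif := ⟨by simp [unif]⟩

theorem ae_unif : ∀ᵐ t ∂unif, t ∈ Ioo (0 : ℝ) 1 := by
  rw [unif, ← restrict_Ioo_eq_restrict_Icc]
  exact ae_restrict_mem measurableSet_Ioo

/-- The marks from the two fields. -/
def join (p : (Sym2 Pt → ℝ) × (Sym2 Pt → ℝ)) : Marks := fun e => (p.1 e, p.2 e)

theorem measurable_join : Measurable join :=
  measurable_pi_lambda _ fun e =>
    ((measurable_pi_apply e).comp measurable_fst).prodMk
      ((measurable_pi_apply e).comp measurable_snd)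

/-- The two coordinates of the marks are independent uniform fields. -/
theorem map_join : ((law unif).prod (law unif)).map join = markLaw := by
  refine Measure.eq_infinitePi _ fun t A hA => ?_
  have hcyl : MeasurableSet (Set.pi (Set.univ : Set t) fun i => A i) :=
    MeasurableSet.univ_pi fun i => hA i
  have hP := (measurePreserving_arrowProdEquivProdArrow ℝ ℝ t (fun _ => unif) fun _ => unif).symm
  set φ : (Sym2 Pt → ℝ) × (Sym2 Pt → ℝ) → t → ℝ × ℝ := fun p =>
    (MeasurableEquiv.arrowProdEquivProdArrow ℝ ℝ t).symm (Prod.map t.restrict t.restrict p) with hφ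
  have hφm : Measurable φ := hP.measurable.comp
    ((Finset.measurable_restrict t).prodMap (Finset.measurable_restrict t))
  have h1 : ((law unif).prod (law unif)).map φ = Measure.pi fun _ : t => unif.prod unif := by
    refine (Measure.map_map hP.measurable
      ((Finset.measurable_restrict t).prodMap (Finset.measurable_restrict t))).symm.trans ?_
    rw [← Measure.map_prod_map _ _ (Finset.measurable_restrict t) (Finset.measurable_restrict t),
      Measure.infinitePi_map_restrict]
    exact hP.map_eq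
  have h2 := congrArg (fun m : Measure (t → ℝ × ℝ) => m (Set.pi Set.univ fun i => A i)) h1
  simp only [Measure.pi_pi] at h2
  rw [Measure.map_apply hφm hcyl] at h2
  rw [Measure.map_apply measurable_join (MeasurableSet.pi t.countable_toSet fun i _ => hA i),
    ← Finset.prod_coe_sort t (fun i => unitSquare (A i))]
  refine Eq.trans ?_ (h2.trans rfl)
  congr 1
  ext p
  simp only [mem_preimage, Set.mem_pi, Finset.mem_coe, mem_univ, forall_const, Subtype.forall]
  rfl

/-- Exponential moment bound for a sum of independent small indicators. -/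
theorem few_marks {S : Finset (Sym2 Pt)} {δ : Sym2 Pt → ℝ} (hδ : ∀ e ∈ S, δ e ∈ Icc (0 : ℝ) 1) :
    law unif {W | ∑ e ∈ S, (if W e < δ e then (1 : ℝ) else 0) < (∑ e ∈ S, δ e) / 2} ≤
      ENNReal.ofReal (Real.exp (-(∑ e ∈ S, δ e) / 10)) := by
  set μ := ∑ e ∈ S, δ e with hμ
  set f : Sym2 Pt → ℝ → ℝ≥0∞ := fun e w =>
    ENNReal.ofReal (Real.exp (-(if w < δ e then (1 : ℝ) else 0))) with hf
  have hfm : ∀ e, Measurable (f e) := fun e =>
    ((Measurable.ite measurableSet_Iio measurable_const measurable_const).neg.exp).ennreal_ofReal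
  have hpt : ∀ W : Sym2 Pt → ℝ,
      ({W : Sym2 Pt → ℝ | ∑ e ∈ S, (if W e < δ e then (1 : ℝ) else 0) < μ / 2}).indicator
        (1 : (Sym2 Pt → ℝ) → ℝ≥0∞) W ≤ ENNReal.ofReal (Real.exp (μ / 2)) * ∏ e ∈ S, f e (W e) := by
    intro W
    rw [Set.indicator_apply]
    split_ifs with h
    · rw [← ENNReal.ofReal_prod_of_nonneg fun e _ => (Real.exp_pos _).le, ← Real.exp_sum,
        Finset.sum_neg_distrib, ← ENNReal.ofReal_mul (Real.exp_pos _).le, ← Real.exp_add]
      simp only [Pi.one_apply]
      rw [ENNReal.one_le_ofReal, Real.one_le_exp_iff]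
      simp only [mem_ofPred_eq] at h
      linarith
    · exact zero_le
  have hone : ∀ e ∈ S, ∫⁻ w, f e w ∂unif ≤ ENNReal.ofReal (Real.exp (-(3 / 5) * δ e)) := by
    intro e he
    obtain ⟨h0, h1⟩ := hδ e he
    have he1 : Real.exp (-1) ≤ 2 / 5 := by
      have := Real.exp_one_gt_d9
      rw [Real.exp_neg, inv_le_iff_one_le_mul₀ (Real.exp_pos _)]
      linarith
    rw [unif, ← restrict_Ioo_eq_restrict_Icc]
    rcases h0.lt_or_eq with hpos | hz
    · rw [setLIntegral_split hpos h1]
      have ea : ∫⁻ w in Ioo (0 : ℝ) (δ e), f e w = ENNReal.ofReal (Real.exp (-1) * δ e) := by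
        rw [setLIntegral_congr_fun measurableSet_Ioo
          (fun w hw => show f e w = ENNReal.ofReal (Real.exp (-1)) by simp [hf, hw.2])]
        rw [setLIntegral_const, Real.volume_Ioo, sub_zero, ← ENNReal.ofReal_mul (Real.exp_pos _).le]
      have eb : ∫⁻ w in Ioo (δ e) 1, f e w = ENNReal.ofReal (1 - δ e) := by
        rw [setLIntegral_congr_fun measurableSet_Ioo
          (fun w hw => show f e w = 1 by simp [hf, not_lt.2 hw.1.le])]
        rw [setLIntegral_const, Real.volume_Ioo, one_mul]
      rw [ea, eb, ← ENNReal.ofReal_add (by positivity) (by linarith)]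
      refine ENNReal.ofReal_le_ofReal ?_
      have := Real.add_one_le_exp (-(3 / 5) * δ e)
      nlinarith [mul_le_mul_of_nonneg_right he1 h0]
    · rw [← hz, setLIntegral_congr_fun measurableSet_Ioo
        (fun w hw => show f e w = 1 by simp [hf, ← hz, not_lt.2 hw.1.le])]
      simp
  calc law unif {W | ∑ e ∈ S, (if W e < δ e then (1 : ℝ) else 0) < μ / 2}
      = ∫⁻ W, ({W : Sym2 Pt → ℝ | ∑ e ∈ S, (if W e < δ e then (1 : ℝ) else 0) < μ / 2}).indicator
          1 W ∂law unif := by
        refine (lintegral_indicator_one ?_).symm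
        exact measurableSet_lt (Finset.measurable_sum S fun e _ =>
          Measurable.ite (measurableSet_lt (measurable_pi_apply e) measurable_const)
            measurable_const measurable_const) measurable_const
    _ ≤ ∫⁻ W, ENNReal.ofReal (Real.exp (μ / 2)) * ∏ e ∈ S, f e (W e) ∂law unif :=
        lintegral_mono hpt
    _ = ENNReal.ofReal (Real.exp (μ / 2)) * ∏ e ∈ S, ∫⁻ w, f e w ∂unif := by
        rw [lintegral_const_mul' _ _ ENNReal.ofReal_ne_top, law, lintegral_prod_coord unif S f hfm]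
    _ ≤ ENNReal.ofReal (Real.exp (μ / 2)) * ∏ e ∈ S, ENNReal.ofReal (Real.exp (-(3 / 5) * δ e)) :=
        mul_le_mul' le_rfl (Finset.prod_le_prod' hone)
    _ = ENNReal.ofReal (Real.exp (-μ / 10)) := by
        rw [← ENNReal.ofReal_prod_of_nonneg fun e _ => (Real.exp_pos _).le, ← Real.exp_sum,
          ← Finset.mul_sum, ← hμ, ← ENNReal.ofReal_mul (Real.exp_pos _).le, ← Real.exp_add]
        congr 2
        ring

theorem qf_pos {G : Measure ℝ} [IsProbabilityMeasure G] (hG : ∀ᵐ t ∂G, 0 < t) {v : ℝ}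
    (hv : v ∈ Ioo (0 : ℝ) 1) : 0 < qf G v := by
  by_contra h
  have h0 := (qf_le_iff hv 0).1 (not_lt.1 h)
  have : ProbabilityTheory.cdf G 0 = 0 := by
    rw [ProbabilityTheory.cdf_eq_real, measureReal_eq_zero_iff]
    refine measure_mono_null (fun t ht => ?_) hG
    simpa using ht
  linarith [hv.1]

/-- The tilt does not raise the weight of an edge, and lowers it by a fixed amount on the band. -/
theorem saving_bound {G : Measure ℝ} [IsProbabilityMeasure G] (hG : ∀ᵐ t ∂G, 0 < t)
    (hatom : ∀ x, G {x} = 0) {q δ : ℝ} (hq : q ∈ Ioo (0 : ℝ) (1 / 4)) (hδ : δ ∈ Icc (0 : ℝ) (1 / 2))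
    {x : ℝ × ℝ} (h1 : x.1 ∈ Ioo (0 : ℝ) 1) {a : ℝ} (ha : 0 ≤ a) (ha2 : 2 * q ≤ a ^ 2) :
    (if a ≤ x.1 ∧ x.2 < δ then qf G (2 * q) - qf G q else 0) ≤
      qf G x.1 - qf G (lower1 q δ x).1 := by
  obtain ⟨hq0, hq1⟩ := hq
  have hq2 : 0 < 1 - 2 * q := by linarith
  have mono : ∀ v, 0 ≤ v → ∀ w ∈ Ioo (0 : ℝ) 1, v ≤ w → qf G v ≤ qf G w := by
    intro v hv w hw hvw
    rcases hv.lt_or_eq with h | h
    · exact (strictMonoOn_qf hatom).monotoneOn ⟨h, hvw.trans_lt hw.2⟩ hw hvw
    · rw [← h, qf_of_notMem (fun hh => lt_irrefl _ hh.1) zero_ne_one]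
      exact (qf_pos hG hw).le
  have hu0 : 0 < x.1 ^ (1 + δ) := Real.rpow_pos_of_pos h1.1 _
  have hu1 : x.1 ^ (1 + δ) ≤ x.1 := Real.rpow_le_self_of_le_one h1.1.le h1.2.le (by linarith [hδ.1])
  set u := x.1 ^ (1 + δ) with hu
  have hfst : (lower1 q δ x).1 =
      if 2 * q ≤ u ∧ x.2 < δ then q * (u - 2 * q) / (1 - 2 * q) else u := by
    rw [lower1, bandDown_eq, ← hu]
    by_cases a' : 2 * q ≤ u <;> by_cases b : x.2 < δ <;> simp [a', b] <;> split_ifs <;> rfl
  by_cases hb : a ≤ x.1 ∧ x.2 < δ
  · have hqu : 2 * q ≤ u := by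
      calc 2 * q ≤ a ^ 2 := ha2
        _ ≤ x.1 ^ 2 := pow_le_pow_left₀ ha hb.1 2
        _ = x.1 ^ ((2 : ℕ) : ℝ) := (Real.rpow_natCast _ _).symm
        _ ≤ u := Real.rpow_le_rpow_of_exponent_ge h1.1 h1.2.le (by push_cast; linarith [hδ.2])
    rw [if_pos hb, hfst, if_pos ⟨hqu, hb.2⟩]
    have hv0 : 0 ≤ q * (u - 2 * q) / (1 - 2 * q) :=
      div_nonneg (mul_nonneg hq0.le (by linarith)) hq2.le
    have hvq : q * (u - 2 * q) / (1 - 2 * q) ≤ q := by
      rw [div_le_iff₀ hq2]
      exact mul_le_mul_of_nonneg_left (by linarith [h1.2]) hq0.le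
    have e1 := mono _ hv0 q ⟨hq0, by linarith⟩ hvq
    have e2 := mono (2 * q) (by linarith) x.1 h1 (hqu.trans hu1)
    linarith
  · rw [if_neg hb, sub_nonneg, hfst]
    split_ifs with h
    · refine mono _ (div_nonneg (mul_nonneg hq0.le (by linarith [h.1])) hq2.le) _ h1 ?_
      rw [div_le_iff₀ hq2]
      nlinarith [mul_le_mul_of_nonneg_left (show u - 2 * q ≤ 1 - 2 * q by linarith [h1.2]) hq0.le,
        mul_le_mul_of_nonneg_right (show q ≤ x.1 by linarith [h.1]) hq2.le]
    · exact mono _ hu0.le _ h1 hu1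

/-- A fraction of the edges of a path that is not cheap for the uniform marks has marks bounded
below. -/
theorem many_good {U : Sym2 Pt → ℝ} (hU : ∀ e, U e ≤ 1) {a c : ℝ} (ha : 0 ≤ a) (hac : 2 * a ≤ c)
    {v w : Pt} (p : grid.Walk v w) (hp : p.IsPath) (h : c * p.length < wt U p) :
    a * p.length ≤ ((p.edges.toFinset.filter fun e => a ≤ U e).card : ℝ) := by
  classical
  have hnd := hp.isTrail.edges_nodup
  have h1 : wt U p = ∑ e ∈ p.edges.toFinset, U e := (List.sum_toFinset U hnd).symm
  have h2 : ∑ e ∈ p.edges.toFinset, U e ≤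
      ((p.edges.toFinset.filter fun e => a ≤ U e).card : ℝ) + a * p.length := by
    calc ∑ e ∈ p.edges.toFinset, U e
        ≤ ∑ e ∈ p.edges.toFinset, ((if a ≤ U e then (1 : ℝ) else 0) + a) := by
          refine Finset.sum_le_sum fun e _ => ?_
          split_ifs with h'
          · linarith [hU e]
          · linarith [not_le.1 h']
      _ = _ := by
          rw [Finset.sum_add_distrib, Finset.sum_boole, Finset.sum_const, nsmul_eq_mul,
            List.toFinset_card_of_nodup hnd, SimpleGraph.Walk.length_edges]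
          ring
  have := mul_le_mul_of_nonneg_right hac (Nat.cast_nonneg (α := ℝ) p.length)
  linarith

/-- The first coordinates are typical in all annuli. -/
def Typical (c K r : ℝ) (S : ℕ) (u : Pt) (U : Sym2 Pt → ℝ) : Prop :=
  ∀ j < S, ∀ v ∈ boxPts K (2 ^ (j + 1) * r) u, U ∉ Cheap v ⌊2 ^ j * r / 4⌋₊ c

theorem prob_not_typical {c K r : ℝ}
    (hc : ∀ u n, law unif (Cheap u n c) ≤ ENNReal.ofReal (2 * (1 / 4) ^ n))
    (hK : 1 ≤ K) (hr : 2 ≤ r) (S : ℕ) (u : Pt) :
    law unif {U | ¬ Typical c K r S u U} ≤ ENNReal.ofReal (614400 * K / r) := by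
  classical
  have hsub : {U | ¬ Typical c K r S u U} ⊆ ⋃ j ∈ Finset.range S,
      ⋃ v ∈ boxPts K (2 ^ (j + 1) * r) u, Cheap v ⌊2 ^ j * r / 4⌋₊ c := by
    intro U hU
    simp only [Typical, not_forall, not_not, mem_ofPred_eq] at hU
    obtain ⟨j, hj, v, hv, h⟩ := hU
    exact Set.mem_biUnion (Finset.mem_range.2 hj) (Set.mem_biUnion hv h)
  refine (measure_mono hsub).trans ((measure_biUnion_finset_le _ _).trans ?_)
  have hterm : ∀ j : ℕ, law unif (⋃ v ∈ boxPts K (2 ^ (j + 1) * r) u,
      Cheap v ⌊2 ^ j * r / 4⌋₊ c) ≤ ENNReal.ofReal (307200 * K / r * (1 / 2) ^ j) := by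
    intro j
    refine (measure_biUnion_finset_le _ _).trans
      ((Finset.sum_le_sum fun v _ => hc v _).trans ?_)
    rw [Finset.sum_const, nsmul_eq_mul, ← ENNReal.ofReal_natCast, ← ENNReal.ofReal_mul (by positivity)]
    refine ENNReal.ofReal_le_ofReal ?_
    set x : ℝ := 2 ^ j * r / 4 with hx
    have hx0 : 0 < x := by positivity
    have hR : 1 ≤ 2 ^ (j + 1) * r :=
      one_le_mul_of_one_le_of_one_le (one_le_pow₀ (by norm_num)) (by linarith)
    have hR8 : 2 ^ (j + 1) * r = 8 * x := by rw [hx, pow_succ]; ring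
    have hexp : ((1 : ℝ) / 4) ^ ⌊x⌋₊ ≤ 4 * (6 / x ^ 3) := by
      have h1 : ((1 : ℝ) / 4) ^ ⌊x⌋₊ = Real.exp (-(⌊x⌋₊ * Real.log 4)) := by
        rw [Real.exp_neg, Real.exp_nat_mul, Real.exp_log (by norm_num), one_div, inv_pow]
      have h4 : 1 ≤ Real.log 4 := by
        rw [Real.le_log_iff_exp_le (by norm_num)]
        linarith [Real.exp_one_lt_d9]
      have h2 : -(⌊x⌋₊ * Real.log 4) ≤ 1 + -x := by
        have := Nat.lt_floor_add_one x
        have := le_mul_of_one_le_right (Nat.cast_nonneg (α := ℝ) ⌊x⌋₊) h4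
        linarith
      have h3 := Real.pow_div_factorial_le_exp x hx0.le 3
      rw [h1]
      calc Real.exp (-(⌊x⌋₊ * Real.log 4)) ≤ Real.exp (1 + -x) := Real.exp_le_exp.2 h2
        _ = Real.exp 1 * (Real.exp x)⁻¹ := by rw [Real.exp_add, Real.exp_neg]
        _ ≤ 4 * (6 / x ^ 3) := by
            refine mul_le_mul (by linarith [Real.exp_one_lt_d9]) ?_ (by positivity) (by norm_num)
            rw [show (6 : ℝ) / x ^ 3 = (x ^ 3 / (Nat.factorial 3 : ℕ))⁻¹ by
              rw [inv_div]; norm_num [Nat.factorial]]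
            exact inv_anti₀ (by positivity) h3
    calc ((boxPts K (2 ^ (j + 1) * r) u).card : ℝ) * (2 * (1 / 4) ^ ⌊x⌋₊)
        ≤ 25 * K * (2 ^ (j + 1) * r) ^ 2 * (2 * (4 * (6 / x ^ 3))) :=
          mul_le_mul (card_boxPts hK hR u) (mul_le_mul_of_nonneg_left hexp (by norm_num))
            (by positivity) (by positivity)
      _ = 76800 * K / x := by rw [hR8]; field_simp; ring
      _ = 307200 * K / r * (1 / 2) ^ j := by
          rw [hx, one_div, inv_pow]
          field_simp
          ring
      _ ≤ _ := le_rfl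
  refine (Finset.sum_le_sum fun j _ => hterm j).trans ?_
  rw [← ENNReal.ofReal_sum_of_nonneg fun j _ => by positivity]
  refine ENNReal.ofReal_le_ofReal ?_
  rw [← Finset.mul_sum]
  have hgeo : ∑ j ∈ Finset.range S, ((1 : ℝ) / 2) ^ j ≤ 2 := sum_geometric_two_le S
  calc _ ≤ 307200 * K / r * 2 := mul_le_mul_of_nonneg_left hgeo (by positivity)
    _ = 614400 * K / r := by ring

/-- The edges that may gain. -/
noncomputable def gainSet (a K r : ℝ) (S : ℕ) (u : Pt) (pick : (Sym2 Pt → ℝ) → List (Sym2 Pt))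
    (U : Sym2 Pt → ℝ) : Finset (Sym2 Pt) :=
  (pick U).toFinset.filter fun e => prof1 K r S u e ≠ 0 ∧ a ≤ U e

theorem le_sum_gainSet {a c K r : ℝ} (hK : 1 ≤ K) (hr : 2 ≤ r) {S : ℕ} (hS : 1 ≤ S) (ha : 0 ≤ a)
    (hac : 2 * a ≤ c) {u : Pt} {pick : (Sym2 Pt → ℝ) → List (Sym2 Pt)} {U : Sym2 Pt → ℝ}
    (hU : ∀ e, U e ≤ 1) (hT : Typical c K r S u U)
    (hp : ∀ j : ℕ, j < S → ∃ (v z : Pt) (p : grid.Walk v z), p.IsPath ∧ p.edges <:+: pick U ∧
      (2 : ℝ) ^ j * r / 4 ≤ p.length ∧
      ∀ e ∈ p.edges, 2 ^ j * r < edgeN K r u e ∧ edgeN K r u e ≤ 2 ^ (j + 1) * r) :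
    a * Real.sqrt S / 8 ≤ ∑ e ∈ gainSet a K r S u pick U, prof1 K r S u e := by
  classical
  choose! v z p hpath hinf hlen hann using hp
  set A : ℕ → Finset (Sym2 Pt) := fun j => (p j).edges.toFinset.filter fun e => a ≤ U e
  have hS0 : (0 : ℝ) < Real.sqrt S := Real.sqrt_pos.2 (by exact_mod_cast hS)
  have hprof : ∀ j < S, ∀ e ∈ (p j).edges,
      prof1 K r S u e = 1 / (Real.sqrt S * edgeN K r u e) := by
    intro j hj e he
    have hg : e ∈ grid.edgeSet := (p j).edges_subset_edgeSet he
    have hle : edgeN K r u e ≤ 2 ^ S * r := (hann j hj e he).2.trans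
      (mul_le_mul_of_nonneg_right (pow_le_pow_right₀ (by norm_num) hj) (by linarith))
    unfold prof1
    rw [if_pos ⟨hg, hle⟩]
  have hdisj : (Finset.range S : Set ℕ).PairwiseDisjoint A := by
    intro i hi j hj hij
    rw [Finset.coe_range, mem_Iio] at hi hj
    refine Finset.disjoint_left.2 fun e he he' => ?_
    simp only [A, Finset.mem_filter, List.mem_toFinset] at he he'
    have h1 := hann i hi e he.1
    have h2 := hann j hj e he'.1
    rcases lt_or_gt_of_ne hij with h | h
    · have := mul_le_mul_of_nonneg_right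
        (pow_le_pow_right₀ (one_le_two : (1 : ℝ) ≤ 2) (show i + 1 ≤ j from h)) (show 0 ≤ r by linarith)
      linarith [h1.2, h2.1]
    · have := mul_le_mul_of_nonneg_right
        (pow_le_pow_right₀ (one_le_two : (1 : ℝ) ≤ 2) (show j + 1 ≤ i from h)) (show 0 ≤ r by linarith)
      linarith [h2.2, h1.1]
  have hsub : (Finset.range S).biUnion A ⊆ gainSet a K r S u pick U := by
    intro e he
    simp only [Finset.mem_biUnion, Finset.mem_range, A, Finset.mem_filter, List.mem_toFinset] at he
    obtain ⟨j, hj, he, hae⟩ := he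
    simp only [gainSet, Finset.mem_filter, List.mem_toFinset]
    refine ⟨(hinf j hj).subset he, ?_, hae⟩
    rw [hprof j hj e he]
    have : 0 < edgeN K r u e := lt_of_lt_of_le (by linarith) (le_edgeN K r u e)
    positivity
  refine le_trans ?_ (Finset.sum_le_sum_of_subset_of_nonneg hsub
    fun e _ _ => prof1_nonneg (by linarith) u e)
  rw [Finset.sum_biUnion hdisj]
  calc a * Real.sqrt S / 8 = ∑ _j ∈ Finset.range S, a / (8 * Real.sqrt S) := by
        rw [Finset.sum_const, Finset.card_range, nsmul_eq_mul]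
        field_simp
        rw [Real.sq_sqrt (Nat.cast_nonneg (α := ℝ) S)]
    _ ≤ _ := Finset.sum_le_sum fun j hj => by
        rw [Finset.mem_range] at hj
        set R : ℝ := 2 ^ (j + 1) * r with hR
        have hR0 : 0 < R := by positivity
        have hnil : ¬ (p j).Nil := by
          intro h
          have h' := hlen j hj
          rw [SimpleGraph.Walk.length_eq_zero_iff.2 h] at h'
          have : 0 < 2 ^ j * r / 4 := by positivity
          simp only [Nat.cast_zero] at h'
          linarith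
        have hv : v j ∈ boxPts K R u := by
          have := (hann j hj _ (SimpleGraph.Walk.mk_start_snd_mem_edges hnil)).2
          exact mem_boxPts_of_le hK ((le_max_left _ _).trans this)
        have hnc := not_cheap (hT j hj (v j) hv) (p j) (hpath j hj) (Nat.floor_le_of_le (hlen j hj))
        have hmg := many_good hU ha hac (p j) (hpath j hj) hnc
        calc a / (8 * Real.sqrt S) ≤ (A j).card * (1 / (Real.sqrt S * R)) := by
              have h1 : a * (2 ^ j * r / 4) ≤ (A j).card :=
                (mul_le_mul_of_nonneg_left (hlen j hj) ha).trans hmg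
              refine le_trans (le_of_eq ?_) (mul_le_mul_of_nonneg_right h1 (by positivity))
              rw [hR, pow_succ]
              field_simp
              ring
          _ ≤ ∑ e ∈ A j, prof1 K r S u e := by
              rw [← nsmul_eq_mul, ← Finset.sum_const]
              refine Finset.sum_le_sum fun e he => ?_
              simp only [A, Finset.mem_filter, List.mem_toFinset] at he
              rw [hprof j hj e he.1]
              have hN : 0 < edgeN K r u e := lt_of_lt_of_le (by linarith) (le_edgeN K r u e)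
              exact one_div_le_one_div_of_le (mul_pos hS0 hN)
                (mul_le_mul_of_nonneg_left (hann j hj e he.1).2 hS0.le)

/-- The gain of a chosen path. -/
theorem tiltGainStmt {G : Measure ℝ} [IsProbabilityMeasure G] (hatom : ∀ x, G {x} = 0) :
    TiltGainStmt G := by
  classical
  intro hG
  obtain ⟨c₀, hc₀, hcheap⟩ := exists_cheap_rate unif (ae_unif.mono fun t ht => ht.1)
  set a := min (c₀ / 2) (1 / 2) with ha
  have ha0 : 0 < a := lt_min (half_pos hc₀) one_half_pos
  have hac : 2 * a ≤ c₀ := by linarith [min_le_left (c₀ / 2) (1 / 2)]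
  set q := min (1 / 8) (a ^ 2 / 2) with hqdef
  have hq : q ∈ Ioo (0 : ℝ) (1 / 4) :=
    ⟨lt_min (by norm_num) (by positivity),
      (min_le_left _ _).trans_lt (by norm_num)⟩
  have hqa : 2 * q ≤ a ^ 2 := by linarith [min_le_right (1 / 8) (a ^ 2 / 2)]
  set g₀ := qf G (2 * q) - qf G q with hg
  have hg0 : 0 < g₀ := sub_pos.2 (strictMonoOn_qf hatom ⟨hq.1, by linarith [hq.2]⟩
    ⟨by linarith [hq.1], by linarith [hq.2]⟩ (by linarith [hq.1]))
  refine ⟨q, hq, fun K hK => ⟨g₀ * a / 16, by positivity, fun ε hε => ?_⟩⟩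
  refine ⟨max 2 (1228800 * K / ε), fun r hr => ?_⟩
  have hr2 : 2 ≤ r := (le_max_left _ _).trans hr
  have hrε : 614400 * K / r ≤ ε / 2 := by
    have h := (div_le_iff₀ hε).1 ((le_max_right _ _).trans hr)
    rw [div_le_iff₀ (by linarith)]
    linarith
  obtain ⟨S₀, hS₀⟩ := Filter.eventually_atTop.1 (((Real.tendsto_exp_neg_atTop_nhds_zero.comp
    ((Real.tendsto_sqrt_atTop.comp tendsto_natCast_atTop_atTop).const_mul_atTop
      (show 0 < a / 80 by positivity))).eventually (gt_mem_nhds (half_pos hε))).and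
    (Filter.eventually_ge_atTop 1))
  refine ⟨S₀, fun S hS u pick hpick => ?_⟩
  obtain ⟨hexp, hS1⟩ := hS₀ S hS
  simp only [Function.comp_apply] at hexp
  set δ := prof1 K r S u with hδdef
  have hδ : ∀ e, δ e ∈ Icc (0 : ℝ) (1 / 2) := fun e =>
    ⟨prof1_nonneg (by linarith) u e, prof1_le_half hr2 hS1 u e⟩
  set low := a * Real.sqrt S / 8 with hlow
  set A := gainSet a K r S u pick with hA
  set Bad : Set ((Sym2 Pt → ℝ) × (Sym2 Pt → ℝ)) := {x | low ≤ ∑ e ∈ A x.1, δ e ∧
    ∑ e ∈ A x.1, (if x.2 e < δ e then (1 : ℝ) else 0) < (∑ e ∈ A x.1, δ e) / 2} with hBad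
  have hAm : ∀ T, MeasurableSet {U | A U = T} := by
    intro T
    have h : {U | A U = T} = ⋃ l : List (Sym2 Pt), {U | pick U = l} ∩
        {U | l.toFinset.filter (fun e => δ e ≠ 0 ∧ a ≤ U e) = T} := by
      ext U
      simp only [hA, gainSet, hδdef, mem_iUnion, mem_inter_iff, mem_ofPred_eq]
      exact ⟨fun h => ⟨pick U, rfl, h⟩, fun ⟨l, hl, h⟩ => by rw [hl]; exact h⟩
    rw [h]
    refine MeasurableSet.iUnion fun l => (hpick l).inter ?_
    have h2 : {U : Sym2 Pt → ℝ | l.toFinset.filter (fun e => δ e ≠ 0 ∧ a ≤ U e) = T} =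
        {U | T ⊆ l.toFinset} ∩ ⋂ e ∈ l.toFinset, {U | (δ e ≠ 0 ∧ a ≤ U e) ↔ e ∈ T} := by
      ext U
      simp only [mem_inter_iff, mem_iInter, mem_ofPred_eq]
      constructor
      · rintro rfl
        exact ⟨Finset.filter_subset _ _, fun e he => by simp [he]⟩
      · rintro ⟨h1, h2⟩
        ext e
        simp only [Finset.mem_filter]
        exact ⟨fun ⟨he, h⟩ => (h2 e he).1 h, fun he => ⟨h1 he, (h2 e (h1 he)).2 he⟩⟩
    rw [h2]
    refine (MeasurableSet.const _).inter (Finset.measurableSet_biInter _ fun e _ => ?_)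
    exact ((MeasurableSet.const _).inter
      (measurableSet_le measurable_const (measurable_pi_apply e))).iff (MeasurableSet.const _)
  have hBadm : MeasurableSet Bad := by
    have h : Bad = ⋃ T : Finset (Sym2 Pt), {U | A U = T} ×ˢ {W : Sym2 Pt → ℝ | low ≤ ∑ e ∈ T, δ e ∧
        ∑ e ∈ T, (if W e < δ e then (1 : ℝ) else 0) < (∑ e ∈ T, δ e) / 2} := by
      ext x
      simp only [hBad, mem_iUnion, mem_prod, mem_ofPred_eq]
      exact ⟨fun h => ⟨A x.1, rfl, h⟩, fun ⟨T, hT, h⟩ => by rw [hT]; exact h⟩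
    rw [h]
    have hW : ∀ T : Finset (Sym2 Pt), MeasurableSet {W : Sym2 Pt → ℝ |
        ∑ e ∈ T, (if W e < δ e then (1 : ℝ) else 0) < (∑ e ∈ T, δ e) / 2} := fun T =>
      measurableSet_lt (Finset.measurable_sum T fun e _ =>
        Measurable.ite (measurableSet_lt (measurable_pi_apply e) measurable_const)
          measurable_const measurable_const) measurable_const
    exact MeasurableSet.iUnion fun T => (hAm T).prod ((MeasurableSet.const _).inter (hW T))
  have hBadP : (law unif).prod (law unif) Bad ≤ ENNReal.ofReal (ε / 2) := by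
    rw [Measure.prod_apply hBadm]
    refine (lintegral_mono (g := fun _ => ENNReal.ofReal (ε / 2)) fun U => ?_).trans (by simp)
    by_cases h : low ≤ ∑ e ∈ A U, δ e
    · refine (measure_mono (t := {W : Sym2 Pt → ℝ | ∑ e ∈ A U, (if W e < δ e then (1 : ℝ) else 0) <
        (∑ e ∈ A U, δ e) / 2}) fun W hW => hW.2).trans ((few_marks fun e _ =>
        ⟨(hδ e).1, (hδ e).2.trans (by norm_num)⟩).trans (ENNReal.ofReal_le_ofReal ?_))
      refine le_trans (Real.exp_le_exp.2 ?_) hexp.le
      rw [hlow] at h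
      linarith
    · have : Prod.mk U ⁻¹' Bad = (∅ : Set (Sym2 Pt → ℝ)) :=
        Set.eq_empty_of_forall_notMem fun W hW => h hW.1
      simp [this]
  set T' := toMeasurable (law unif) {U | ¬ Typical c₀ K r S u U}
  have hT'm : MeasurableSet T' := measurableSet_toMeasurable _ _
  have hT'P : law unif T' ≤ ENNReal.ofReal (ε / 2) := by
    rw [measure_toMeasurable]
    exact (prob_not_typical hcheap hK hr2 S u).trans (ENNReal.ofReal_le_ofReal hrε)
  set split : Marks → (Sym2 Pt → ℝ) × (Sym2 Pt → ℝ) := fun s =>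
    (fun e => (s e).1, fun e => (s e).2) with hsplit
  have hsm : Measurable split := by
    rw [hsplit]
    exact (measurable_pi_lambda _ fun e => (measurable_pi_apply e).fst).prodMk
      (measurable_pi_lambda _ fun e => (measurable_pi_apply e).snd)
  have hmap : markLaw.map split = (law unif).prod (law unif) := by
    rw [← map_join, Measure.map_map hsm measurable_join]
    exact Measure.map_id
  refine le_trans (measure_mono_ae ?_) (le_trans (measure_union_le
    (split ⁻¹' (T' ×ˢ univ)) (split ⁻¹' Bad)) ?_)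
  · filter_upwards [ae_marks] with s hs hmem
    obtain ⟨hnd, hpieces, hsum⟩ := hmem
    by_cases hT : Typical c₀ K r S u fun e => (s e).1
    · refine Or.inr ?_
      have hlo := le_sum_gainSet hK hr2 hS1 ha0.le hac (fun e => (hs e).1.2.le) hT hpieces
      refine ⟨hlo, ?_⟩
      change ∑ e ∈ A (fun e => (s e).1), (if (s e).2 < δ e then (1 : ℝ) else 0) <
        (∑ e ∈ A (fun e => (s e).1), δ e) / 2
      by_contra hge
      rw [not_lt] at hge
      set l := pick fun e => (s e).1 with hl
      have hsv : ∀ e, (if a ≤ (s e).1 ∧ (s e).2 < δ e then g₀ else 0) ≤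
          saving G q K r S u s e := fun e => by
        unfold saving lower'
        rw [prof_singleton (by linarith) u e]
        exact saving_bound hG hatom hq (hδ e) (hs e).1 ha0.le hqa
      have h1 : g₀ * ∑ e ∈ A (fun e => (s e).1), (if (s e).2 < δ e then (1 : ℝ) else 0) ≤
          (l.map (saving G q K r S u s)).sum := by
        rw [← List.sum_toFinset (saving G q K r S u s) hnd, Finset.mul_sum]
        calc ∑ e ∈ A (fun e => (s e).1), g₀ * (if (s e).2 < δ e then (1 : ℝ) else 0)
            ≤ ∑ e ∈ A (fun e => (s e).1), saving G q K r S u s e := by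
              refine Finset.sum_le_sum fun e he => le_trans (le_of_eq ?_) (hsv e)
              simp only [hA, gainSet, Finset.mem_filter] at he
              simp [he.2.2]
          _ ≤ ∑ e ∈ l.toFinset, saving G q K r S u s e :=
              Finset.sum_le_sum_of_subset_of_nonneg (Finset.filter_subset _ _) fun e _ _ =>
                le_trans (by split_ifs <;> linarith) (hsv e)
      have h2 := mul_le_mul_of_nonneg_left (le_trans (div_le_div_of_nonneg_right hlo two_pos.le) hge) hg0.le
      linarith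
    · exact Or.inl ⟨subset_toMeasurable _ _ hT, mem_univ _⟩
  · rw [← Measure.map_apply hsm (hT'm.prod MeasurableSet.univ), ← Measure.map_apply hsm hBadm,
      hmap, Measure.prod_prod, measure_univ, mul_one]
    refine (add_le_add hT'P hBadP).trans (le_of_eq ?_)
    rw [← ENNReal.ofReal_add (by positivity) (by positivity), add_halves]

end Vale.Agent.P158.V4
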