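import Mathlib

/-!
P158: the Efron–Stein inequality for bounded functions of finitely many independent coordinates.
-/

namespace Vale.Agent.P158.V4

open MeasureTheory

variable {Ω : Type*} [MeasurableSpace Ω] (ν : Measure Ω) [IsProbabilityMeasure ν]

theorem integrable_bdd {α : Type*} [MeasurableSpace α] {μ : Measure α} [IsFiniteMeasure μ] {f : α → ℝ}
    (hf : Measurable f) {B : ℝ} (hB : ∀ x, |f x| ≤ B) : Integrable f μ :=
  Integrable.of_bound hf.aestronglyMeasurable B (ae_of_all _ fun x => by simpa using hB x)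

theorem sq_integral_le {α : Type*} [MeasurableSpace α] {μ : Measure α} [IsProbabilityMeasure μ]
    {h : α → ℝ} (h1 : Integrable h μ) (h2 : Integrable (fun x => h x ^ 2) μ) :
    (∫ x, h x ∂μ) ^ 2 ≤ ∫ x, h x ^ 2 ∂μ := by
  set c := ∫ x, h x ∂μ
  have h3 : 0 ≤ ∫ x, (h x ^ 2 - 2 * c * h x + c ^ 2) ∂μ :=
    integral_nonneg fun x => by
      simp only [Pi.zero_apply]
      nlinarith [sq_nonneg (h x - c)]
  rw [integral_add (h2.sub' (h1.const_mul _)) (integrable_const _),
    integral_sub h2 (h1.const_mul _), integral_const_mul] at h3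
  simp only [integral_const, probReal_univ, one_smul] at h3
  nlinarith [h3]

theorem var_le_sum : ∀ (k : ℕ) (f : (Fin k → Ω) → ℝ) (g : Fin k → (Fin k → Ω) → ℝ) (B : ℝ),
    Measurable f → (∀ i, Measurable (g i)) → (∀ x, |f x| ≤ B) → (∀ i x, |g i x| ≤ B) →
    (∀ i x a, g i (Function.update x i a) = g i x) →
    ∫ x, f x ^ 2 ∂Measure.pi (fun _ => ν) - (∫ x, f x ∂Measure.pi (fun _ => ν)) ^ 2 ≤
      ∑ i, ∫ x, (f x - g i x) ^ 2 ∂Measure.pi (fun _ => ν)
  | 0, f, g, B, _, _, _, _, _ => by
    obtain ⟨c, hc⟩ : ∃ c, f = fun _ => c :=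
      ⟨f (fun i => Fin.elim0 i), funext fun x => congrArg f (Subsingleton.elim _ _)⟩
    rw [hc]
    simp
  | k + 1, f, g, B, hf, hg, hfB, hgB, hgi => by
    set P := Measure.pi (fun _ : Fin k => ν)
    have mp := (measurePreserving_piFinSuccAbove (fun _ : Fin (k + 1) => ν) 0).symm
    have hm : Measurable fun p : Ω × (Fin k → Ω) => (Fin.cons p.1 p.2 : Fin (k + 1) → Ω) := by
      refine measurable_pi_iff.2 fun i => ?_
      refine Fin.cases ?_ ?_ i
      · simpa using measurable_fst
      · intro j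
        simp only [Fin.cons_succ]
        exact (measurable_pi_apply j).comp measurable_snd
    have sq : ∀ {h : (Fin (k + 1) → Ω) → ℝ} {C : ℝ}, (∀ x, |h x| ≤ C) → ∀ x, |h x ^ 2| ≤ C ^ 2 :=
      fun hC x => by rw [abs_pow]; exact pow_le_pow_left₀ (abs_nonneg _) (hC x) 2
    have tr : ∀ (u : (Fin (k + 1) → Ω) → ℝ) (C : ℝ), Measurable u → (∀ x, |u x| ≤ C) →
        Integrable (fun p : Ω × (Fin k → Ω) => u (Fin.cons p.1 p.2)) (ν.prod P) ∧
        ∫ x, u x ∂Measure.pi (fun _ => ν) = ∫ y, ∫ x, u (Fin.cons x y) ∂ν ∂P := fun u C hu hC => by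
      have hi := integrable_bdd (μ := ν.prod P) (f := fun p => u (Fin.cons p.1 p.2)) (hu.comp hm)
        fun p => hC _
      refine ⟨hi, ?_⟩
      rw [← mp.map_eq, integral_map_equiv]
      have hcons : ∀ p : Ω × (Fin k → Ω),
          (MeasurableEquiv.piFinSuccAbove (fun _ : Fin (k + 1) => Ω) 0).symm p = Fin.cons p.1 p.2 :=
        fun p => by simp [Fin.insertNth_zero', Fin.consEquiv]
      simp only [hcons]
      exact integral_prod_symm _ hi
    have B0 : ∀ {h : (Fin (k + 1) → Ω) → ℝ}, (∀ x, |h x| ≤ B) → ∀ y,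
        |∫ x, h (Fin.cons x y) ∂ν| ≤ B := fun hh y => by
      refine abs_integral_le_integral_abs.trans ?_
      refine (integral_mono_of_nonneg (ae_of_all _ fun x => abs_nonneg _) (integrable_const B)
        (ae_of_all _ fun x => hh _)).trans_eq (by simp)
    have M : ∀ {h : (Fin (k + 1) → Ω) → ℝ}, Measurable h →
        Measurable fun y : Fin k → Ω => ∫ x, h (Fin.cons x y) ∂ν := fun hh =>
      ((hh.comp hm).stronglyMeasurable.integral_prod_left' (μ := ν)).measurable
    set F : (Fin k → Ω) → ℝ := fun y => ∫ x, f (Fin.cons x y) ∂ν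
    set H : Fin k → (Fin k → Ω) → ℝ := fun i y => ∫ x, g i.succ (Fin.cons x y) ∂ν
    have ih := var_le_sum k F H B (M hf) (fun i => M (hg _)) (B0 hfB) (fun i => B0 (hgB _))
      (fun i y a => by
        simp only [H]
        refine integral_congr_ae (ae_of_all _ fun x => ?_)
        dsimp only
        rw [Fin.cons_update, hgi])
    obtain ⟨j1, e1⟩ := tr f B hf hfB
    obtain ⟨j2, e2⟩ := tr _ _ (hf.pow_const 2) (sq hfB)
    have hdB : ∀ i x, |f x - g i x| ≤ 2 * B := fun i x =>
      (abs_sub _ _).trans (by linarith [hfB x, hgB i x])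
    have D := fun i => tr (fun x => (f x - g i x) ^ 2) _ ((hf.sub (hg i)).pow_const 2) (sq (hdB i))
    have slice : ∀ {h : (Fin (k + 1) → Ω) → ℝ} {C : ℝ}, Measurable h → (∀ x, |h x| ≤ C) → ∀ y,
        Integrable (fun x => h (Fin.cons x y)) ν := fun hh hC y =>
      integrable_bdd (hh.comp (hm.comp (measurable_id.prodMk measurable_const))) fun x => hC _
    have first : ∀ y, ∫ x, f (Fin.cons x y) ^ 2 ∂ν - F y ^ 2 ≤
        ∫ x, (f (Fin.cons x y) - g 0 (Fin.cons x y)) ^ 2 ∂ν := fun y => by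
      obtain ⟨z⟩ := nonempty_of_isProbabilityMeasure ν
      have hc : ∀ x, g 0 (Fin.cons x y) = g 0 (Fin.cons z y) := fun x => by
        exact (congrArg (g 0) (Fin.update_cons_zero z y x).symm).trans (hgi 0 _ x)
      set a := g 0 (Fin.cons z y)
      have i2 := slice (hf.pow_const 2) (sq hfB) y
      have i1 := slice hf hfB y
      have e : ∫ x, (f (Fin.cons x y) - g 0 (Fin.cons x y)) ^ 2 ∂ν =
          ∫ x, f (Fin.cons x y) ^ 2 ∂ν - 2 * a * F y + a ^ 2 := by
        have : (fun x => (f (Fin.cons x y) - g 0 (Fin.cons x y)) ^ 2) =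
            fun x => f (Fin.cons x y) ^ 2 - 2 * a * f (Fin.cons x y) + a ^ 2 := by
          funext x; rw [hc x]; ring
        rw [this, integral_add (i2.sub' (i1.const_mul _)) (integrable_const _),
          integral_sub i2 (i1.const_mul _), integral_const_mul]
        simp [F]
      rw [e]
      nlinarith [sq_nonneg (F y - a)]
    have rest : ∀ i y, (F y - H i y) ^ 2 ≤
        ∫ x, (f (Fin.cons x y) - g i.succ (Fin.cons x y)) ^ 2 ∂ν := fun i y => by
      simp only [F, H]
      rw [← integral_sub (slice hf hfB y) (slice (hg _) (hgB _) y)]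
      exact sq_integral_le ((slice hf hfB y).sub' (slice (hg _) (hgB _) y))
        (slice ((hf.sub (hg _)).pow_const 2) (sq (hdB _)) y)
    have iF : Integrable (fun y => F y ^ 2) P :=
      integrable_bdd ((M hf).pow_const 2) fun y => by
        rw [abs_pow]; exact pow_le_pow_left₀ (abs_nonneg _) (B0 hfB y) 2
    have o1 := integral_mono (j2.integral_prod_right.sub' iF) (D 0).1.integral_prod_right first
    rw [integral_sub j2.integral_prod_right iF] at o1
    have o2 : ∀ i, ∫ y, (F y - H i y) ^ 2 ∂P ≤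
        ∫ x, (f x - g i.succ x) ^ 2 ∂Measure.pi (fun _ => ν) := fun i => by
      rw [(D i.succ).2]
      refine integral_mono (integrable_bdd (((M hf).sub (M (hg _))).pow_const 2) (B := (2 * B) ^ 2)
        fun y => ?_) (D i.succ).1.integral_prod_right (rest i)
      rw [abs_pow]
      refine pow_le_pow_left₀ (abs_nonneg _) ((abs_sub _ _).trans ?_) 2
      linarith [B0 hfB y, B0 (hgB i.succ) y]
    rw [e1, e2, Fin.sum_univ_succ, (D 0).2]
    linarith [Finset.sum_le_sum fun i (_ : i ∈ Finset.univ) => o2 i]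

end Vale.Agent.P158.V4
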