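import Vale.Agent.P158.V4.Trails
import Vale.Agent.P158.V4.Variance

/-!
P158: lower deviations of passage times for bounded weights (Efron–Stein on short paths).
-/

namespace Vale.Agent.P158.V4

open MeasureTheory

/-- The edge lists of self-avoiding paths from `u` to `v` with at most `M` steps. -/
def shortLists (M : ℕ) (u v : ℤ × ℤ) : Set (List (Sym2 (ℤ × ℤ))) :=
  {l | ∃ p : grid.Walk u v, p.IsPath ∧ p.length ≤ M ∧ p.edges = l}

theorem shortLists_finite (M : ℕ) (u v : ℤ × ℤ) : (shortLists M u v).Finite := by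
  refine ((List.finite_length_le (Fin 4) M).image fun ds => trail ds u).subset ?_
  rintro l ⟨p, -, hM, rfl⟩
  obtain ⟨ds, h1, h2⟩ := walk_trail p
  exact ⟨ds, by simp [h1, hM], h2⟩

theorem shortLists_nonempty {M : ℕ} {u v : ℤ × ℤ} (h : l1 u v ≤ M) :
    (shortLists_finite M u v).toFinset.Nonempty := by
  obtain ⟨p, hp⟩ := exists_short u v
  exact ⟨p.bypass.edges, by
    simp only [Set.Finite.mem_toFinset]
    exact ⟨p.bypass, p.bypass_isPath, (p.length_bypass_le).trans (hp ▸ h), rfl⟩⟩

/-- Clamping to `[0, b]`. -/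
def clamp (b x : ℝ) : ℝ := max 0 (min b x)

theorem clamp_mem {b : ℝ} (hb : 0 ≤ b) (x : ℝ) : 0 ≤ clamp b x ∧ clamp b x ≤ b :=
  ⟨le_max_left _ _, max_le hb (min_le_left _ _)⟩

theorem clamp_of_mem {b x : ℝ} (h0 : 0 ≤ x) (hb : x ≤ b) : clamp b x = x := by
  simp [clamp, min_eq_right hb, max_eq_right h0]

/-- The least weight of a short path, with weights clamped to `[0, b]`. -/
noncomputable def tshort (b : ℝ) {M : ℕ} {u v : ℤ × ℤ} (h : l1 u v ≤ M) (ω : Sym2 (ℤ × ℤ) → ℝ) : ℝ :=
  (shortLists_finite M u v).toFinset.inf' (shortLists_nonempty h) fun l => (l.map fun e => clamp b (ω e)).sum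

theorem sum_change {α : Type*} [DecidableEq α] {x y : α → ℝ} {a : α} {b : ℝ} (hy : y a ≤ x a + b) (hb : 0 ≤ b)
    (he : ∀ c, c ≠ a → y c = x c) :
    ∀ l : List α, l.Nodup → (l.map y).sum ≤ (l.map x).sum + (if a ∈ l then b else 0) := by
  intro l hl
  induction l with
  | nil => simp
  | cons c l ih =>
    obtain ⟨hc, hl'⟩ := List.nodup_cons.1 hl
    have := ih hl'
    simp only [List.map_cons, List.sum_cons, List.mem_cons]
    rcases eq_or_ne c a with rfl | hca
    · rw [if_neg hc] at this
      rw [if_pos (Or.inl rfl)]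
      linarith
    · rw [he c hca]
      simp only [hca.symm, false_or]
      linarith

variable (G : Measure ℝ) [IsProbabilityMeasure G] {b : ℝ} {M : ℕ} {u v : ℤ × ℤ}

theorem tshort_bounds (hb : 0 ≤ b) (h : l1 u v ≤ M) (ω : Sym2 (ℤ × ℤ) → ℝ) :
    0 ≤ tshort b h ω ∧ tshort b h ω ≤ M * b := by
  refine ⟨Finset.le_inf' _ _ fun l _ => List.sum_nonneg fun x hx => ?_, ?_⟩
  · obtain ⟨e, _, rfl⟩ := List.mem_map.1 hx
    exact (clamp_mem hb _).1
  · obtain ⟨l, hl⟩ := shortLists_nonempty h
    refine (Finset.inf'_le _ hl).trans ?_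
    simp only [Set.Finite.mem_toFinset] at hl
    obtain ⟨p, -, hM, rfl⟩ := hl
    refine (List.sum_le_card_nsmul _ b fun x hx => ?_).trans ?_
    · obtain ⟨e, _, rfl⟩ := List.mem_map.1 hx
      exact (clamp_mem hb _).2
    · simp only [List.length_map, SimpleGraph.Walk.length_edges, nsmul_eq_mul]
      exact mul_le_mul_of_nonneg_right (by exact_mod_cast hM) hb

theorem measurable_tshort (b : ℝ) (h : l1 u v ≤ M) : Measurable (tshort b h) := by
  have hs : ∀ l : List (Sym2 (ℤ × ℤ)),
      Measurable fun ω : Sym2 (ℤ × ℤ) → ℝ => (l.map fun e => clamp b (ω e)).sum := by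
    intro l
    induction l with
    | nil => simp
    | cons e l ih =>
      simp only [List.map_cons, List.sum_cons]
      refine Measurable.add ?_ ih
      unfold clamp
      fun_prop
  have : tshort b h = (shortLists_finite M u v).toFinset.inf' (shortLists_nonempty h)
      fun l ω => (l.map fun e => clamp b (ω e)).sum := by
    funext ω; simp [tshort, Finset.inf'_apply]
  rw [this]
  exact Finset.inf'_induction _ _ (fun _ h1 _ h2 => h1.inf h2) fun l _ => hs l

/-- Efron–Stein for short paths: the variance is at most `b ^ 2 * M`. -/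
theorem var_tshort (hb : 0 ≤ b) (h : l1 u v ≤ M) :
    ∫ ω, tshort b h ω ^ 2 ∂law G - (∫ ω, tshort b h ω ∂law G) ^ 2 ≤ b ^ 2 * M := by
  classical
  set S := (shortLists_finite M u v).toFinset with hS
  set E := S.biUnion List.toFinset
  set emb : Fin E.card → Sym2 (ℤ × ℤ) := fun i => (E.equivFin.symm i : Sym2 (ℤ × ℤ)) with hemb
  have einj : Function.Injective emb := Subtype.coe_injective.comp (Equiv.injective _)
  have hex : ∀ e ∈ E, ∃ i, emb i = e := fun e he => ⟨E.equivFin ⟨e, he⟩, by simp [hemb]⟩
  set ext : (Fin E.card → ℝ) → Sym2 (ℤ × ℤ) → ℝ := fun x => Function.extend emb x fun _ => 0 with hext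
  set f : (Fin E.card → ℝ) → ℝ := fun x => tshort b h (ext x) with hf
  have hmext : Measurable ext := measurable_pi_iff.2 fun e => by
    by_cases he : ∃ i, emb i = e
    · obtain ⟨i, rfl⟩ := he
      simp only [hext, einj.extend_apply]
      exact measurable_pi_apply i
    · simp only [hext, Function.extend_apply' _ _ _ he]
      exact measurable_const
  have hdep : ∀ ω, tshort b h ω = f (ω ∘ emb) := by
    intro ω
    refine Finset.inf'_congr _ rfl fun l hl => ?_
    congr 1
    refine List.map_congr_left fun e he => ?_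
    obtain ⟨i, rfl⟩ := hex e (Finset.mem_biUnion.2 ⟨l, hl, List.mem_toFinset.2 he⟩)
    simp [hext, einj.extend_apply]
  have hmap : (law G).map (fun ω => ω ∘ emb) = Measure.pi (fun _ : Fin E.card => G) := by
    rw [law, map_comp_injective G emb einj, Measure.infinitePi_eq_pi]
  have hfm : Measurable f := (measurable_tshort b h).comp hmext
  have hB : ∀ x, |f x| ≤ M * b := fun x => abs_le.2
    ⟨by linarith [(tshort_bounds hb h (ext x)).1, mul_nonneg (Nat.cast_nonneg M : (0 : ℝ) ≤ M) hb],
      (tshort_bounds hb h _).2⟩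
  have hgm : ∀ i, Measurable fun x : Fin E.card → ℝ => f (Function.update x i b) :=
    fun i => hfm.comp measurable_update_left
  have es := var_le_sum G E.card f (fun i x => f (Function.update x i b)) (M * b) hfm hgm hB
    (fun i x => hB _) (fun i x a => by simp)
  have hpt : ∀ x, ∑ i, (f x - f (Function.update x i b)) ^ 2 ≤ b ^ 2 * M := by
    intro x
    obtain ⟨l, hl, hle⟩ := Finset.exists_mem_eq_inf' (shortLists_nonempty h)
      fun l => (l.map fun e => clamp b (ext x e)).sum
    obtain ⟨p, hp, hpM, rfl⟩ := (Set.Finite.mem_toFinset _).1 hl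
    have hterm : ∀ i, (f x - f (Function.update x i b)) ^ 2 ≤ if emb i ∈ p.edges then b ^ 2 else 0 := by
      intro i
      have hne : ∀ e, e ≠ emb i → ext (Function.update x i b) e = ext x e := by
        intro e he
        by_cases h' : ∃ j, emb j = e
        · obtain ⟨j, rfl⟩ := h'
          have : j ≠ i := fun hji => he (by rw [hji])
          simp [hext, einj.extend_apply, this]
        · simp [hext, Function.extend_apply' _ _ _ h']
      have hat : ext (Function.update x i b) (emb i) = b := by simp [hext, einj.extend_apply]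
      have up : f x ≤ f (Function.update x i b) := by
        refine Finset.le_inf' _ _ fun l' hl' => (Finset.inf'_le _ hl').trans ?_
        refine List.sum_le_sum fun e _ => ?_
        rcases eq_or_ne e (emb i) with rfl | he
        · rw [hat, clamp_of_mem hb le_rfl]
          exact (clamp_mem hb _).2
        · rw [hne e he]
      have down : f (Function.update x i b) ≤ f x + if emb i ∈ p.edges then b else 0 := by
        refine (Finset.inf'_le _ hl).trans ?_
        simp only [hf, tshort]
        rw [hle]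
        refine sum_change ?_ hb (fun e he => by rw [hne e he]) _ hp.isTrail.edges_nodup
        rw [hat, clamp_of_mem hb le_rfl]
        linarith [(clamp_mem hb (ext x (emb i))).1]
      split_ifs with hi
      · rw [if_pos hi] at down
        nlinarith
      · rw [if_neg hi] at down
        have : f x = f (Function.update x i b) := by linarith
        simp [this]
    refine (Finset.sum_le_sum fun i _ => hterm i).trans ?_
    rw [Finset.sum_ite, Finset.sum_const_zero, add_zero, Finset.sum_const, nsmul_eq_mul, mul_comm]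
    refine mul_le_mul_of_nonneg_left ?_ (sq_nonneg b)
    have hcard : (Finset.univ.filter fun i => emb i ∈ p.edges).card ≤ p.edges.toFinset.card :=
      Finset.card_le_card_of_injOn emb (fun i hi => by simpa using hi) einj.injOn
    have := hcard.trans ((List.toFinset_card_le _).trans_eq (SimpleGraph.Walk.length_edges p))
    exact_mod_cast this.trans hpM
  have hint : ∀ i : Fin E.card, Integrable (fun x => (f x - f (Function.update x i b)) ^ 2)
      (Measure.pi fun _ => G) := fun i =>
    integrable_bdd ((hfm.sub (hgm i)).pow_const 2) (B := (M * b + M * b) ^ 2) fun x => by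
      rw [abs_pow]
      exact pow_le_pow_left₀ (abs_nonneg _) ((abs_sub _ _).trans (add_le_add (hB _) (hB _))) 2
  rw [← integral_finsetSum _ fun i _ => hint i] at es
  have key := es.trans ((integral_mono (integrable_finsetSum _ fun i _ => hint i)
    (integrable_const (b ^ 2 * (M : ℝ))) hpt).trans_eq
    (show ∫ _ : Fin E.card → ℝ, b ^ 2 * (M : ℝ) ∂Measure.pi (fun _ => G) = b ^ 2 * M by simp))
  have hme : AEMeasurable (fun ω : Sym2 (ℤ × ℤ) → ℝ => ω ∘ emb) (law G) :=
    (measurable_pi_iff.2 fun i => measurable_pi_apply (emb i)).aemeasurable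
  rw [← hmap, integral_map hme (hfm.pow_const 2).aestronglyMeasurable,
    integral_map hme hfm.aestronglyMeasurable] at key
  simpa only [← hdep] using key

/-- Outside a rare event, short paths attain the passage time. -/
theorem tshort_eq_tt {c : ℝ} (hc : 0 < c) (h : l1 u v ≤ M) (hM : l1 u v * b ≤ c * M)
    {ω : Sym2 (ℤ × ℤ) → ℝ} (h0 : ∀ e, 0 ≤ ω e) (hb : ∀ e, ω e ≤ b) (hω : ω ∉ Cheap u M c) :
    tshort b h ω ≤ tt ω u v := by
  have hcl : ∀ l : List (Sym2 (ℤ × ℤ)), (l.map fun e => clamp b (ω e)) = l.map ω := fun l =>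
    List.map_congr_left fun e _ => clamp_of_mem (h0 e) (hb e)
  obtain ⟨q, hq⟩ := exists_short u v
  have hshort : tshort b h ω ≤ l1 u v * b := by
    refine (Finset.inf'_le _ ((Set.Finite.mem_toFinset _).2
      (show q.bypass.edges ∈ shortLists M u v from
        ⟨q.bypass, q.bypass_isPath, (q.length_bypass_le).trans (hq ▸ h), rfl⟩))).trans ?_
    rw [hcl]
    exact (wt_bypass_le h0 q).trans ((wt_le_length hb q).trans_eq (by rw [hq]))
  refine le_tt fun p => le_trans ?_ (wt_bypass_le h0 p)
  by_cases hlen : p.bypass.length ≤ M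
  · refine (Finset.inf'_le _ ((Set.Finite.mem_toFinset _).2
      (show p.bypass.edges ∈ shortLists M u v from ⟨p.bypass, p.bypass_isPath, hlen, rfl⟩))).trans ?_
    rw [hcl]
    rfl
  · refine hshort.trans (hM.trans ((mul_le_mul_of_nonneg_left ?_ hc.le).trans
      (not_cheap hω _ p.bypass_isPath (by omega)).le))
    exact_mod_cast le_of_not_ge hlen

theorem tt_le_tshort (h : l1 u v ≤ M) {ω : Sym2 (ℤ × ℤ) → ℝ} (h0 : ∀ e, 0 ≤ ω e) (hb : ∀ e, ω e ≤ b) :
    tt ω u v ≤ tshort b h ω := by
  refine Finset.le_inf' _ _ fun l hl => ?_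
  obtain ⟨p, -, -, rfl⟩ := (Set.Finite.mem_toFinset _).1 hl
  rw [List.map_congr_left fun e _ => clamp_of_mem (h0 e) (hb e)]
  exact tt_le h0 p

/-- Lower deviations of the passage time below its mean. -/
theorem lower_dev (hG : ∀ᵐ t ∂G, 0 ≤ t ∧ t ≤ b) {c : ℝ} (hc : 0 < c)
    (hrate : ∀ u n, law G (Cheap u n c) ≤ ENNReal.ofReal (2 * (1 / 4) ^ n))
    (h : l1 u v ≤ M) (hM : l1 u v * b ≤ c * M) {a : ℝ} (ha : 0 < a) :
    law G {ω | tt ω u v ≤ ∫ x, tt x u v ∂law G - a} ≤
      ENNReal.ofReal (b ^ 2 * M / a ^ 2 + 2 * (1 / 4) ^ M) := by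
  have hb : 0 ≤ b := by
    obtain ⟨t, ht⟩ := hG.exists
    linarith
  have hgood : ∀ᵐ ω ∂law G, ∀ e, 0 ≤ ω e ∧ ω e ≤ b :=
    law_all G (measurableSet_Ici.inter measurableSet_Iic) hG
  have hbd : ∀ x, |tshort b h x| ≤ M * b := fun x => abs_le.2
    ⟨by linarith [(tshort_bounds hb h x).1, mul_nonneg (Nat.cast_nonneg M : (0 : ℝ) ≤ M) hb], (tshort_bounds hb h x).2⟩
  have hit : Integrable (tshort b h) (law G) := integrable_bdd (measurable_tshort b h) hbd
  set m := ∫ x, tshort b h x ∂law G
  have hmean : ∫ x, tt x u v ∂law G ≤ m := by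
    refine integral_mono_ae (Integrable.of_bound (measurable_tt u v).aestronglyMeasurable (l1 u v * b) ?_) hit ?_
    · filter_upwards [hgood] with ω hω
      rw [Real.norm_eq_abs, abs_of_nonneg (tt_nonneg fun e => (hω e).1)]
      exact tt_le_l1 (fun e => (hω e).1) (fun e => (hω e).2) u v
    · filter_upwards [hgood] with ω hω
      exact tt_le_tshort h (fun e => (hω e).1) fun e => (hω e).2
  have hsub : ∀ᵐ ω ∂law G, tt ω u v ≤ ∫ x, tt x u v ∂law G - a →
      ω ∈ {x | a ^ 2 ≤ (tshort b h x - m) ^ 2} ∪ Cheap u M c := by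
    filter_upwards [hgood] with ω hω hle
    by_cases hch : ω ∈ Cheap u M c
    · exact Or.inr hch
    · left
      have := tshort_eq_tt hc h hM (fun e => (hω e).1) (fun e => (hω e).2) hch
      simp only [Set.mem_ofPred_eq]
      nlinarith
  refine (measure_mono_ae hsub).trans ((measure_union_le _ _).trans ?_)
  rw [ENNReal.ofReal_add (by positivity) (by positivity)]
  refine add_le_add ?_ (hrate _ _)
  rw [← ofReal_measureReal]
  refine ENNReal.ofReal_le_ofReal ?_
  have hsqi : Integrable (fun x => tshort b h x ^ 2) (law G) :=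
    integrable_bdd ((measurable_tshort b h).pow_const 2) (B := (M * b) ^ 2) fun x => by
      rw [abs_pow]; exact pow_le_pow_left₀ (abs_nonneg _) (hbd x) 2
  have hvar : ∫ x, (tshort b h x - m) ^ 2 ∂law G ≤ b ^ 2 * M := by
    have : (fun x => (tshort b h x - m) ^ 2) = fun x => tshort b h x ^ 2 - 2 * m * tshort b h x + m ^ 2 := by
      funext x; ring
    rw [this, integral_add (hsqi.sub' (hit.const_mul _)) (integrable_const _),
      integral_sub hsqi (hit.const_mul _), integral_const_mul]
    simp only [integral_const, probReal_univ, one_smul]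
    linarith [var_tshort G hb h, show m = ∫ x, tshort b h x ∂law G from rfl,
      show 2 * m * m = 2 * m ^ 2 by ring]
  have hmk := mul_meas_ge_le_integral_of_nonneg (μ := law G) (f := fun x => (tshort b h x - m) ^ 2)
    (ae_of_all _ fun x => sq_nonneg _)
    (integrable_bdd (((measurable_tshort b h).sub measurable_const).pow_const 2)
      (B := (M * b + |m|) ^ 2) fun x => by
        rw [abs_pow]
        exact pow_le_pow_left₀ (abs_nonneg _) ((abs_sub _ _).trans (add_le_add (hbd x) le_rfl)) 2) (a ^ 2)
  rw [le_div_iff₀ (by positivity), mul_comm]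
  exact hmk.trans hvar

end Vale.Agent.P158.V4
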