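import Vale.Agent.P158.V4.Defs

/-!
P158: the class of bigeodesics with a slope profile (note 1433, section 6) and the module's
statement.
-/

namespace Vale.Agent.P158.V4

open MeasureTheory Filter Topology

/-- The displacement `d` has slope at most `κ`. -/
def SlopeOK (_μ : ℝ × ℝ → ℝ) (κ : ℝ) (_k _r : ℕ) (d : Pt) : Prop :=
  |(d.1 : ℝ)| ≤ κ * |(d.2 : ℝ)|

/-- Every point of the lane at index distance `rr k` or more from `0` has an allowed slope, and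
the positive end goes up. -/
def Profile (μ : ℝ × ℝ → ℝ) (κ : ℝ) (rr : ℕ → ℕ) (v : ℤ → Pt) : Prop :=
  ∀ (k : ℕ) (i : ℤ), rr k ≤ i.natAbs →
    SlopeOK μ κ k (rr k) (v i - v 0) ∧ (0 < i → (v 0).2 < (v i).2) ∧ (i < 0 → (v i).2 < (v 0).2)

/-- A bigeodesic through `u` with the profile. -/
def InClass (μ : ℝ × ℝ → ℝ) (κ : ℝ) (rr : ℕ → ℕ) (ω : Cfg) (u : Pt) : Prop :=
  ∃ v, IsLane ω v ∧ v 0 = u ∧ Profile μ κ rr v

/-- Translation of a configuration. -/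
def moveCfg (a : Pt) (ω : Cfg) : Cfg := ω ∘ Sym2.map (· + a)

/-- Module Class: a measurable, translation covariant choice of a bigeodesic of the class through
each site, and exhaustion of the bigeodesics with some profile by countable unions. -/
def ClassStmt (G : Measure ℝ) (μ : ℝ × ℝ → ℝ) : Prop :=
  ∀ κ : ℝ,
    (∀ rr : ℕ → ℕ, ∃ (C : Pt → Set Cfg) (sel : Pt → Cfg → ℤ → Pt),
      (∀ u, MeasurableSet (C u)) ∧
      (∀ u i z, MeasurableSet {ω | sel u ω i = z}) ∧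
      (∀ u, C u = moveCfg u ⁻¹' C (0, 0)) ∧
      (∀ u ω i, sel u ω i = sel (0, 0) (moveCfg u ω) i + u) ∧
      ∀ᵐ ω ∂law G, ∀ u, (ω ∈ C u ↔ InClass μ κ rr ω u) ∧
        (ω ∈ C u → IsLane ω (sel u ω) ∧ sel u ω 0 = u ∧ Profile μ κ rr (sel u ω))) ∧
    ((∀ rr : ℕ → ℕ, law G {ω | InClass μ κ rr ω (0, 0)} = 0) →
      ∀ᵐ ω ∂law G, ¬ ∃ v, IsLane ω v ∧
        ∀ k : ℕ, ∃ r : ℕ, ∀ i : ℤ, r ≤ i.natAbs →
          SlopeOK μ κ k r (v i - v 0) ∧ (0 < i → (v 0).2 < (v i).2) ∧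
            (i < 0 → (v i).2 < (v 0).2))

end Vale.Agent.P158.V4
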