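import Vale.Agent.P158.V4.PairStar
import Vale.Agent.P158.V4.ClassDefs
import Vale.Agent.P158.V4.TiltDefs
import Vale.Agent.P158.V4.CrossRays

/-!
P158: statements of the modules used by the main argument (note 1433, sections 4, 5, 6): order and
exchange of labels, branch points and null events of marks.
-/

namespace Vale.Agent.P158.V4

open MeasureTheory Filter Topology

/-- At arbitrarily high levels the first visit of `r` is weakly left of that of `s`. -/
def OrdUp (r s : Ray) : Prop :=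
  ∃ᶠ H : ℕ in atTop, ∃ i j, IsFirstVisit r.pt (H : ℤ) i ∧ IsFirstVisit s.pt (H : ℤ) j ∧
    (r.pt i).1 ≤ (s.pt j).1

/-- At arbitrarily low levels the first visit of `r` is weakly left of that of `s`. -/
def OrdDown (r s : Ray) : Prop :=
  ∃ᶠ H : ℕ in atTop, ∃ i j, IsFirstVisit r.pt (-(H : ℤ)) i ∧ IsFirstVisit s.pt (-(H : ℤ)) j ∧
    (r.pt i).1 ≤ (s.pt j).1

/-- Module Order: labels in the same order at both ends, or with increments within a bounded
distance on one side of a line, have bounded hybrids; increments are monotone in the order. -/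
def OrderStmt : Prop :=
  ∀ (ω : Cfg), (∀ e, 0 ≤ ω e) → ∀ L₁ L₂ : Lab, IsLab ω L₁ → IsLab ω L₂ →
    (OrdUp L₁.up L₂.up ∨ OrdUp L₂.up L₁.up) ∧ (OrdDown L₁.lo L₂.lo ∨ OrdDown L₂.lo L₁.lo) ∧
    (OrdUp L₁.up L₂.up → ∀ h x x' : ℤ, x ≤ x' →
      busIn (upper h) ω L₂.up (x', h) - busIn (upper h) ω L₁.up (x', h) ≤
        busIn (upper h) ω L₂.up (x, h) - busIn (upper h) ω L₁.up (x, h)) ∧
    (OrdDown L₁.lo L₂.lo → ∀ h x x' : ℤ, x ≤ x' →
      busIn (lower h) ω L₂.lo (x', h) - busIn (lower h) ω L₁.lo (x', h) ≤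
        busIn (lower h) ω L₂.lo (x, h) - busIn (lower h) ω L₁.lo (x, h)) ∧
    (Bounded ω L₁ → Bounded ω L₂ →
      ((OrdUp L₁.up L₂.up ∧ OrdDown L₁.lo L₂.lo) ∨
        (∃ (C : ℝ) (h : ℤ), ∀ x : ℤ,
          |busIn (upper h) ω L₂.up (x, h) - busIn (upper h) ω L₁.up (x, h)| ≤ C) ∨
        ∃ (C : ℝ) (h : ℤ), ∀ x : ℤ,
          |busIn (lower h) ω L₂.lo (x, h) - busIn (lower h) ω L₁.lo (x, h)| ≤ C) →
      Bounded ω ⟨L₁.lo, L₂.up⟩ ∧ Bounded ω ⟨L₂.lo, L₁.up⟩)

/-- Module Order: the sites where geodesics from `y` to finitely many ends part are no more than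
these ends. -/
def BranchStmt : Prop :=
  ∀ (bb cg : ℝ) (ω : Cfg), Good bb cg ω → 0 < cg → ∀ (y : Pt) (X W : Finset Pt),
    (∀ w ∈ W, ∃ x ∈ X, ∃ x' ∈ X, ∃ n n', n ≠ n' ∧ EdgeOn ω y x w n ∧ EdgeOn ω y x' w n') →
    W.card ≤ X.card

/-- The support of a law on the line. -/
def lawSupp (G : Measure ℝ) : Set ℝ := {t | ∀ ε > (0 : ℝ), 0 < G (Set.Ioo (t - ε) (t + ε))}

/-- The geodesics from the `a`-points to the `b`- and to the `c`-points leave `w` by different
edges, for arbitrarily far points. -/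
def SplitsAt (x : Cfg) (a b c : ℕ → Pt) (w : Pt) : Prop :=
  ∃ n₀ n₁, n₀ ≠ n₁ ∧ ∃ᶠ N in atTop, EdgeOn x (a N) (b N) w n₀ ∧ EdgeOn x (a N) (c N) w n₁

/-- Translation of marks. -/
def moveMarks (a : Pt) (s : Marks) : Marks := s ∘ Sym2.map (· + a)

/-- The marks `t` with those on `E` replaced by the ones of `y`. -/
def resample (E : Finset (Sym2 Pt)) (y t : Marks) : Marks := fun e => if e ∈ E then y e else t e

/-- A ray depending measurably on a parameter. -/
def MeasRay {α : Type} [MeasurableSpace α] (f : α → Ray) : Prop :=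
  (∀ n z, MeasurableSet {p | (f p).pt n = z}) ∧ ∀ n, Measurable fun p => (f p).acc n

/-- Module Null: good configurations, and no star boxes where resampled strict splittings are
null. -/
def NullStmt (G : Measure ℝ) : Prop :=
  ∀ b : ℝ, (∀ᵐ t ∂G, 0 < t ∧ t ≤ b) → (∀ x, G {x} = 0) →
    (∃ c, 0 < c ∧ ∀ᵐ ω ∂law G, Good b c ω ∧ Eligible (lawSupp G) ω ∧ ∀ e, ω e ∈ lawSupp G) ∧
    (∀ t ∈ lawSupp G, 0 ≤ t) ∧
    (∀ a : Pt, markLaw.map (moveMarks a) = markLaw) ∧
    ∀ c, 0 < c → (∀ᵐ ω ∂law G, Good b c ω) → ∀ (A : Set Marks) (ra rb rc : Marks → Ray),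
      MeasurableSet A → MeasRay ra → MeasRay rb → MeasRay rc →
      (∀ (w : Pt) (E : Finset (Sym2 Pt)),
        (markLaw.prod markLaw) {p : Marks × Marks | resample E p.2 p.1 ∈ A ∧
          SplitsStrictAt (cfg G p.1) (ra (resample E p.2 p.1)).pt (rb (resample E p.2 p.1)).pt
            (rc (resample E p.2 p.1)).pt w} = 0) →
      ∀ᵐ t ∂markLaw, t ∈ A →
        ¬ StarBox (lawSupp G) b c (cfg G t) (ra t).pt (rb t).pt (rc t).pt

end Vale.Agent.P158.V4
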