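import Mathlib
import Vale.Agent.P158.V4.Interfaces
import Vale.Agent.P158.V4.Mean
import Vale.Agent.P158.V4.TiltBasic

/-!
P158, module Null, first part: almost every configuration is good and eligible, and has its weights
in the support of the law.
-/

namespace Vale.Agent.P158.V4

open MeasureTheory Filter Topology
open scoped ENNReal

variable (G : Measure ℝ) [IsProbabilityMeasure G]

theorem measurePreserving_update (e : Sym2 Pt) :
    MeasurePreserving (fun p : ℝ × Cfg => Function.update p.2 e p.1) (G.prod (law G)) (law G) where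
  measurable := by fun_prop
  map_eq := by
    classical
    refine Measure.eq_infinitePi _ fun s t ht => ?_
    rw [Measure.map_apply (by fun_prop) (MeasurableSet.pi s.countable_toSet fun i _ => ht i)]
    have h : (fun p : ℝ × Cfg => Function.update p.2 e p.1) ⁻¹' Set.pi (s : Set (Sym2 Pt)) t =
        (if e ∈ s then t e else Set.univ) ×ˢ Set.pi ((s.erase e : Finset _) : Set (Sym2 Pt)) t := by
      ext p
      simp only [Set.mem_preimage, Set.mem_pi, Finset.mem_coe, Set.mem_prod, Finset.mem_erase]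
      constructor
      · intro h
        refine ⟨?_, fun i hi => by simpa [hi.1] using h i hi.2⟩
        split_ifs with he
        · simpa using h e he
        · trivial
      · rintro ⟨h1, h2⟩ i hi
        by_cases hie : i = e
        · subst hie; simpa [hi] using h1
        · simpa [hie] using h2 i ⟨hie, hi⟩
    rw [h, Measure.prod_prod, Measure.infinitePi_pi _ fun i _ => ht i]
    by_cases he : e ∈ s
    · rw [if_pos he, Finset.mul_prod_erase s (fun i => G (t i)) he]
    · rw [if_neg he, Finset.erase_eq_of_notMem he, measure_univ, one_mul]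

/-- An event whose sections in one coordinate are countable is null. -/
theorem measure_eq_zero_of_countable_section (hatom : ∀ x, G {x} = 0) (e : Sym2 Pt) {A : Set Cfg}
    (hA : MeasurableSet A) (h : ∀ ω : Cfg, {t : ℝ | Function.update ω e t ∈ A}.Countable) :
    law G A = 0 := by
  have : NullSingletonClass G := ⟨hatom⟩
  have hmp := measurePreserving_update G e
  rw [← hmp.measure_preimage hA.nullMeasurableSet, Measure.prod_apply_symm (hmp.measurable hA)]
  exact (lintegral_congr fun ω => (h ω).measure_zero G).trans lintegral_zero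

/-- An event whose sections in one coordinate have at most one point is null. -/
theorem measure_eq_zero_of_subsingleton_section (hatom : ∀ x, G {x} = 0) (e : Sym2 Pt) {A : Set Cfg}
    (hA : MeasurableSet A) (h : ∀ ω : Cfg, {t : ℝ | Function.update ω e t ∈ A}.Subsingleton) :
    law G A = 0 :=
  measure_eq_zero_of_countable_section G hatom e hA fun ω => (h ω).countable

/-- A path is determined by the set of its edges. -/
theorem path_eq_of_edges {u v : Pt} :
    ∀ (p q : grid.Walk u v), p.IsPath → q.IsPath → (∀ e, e ∈ p.edges ↔ e ∈ q.edges) → p = q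
  | .nil, q, _, hq, _ => by
    cases q with
    | nil => rfl
    | cons h q' => exact absurd (SimpleGraph.Walk.end_mem_support q') ((SimpleGraph.Walk.cons_isPath_iff _ _).1 hq).2
  | @SimpleGraph.Walk.cons _ _ _ y _ h p, q, hp, hq, he => by
    obtain ⟨hp', hu⟩ := (SimpleGraph.Walk.cons_isPath_iff _ _).1 hp
    cases q with
    | nil => exact absurd (SimpleGraph.Walk.end_mem_support p) hu
    | @cons _ z _ h' q' =>
      obtain ⟨hq', hu'⟩ := (SimpleGraph.Walk.cons_isPath_iff _ _).1 hq
      have hyz : y = z := by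
        have := (he s(u, z)).2 (by simp)
        rw [SimpleGraph.Walk.edges_cons, List.mem_cons] at this
        rcases this with h1 | h1
        · exact (Sym2.congr_right.1 h1).symm
        · exact absurd (SimpleGraph.Walk.fst_mem_support_of_mem_edges p h1) hu
      subst hyz
      have hn : s(u, y) ∉ p.edges := fun h1 => hu (SimpleGraph.Walk.fst_mem_support_of_mem_edges p h1)
      have hn' : s(u, y) ∉ q'.edges := fun h1 => hu' (SimpleGraph.Walk.fst_mem_support_of_mem_edges q' h1)
      have := path_eq_of_edges p q' hp' hq' fun e => by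
        have := he e
        simp only [SimpleGraph.Walk.edges_cons, List.mem_cons] at this
        by_cases hee : e = s(u, y)
        · subst hee; simp [hn, hn']
        · simpa [hee] using this
      rw [this]

theorem measure_tie (hatom : ∀ x, G {x} = 0) {u v : Pt} (p q : grid.Walk u v) (hp : p.IsPath)
    {e : Sym2 Pt} (he : e ∈ p.edges) (he' : e ∉ q.edges) :
    law G {ω | wt ω p = wt ω q} = 0 := by
  refine measure_eq_zero_of_subsingleton_section G hatom e
    (measurableSet_eq_fun (measurable_wt p) (measurable_wt q)) fun ω t ht t' ht' => ?_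
  have hq : ∀ s, wt (Function.update ω e s) q = wt ω q := fun s => by
    unfold wt
    refine congrArg List.sum (List.map_congr_left fun a ha => ?_)
    exact Function.update_of_ne (ne_of_mem_of_not_mem ha he') _ _
  have hne : e ∉ p.edges.erase e := hp.isTrail.edges_nodup.not_mem_erase
  have hpw : ∀ s, wt (Function.update ω e s) p = s + ((p.edges.erase e).map ω).sum := fun s => by
    unfold wt
    rw [((List.perm_cons_erase he).map (Function.update ω e s)).sum_eq, List.map_cons, List.sum_cons,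
      Function.update_self]
    refine congrArg (s + ·) (congrArg List.sum (List.map_congr_left fun a ha => ?_))
    exact Function.update_of_ne (ne_of_mem_of_not_mem ha hne) _ _
  simp only [Set.mem_ofPred_eq, hq, hpw] at ht ht'
  linarith

instance countable_walk (u v : Pt) : Countable (grid.Walk u v) :=
  SimpleGraph.Walk.edges_injective.countable

theorem ae_uniq (hatom : ∀ x, G {x} = 0) :
    ∀ᵐ ω ∂law G, ∀ (u v : Pt) (p q : grid.Walk u v), p.IsPath → q.IsPath → wt ω p = wt ω q → p = q := by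
  refine ae_all_iff.2 fun u => ae_all_iff.2 fun v => ae_all_iff.2 fun p => ae_all_iff.2 fun q => ?_
  by_cases hne : p = q
  · exact ae_of_all _ fun ω _ _ _ => hne
  · by_cases hpp : p.IsPath ∧ q.IsPath
    · obtain ⟨e, he⟩ := not_forall.1 fun h => hne (path_eq_of_edges p q hpp.1 hpp.2 h)
      have h0 : law G {ω | wt ω p = wt ω q} = 0 := by
        by_cases h1 : e ∈ p.edges
        · exact measure_tie G hatom p q hpp.1 h1 fun h2 => he (iff_of_true h1 h2)
        · have h2 : e ∈ q.edges := not_not.1 fun h2 => he (iff_of_false h1 h2)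
          simp only [eq_comm (a := wt _ p)]
          exact measure_tie G hatom q p hpp.2 h2 h1
      filter_upwards [measure_eq_zero_iff_ae_notMem.1 h0] with ω hω _ _ h
      exact absurd h hω
    · exact ae_of_all _ fun ω h1 h2 _ => absurd ⟨h1, h2⟩ hpp

theorem exists_growth (hG : ∀ᵐ t ∂G, 0 < t) (hatom : ∀ x, G {x} = 0) :
    ∃ c, 0 < c ∧ ∀ᵐ ω ∂law G, (∀ e, 0 < ω e) ∧ (∀ u, ∃ N, ω ∉ Cheap u N c) ∧
      ∀ (u v : Pt) (p q : grid.Walk u v), p.IsPath → q.IsPath → wt ω p = wt ω q → p = q := by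
  obtain ⟨c, hc, hrate⟩ := exists_cheap_rate G hG
  have hgrow : ∀ u, ∀ᵐ ω ∂law G, ∃ N, ω ∉ Cheap u N c := by
    intro u
    rw [ae_iff]
    simp only [not_exists, not_not]
    have hle : ∀ N, law G {ω | ∀ N, ω ∈ Cheap u N c} ≤ ENNReal.ofReal (2 * (1 / 4) ^ N) := fun N =>
      (measure_mono fun ω hω => (hω : ∀ K, ω ∈ Cheap u K c) N).trans (hrate u N)
    refine le_antisymm (ge_of_tendsto' (x := atTop) ?_ hle) zero_le
    rw [← ENNReal.ofReal_zero]
    refine ENNReal.tendsto_ofReal ?_
    simpa using (tendsto_pow_atTop_nhds_zero_of_lt_one (by norm_num : (0 : ℝ) ≤ 1 / 4)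
      (by norm_num)).const_mul 2
  refine ⟨c, hc, ?_⟩
  filter_upwards [law_all G measurableSet_Ioi hG, ae_all_iff.2 hgrow, ae_uniq G hatom] with ω h1 h2 h3
  exact ⟨fun e => h1 e, h2, h3⟩

theorem ae_good {b : ℝ} (hG : ∀ᵐ t ∂G, 0 < t ∧ t ≤ b) (hatom : ∀ x, G {x} = 0) :
    ∃ c, 0 < c ∧ ∀ᵐ ω ∂law G, Good b c ω := by
  obtain ⟨c, hc, hgood⟩ := exists_growth G (hG.mono fun t ht => ht.1) hatom
  refine ⟨c, hc, ?_⟩
  filter_upwards [good_ae G hG, hgood] with ω h1 h2
  exact ⟨h2.1, h2.2.1, h2.2.2⟩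

omit [IsProbabilityMeasure G] in
theorem measure_lawSupp_compl : G (lawSupp G)ᶜ = 0 := by
  refine measure_mono_null (t := ⋃ (p : ℚ) (q : ℚ) (_ : G (Set.Ioo (p : ℝ) q) = 0), Set.Ioo (p : ℝ) q)
    (fun t ht => ?_) (measure_iUnion_null fun p => measure_iUnion_null fun q => measure_iUnion_null id)
  simp only [lawSupp, Set.mem_compl_iff, Set.mem_ofPred_eq, not_forall, not_lt, nonpos_iff_eq_zero] at ht
  obtain ⟨ε, hε, h0⟩ := ht
  obtain ⟨p, hp, hp'⟩ := exists_rat_btwn (show t - ε < t by linarith)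
  obtain ⟨q, hq, hq'⟩ := exists_rat_btwn (show t < t + ε by linarith)
  exact Set.mem_iUnion.2 ⟨p, Set.mem_iUnion.2 ⟨q, Set.mem_iUnion.2
    ⟨measure_mono_null (Set.Ioo_subset_Ioo hp.le hq'.le) h0, hp', hq⟩⟩⟩

theorem ae_mem_lawSupp : ∀ᵐ ω ∂law G, ∀ e, ω e ∈ lawSupp G := by
  obtain ⟨U, hsub, hUm, hU⟩ := exists_measurable_superset_of_null (measure_lawSupp_compl G)
  filter_upwards [law_all G (p := fun t => t ∈ Uᶜ) hUm.compl (measure_eq_zero_iff_ae_notMem.1 hU)] with ω hω e
  exact not_not.1 fun h => hω e (hsub h)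

/-- The values with no mass just below, between the distances `δ'` and `δ`. -/
def gapSet (δ δ' : ℝ) : Set ℝ := {v | G (Set.Ioo (v - δ) (v - δ')) = 0}

theorem measurableSet_gapSet (δ δ' : ℝ) : MeasurableSet (gapSet G δ δ') := by
  have hs : MeasurableSet {p : ℝ × ℝ | p.1 - δ < p.2 ∧ p.2 < p.1 - δ'} :=
    (measurableSet_lt (measurable_fst.sub_const δ) measurable_snd).inter
      (measurableSet_lt measurable_snd (measurable_fst.sub_const δ'))
  exact measurable_measure_prodMk_left (ν := G) hs (measurableSet_singleton 0)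

omit [IsProbabilityMeasure G] in
theorem measure_gapSet_zero (hatom : ∀ x, G {x} = 0) {δ : ℝ} (hδ : 0 < δ) :
    G (gapSet G δ 0) = 0 := by
  have : NullSingletonClass G := ⟨hatom⟩
  set U := ⋃ (p : ℚ) (q : ℚ) (_ : G (Set.Ioo (p : ℝ) q) = 0), Set.Ioo (p : ℝ) q with hU
  have hU0 : G U = 0 :=
    measure_iUnion_null fun p => measure_iUnion_null fun q => measure_iUnion_null id
  have key : ∀ v ∈ gapSet G δ 0 \ U, ∀ w ∈ gapSet G δ 0 \ U, v < w → δ ≤ w - v := by
    rintro v ⟨-, hv⟩ w ⟨hw, -⟩ hvw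
    refine le_of_not_gt fun hlt => hv ?_
    obtain ⟨p, hp, hp'⟩ := exists_rat_btwn (show w - δ < v by linarith)
    obtain ⟨q, hq, hq'⟩ := exists_rat_btwn hvw
    refine Set.mem_iUnion.2 ⟨p, Set.mem_iUnion.2 ⟨q, Set.mem_iUnion.2 ⟨?_, hp', hq⟩⟩⟩
    exact measure_mono_null (Set.Ioo_subset_Ioo hp.le (by rw [sub_zero]; exact hq'.le)) hw
  have hc : (gapSet G δ 0 \ U).Countable := by
    refine (Set.mapsTo_univ (fun v => ⌊v / δ⌋) _).countable_of_injOn ?_ Set.countable_univ
    intro v hv w hw h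
    have h1 := Int.abs_sub_lt_one_of_floor_eq_floor h
    rw [← sub_div, abs_div, abs_of_pos hδ, div_lt_one hδ, abs_lt] at h1
    rcases lt_trichotomy v w with hlt | heq | hgt
    · have := key v hv w hw hlt; linarith
    · exact heq
    · have := key w hw v hv hgt; linarith
  refine measure_mono_null (fun v hv => ?_) (measure_union_null hU0 (hc.measure_zero G))
  by_cases hvU : v ∈ U
  · exact Or.inl hvU
  · exact Or.inr ⟨hv, hvU⟩

theorem exists_gapSet_small (hatom : ∀ x, G {x} = 0) {δ : ℝ} (hδ : 0 < δ) :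
    ∃ δ', 0 < δ' ∧ δ' < δ ∧ G (gapSet G δ δ') ≤ ENNReal.ofReal (1 / 8) := by
  set d : ℕ → ℝ := fun n => δ / (n + 2) with hd
  have hanti : Antitone fun n => gapSet G δ (d n) := fun m n h v hv => by
    refine measure_mono_null (Set.Ioo_subset_Ioo le_rfl ?_) hv
    have : d n ≤ d m := by
      apply div_le_div_of_nonneg_left hδ.le (by positivity)
      have : (m : ℝ) ≤ n := Nat.cast_le.2 h
      linarith
    linarith
  have hlim := tendsto_measure_iInter_atTop (μ := G)
    (fun n => (measurableSet_gapSet G δ (d n)).nullMeasurableSet) hanti ⟨0, measure_ne_top _ _⟩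
  have h0 : G (⋂ n, gapSet G δ (d n)) = 0 := by
    refine measure_mono_null (fun v hv => ?_) (measure_gapSet_zero G hatom hδ)
    have hsub : Set.Ioo (v - δ) (v - 0) ⊆ ⋃ n, Set.Ioo (v - δ) (v - d n) := by
      intro t ht
      obtain ⟨n, hn⟩ := exists_nat_gt (δ / (v - t))
      refine Set.mem_iUnion.2 ⟨n, ht.1, ?_⟩
      have hvt : 0 < v - t := by have := ht.2; linarith
      rw [div_lt_iff₀ hvt] at hn
      have h2 : (0 : ℝ) < n + 2 := by positivity
      have : d n < v - t := (div_lt_iff₀ h2).2 (by nlinarith)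
      linarith
    exact measure_mono_null hsub (measure_iUnion_null fun n => Set.mem_iInter.1 hv n)
  rw [h0] at hlim
  obtain ⟨n, hn⟩ := (hlim.eventually (eventually_le_nhds (ENNReal.ofReal_pos.2 (by norm_num : (0 : ℝ) < 1 / 8)))).exists
  refine ⟨d n, div_pos hδ (by positivity), div_lt_self hδ ?_, hn⟩
  have : (0 : ℝ) ≤ n := n.cast_nonneg
  linarith

theorem trail_of_path {r : ℕ → Pt} {d : ℕ → Fin 4} (hd : ∀ k, r (k + 1) = r k + step (d k)) :
    ∀ (L n : ℕ), trail (List.ofFn fun i : Fin L => d (n + i)) (r n) =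
      List.ofFn fun i : Fin L => s(r (n + i), r (n + i + 1))
  | 0, _ => by simp [trail]
  | L + 1, n => by
    rw [List.ofFn_succ, List.ofFn_succ]
    simp only [trail, Fin.val_zero, add_zero, Fin.val_succ]
    rw [← hd n]
    have h := trail_of_path hd L (n + 1)
    simp only [show ∀ i : Fin L, n + ((i : ℕ) + 1) = n + 1 + (i : ℕ) from fun i => by omega]
    rw [h]

/-- Some path of length `L` from `u` has all its weights in `B`. -/
def AllIn (u : Pt) (L : ℕ) (B : Set ℝ) : Set Cfg :=
  ⋃ f : Fin L → Fin 4, {ω | (trail (List.ofFn f) u).Nodup ∧ ∀ e ∈ trail (List.ofFn f) u, ω e ∈ B}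

theorem measure_allIn (u : Pt) (L : ℕ) {B : Set ℝ} (hB : MeasurableSet B)
    (h : G B ≤ ENNReal.ofReal (1 / 8)) : law G (AllIn u L B) ≤ ENNReal.ofReal ((1 / 2) ^ L) := by
  classical
  refine (measure_iUnion_le _).trans ?_
  rw [tsum_fintype]
  refine (Finset.sum_le_sum (g := fun _ => ENNReal.ofReal ((1 / 8) ^ L)) fun f _ => ?_).trans ?_
  · by_cases hf : (trail (List.ofFn f) u).Nodup
    · have hset : {ω : Cfg | (trail (List.ofFn f) u).Nodup ∧ ∀ e ∈ trail (List.ofFn f) u, ω e ∈ B} =
          Set.pi ((trail (List.ofFn f) u).toFinset : Set (Sym2 Pt)) fun _ => B := by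
        ext ω; simp [hf]
      rw [hset, Measure.infinitePi_pi _ fun _ _ => hB, Finset.prod_const,
        List.toFinset_card_of_nodup hf, length_trail, List.length_ofFn,
        ENNReal.ofReal_pow (by norm_num)]
      exact pow_le_pow_left' h L
    · simp [hf]
  · rw [Finset.sum_const, Finset.card_univ, Fintype.card_fun, Fintype.card_fin, Fintype.card_fin,
      nsmul_eq_mul, Nat.cast_pow, ← ENNReal.ofReal_natCast, ← ENNReal.ofReal_pow (Nat.cast_nonneg _),
      ← ENNReal.ofReal_mul (by positivity), ← mul_pow]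
    norm_num

theorem ae_eligible (hatom : ∀ x, G {x} = 0) : ∀ᵐ ω ∂law G, Eligible (lawSupp G) ω := by
  choose d hd0 hd1 hd2 using fun m : ℕ =>
    exists_gapSet_small G hatom (δ := 1 / ((m : ℝ) + 1)) (by positivity)
  have hev : ∀ (u : Pt) (m : ℕ),
      ∀ᵐ ω ∂law G, ∃ L, ω ∉ AllIn u L (gapSet G (1 / ((m : ℝ) + 1)) (d m)) := by
    intro u m
    rw [ae_iff]
    simp only [not_exists, not_not]
    have hle : ∀ L, law G {ω | ∀ L, ω ∈ AllIn u L (gapSet G (1 / ((m : ℝ) + 1)) (d m))} ≤
        ENNReal.ofReal ((1 / 2) ^ L) := fun L =>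
      (measure_mono fun ω hω => (hω : ∀ K, ω ∈ AllIn u K (gapSet G (1 / ((m : ℝ) + 1)) (d m))) L).trans
        (measure_allIn G u L (measurableSet_gapSet G _ _) (hd2 m))
    refine le_antisymm (ge_of_tendsto' (x := atTop) ?_ hle) zero_le
    rw [← ENNReal.ofReal_zero]
    exact ENNReal.tendsto_ofReal (tendsto_pow_atTop_nhds_zero_of_lt_one (by norm_num) (by norm_num))
  filter_upwards [ae_all_iff.2 fun u => ae_all_iff.2 fun m => hev u m] with ω hω
  intro δ hδ
  obtain ⟨m, hm⟩ := exists_nat_one_div_lt hδ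
  refine ⟨d m, hd0 m, (hd1 m).trans hm, fun r hadj hinj n => ?_⟩
  obtain ⟨L, hL⟩ := hω (r n) m
  by_contra hcon
  refine hL ?_
  choose st hst using fun k => exists_step (hadj k)
  refine Set.mem_iUnion.2 ⟨fun i : Fin L => st (n + i), ?_⟩
  rw [Set.mem_ofPred_eq, trail_of_path hst L n]
  refine ⟨List.nodup_ofFn.2 fun i j h => Fin.ext (Nat.add_left_cancel (edge_injective hinj h)), ?_⟩
  simp only [List.mem_ofFn, forall_exists_index]
  rintro e i rfl
  by_contra hgap
  obtain ⟨t, ht⟩ := nonempty_of_measure_ne_zero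
    (μ := G) (s := Set.Ioo (ω s(r (n + i), r (n + i + 1)) - 1 / ((m : ℝ) + 1))
      (ω s(r (n + i), r (n + i + 1)) - d m) \ (lawSupp G)ᶜ)
    (by rw [measure_sdiff_null (measure_lawSupp_compl G)]; exact hgap)
  refine hcon ⟨n + i, Nat.le_add_right _ _, t, not_not.1 ht.2, ?_, ht.1.2.le⟩
  linarith [ht.1.1]

omit [IsProbabilityMeasure G] in
theorem lawSupp_nonneg_of_pos (hG : ∀ᵐ t ∂G, 0 < t) : ∀ t ∈ lawSupp G, 0 ≤ t := by
  intro t ht
  refine le_of_not_gt fun hlt => (ht (-t) (neg_pos.2 hlt)).ne' ?_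
  refine measure_mono_null (t := {x | ¬ 0 < x}) (fun x hx => ?_) (ae_iff.1 hG)
  simp only [Set.mem_Ioo] at hx
  show ¬ 0 < x
  linarith

omit [IsProbabilityMeasure G] in
theorem lawSupp_nonneg {b : ℝ} (hG : ∀ᵐ t ∂G, 0 < t ∧ t ≤ b) : ∀ t ∈ lawSupp G, 0 ≤ t :=
  lawSupp_nonneg_of_pos G (hG.mono fun _ ht => ht.1)

end Vale.Agent.P158.V4
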