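import Mathlib

/-!
P158: a finitely branching family of admissible finite words that depends measurably on a parameter has a
measurable choice of an infinite word.
-/

namespace Vale.Agent.P158.V4

variable {Ω : Type*} [MeasurableSpace Ω] {α : Type*} [Fintype α] [Nonempty α]

/-- Words extendable to every length. -/
def Extends (P : Ω → List α → Prop) (ω : Ω) (l : List α) : Prop :=
  ∀ n : ℕ, ∃ l' : List α, l'.length = n ∧ P ω (l ++ l')

omit [MeasurableSpace Ω] in
theorem exists_extends_step {P : Ω → List α → Prop} (hclosed : ∀ ω l l', P ω (l ++ l') → P ω l)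
    {ω : Ω} {l : List α} (h : Extends P ω l) : ∃ a, Extends P ω (l ++ [a]) := by
  by_contra hne
  simp only [Extends, not_exists, not_forall, not_and] at hne
  choose N hN using hne
  obtain ⟨l', hlen, hP⟩ := h ((Finset.univ.sup N) + 1)
  obtain ⟨a, l'', rfl⟩ := List.exists_cons_of_length_pos (by omega : 0 < l'.length)
  have hNa : N a ≤ Finset.univ.sup N := Finset.le_sup (Finset.mem_univ a)
  simp only [List.length_cons] at hlen
  refine hN a (l''.take (N a)) (by rw [List.length_take]; omega) (hclosed ω _ (l''.drop (N a)) ?_)
  simpa [List.append_assoc] using hP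

theorem measurableSet_extends {P : Ω → List α → Prop} (hm : ∀ l, MeasurableSet {ω | P ω l}) (l : List α) :
    MeasurableSet {ω | Extends P ω l} := by
  simp only [Extends, Set.ofPred_forall, Set.ofPred_exists]
  refine MeasurableSet.iInter fun n => MeasurableSet.iUnion fun l' => ?_
  exact (MeasurableSet.const _).inter (hm _)

/-- Measurable König lemma. -/
theorem exists_word (P : Ω → List α → Prop) (hm : ∀ l, MeasurableSet {ω | P ω l})
    (hclosed : ∀ ω l l', P ω (l ++ l') → P ω l) :
    ∃ f : ℕ → Ω → α, (∀ n a, MeasurableSet {ω | f n ω = a}) ∧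
      ∀ ω, (∀ n : ℕ, ∃ l : List α, l.length = n ∧ P ω l) → ∀ n, P ω (List.ofFn fun i : Fin n => f i ω) := by
  classical
  obtain ⟨a₀⟩ := (inferInstance : Nonempty α)
  -- the first admissible continuation in a fixed order
  set pick : List α → Ω → α := fun l ω =>
    (((Finset.univ : Finset α).toList.find? fun a => decide (Extends P ω (l ++ [a]))).getD a₀)
  have hfind : ∀ (s : List α) (l : List α) (o : Option α),
      MeasurableSet {ω | (s.find? fun a => decide (Extends P ω (l ++ [a]))) = o} := by
    intro s l
    induction s with
    | nil =>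
      intro o
      simp only [List.find?_nil]
      exact MeasurableSet.const _
    | cons a s ih =>
      intro o
      have : {ω | ((a :: s).find? fun a => decide (Extends P ω (l ++ [a]))) = o} =
          ({ω | Extends P ω (l ++ [a])} ∩ {_ω | some a = o}) ∪
            ({ω | Extends P ω (l ++ [a])}ᶜ ∩ {ω | (s.find? fun a => decide (Extends P ω (l ++ [a]))) = o}) := by
        ext ω
        by_cases h : Extends P ω (l ++ [a]) <;> simp [h]
      rw [this]
      exact ((measurableSet_extends hm _).inter (MeasurableSet.const _)).union
        ((measurableSet_extends hm _).compl.inter (ih o))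
  have hpick : ∀ l a, MeasurableSet {ω | pick l ω = a} := by
    intro l a
    have : {ω | pick l ω = a} = ⋃ o ∈ {o : Option α | o.getD a₀ = a},
        {ω | ((Finset.univ : Finset α).toList.find? fun a => decide (Extends P ω (l ++ [a]))) = o} := by
      ext ω; simp [pick]
    rw [this]
    exact MeasurableSet.biUnion (Set.to_countable _) fun o _ => hfind _ _ o
  set pre : ℕ → Ω → List α := fun n => Nat.rec (fun _ => []) (fun _ g ω => g ω ++ [pick (g ω) ω]) n
  have hpre : ∀ n l, MeasurableSet {ω | pre n ω = l} := by
    intro n
    induction n with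
    | zero =>
      intro l
      show MeasurableSet {_ω : Ω | [] = l}
      exact MeasurableSet.const _
    | succ n ih =>
      intro l
      have : {ω | pre (n + 1) ω = l} = ⋃ l₁ : List α, {ω | pre n ω = l₁} ∩
          ⋃ a ∈ {a : α | l₁ ++ [a] = l}, {ω | pick l₁ ω = a} := by
        ext ω; simp [pre]
      rw [this]
      exact MeasurableSet.iUnion fun l₁ => (ih l₁).inter
        (MeasurableSet.biUnion (Set.to_countable _) fun a _ => hpick l₁ a)
  refine ⟨fun n ω => pick (pre n ω) ω, fun n a => ?_, fun ω h n => ?_⟩
  · have : {ω | pick (pre n ω) ω = a} = ⋃ l : List α, {ω | pre n ω = l} ∩ {ω | pick l ω = a} := by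
      ext ω; simp
    rw [this]
    exact MeasurableSet.iUnion fun l => (hpre n l).inter (hpick l a)
  · have hext : ∀ n, Extends P ω (pre n ω) ∧ pre n ω = List.ofFn fun i : Fin n => pick (pre i ω) ω := by
      intro n
      induction n with
      | zero => exact ⟨fun k => by simpa [pre] using h k, by simp [pre]⟩
      | succ n ih =>
        obtain ⟨a, ha⟩ := exists_extends_step hclosed ih.1
        refine ⟨?_, ?_⟩
        · show Extends P ω (pre n ω ++ [pick (pre n ω) ω])
          cases hf : (Finset.univ : Finset α).toList.find? fun a => decide (Extends P ω (pre n ω ++ [a])) with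
          | none => exact absurd ha (by simpa using List.find?_eq_none.1 hf a (by simp))
          | some c => simpa [pick, hf] using List.find?_some hf
        · show pre n ω ++ [pick (pre n ω) ω] = _
          rw [List.ofFn_succ', List.concat_eq_append]
          simp only [Fin.val_castSucc, Fin.val_last, ← ih.2]
    obtain ⟨l', -, hP⟩ := (hext n).1 0
    rw [(hext n).2] at hP
    exact hclosed ω _ _ hP

end Vale.Agent.P158.V4
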