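import Vale.Agent.P158.V4.ClassDefs
import Vale.Agent.P158.V4.Koenig

/-!
P158: a measurable choice of a bigeodesic of the class through each site, and the exhaustion of the classes.
-/

namespace Vale.Agent.P158.V4

open MeasureTheory Filter Topology

/-- The two sides of a path read from a sequence of pairs of steps. -/
def side2 (f : ℕ → Fin 4 × Fin 4) : ℕ → Pt × Pt
  | 0 => ((0, 0), (0, 0))
  | n + 1 => ((side2 f n).1 + step (f n).1, (side2 f n).2 + step (f n).2)

/-- The two-sided path read from a sequence of pairs of steps. -/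
def laneOf (f : ℕ → Fin 4 × Fin 4) (i : ℤ) : Pt :=
  if 0 ≤ i then (side2 f i.natAbs).1 else (side2 f i.natAbs).2

theorem side2_congr {f g : ℕ → Fin 4 × Fin 4} :
    ∀ {n : ℕ}, (∀ k < n, f k = g k) → side2 f n = side2 g n
  | 0, _ => rfl
  | n + 1, h => by
    rw [side2, side2, h n n.lt_succ_self, side2_congr fun k hk => h k (hk.trans n.lt_succ_self)]

theorem laneOf_congr {f g : ℕ → Fin 4 × Fin 4} {n : ℕ} (h : ∀ k < n, f k = g k) {i : ℤ}
    (hi : i.natAbs ≤ n) : laneOf f i = laneOf g i := by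
  rw [laneOf, laneOf, side2_congr fun k hk => h k (hk.trans_le hi)]

theorem adj_step (z : Pt) (d : Fin 4) : grid.Adj z (z + step d) := by
  rw [grid_adj_iff]
  fin_cases d <;> simp [step]

theorem adj_laneOf (f : ℕ → Fin 4 × Fin 4) (i : ℤ) : grid.Adj (laneOf f i) (laneOf f (i + 1)) := by
  rcases le_or_gt 0 i with h | h
  · obtain ⟨n, rfl⟩ := Int.eq_ofNat_of_zero_le h
    rw [laneOf, laneOf, if_pos h, if_pos (by omega), show ((n : ℤ) + 1).natAbs = n + 1 by omega,
      Int.natAbs_natCast]
    exact adj_step _ _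
  · obtain ⟨n, rfl⟩ : ∃ n : ℕ, i = -((n : ℤ) + 1) := ⟨(-i - 1).toNat, by omega⟩
    rw [laneOf, if_neg (by omega), show (-((n : ℤ) + 1)).natAbs = n + 1 by omega,
      show (-((n : ℤ) + 1) + 1) = -(n : ℤ) by ring]
    have e : laneOf f (-(n : ℤ)) = (side2 f n).2 := by
      rw [laneOf]
      split_ifs with h0
      · obtain rfl : n = 0 := by omega
        rfl
      · simp
    rw [e]
    exact (adj_step _ _).symm

/-- On the window `[-n, n]` the path is geodesic, simple, and satisfies `Q`. -/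
def Window (Q : ℤ → Pt → Prop) (ω : Cfg) (v : ℤ → Pt) (n : ℕ) : Prop :=
  ((∀ i j : ℤ, i.natAbs ≤ n → j.natAbs ≤ n → v i = v j → i = j) ∧
    ∀ i : ℤ, i.natAbs ≤ n → Q i (v i)) ∧
  ∀ (i : ℤ) (m : ℕ), -(n : ℤ) ≤ i → i + m ≤ n → ∀ p : grid.Walk (v i) (v (i + m)),
    ∑ k ∈ Finset.range m, ω s(v (i + k), v (i + k + 1)) ≤ wt ω p

theorem Window.congr {Q : ℤ → Pt → Prop} {ω : Cfg} {v w : ℤ → Pt} {n : ℕ}
    (h : ∀ i : ℤ, i.natAbs ≤ n → v i = w i) (hv : Window Q ω v n) : Window Q ω w n := by
  obtain ⟨⟨h1, h2⟩, h3⟩ := hv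
  refine ⟨⟨fun i j hi hj e => h1 i j hi hj (by rwa [h i hi, h j hj]), fun i hi => h i hi ▸ h2 i hi⟩,
    fun i m hi hm p => ?_⟩
  have e1 := h i (by omega)
  have e2 := h (i + m) (by omega)
  have h4 := h3 i m hi hm (p.copy e1.symm e2.symm)
  have e3 : ∑ k ∈ Finset.range m, ω s(w (i + k), w (i + k + 1)) =
      ∑ k ∈ Finset.range m, ω s(v (i + k), v (i + k + 1)) :=
    Finset.sum_congr rfl fun k hk => by
      rw [Finset.mem_range] at hk
      rw [h (i + k) (by omega), h (i + k + 1) (by omega)]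
  rw [e3]
  simpa [wt] using h4

theorem Window.mono {Q : ℤ → Pt → Prop} {ω : Cfg} {v : ℤ → Pt} {m n : ℕ} (hmn : m ≤ n)
    (hv : Window Q ω v n) : Window Q ω v m :=
  ⟨⟨fun i j hi hj => hv.1.1 i j (hi.trans hmn) (hj.trans hmn), fun i hi => hv.1.2 i (hi.trans hmn)⟩,
    fun i k hi hk => hv.2 i k (by omega) (by omega)⟩

theorem measurableSet_window (Q : ℤ → Pt → Prop) (v : ℤ → Pt) (n : ℕ) :
    MeasurableSet {ω : Cfg | Window Q ω v n} := by
  simp only [Window, Set.ofPred_and, Set.ofPred_forall]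
  refine MeasurableSet.inter ?_ ?_
  · exact MeasurableSet.inter (MeasurableSet.iInter fun i => MeasurableSet.iInter fun j =>
      MeasurableSet.iInter fun _ => MeasurableSet.iInter fun _ => MeasurableSet.iInter fun _ =>
        MeasurableSet.const _)
      (MeasurableSet.iInter fun i => MeasurableSet.iInter fun _ => MeasurableSet.const _)
  · exact MeasurableSet.iInter fun i => MeasurableSet.iInter fun m => MeasurableSet.iInter fun _ =>
      MeasurableSet.iInter fun _ => MeasurableSet.iInter fun p => measurableSet_le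
        (Finset.measurable_sum _ fun k _ => measurable_pi_apply _) (measurable_wt p)

theorem isLane_of_window {Q : ℤ → Pt → Prop} {ω : Cfg} {v : ℤ → Pt}
    (hadj : ∀ i, grid.Adj (v i) (v (i + 1))) (h : ∀ n, Window Q ω v n) :
    IsLane ω v ∧ ∀ i, Q i (v i) :=
  ⟨⟨hadj, fun i j e => (h (max i.natAbs j.natAbs)).1.1 i j (le_max_left _ _) (le_max_right _ _) e,
    fun i m => (h (i.natAbs + m)).2 i m (by omega) (by omega)⟩,
    fun i => (h i.natAbs).1.2 i le_rfl⟩

theorem window_of_isLane {Q : ℤ → Pt → Prop} {ω : Cfg} {v : ℤ → Pt} (hv : IsLane ω v)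
    (hQ : ∀ i, Q i (v i)) (n : ℕ) : Window Q ω v n :=
  ⟨⟨fun _ _ _ _ e => hv.inj e, fun i _ => hQ i⟩, fun i m _ _ p => hv.geo i m p⟩

/-- The path of a finite word. -/
def wordLane (l : List (Fin 4 × Fin 4)) : ℤ → Pt := laneOf fun k => l.getD k (0, 0)

/-- Some bigeodesic through the origin satisfies `Q`. -/
def HasLane (Q : ℤ → Pt → Prop) (ω : Cfg) : Prop :=
  ∃ v, IsLane ω v ∧ v 0 = (0, 0) ∧ ∀ i, Q i (v i)

/-- Admissible words. -/
def Adm (Q : ℤ → Pt → Prop) (ω : Cfg) (l : List (Fin 4 × Fin 4)) : Prop :=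
  Window Q ω (wordLane l) l.length

theorem adm_closed (Q : ℤ → Pt → Prop) (ω : Cfg) (l l' : List (Fin 4 × Fin 4))
    (h : Adm Q ω (l ++ l')) : Adm Q ω l :=
  (h.mono (by simp)).congr fun _ hi => laneOf_congr (fun _ hk => List.getD_append _ _ _ _ hk) hi

theorem laneOf_of_adj {v : ℤ → Pt} (h0 : v 0 = (0, 0)) (hadj : ∀ i, grid.Adj (v i) (v (i + 1))) :
    ∃ f : ℕ → Fin 4 × Fin 4, laneOf f = v := by
  have h1 : ∀ n : ℕ, ∃ d, v ((n : ℤ) + 1) = v n + step d := fun n => exists_step (hadj n)
  have h2 : ∀ n : ℕ, ∃ d, v (-((n : ℤ) + 1)) = v (-(n : ℤ)) + step d := fun n => by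
    have h := (hadj (-((n : ℤ) + 1))).symm
    rw [show -((n : ℤ) + 1) + 1 = -(n : ℤ) by ring] at h
    exact exists_step h
  choose a ha using h1
  choose c hc using h2
  refine ⟨fun n => (a n, c n), ?_⟩
  have key : ∀ n : ℕ, side2 (fun n => (a n, c n)) n = (v n, v (-(n : ℤ))) := by
    intro n
    induction n with
    | zero => simp [side2, h0]
    | succ n ih => rw [side2, ih]; push_cast; rw [ha, hc]
  funext i
  rw [laneOf, key]
  split_ifs with h
  · show v _ = v i
    exact congrArg v (by omega)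
  · show v _ = v i
    exact congrArg v (by omega)

/-- A measurable choice of a bigeodesic through the origin satisfying `Q`. -/
theorem exists_selLane (Q : ℤ → Pt → Prop) :
    MeasurableSet {ω : Cfg | HasLane Q ω} ∧ ∃ w : Cfg → ℤ → Pt,
      (∀ i z, MeasurableSet {ω | w ω i = z}) ∧
      ∀ ω, HasLane Q ω → IsLane ω (w ω) ∧ w ω 0 = (0, 0) ∧ ∀ i, Q i (w ω i) := by
  obtain ⟨f, hf, hsel⟩ := exists_word (Adm Q) (fun l => measurableSet_window Q _ _) (adm_closed Q)
  have build : ∀ ω, (∀ n : ℕ, ∃ l : List (Fin 4 × Fin 4), l.length = n ∧ Adm Q ω l) →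
      IsLane ω (laneOf fun k => f k ω) ∧ ∀ i, Q i (laneOf (fun k => f k ω) i) := by
    intro ω h
    refine isLane_of_window (adj_laneOf _) fun n => ?_
    have hn := hsel ω h n
    unfold Adm at hn
    rw [List.length_ofFn] at hn
    exact hn.congr fun i hi => laneOf_congr (fun k hk => by simp [List.getD_eq_getElem?_getD, hk]) hi
  have hiff : ∀ ω, HasLane Q ω ↔ ∀ n : ℕ, ∃ l : List (Fin 4 × Fin 4), l.length = n ∧ Adm Q ω l := by
    intro ω
    refine ⟨?_, fun h => ⟨_, (build ω h).1, rfl, (build ω h).2⟩⟩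
    rintro ⟨v, hv, h0, hQ⟩ n
    obtain ⟨g, rfl⟩ := laneOf_of_adj h0 hv.adj
    refine ⟨List.ofFn fun k : Fin n => g k, List.length_ofFn, ?_⟩
    unfold Adm
    rw [List.length_ofFn]
    exact (window_of_isLane hv hQ n).congr fun i hi =>
      laneOf_congr (fun k hk => by simp [List.getD_eq_getElem?_getD, hk]) hi
  refine ⟨?_, fun ω => laneOf fun k => f k ω, fun i z => ?_, fun ω h => ?_⟩
  · simp only [hiff, Set.ofPred_forall, Set.ofPred_exists]
    exact MeasurableSet.iInter fun n => MeasurableSet.iUnion fun l =>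
      (MeasurableSet.const _).inter (measurableSet_window Q _ _)
  · have hside : ∀ n (z : Pt × Pt), MeasurableSet {ω | side2 (fun k => f k ω) n = z} := by
      intro n
      induction n with
      | zero => intro z; exact MeasurableSet.const (((0, 0), (0, 0)) = z)
      | succ n ih =>
        intro z
        have : {ω | side2 (fun k => f k ω) (n + 1) = z} = ⋃ y : Pt × Pt, ⋃ a : Fin 4 × Fin 4,
            ({ω | side2 (fun k => f k ω) n = y} ∩ {ω | f n ω = a}) ∩
              {_ω | (y.1 + step a.1, y.2 + step a.2) = z} := by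
          ext ω
          simp only [side2, Set.mem_ofPred_eq, Set.mem_iUnion, Set.mem_inter_iff]
          refine ⟨fun h => ⟨_, _, ⟨rfl, rfl⟩, h⟩, ?_⟩
          rintro ⟨y, a, ⟨rfl, rfl⟩, h⟩
          exact h
        rw [this]
        exact MeasurableSet.iUnion fun y => MeasurableSet.iUnion fun a =>
          ((ih y).inter (hf n a)).inter (MeasurableSet.const _)
    have : {ω | laneOf (fun k => f k ω) i = z} = ⋃ y : Pt × Pt,
        {ω | side2 (fun k => f k ω) i.natAbs = y} ∩ {_ω | (if 0 ≤ i then y.1 else y.2) = z} := by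
      ext ω; simp [laneOf]
    rw [this]
    exact MeasurableSet.iUnion fun y => (hside _ y).inter (MeasurableSet.const _)
  · exact ⟨(build ω ((hiff ω).1 h)).1, rfl, (build ω ((hiff ω).1 h)).2⟩

theorem moveCfg_zero (ω : Cfg) : moveCfg (0, 0) ω = ω := by
  funext e
  simp only [moveCfg, Function.comp_apply]
  congr 1
  induction e using Sym2.ind with
  | _ x y => simp

theorem moveCfg_neg (a : Pt) (ω : Cfg) : moveCfg (-a) (moveCfg a ω) = ω := by
  funext e
  simp only [moveCfg, Function.comp_apply, Sym2.map_map]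
  congr 1
  induction e using Sym2.ind with
  | _ x y => simp

theorem measurable_moveCfg (a : Pt) : Measurable (moveCfg a) :=
  measurable_pi_iff.2 fun _ => measurable_pi_apply _

theorem map_moveCfg (G : Measure ℝ) [IsProbabilityMeasure G] (a : Pt) :
    (law G).map (moveCfg a) = law G :=
  map_comp_injective G _ (Sym2.map.injective (add_left_injective a))

theorem isLane_move {ω : Cfg} {a : Pt} {v : ℤ → Pt} (h : IsLane (moveCfg a ω) v) :
    IsLane ω fun i => v i + a := by
  refine ⟨fun i => (shift a).map_rel (h.adj i), fun i j e => h.inj (add_right_cancel e), fun i n p => ?_⟩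
  have hw : ∀ {x y : Pt} (q : grid.Walk (x + a) (y + a)),
      ∃ q' : grid.Walk x y, wt (moveCfg a ω) q' = wt ω q := by
    intro x y q
    refine ⟨(q.map (shift (-a))).copy (by simp [shift]) (by simp [shift]), ?_⟩
    unfold wt
    rw [SimpleGraph.Walk.edges_copy, SimpleGraph.Walk.edges_map, List.map_map]
    refine congrArg List.sum (List.map_congr_left fun e _ => ?_)
    induction e using Sym2.ind with
    | _ x y => simp [moveCfg, shift]
  obtain ⟨q', hq'⟩ := hw p
  exact hq' ▸ h.geo i n q'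

theorem isLane_move' {ω : Cfg} {u : Pt} {v : ℤ → Pt} (h : IsLane ω v) :
    IsLane (moveCfg u ω) fun i => v i + -u :=
  isLane_move (a := -u) (by rw [moveCfg_neg]; exact h)

/-- The condition of level `k`, radius `r`, on a lane through the origin. -/
def LevelOK (μ : ℝ × ℝ → ℝ) (κ : ℝ) (k r : ℕ) (i : ℤ) (z : Pt) : Prop :=
  r ≤ i.natAbs → SlopeOK μ κ k r z ∧ (0 < i → 0 < z.2) ∧ (i < 0 → z.2 < 0)

theorem LevelOK.mono {μ : ℝ × ℝ → ℝ} {κ : ℝ} {k r r' : ℕ} (hr : r ≤ r') {i : ℤ} {z : Pt}
    (h : LevelOK μ κ k r i z) : LevelOK μ κ k r' i z := fun hi => by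
  exact h (hr.trans hi)

theorem levelOK_iff {μ : ℝ × ℝ → ℝ} {κ : ℝ} {k r : ℕ} {v : ℤ → Pt} {i : ℤ} :
    LevelOK μ κ k r i (v i + -v 0) ↔
      (r ≤ i.natAbs → SlopeOK μ κ k r (v i - v 0) ∧ (0 < i → (v 0).2 < (v i).2) ∧ (i < 0 → (v i).2 < (v 0).2)) := by
  simp only [LevelOK, ← sub_eq_add_neg, Prod.snd_sub, sub_pos, sub_neg]

theorem inClass_iff (μ : ℝ × ℝ → ℝ) (κ : ℝ) (rr : ℕ → ℕ) (ω : Cfg) (u : Pt) :
    InClass μ κ rr ω u ↔ HasLane (fun i z => ∀ k, LevelOK μ κ k (rr k) i z) (moveCfg u ω) := by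
  constructor
  · rintro ⟨v, hv, rfl, hp⟩
    exact ⟨_, isLane_move' hv, add_neg_cancel _, fun i k => levelOK_iff.2 (hp k i)⟩
  · rintro ⟨v, hv, h0, hp⟩
    refine ⟨_, isLane_move hv, ?_, fun k i => (levelOK_iff (v := fun i => v i + u)).1 ?_⟩
    · show v 0 + u = u
      rw [h0]; exact zero_add u
    · rw [h0]
      convert hp i k using 1
      simp

/-- Module Class. -/
theorem classStmt (G : Measure ℝ) [IsProbabilityMeasure G] (μ : ℝ × ℝ → ℝ) : ClassStmt G μ := by
  refine fun κ => ⟨fun rr => ?_, fun hnull => ?_⟩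
  · obtain ⟨hm, w, hwm, hw⟩ := exists_selLane fun i z => ∀ k, LevelOK μ κ k (rr k) i z
    set C₀ := {ω : Cfg | HasLane (fun i z => ∀ k, LevelOK μ κ k (rr k) i z) ω}
    refine ⟨fun u => moveCfg u ⁻¹' C₀, fun u ω i => w (moveCfg u ω) i + u,
      fun u => measurable_moveCfg u hm, fun u i z => ?_, fun u => ?_, fun u ω i => ?_, ?_⟩
    · have : {ω | w (moveCfg u ω) i + u = z} = moveCfg u ⁻¹' {ω | w ω i = z + -u} := by
        ext ω; simp [eq_add_neg_iff_add_eq]
      rw [this]
      exact measurable_moveCfg u (hwm i _)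
    · ext ω; simp [moveCfg_zero]
    · simp [moveCfg_zero]
    · filter_upwards with ω u
      refine ⟨(inClass_iff μ κ rr ω u).symm, fun h => ?_⟩
      obtain ⟨h1, h2, h3⟩ := hw _ h
      refine ⟨isLane_move h1, by simp [h2], fun k i => (levelOK_iff (v := fun i => w (moveCfg u ω) i + u)).1 ?_⟩
      convert h3 i k using 1
      simp [h2]
  · set B : (K : ℕ) → (ℕ → ℕ) → Set Cfg := fun K rr => {ω | ∃ v, IsLane ω v ∧ v 0 = (0, 0) ∧
      (∀ k < K, ∀ i, LevelOK μ κ k (rr k) i (v i)) ∧ ∀ k, ∃ r, ∀ i, LevelOK μ κ k r i (v i)}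
    suffices h : law G (B 0 0) = 0 by
      have h' : ∀ᵐ ω ∂law G, ∀ u, moveCfg u ω ∉ B 0 0 := ae_all_iff.2 fun u =>
        ae_of_ae_map (measurable_moveCfg u).aemeasurable
          (by rw [map_moveCfg G u]; exact measure_eq_zero_iff_ae_notMem.1 h)
      filter_upwards [h'] with ω hω
      rintro ⟨v, hv, hp⟩
      refine hω (v 0) ⟨_, isLane_move' hv, add_neg_cancel _, fun k hk => absurd hk (Nat.not_lt_zero k),
        fun k => ?_⟩
      obtain ⟨r, hr⟩ := hp k
      exact ⟨r, fun i => levelOK_iff.2 (hr i)⟩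
    by_contra hpos
    set a := law G (B 0 0) with ha
    -- one more level costs little measure
    have hstep : ∀ (K : ℕ) (rr : ℕ → ℕ) (c : ENNReal), c < law G (B K rr) →
        ∃ r, K ≤ r ∧ c < law G (B (K + 1) (Function.update rr K r)) := by
      intro K rr c hc
      have hmono : Monotone fun r => B (K + 1) (Function.update rr K r) := by
        intro r r' hr ω
        rintro ⟨v, hv, h0, h1, h2⟩
        refine ⟨v, hv, h0, fun k hk i => ?_, h2⟩
        have := h1 k hk i
        by_cases hkK : k = K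
        · subst hkK
          simp only [Function.update_self] at this ⊢
          exact this.mono hr
        · rwa [Function.update_of_ne hkK] at this ⊢
      have hsub : B K rr ⊆ ⋃ r, B (K + 1) (Function.update rr K r) := by
        rintro ω ⟨v, hv, h0, h1, h2⟩
        obtain ⟨r, hr⟩ := h2 K
        refine Set.mem_iUnion.2 ⟨r, v, hv, h0, fun k hk i => ?_, h2⟩
        by_cases hkK : k = K
        · subst hkK
          simpa using hr i
        · rw [Function.update_of_ne hkK]
          exact h1 k (by omega) i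
      have := lt_of_lt_of_le hc (measure_mono hsub)
      rw [hmono.measure_iUnion, lt_iSup_iff] at this
      obtain ⟨r, hr⟩ := this
      exact ⟨max K r, le_max_left _ _, hr.trans_le (measure_mono (hmono (le_max_right _ _)))⟩
    have hhalf : a / 2 < a := ENNReal.half_lt_self hpos (measure_ne_top _ _)
    choose next hnext using hstep
    -- the radii, one level at a time
    let g : (K : ℕ) → {rr : ℕ → ℕ // a / 2 < law G (B K rr)} := fun K =>
      Nat.rec ⟨0, hhalf⟩ (fun K r => ⟨Function.update r.1 K (next K r.1 _ r.2), (hnext K r.1 _ r.2).2⟩) K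
    have hg : ∀ K k, k < K → (g K).1 k = (g (k + 1)).1 k ∧ k ≤ (g K).1 k := by
      intro K
      induction K with
      | zero => intro k hk; exact absurd hk (Nat.not_lt_zero k)
      | succ K ih =>
        intro k hk
        by_cases hkK : k = K
        · subst hkK
          refine ⟨rfl, ?_⟩
          show k ≤ Function.update (g k).1 k _ k
          rw [Function.update_self]
          exact (hnext k _ _ _).1
        · have e : (g (K + 1)).1 k = (g K).1 k := Function.update_of_ne hkK _ _
          rw [e]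
          exact ih k (by omega)
    set rr : ℕ → ℕ := fun k => (g (k + 1)).1 k
    set D : ℕ → Set Cfg := fun K => {ω | HasLane (fun i z => ∀ k < K, LevelOK μ κ k (rr k) i z) ω}
    have hD : ∀ K, MeasurableSet (D K) := fun K => (exists_selLane _).1
    have hanti : Antitone D := by
      rintro K K' hK ω ⟨v, hv, h0, hp⟩
      exact ⟨v, hv, h0, fun i k hk => hp i k (by omega)⟩
    have hlow : a / 2 ≤ law G (⋂ K, D K) := by
      refine ge_of_tendsto' (tendsto_measure_iInter_atTop (fun K => (hD K).nullMeasurableSet) hanti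
        ⟨0, measure_ne_top _ _⟩) fun K => le_trans (g K).2.le (measure_mono ?_)
      rintro ω ⟨v, hv, h0, h1, -⟩
      exact ⟨v, hv, h0, fun i k hk => by rw [show rr k = (g K).1 k from (hg K k hk).1.symm]; exact h1 k hk i⟩
    have hsub : (⋂ K, D K) ⊆ {ω | InClass μ κ rr ω (0, 0)} := by
      intro ω hω
      rw [Set.mem_ofPred_eq, inClass_iff, moveCfg_zero]
      obtain ⟨f, hf, hsel⟩ := exists_word (Adm fun i z => ∀ k, LevelOK μ κ k (rr k) i z)
        (fun l => measurableSet_window _ _ _) (adm_closed _)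
      have hwords : ∀ n : ℕ, ∃ l : List (Fin 4 × Fin 4),
          l.length = n ∧ Adm (fun i z => ∀ k, LevelOK μ κ k (rr k) i z) ω l := by
        intro n
        obtain ⟨v, hv, h0, hp⟩ := Set.mem_iInter.1 hω (n + 1)
        obtain ⟨e, rfl⟩ := laneOf_of_adj h0 hv.adj
        refine ⟨List.ofFn fun k : Fin n => e k, List.length_ofFn, ?_⟩
        unfold Adm
        rw [List.length_ofFn]
        refine Window.congr (v := laneOf e) (fun i hi => laneOf_congr
          (fun k hk => by simp [List.getD_eq_getElem?_getD, hk]) hi)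
          ⟨⟨fun _ _ _ _ h => hv.inj h, fun i hi k => ?_⟩, fun i m _ _ p => hv.geo i m p⟩
        intro hik
        exact hp i k (by have := (hg (k + 1) k k.lt_succ_self).2; simp only [rr] at hik; omega) hik
      refine ⟨laneOf fun k => f k ω, ?_⟩
      have := isLane_of_window (adj_laneOf fun k => f k ω) fun n => by
        have hn := hsel ω hwords n
        unfold Adm at hn
        rw [List.length_ofFn] at hn
        exact hn.congr fun i hi => laneOf_congr (fun k hk => by simp [List.getD_eq_getElem?_getD, hk]) hi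
      exact ⟨this.1, rfl, this.2⟩
    have h0 := measure_mono_null hsub (hnull rr)
    rw [h0, nonpos_iff_eq_zero, ENNReal.div_eq_zero_iff] at hlow
    exact hlow.elim hpos (by simp)

end Vale.Agent.P158.V4
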