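import Mathlib
import Vale.Agent.P158.V4.TiltCfg
import Vale.Agent.P158.V4.TiltProb
import Vale.Agent.P158.V4.NullGood

/-!
P158, stars: the saving at the edges of one site is bounded below with probability close to one, and
typical fields of marks stay typical under the tilt.
-/

namespace Vale.Agent.P158.V4

open MeasureTheory Filter Topology

variable (G : Measure ℝ) [IsProbabilityMeasure G]

theorem ae_saving_pos (hatom : ∀ x, G {x} = 0) {q δ : ℝ} (hq : q ∈ Set.Ioo (0 : ℝ) (1 / 4))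
    (hδ : δ ∈ Set.Ioc (0 : ℝ) (1 / 2)) :
    ∀ᵐ x ∂unitSquare, 0 < qf G x.1 - qf G (lower1 q δ x).1 := by
  have hδ' : δ ∈ Set.Icc (0 : ℝ) (1 / 2) := Set.Ioc_subset_Icc_self hδ
  have h1 : ∀ᵐ x ∂unitSquare, (lower1 q δ x).1 ∈ Set.Ioo (0 : ℝ) 1 ∧
      (lower1 q δ x).2 ∈ Set.Ioo (0 : ℝ) 1 := by
    refine ae_of_ae_map (p := fun y : ℝ × ℝ => y.1 ∈ Set.Ioo (0 : ℝ) 1 ∧ y.2 ∈ Set.Ioo (0 : ℝ) 1)
      (measurable_lower1 q δ).aemeasurable ?_
    rw [map_lower1_eq hq hδ']
    exact (withDensity_absolutelyContinuous _ _).ae_le ae_unitSquare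
  filter_upwards [h1, ae_unitSquare] with x hy hx
  have h2 := raise1_strictMono hq le_rfl hδ.1 hy.1
  rw [raise1_zero hq hy.2.1.le, raise1_lower1 hq hδ' hx.1 hx.2.1.le] at h2
  exact sub_pos.2 (strictMonoOn_qf hatom hy.1 hx.1 h2)

theorem measurableSet_gainAt (q r : ℝ) (T : ℕ) (g : ℝ) (u : Pt) :
    MeasurableSet {t | GainAt G q r T g u t} := by
  simp only [GainAt, Set.ofPred_forall]
  refine MeasurableSet.iInter fun n => MeasurableSet.iInter fun _ => measurableSet_le measurable_const ?_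
  exact (measurable_qf.comp (measurable_fst.comp (measurable_pi_apply _))).sub
    (measurable_qf.comp (measurable_fst.comp ((measurable_lower1 q _).comp (measurable_pi_apply _))))

theorem exists_gain (hatom : ∀ x, G {x} = 0) {q : ℝ} (hq : q ∈ Set.Ioo (0 : ℝ) (1 / 4)) {rad : ℕ}
    (hrad : 2 ≤ rad) {ε : ℝ} (hε : 0 < ε) :
    ∃ g > (0 : ℝ), ∀ u, markLaw.real {t | ¬ GainAt G q rad 1 g u t} ≤ ε := by
  set δ : ℝ := 1 / (Real.sqrt (1 : ℕ) * (rad : ℝ)) with hδdef
  have hr : (2 : ℝ) ≤ rad := by exact_mod_cast hrad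
  have hδ : δ ∈ Set.Ioc (0 : ℝ) (1 / 2) := by
    rw [hδdef, Nat.cast_one, Real.sqrt_one, one_mul]
    exact ⟨by positivity, one_div_le_one_div_of_le two_pos hr⟩
  set d : ℝ × ℝ → ℝ := fun x => qf G x.1 - qf G (lower1 q δ x).1 with hd
  have hdm : Measurable d := (measurable_qf.comp measurable_fst).sub
    (measurable_qf.comp (measurable_fst.comp (measurable_lower1 q δ)))
  set S : ℕ → Set (ℝ × ℝ) := fun n => {x | d x < 1 / ((n : ℝ) + 1)} with hS
  have hSm : ∀ n, MeasurableSet (S n) := fun n => measurableSet_lt hdm measurable_const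
  have hanti : Antitone S := fun m n h x (hx : d x < _) =>
    hx.trans_le (one_div_le_one_div_of_le (by positivity) (by simpa using (Nat.cast_le (α := ℝ)).2 h))
  have hlim := tendsto_measure_iInter_atTop (μ := unitSquare) (fun n => (hSm n).nullMeasurableSet)
    hanti ⟨0, measure_ne_top _ _⟩
  have h0 : unitSquare (⋂ n, S n) = 0 := by
    refine measure_eq_zero_iff_ae_notMem.2 ?_
    filter_upwards [ae_saving_pos G hatom hq hδ] with x hx hmem
    obtain ⟨n, hn⟩ := exists_nat_one_div_lt hx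
    exact absurd (Set.mem_iInter.1 hmem n) (not_lt.2 hn.le)
  rw [h0] at hlim
  obtain ⟨n, hn⟩ := (hlim.eventually
    (eventually_le_nhds (ENNReal.ofReal_pos.2 (by linarith : (0 : ℝ) < ε / 4)))).exists
  refine ⟨1 / ((n : ℝ) + 1), by positivity, fun u => ?_⟩
  have hsub : {t : Marks | ¬ GainAt G q rad 1 (1 / ((n : ℝ) + 1)) u t} ⊆
      ⋃ i : Fin 4, (fun t : Marks => t s(u, u + step i)) ⁻¹' S n := by
    intro t ht
    simp only [GainAt, Set.mem_ofPred_eq, not_forall, not_le] at ht
    obtain ⟨v, hadj, hlt⟩ := ht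
    obtain ⟨i, rfl⟩ := exists_step hadj
    exact Set.mem_iUnion.2 ⟨i, hlt⟩
  refine (measureReal_mono hsub).trans ((measureReal_iUnion_fintype_le _).trans ?_)
  refine (Finset.sum_le_sum (g := fun _ => ε / 4) fun i _ => ?_).trans (by simp; linarith)
  rw [← map_measureReal_apply (f := fun t : Marks => t s(u, u + step i))
    (measurable_pi_apply (X := fun _ : Sym2 Pt => ℝ × ℝ) _) (hSm n), markLaw,
    Measure.infinitePi_map_eval]
  exact ENNReal.toReal_le_of_le_ofReal (by linarith) hn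

/-- An event of full probability keeps it under every tilt. -/
theorem ae_raise_star {p : Marks → Prop} (hp : ∀ᵐ t ∂markLaw, p t) {q K r : ℝ} {T : ℕ}
    (hq : q ∈ Set.Ioo (0 : ℝ) (1 / 4)) (hK : 1 ≤ K) (hr : 2 ≤ r) (hT : 1 ≤ T) (U : Finset Pt) :
    ∀ᵐ s ∂markLaw, p (raise q K r T U s) := by
  obtain ⟨N, hsub, hNm, hN⟩ := exists_measurable_superset_of_null (ae_iff.1 hp)
  filter_upwards [measure_eq_zero_iff_ae_notMem.1 (raise_null hq hK hr hT U hNm hN)] with s hs
  exact not_not.1 fun h => hs (hsub h)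

/-- Sums of probabilities compare as the numbers of occurring events do. -/
theorem sum_real_le_of_count {Ω ι κ : Type*} [MeasurableSpace Ω] {P : Measure Ω}
    [IsProbabilityMeasure P] (s : Finset ι) (t : Finset κ) {A : ι → Set Ω} {B : κ → Set Ω}
    (hA : ∀ i ∈ s, MeasurableSet (A i)) (hB : ∀ j ∈ t, MeasurableSet (B j)) {M : ℝ}
    (h : ∀ᵐ x ∂P, ∑ i ∈ s, (A i).indicator (fun _ => (1 : ℝ)) x ≤
      M + ∑ j ∈ t, (B j).indicator (fun _ => (1 : ℝ)) x) :
    ∑ i ∈ s, P.real (A i) ≤ M + ∑ j ∈ t, P.real (B j) := by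
  have iA : ∀ i ∈ s, Integrable ((A i).indicator fun _ => (1 : ℝ)) P := fun i hi =>
    (integrable_const _).indicator (hA i hi)
  have iB : ∀ j ∈ t, Integrable ((B j).indicator fun _ => (1 : ℝ)) P := fun j hj =>
    (integrable_const _).indicator (hB j hj)
  have := integral_mono_ae (integrable_finsetSum s iA)
    ((integrable_const M).add (integrable_finsetSum t iB)) h
  rw [integral_add' (integrable_const M) (integrable_finsetSum t iB), integral_finsetSum s iA,
    integral_finsetSum t iB] at this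
  simp only [integral_const, probReal_univ, smul_eq_mul, one_mul] at this
  refine le_trans (le_of_eq (Finset.sum_congr rfl fun i hi => ?_)) (this.trans (le_of_eq ?_))
  · rw [integral_indicator (hA i hi), setIntegral_const, smul_eq_mul, mul_one]
  · congr 1
    exact Finset.sum_congr rfl fun j hj => by
      rw [integral_indicator (hB j hj), setIntegral_const, smul_eq_mul, mul_one]

end Vale.Agent.P158.V4
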