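import Vale.Agent.P158.V4.StripTime
import Vale.Agent.P158.V4.Norm
import Vale.Agent.P158.V4.Shape

/-!
P158: under the shape bound the passage times across a strip are close to the norm.
-/

namespace Vale.Agent.P158.V4

open MeasureTheory Filter Topology

variable {μ : ℝ × ℝ → ℝ} {b : ℝ} {ω : Cfg}

theorem flip_snd (hμ : IsLatticeNorm μ) (x y : ℝ) : μ (x, -y) = μ (x, y) := by
  rw [← hμ.flip x (-y)]
  exact hμ.neg (x, y)

theorem l1_origin (z : Pt) : (l1 (0, 0) z : ℝ) = |(z.1 : ℝ)| + |(z.2 : ℝ)| := by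
  simp [l1, Nat.cast_natAbs]

theorem supports_snd_ge (hμ : IsLatticeNorm μ) {a κ' x y : ℝ} {ρ : ℝ × ℝ}
    (hsup : ∀ s ρ, |s| ≤ κ' → Supports μ (s, 1) ρ → |ρ.1| ≤ a) (ha : a ≤ μ (1, 0))
    (hy : 0 < y) (hxy : |x| ≤ κ' * y) (hρ : Supports μ (x, y) ρ) : μ (1, 0) - a ≤ ρ.2 := by
  have hρ' := (hμ.supports_of_dir hy).1 hρ
  have hs : |x / y| ≤ κ' := by rwa [abs_div, abs_of_pos hy, div_le_iff₀ hy]
  set s := x / y
  have hρa := hsup s ρ hs hρ'
  have e := hρ'.2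
  simp only [mul_one] at e
  have u1 : |s| * μ (1, 0) ≤ μ (s, 1) := by
    have := hμ.tri (s, 1) (s, -1)
    rw [flip_snd hμ, Prod.mk_add_mk, add_neg_cancel, hμ.horizontal, ← two_mul, abs_mul,
      abs_two] at this
    linarith
  have u2 : μ (1, 0) ≤ μ (s, 1) := by
    have := hμ.tri (s, 1) (-s, 1)
    rw [hμ.flip, Prod.mk_add_mk, add_neg_cancel, hμ.vertical] at this
    norm_num at this
    linarith
  have h3 : ρ.1 * s ≤ a * |s| :=
    (le_abs_self _).trans (by rw [abs_mul]; exact mul_le_mul_of_nonneg_right hρa (abs_nonneg _))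
  have ha0 : 0 ≤ a := (abs_nonneg _).trans hρa
  rcases le_total |s| 1 with h | h
  · have := mul_le_mul_of_nonneg_left h ha0
    linarith
  · have := mul_le_mul_of_nonneg_left h (sub_nonneg.2 ha)
    linarith

/-- A detour below or above a strip costs a definite amount. -/
theorem detour_gap (hμ : IsLatticeNorm μ) {g Q H M x y : ℝ} {ρ : ℝ × ℝ}
    (hρ : Supports μ (Q, H) ρ) (hg : g ≤ ρ.2) (hg0 : 0 ≤ g) (hM : 0 ≤ M)
    (hy : y ≤ 0 ∨ H + 2 * M ≤ y) :
    μ (Q, H) + 2 * g * M ≤ μ (x, y - M) + μ (Q - x, H + M - y) := by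
  have hρz := hρ.2
  dsimp only at hρz
  have main : ∀ t, 0 ≤ t → μ (Q, H) + 2 * g * M ≤ μ (Q, H + 2 * (M + t)) := by
    intro t ht
    have h1 := hρ.1 (Q, H + 2 * (M + t))
    dsimp only at h1
    have h2 := mul_le_mul_of_nonneg_right hg (show (0 : ℝ) ≤ M + t by linarith)
    have h3 := mul_nonneg hg0 ht
    linarith
  rcases hy with h | h
  · refine (main (-y) (by linarith)).trans ?_
    have := hμ.tri (x, M - y) (Q - x, H + M - y)
    rw [Prod.mk_add_mk, show x + (Q - x) = Q by ring,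
      show M - y + (H + M - y) = H + 2 * (M + -y) by ring,
      show (M - y) = -(y - M) by ring, flip_snd hμ] at this
    exact this
  · refine (main (y - H - 2 * M) (by linarith)).trans ?_
    have := hμ.tri (x, y - M) (Q - x, y - (H + M))
    rw [Prod.mk_add_mk, show x + (Q - x) = Q by ring,
      show y - M + (y - (H + M)) = H + 2 * (M + (y - H - 2 * M)) by ring] at this
    rw [show y - (H + M) = -(H + M - y) by ring, flip_snd hμ] at this
    exact this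

theorem ttIn_nonneg (h0 : ∀ e, 0 ≤ ω e) (S : Set Pt) (u v : Pt) : 0 ≤ ttIn S ω u v :=
  Real.iInf_nonneg fun p => wt_nonneg h0 p.1

/-- Under the shape bound a passage time across a strip is almost the norm. -/
theorem strip_le (hμ : IsLatticeNorm μ) (h0 : ∀ e, 0 ≤ ω e) (hb : ∀ e, ω e ≤ b) {ε r R c a κ' : ℝ}
    (hsh : Shape μ ε r ω (0, 0)) (hε : 0 ≤ ε) (hεc : ε ≤ c / 4)
    (hc : ∀ x y, c * (|x| + |y|) ≤ μ (x, y))
    (hsup : ∀ s ρ, |s| ≤ κ' → Supports μ (s, 1) ρ → |ρ.1| ≤ a) (ha : a < μ (1, 0))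
    {L M : ℕ} {Q : ℤ} (hrR : r ≤ R) (hR : |(Q : ℝ)| + L ≤ R) (hM : 2 * M < L)
    (hslope : |(Q : ℝ)| ≤ κ' * ((L : ℝ) - 2 * M))
    (hball : μ (1, 0) * (|(Q : ℝ)| + L) + c * M + 1 ≤ c / 2 * R)
    (hgap : 3 * ε * R + 1 < 2 * (μ (1, 0) - a) * M) :
    ttIn (strip 0 L) ω (0, 0) (Q, (L : ℤ)) ≤
      2 * b * M + μ ((Q : ℝ), (L : ℝ) - 2 * M) + ε * R + 1 := by
  set A : Pt := (0, (M : ℤ)) with hA
  set B : Pt := (Q, (L : ℤ) - M) with hB
  have hMR : (2 : ℝ) * M < L := by exact_mod_cast hM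
  have hM0 : (0 : ℝ) ≤ M := Nat.cast_nonneg M
  have hpos : (0 : ℝ) < (L : ℝ) - 2 * M := by linarith
  have hQ := abs_nonneg (Q : ℝ)
  have hlA : (l1 (0, 0) A : ℝ) ≤ R := by
    rw [l1_origin]
    simp only [A, Int.cast_zero, abs_zero, Int.cast_natCast, Nat.abs_cast]
    linarith
  have hlB : (l1 (0, 0) B : ℝ) ≤ R := by
    rw [l1_origin]
    simp only [B, Int.cast_sub, Int.cast_natCast]
    rw [abs_of_nonneg (by linarith : (0 : ℝ) ≤ (L : ℝ) - M)]
    linarith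
  have hAB := abs_le.1 (hsh R hrR A B hlA hlB)
  have hd : toR (B - A) = ((Q : ℝ), (L : ℝ) - 2 * M) := by
    simp [toR, A, B]
    ring
  rw [hd] at hAB
  have htop : μ ((Q : ℝ), (L : ℝ) - 2 * M) ≤ μ (1, 0) * (|(Q : ℝ)| + L) := by
    refine (hμ.le_l1 _).trans (mul_le_mul_of_nonneg_left ?_ hμ.axis_pos.le)
    simp only [abs_of_pos hpos]
    linarith
  obtain ⟨ρ, hρ⟩ := hμ.exists_supports ((Q : ℝ), (L : ℝ) - 2 * M)
  have hρ2 := supports_snd_ge hμ hsup ha.le hpos hslope hρ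
  obtain ⟨p, hp⟩ := exists_lt_of_ciInf_lt (show tt ω A B < tt ω A B + 1 by linarith)
  have hin : ∀ z ∈ p.support, z ∈ strip 0 L := by
    intro z hz
    by_contra hout
    obtain ⟨p1, p2, rfl⟩ := SimpleGraph.Walk.mem_support_iff_exists_append.1 hz
    rw [wt_append] at hp
    have h1 := tt_le h0 p1
    have h2 := tt_le h0 p2
    by_cases hzR : (l1 (0, 0) z : ℝ) ≤ R
    · have hAz := abs_le.1 (hsh R hrR A z hlA hzR)
      have hzB := abs_le.1 (hsh R hrR z B hzR hlB)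
      have e1 : toR (z - A) = ((z.1 : ℝ), (z.2 : ℝ) - M) := by simp [toR, A]
      have e2 : toR (B - z) = ((Q : ℝ) - z.1, (L : ℝ) - 2 * M + M - z.2) := by
        simp [toR, B]
        ring
      have hout' : (z.2 : ℝ) ≤ 0 ∨ (L : ℝ) - 2 * M + 2 * M ≤ (z.2 : ℝ) := by
        rw [mem_strip] at hout
        rcases (by omega : z.2 ≤ 0 ∨ (L : ℤ) ≤ z.2) with h | h
        · exact Or.inl (by exact_mod_cast h)
        · exact Or.inr (by rw [sub_add_cancel]; exact_mod_cast h)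
      have hkey := detour_gap hμ hρ hρ2 (by linarith) hM0 hout' (x := (z.1 : ℝ))
      rw [e1] at hAz
      rw [e2] at hzB
      linarith [hAz.1, hzB.1, hAB.2]
    · have hRR : R < (l1 (0, 0) z : ℝ) := not_le.1 hzR
      have hAz := abs_le.1 (hsh _ (hrR.trans hRR.le) A z (hlA.trans hRR.le) le_rfl)
      have hl : (l1 (0, 0) z : ℝ) - M ≤ |((z - A).1 : ℝ)| + |((z - A).2 : ℝ)| := by
        rw [l1_origin]
        simp only [A, Prod.fst_sub, Prod.snd_sub, sub_zero, Int.cast_sub, Int.cast_natCast]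
        have := abs_sub_abs_le_abs_sub (z.2 : ℝ) (M : ℝ)
        rw [Nat.abs_cast] at this
        linarith
      have hc0 : 0 ≤ c := by linarith
      have hmu : c * ((l1 (0, 0) z : ℝ) - M) ≤ μ (toR (z - A)) :=
        (mul_le_mul_of_nonneg_left hl hc0).trans (hc _ _)
      have h3 := mul_le_mul_of_nonneg_left hRR.le (show 0 ≤ c / 2 by linarith)
      have h4 := mul_le_mul_of_nonneg_right hεc (show 0 ≤ (l1 (0, 0) z : ℝ) by linarith)
      have h5 := mul_le_mul_of_nonneg_right hεc (show (0 : ℝ) ≤ R by linarith)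
      have h6 := mul_lt_mul_of_pos_left hRR (show 0 < c / 4 by
        by_contra hc4
        have : c = 0 := by linarith
        subst this
        have := hμ.axis_pos
        nlinarith)
      linarith [tt_nonneg (u := z) (v := B) h0, hAB.2, hAz.1]
  have h1 : ttIn (strip 0 L) ω A B ≤ tt ω A B + 1 := (ttS_le h0 p hin).trans hp.le
  have hlink := linked_strip 0 (L : ℤ)
  have hO : ((0, 0) : Pt) ∈ strip 0 (L : ℤ) := by rw [mem_strip]; simp
  have hAm : A ∈ strip 0 (L : ℤ) := by rw [mem_strip]; simp [A]; omega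
  have hBm : B ∈ strip 0 (L : ℤ) := by rw [mem_strip]; simp [B]; omega
  have hT : ((Q, (L : ℤ)) : Pt) ∈ strip 0 (L : ℤ) := by rw [mem_strip]; simp
  have h2 : ttIn (strip 0 L) ω (0, 0) A ≤ b * M := by
    refine (ttIn_le_l1 h0 hb _ _ fun z hz hz' => ?_).trans_eq (by simp [l1, A, mul_comm])
    rw [mem_strip]
    simp only [A] at hz hz'
    omega
  have h3 : ttIn (strip 0 L) ω B (Q, (L : ℤ)) ≤ b * M := by
    refine (ttIn_le_l1 h0 hb _ _ fun z hz hz' => ?_).trans_eq (by simp [l1, B, mul_comm])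
    rw [mem_strip]
    simp only [B] at hz hz'
    omega
  have t1 := ttS_triangle h0 hlink hO hAm hT (ω := ω)
  have t2 := ttS_triangle h0 hlink hAm hBm hT (ω := ω)
  simp only [ttIn_eq] at *
  linarith [hAB.2]

/-- The difference of the strip times at the ends of a window, under the shape bound. -/
theorem window_le (hμ : IsLatticeNorm μ) (h0 : ∀ e, 0 ≤ ω e) (hb : ∀ e, ω e ≤ b) {ε r R c a κ' : ℝ}
    (hsh : Shape μ ε r ω (0, 0)) (hε : 0 ≤ ε) (hεc : ε ≤ c / 4)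
    (hc : ∀ x y, c * (|x| + |y|) ≤ μ (x, y))
    (hsup : ∀ s ρ, |s| ≤ κ' → Supports μ (s, 1) ρ → |ρ.1| ≤ a) (ha : a < μ (1, 0))
    {L M n : ℕ} {P : ℤ} (hP : 0 ≤ P) (hrR : r ≤ R) (hR : ((P + n : ℤ) : ℝ) + L ≤ R) (hM : 2 * M < L)
    (hslope : ((P + n : ℤ) : ℝ) ≤ κ' * ((L : ℝ) - 2 * M))
    (hball : μ (1, 0) * (((P + n : ℤ) : ℝ) + L) + c * M + 1 ≤ c / 2 * R)
    (hgap : 3 * ε * R + 1 < 2 * (μ (1, 0) - a) * M) :
    ttIn (strip 0 L) ω (0, 0) (P + n, (L : ℤ)) - ttIn (strip 0 L) ω (0, 0) (P, (L : ℤ)) ≤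
      a * n + ((2 * b + 2 * μ (1, 0)) * M + 2 * ε * R + 1) := by
  have hP' : (0 : ℝ) ≤ P := by exact_mod_cast hP
  have hn' : (0 : ℝ) ≤ n := Nat.cast_nonneg n
  have hL' : (0 : ℝ) ≤ L := Nat.cast_nonneg L
  have hQ : ((P + n : ℤ) : ℝ) = P + n := by simp
  have hQa : |((P + n : ℤ) : ℝ)| = P + n := by rw [hQ, abs_of_nonneg (by linarith)]
  rw [hQ] at hR hslope hball
  have h1 := strip_le hμ h0 hb hsh hε hεc hc hsup ha (Q := P + n) hrR (by rw [hQa]; exact hR) hM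
    (by rw [hQa]; exact hslope) (by rw [hQa]; exact hball) hgap
  rw [hQ] at h1
  have hO : ((0, 0) : Pt) ∈ strip 0 (L : ℤ) := by rw [mem_strip]; simp
  have hTP : ((P, (L : ℤ)) : Pt) ∈ strip 0 (L : ℤ) := by rw [mem_strip]; simp
  have hlow := tt_le_ttS h0 (linked_strip _ _) hO hTP (ω := ω)
  have hPR : (l1 (0, 0) (P, (L : ℤ)) : ℝ) ≤ R := by
    rw [l1_origin]
    simp only [Int.cast_natCast, Nat.abs_cast, abs_of_nonneg hP']
    linarith
  have h2 := (abs_le.1 (hsh R hrR (0, 0) (P, (L : ℤ)) (by rw [l1_origin]; simp; linarith) hPR)).1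
  rw [show toR (((P, (L : ℤ)) : Pt) - (0, 0)) = ((P : ℝ), (L : ℝ)) by simp [toR]] at h2
  have h3 : μ ((P : ℝ) + n, (L : ℝ) - 2 * M) ≤ μ ((P : ℝ) + n, (L : ℝ)) + 2 * μ (1, 0) * M := by
    have := hμ.sub_le ((P : ℝ) + n, (L : ℝ) - 2 * M) ((P : ℝ) + n, (L : ℝ))
    simp only [sub_self, abs_zero, zero_add, sub_sub_cancel_left, abs_neg] at this
    rw [abs_of_nonneg (by positivity : (0 : ℝ) ≤ 2 * M)] at this
    linarith
  have h4 : μ ((P : ℝ) + n, (L : ℝ)) - μ ((P : ℝ), (L : ℝ)) ≤ a * n := by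
    obtain ⟨ρ, hρ⟩ := hμ.exists_supports ((P : ℝ) + n, (L : ℝ))
    have hLpos : (0 : ℝ) < L := by
      have : 0 < L := by omega
      exact_mod_cast this
    have hκ : 0 ≤ κ' := by
      by_contra hk
      have : (0 : ℝ) < (L : ℝ) - 2 * M := by
        have : (2 * M : ℝ) < L := by exact_mod_cast hM
        linarith
      nlinarith [not_le.1 hk]
    have hs : |((P : ℝ) + n) / L| ≤ κ' := by
      rw [abs_div, Nat.abs_cast, div_le_iff₀ hLpos, abs_of_nonneg (by linarith)]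
      nlinarith [(Nat.cast_nonneg M : (0 : ℝ) ≤ M)]
    have hρa := le_of_abs_le (hsup _ ρ hs ((hμ.supports_of_dir hLpos).1 hρ))
    have e' : ((P : ℝ), (L : ℝ)) + ((n : ℝ), 0) = ((P : ℝ) + n, (L : ℝ)) := by simp
    have := hμ.increment_le (z := ((P : ℝ), (L : ℝ))) (d := ((n : ℝ), 0)) (by rw [e']; exact hρ)
    rw [e'] at this
    have := mul_le_mul_of_nonneg_right hρa hn'
    simp only [mul_zero, add_zero] at *
    linarith
  simp only [ttIn_eq] at *
  linarith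

end Vale.Agent.P158.V4
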