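import Vale.Agent.P158.V4.StripMean
import Vale.Agent.P158.V4.Increment

/-!
P158: module Regular. At a site where the shape bound and the averaged increment bounds hold, every
cone ray is calibrated only inside a cone (`SteerStmt`).
-/

namespace Vale.Agent.P158.V4

open MeasureTheory Filter Topology

theorem exists_last_visit {A B : Pt} (p : grid.Walk A B) (h : ℤ) (hB : h ≤ B.2) :
    (∃ z ∈ p.support, z.2 ≤ h) →
      ∃ C, ∃ q : grid.Walk A C, ∃ s : grid.Walk C B,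
        C.2 = h ∧ p = q.append s ∧ ∀ z ∈ s.support, h ≤ z.2 := by
  induction p with
  | @nil A =>
    rintro ⟨z, hz, hzh⟩
    simp only [SimpleGraph.Walk.support_nil, List.mem_singleton] at hz
    subst hz
    exact ⟨z, .nil, .nil, le_antisymm hzh hB, rfl, fun w hw => by
      simp only [SimpleGraph.Walk.support_nil, List.mem_singleton] at hw
      exact hw ▸ hB⟩
  | @cons A A' B hadj p ih =>
    intro hex
    by_cases hrest : ∃ z ∈ p.support, z.2 ≤ h
    · obtain ⟨C, q, s, hC, hp, hs⟩ := ih hB hrest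
      exact ⟨C, .cons hadj q, s, hC, by rw [hp]; rfl, hs⟩
    · push Not at hrest
      have hA : A.2 ≤ h := by
        obtain ⟨z, hz, hzh⟩ := hex
        rw [SimpleGraph.Walk.support_cons, List.mem_cons] at hz
        rcases hz with rfl | hz
        · exact hzh
        · exact absurd hzh (not_le.2 (hrest z hz))
      have hA' := hrest A' p.start_mem_support
      have hstep := adj_snd_le hadj
      refine ⟨A, .nil, .cons hadj p, by omega, rfl, fun z hz => ?_⟩
      rw [SimpleGraph.Walk.support_cons, List.mem_cons] at hz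
      rcases hz with rfl | hz
      · omega
      · exact (hrest z hz).le

variable {μ : ℝ × ℝ → ℝ} {ω : Cfg} {b κ k2 k3 ε : ℝ}

theorem norm_ge_hor (hμ : IsLatticeNorm μ) (x y : ℝ) : μ (1, 0) * |x| ≤ μ (x, y) := by
  have := hμ.tri (x, y) (x, -y)
  rw [flip_snd hμ, Prod.mk_add_mk, add_neg_cancel, hμ.horizontal, ← two_mul, abs_mul, abs_two] at this
  linarith

/-- The deterministic event at a site. -/
def Core (μ : ℝ × ℝ → ℝ) (k2 k3 b ε : ℝ) (j0 : ℕ) (ω : Cfg) (u : Pt) : Prop :=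
  Shape μ ε j0 ω u ∧ Fwd k2 k3 b (μ (1, 0) - 8 * ε) j0 ω u ∧
    Fwd k2 k3 b (μ (1, 0) - 8 * ε) j0 (ω ∘ Sym2.map flipX) (flipX u)

theorem measurableSet_core (hε : 0 ≤ ε) (j0 : ℕ) (u : Pt) :
    MeasurableSet {ω : Cfg | Core μ k2 k3 b ε j0 ω u} :=
  (measurableSet_shape hε _ u).inter ((measurableSet_fwd _ _ _ _ j0 u).inter
    ((measurableSet_fwd k2 k3 b (μ (1, 0) - 8 * ε) j0 (flipX u)).preimage
      (measurable_pi_iff.2 fun e => measurable_pi_apply _)))

/-- The hypotheses of the steering estimates. -/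
structure SteerData (μ : ℝ × ℝ → ℝ) (ω : Cfg) (b κ k2 k3 ε K : ℝ) (j0 : ℕ) (u : Pt) : Prop where
  nonneg : ∀ e, 0 ≤ ω e
  le : ∀ e, ω e ≤ b
  b0 : 0 ≤ b
  norm : IsLatticeNorm μ
  κ0 : 0 ≤ κ
  hκ : κ < k2
  h23 : k2 < k3
  hε : 0 < ε
  slope : 0 ≤ μ (1, 0) - 8 * ε
  hK : 1 ≤ K
  hK' : 2 * b + μ (1, 0) + ε + 1 ≤ ε * K
  j1 : 1 ≤ j0
  core : Core μ k2 k3 b ε j0 ω u

variable {K : ℝ} {j0 : ℕ} {u : Pt} {ray : Ray}

theorem SteerData.outside (d : SteerData μ ω b κ k2 k3 ε K j0 u) {z : Pt} (hz : ¬ InCone K j0 u z) :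
    (b * |((z.2 - u.2 : ℤ) : ℝ)| ≤ ε * |((z.1 - u.1 : ℤ) : ℝ)| ∧
      |((z.2 - u.2 : ℤ) : ℝ)| ≤ |((z.1 - u.1 : ℤ) : ℝ)|) ∧
      (2 * b + μ (1, 0) + ε + 1) * j0 ≤ ε * |((z.1 - u.1 : ℤ) : ℝ)| ∧
        (j0 : ℝ) ≤ |((z.1 - u.1 : ℤ) : ℝ)| := by
  unfold InCone at hz
  rw [not_le] at hz
  set A := |((z.1 - u.1 : ℤ) : ℝ)|
  set B := |((z.2 - u.2 : ℤ) : ℝ)|
  have h1 : K * B < A := lt_of_le_of_lt (mul_le_mul_of_nonneg_left (le_max_left _ _) (by linarith [d.hK])) hz
  have h2 : K * j0 < A := lt_of_le_of_lt (mul_le_mul_of_nonneg_left (le_max_right _ _) (by linarith [d.hK])) hz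
  have hB : 0 ≤ B := abs_nonneg _
  have hj : (0 : ℝ) ≤ j0 := Nat.cast_nonneg _
  have hm := d.norm.axis_pos
  have hbK : b ≤ ε * K := by linarith [d.hK', d.b0, d.hε]
  have hB' : B ≤ A := by
    have := mul_le_mul_of_nonneg_right d.hK hB
    linarith
  refine ⟨⟨?_, hB'⟩, ?_, ?_⟩
  · have x1 := mul_le_mul_of_nonneg_right hbK hB
    have x2 := mul_le_mul_of_nonneg_left h1.le d.hε.le
    linarith
  · have x1 := mul_le_mul_of_nonneg_right d.hK' hj
    have x2 := mul_le_mul_of_nonneg_left h2.le d.hε.le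
    linarith
  · have := mul_le_mul_of_nonneg_right d.hK hj
    linarith

/-- The shape bound from a point of the base segment to an outside point. -/
theorem SteerData.tt_far (d : SteerData μ ω b κ k2 k3 ε K j0 u) {z : Pt} (hz : ¬ InCone K j0 u z)
    {x : ℤ} (hx : |((x - u.1 : ℤ) : ℝ)| ≤ j0) :
    μ (1, 0) * (|((z.1 - u.1 : ℤ) : ℝ)| - |((x - u.1 : ℤ) : ℝ)|) -
      2 * ε * |((z.1 - u.1 : ℤ) : ℝ)| ≤ tt ω (x, u.2) z := by
  obtain ⟨⟨-, hB'⟩, -, hA⟩ := d.outside hz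
  set A := |((z.1 - u.1 : ℤ) : ℝ)|
  set B := |((z.2 - u.2 : ℤ) : ℝ)|
  have hl : (l1 u z : ℝ) = A + B := by
    simp [l1, A, B, Nat.cast_natAbs, abs_sub_comm]
  have hlx : (l1 u (x, u.2) : ℝ) = |((x - u.1 : ℤ) : ℝ)| := by
    simp [l1, Nat.cast_natAbs, abs_sub_comm]
  have hB : 0 ≤ B := abs_nonneg _
  have h := (abs_le.1 (d.core.1 (A + B) (by linarith) (x, u.2) z (by rw [hlx]; linarith) hl.le)).1
  have e : toR (z - ((x, u.2) : Pt)) =
      ((((z.1 - u.1 : ℤ) : ℝ)) - ((x - u.1 : ℤ) : ℝ), ((z.2 - u.2 : ℤ) : ℝ)) := by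
    simp [toR]
  rw [e] at h
  have h2 := norm_ge_hor d.norm ((((z.1 - u.1 : ℤ) : ℝ)) - ((x - u.1 : ℤ) : ℝ)) ((z.2 - u.2 : ℤ) : ℝ)
  have h3 := mul_le_mul_of_nonneg_left
    (abs_sub_abs_le_abs_sub (((z.1 - u.1 : ℤ) : ℝ)) ((x - u.1 : ℤ) : ℝ)) d.norm.axis_pos.le
  have h4 := mul_le_mul_of_nonneg_left hB' d.hε.le
  linarith

theorem SteerData.drop (d : SteerData μ ω b κ k2 k3 ε K j0 u) (hr : IsTail ω ray)
    (hcone : ConeRay κ ray) (hrise : Rises ray) (x : ℤ) :
    busIn (upper u.2) ω ray u - busIn (upper u.2) ω ray (x, u.2) ≤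
      (μ (1, 0) - 8 * ε) * |((x - u.1 : ℤ) : ℝ)| + b * j0 :=
  drop_bound d.nonneg d.le d.b0 hr hrise hcone d.κ0 d.hκ d.h23 d.slope d.core.2.1 d.core.2.2 x

/-- The lower bound on the Busemann function at far points of the line of the site. -/
theorem SteerData.line_low (d : SteerData μ ω b κ k2 k3 ε K j0 u) (hr : IsTail ω ray)
    (hcone : ConeRay κ ray) (hrise : Rises ray) (x : ℤ) :
    busIn (upper u.2) ω ray u - ((μ (1, 0) - 7 * ε) * |((x - u.1 : ℤ) : ℝ)| + (b + ε) * j0) ≤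
      bus ω ray (x, u.2) := by
  obtain ⟨M, hM⟩ := hr.busIn_le d.nonneg (linked_upper' u.2) (hrise.eventually_upper u.2)
  refine ge_of_tendsto (hr.tendsto_bus d.nonneg (x, u.2)) ?_
  filter_upwards [eventually_ge_atTop M, hrise.eventually_upper u.2] with n hn hnS
  rw [le_sub_iff_add_le]
  refine le_tt fun p => ?_
  obtain ⟨C, q, s, hC, hp, hS⟩ :=
    exists_last_visit p u.2 hnS ⟨(x, u.2), p.start_mem_support, le_refl u.2⟩
  obtain ⟨c, rfl⟩ : ∃ c : ℤ, C = (c, u.2) := ⟨C.1, Prod.ext rfl hC⟩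
  have h1 : tt ω (x, u.2) (c, u.2) ≤ wt ω q := tt_le d.nonneg q
  have h2 : busIn (upper u.2) ω ray (c, u.2) + ray.acc n ≤ wt ω s := by
    have := hM (c, u.2) (le_refl u.2) n hn
    have := ttS_le (S := upper u.2) d.nonneg s hS
    simp only [ttIn_eq] at *
    linarith
  rw [hp, wt_append]
  set D := |((x - u.1 : ℤ) : ℝ)|
  set W := |((c - x : ℤ) : ℝ)|
  have hD : 0 ≤ D := abs_nonneg _
  have hW : 0 ≤ W := abs_nonneg _
  have hj : (0 : ℝ) ≤ j0 := Nat.cast_nonneg _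
  have hcu : |((c - u.1 : ℤ) : ℝ)| ≤ D + W := by
    rw [show ((c - u.1 : ℤ) : ℝ) = ((x - u.1 : ℤ) : ℝ) + ((c - x : ℤ) : ℝ) by push_cast; ring]
    exact abs_add_le _ _
  have hlx : (l1 u (x, u.2) : ℝ) = D := by simp [l1, D, Nat.cast_natAbs, abs_sub_comm]
  have hlc : (l1 u (c, u.2) : ℝ) = |((c - u.1 : ℤ) : ℝ)| := by
    simp [l1, Nat.cast_natAbs, abs_sub_comm]
  have h3 := (abs_le.1 (d.core.1 (j0 + D + W) (by linarith) (x, u.2) (c, u.2) (by rw [hlx]; linarith)
    (by rw [hlc]; linarith))).1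
  have e : toR (((c, u.2) : Pt) - ((x, u.2) : Pt)) = (((c - x : ℤ) : ℝ), 0) := by simp [toR]
  rw [e, d.norm.horizontal] at h3
  have h4 := d.drop hr hcone hrise c
  have h5 := mul_le_mul_of_nonneg_left hcu d.slope
  have h6 := mul_nonneg d.hε.le hW
  linarith

theorem SteerData.full (d : SteerData μ ω b κ k2 k3 ε K j0 u) (hr : IsTail ω ray)
    (hcone : ConeRay κ ray) (hrise : Rises ray) (z : Pt) (hz : ¬ InCone K j0 u z) :
    bus ω ray u + 1 ≤ tt ω u z + bus ω ray z := by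
  obtain ⟨⟨hbB, hB'⟩, hA, hjA⟩ := d.outside hz
  have h1 := hr.bus_le_busIn d.nonneg (linked_upper' u.2) (hrise.eventually_upper u.2) (p := u)
    (le_refl u.2)
  have h2 := d.line_low hr hcone hrise z.1
  have h3 : bus ω ray (z.1, u.2) ≤ b * |((z.2 - u.2 : ℤ) : ℝ)| + bus ω ray z := by
    refine (hr.bus_le_add d.nonneg _ z).trans (add_le_add_left ((tt_le_l1 d.nonneg d.le _ _).trans_eq
      ?_) _)
    simp [l1, Nat.cast_natAbs, mul_comm, abs_sub_comm]
  have h4 := d.tt_far hz (x := u.1) (by simp)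
  simp only [sub_self, Int.cast_zero, abs_zero, sub_zero] at h4
  have hb := mul_nonneg d.b0 (Nat.cast_nonneg j0 : (0 : ℝ) ≤ j0)
  have hm := mul_nonneg d.norm.axis_pos.le (Nat.cast_nonneg j0 : (0 : ℝ) ≤ j0)
  have hj : (1 : ℝ) ≤ j0 := by exact_mod_cast d.j1
  have := mul_nonneg d.hε.le (abs_nonneg ((z.1 - u.1 : ℤ) : ℝ))
  rw [show ((u.1, u.2) : Pt) = u from rfl] at h4
  linarith

theorem SteerData.above (d : SteerData μ ω b κ k2 k3 ε K j0 u) (hr : IsTail ω ray)
    (hcone : ConeRay κ ray) (hrise : Rises ray) (x : ℤ) (hx : |((x - u.1 : ℤ) : ℝ)| ≤ j0)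
    (z : Pt) (hzu : z ∈ upper u.2) (hz : ¬ InCone K j0 u z) :
    busIn (upper u.2) ω ray (x, u.2) + 1 ≤
      ttIn (upper u.2) ω (x, u.2) z + busIn (upper u.2) ω ray z := by
  obtain ⟨⟨hbB, hB'⟩, hA, hjA⟩ := d.outside hz
  have hev := hrise.eventually_upper u.2
  have hlink := linked_upper' u.2
  have hseg : ∀ v w : Pt, v ∈ upper u.2 → w ∈ upper u.2 →
      ttIn (upper u.2) ω v w ≤ l1 v w * b := fun v w hv hw =>
    ttIn_le_l1 d.nonneg d.le v w fun y hy _ => by
      rw [mem_upper] at hv hw ⊢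
      omega
  have h1 : busIn (upper u.2) ω ray (x, u.2) ≤ b * j0 + busIn (upper u.2) ω ray u := by
    refine (hr.busIn_le_add d.nonneg hlink hev (p := (x, u.2)) (q := u) (le_refl u.2) (le_refl u.2)).trans
      (add_le_add_left ((hseg (x, u.2) u (le_refl u.2) (le_refl u.2)).trans ?_) _)
    rw [mul_comm]
    refine mul_le_mul_of_nonneg_left (le_trans (le_of_eq ?_) hx) d.b0
    simp [l1, Nat.cast_natAbs]
  have h2 := d.drop hr hcone hrise z.1
  have h3 : busIn (upper u.2) ω ray (z.1, u.2) ≤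
      b * |((z.2 - u.2 : ℤ) : ℝ)| + busIn (upper u.2) ω ray z := by
    refine (hr.busIn_le_add d.nonneg hlink hev (p := (z.1, u.2)) (q := z) (le_refl u.2) hzu).trans
      (add_le_add_left ((hseg (z.1, u.2) z (le_refl u.2) hzu).trans_eq ?_) _)
    simp [l1, Nat.cast_natAbs, mul_comm, abs_sub_comm]
  have h4 := d.tt_far hz hx
  have h5 : tt ω (x, u.2) z ≤ ttIn (upper u.2) ω (x, u.2) z :=
    tt_le_ttS d.nonneg hlink (le_refl u.2) hzu
  have h6 := mul_le_mul_of_nonneg_left hx d.norm.axis_pos.le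
  have hj : (1 : ℝ) ≤ j0 := by exact_mod_cast d.j1
  have := mul_nonneg d.hε.le (Nat.cast_nonneg j0 : (0 : ℝ) ≤ j0)
  have := mul_nonneg d.hε.le (abs_nonneg ((z.1 - u.1 : ℤ) : ℝ))
  linarith

variable (G : Measure ℝ) [IsProbabilityMeasure G]

theorem map_preserving (φ : grid →g grid) (h1 : ∀ z, φ (φ z) = z) :
    MeasurePreserving (fun ω : Cfg => ω ∘ Sym2.map φ) (law G) (law G) :=
  map_reindex G (Sym2.map.injective fun a c hac => by simpa [h1] using congrArg φ hac)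

theorem tendsto_fwd {m1 : ℝ} (hb0 : 0 ≤ b) (hlow : ∫ ω, low k2 k3 b ω (0, 0) ∂law G < m1) (u : Pt) :
    Tendsto (fun r : ℕ => law G {ω | ¬ Fwd k2 k3 b m1 r ω u}) atTop (𝓝 0) := by
  set T : Cfg → Cfg := fun ω => ω ∘ eShift (1, 0)
  set f : Cfg → ℝ := fun ω => low k2 k3 b ω (0, 0)
  have h := tendsto_exceed (shift_preserving G (1, 0)) (fun A hA hinv => shift_ergodic G hA hinv)
    (measurable_low (k2 := k2) (k3 := k3) (b := b) (0, 0)) (fun ω => abs_low_le hb0 ω _) hlow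
  refine h.congr fun r => ?_
  have hmp := shift_preserving G u
  have key : ∀ ω i, f (T^[i] (ω ∘ eShift u)) = low k2 k3 b ω (u.1 + (i : ℤ), u.2) := by
    intro ω i
    simp only [f, T, iterate_reindex, eShift_iterate, low_shift]
    congr 1
    ext <;> simp [add_comm]
  have hset : {ω : Cfg | ¬ Fwd k2 k3 b m1 r ω u} = (fun ω : Cfg => ω ∘ eShift u) ⁻¹'
      {ω | ∃ j, r ≤ j ∧ m1 * j < ∑ i ∈ Finset.range j, f (T^[i] ω)} := by
    ext ω
    simp only [Fwd, Set.mem_ofPred_eq, Set.mem_preimage, key]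
    push Not
    rfl
  rw [hset, hmp.measure_preimage]
  refine MeasurableSet.nullMeasurableSet ?_
  simp only [Set.ofPred_exists]
  exact MeasurableSet.iUnion fun j => MeasurableSet.inter (MeasurableSet.const _)
    (measurableSet_lt measurable_const
      (measurable_sum_orbit (shift_preserving G (1, 0)).measurable (measurable_low (0, 0)) j))

theorem tendsto_core {ε : ℝ} (hb0 : 0 ≤ b) (hε : 0 ≤ ε)
    (hlow : ∫ ω, low k2 k3 b ω (0, 0) ∂law G < μ (1, 0) - 8 * ε)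
    (hshape : ∀ u : Pt, Tendsto (fun r : ℕ => law G {ω | ¬ Shape μ ε r ω u}) atTop (𝓝 0)) (u : Pt) :
    Tendsto (fun r : ℕ => law G {ω | ¬ Core μ k2 k3 b ε r ω u}) atTop (𝓝 0) := by
  have h := ((hshape u).add (tendsto_fwd G hb0 hlow u)).add (tendsto_fwd G hb0 hlow (flipX u))
  rw [add_zero, add_zero] at h
  refine tendsto_of_tendsto_of_tendsto_of_le_of_le tendsto_const_nhds h (fun r => zero_le)
    fun r => ?_
  rw [← (map_preserving G flipX flipX_flipX).measure_preimage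
    (s := {ω | ¬ Fwd k2 k3 b (μ (1, 0) - 8 * ε) r ω (flipX u)})
    (measurableSet_fwd _ _ _ _ r _).compl.nullMeasurableSet]
  refine le_trans (measure_mono fun ω hω => ?_)
    ((measure_union_le _ _).trans (add_le_add_left (measure_union_le _ _) _))
  simp only [Core, Set.mem_ofPred_eq] at hω
  simp only [Set.mem_union, Set.mem_ofPred_eq, Set.mem_preimage]
  tauto

/-- Module Regular. -/
theorem steerStmt (hG : ∀ᵐ t ∂G, 0 < t ∧ t ≤ b) (hμ : IsLatticeNorm μ)
    (hshape : ∀ ε > 0, ∀ u : Pt, Tendsto (fun r : ℕ => law G {ω | ¬ Shape μ ε r ω u}) atTop (𝓝 0)) :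
    SteerStmt G μ := by
  intro κ hκ
  have hb0 := b_nonneg G hG
  obtain ⟨κ', hκ', a, ha0, ha, hsup⟩ := hμ.strictSlope_bound hκ
  have hκ0 := hκ.1
  set k2 := (2 * κ + κ') / 3 with hk2
  set k3 := (κ + 2 * κ') / 3 with hk3
  have hm := hμ.axis_pos
  have hlow := low_mean_le G hG hμ (fun ε hε => hshape ε hε (0, 0)) (k2 := k2) (k3 := k3)
    (by rw [hk2]; linarith) (by rw [hk2, hk3]; linarith) (by rw [hk3]; linarith) ha hsup
  set ε := (μ (1, 0) - a) / 16 with hεdef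
  have hε : 0 < ε := by rw [hεdef]; linarith
  have hslope : 0 ≤ μ (1, 0) - 8 * ε := by rw [hεdef]; linarith
  have hlow' : ∫ ω, low k2 k3 b ω (0, 0) ∂law G < μ (1, 0) - 8 * ε := by
    rw [hεdef]; linarith
  set K := max 1 ((2 * b + μ (1, 0) + ε + 1) / ε)
  have hK' : 2 * b + μ (1, 0) + ε + 1 ≤ ε * K := by
    have := (div_le_iff₀ hε).1 (le_max_right 1 ((2 * b + μ (1, 0) + ε + 1) / ε))
    linarith
  refine ⟨K, le_max_left _ _, fun r u => {ω | 1 ≤ r ∧ Core μ k2 k3 b ε r ω u ∧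
    Core μ k2 k3 b ε r (ω ∘ Sym2.map flip2) (flip2 u)}, fun r u => ?_, ?_, fun u => ?_⟩
  · exact (MeasurableSet.const _).inter ((measurableSet_core hε.le r u).inter
      ((measurableSet_core hε.le r (flip2 u)).preimage
        (measurable_pi_iff.2 fun e => measurable_pi_apply _)))
  · filter_upwards [good_ae G hG] with ω hω r u hA
    obtain ⟨hr1, hcu, hcd⟩ := hA
    have h0 : ∀ e, 0 ≤ ω e := fun e => (hω e).1.le
    have d : SteerData μ ω b κ k2 k3 ε K r u := ⟨h0, fun e => (hω e).2, hb0, hμ, hκ0,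
      by rw [hk2]; linarith, by rw [hk2, hk3]; linarith, hε, hslope, le_max_left _ _, hK', hr1, hcu⟩
    have d' : SteerData μ (ω ∘ Sym2.map flip2) b κ k2 k3 ε K r (flip2 u) := ⟨fun e => h0 _,
      fun e => (hω _).2, hb0, hμ, hκ0, by rw [hk2]; linarith, by rw [hk2, hk3]; linarith, hε, hslope,
      le_max_left _ _, hK', hr1, hcd⟩
    have hcone' : ∀ ray, ConeRay κ ray → ConeRay κ (ray.map flip2) := fun ray h => h.mono fun n hn => by
      show |(((ray.pt n).1 : ℤ) : ℝ)| ≤ κ * |((-(ray.pt n).2 : ℤ) : ℝ)|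
      rwa [Int.cast_neg, abs_neg]
    have hrise' : ∀ ray, Falls ray → Rises (ray.map flip2) := fun ray h =>
      tendsto_neg_atBot_atTop.comp h
    have hin : ∀ z, InCone K (r : ℝ) (flip2 u) (flip2 z) → InCone K (r : ℝ) u z := fun z hz => by
      unfold InCone at hz ⊢
      rw [show (flip2 z).1 = z.1 from rfl, show (flip2 u).1 = u.1 from rfl,
        show (flip2 z).2 - (flip2 u).2 = -(z.2 - u.2) by
          show -z.2 - -u.2 = _
          ring, Int.cast_neg, abs_neg] at hz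
      exact hz
    refine ⟨fun ray hr hcone hdir z hz => ?_, fun ray hr hcone hrise x hx z hzu hz =>
      d.above hr hcone hrise x hx z hzu hz, fun ray hr hcone hfall x hx z hzl hz => ?_⟩
    · rcases hdir with h | h
      · exact d.full hr hcone h z hz
      · have := d'.full (hr.map h0 flip2 flip2_flip2) (hcone' ray hcone) (hrise' ray h) (flip2 z)
          fun h' => hz (hin z h')
        rwa [bus_map h0 flip2 flip2_flip2, bus_map h0 flip2 flip2_flip2,
          tt_map h0 flip2 flip2 flip2_flip2 flip2_flip2, flip2_flip2, flip2_flip2] at this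
    · have hset : flip2 ⁻¹' lower u.2 = upper (flip2 u).2 := by
        ext w
        show -w.2 ≤ u.2 ↔ -u.2 ≤ w.2
        omega
      have := d'.above (hr.map h0 flip2 flip2_flip2) (hcone' ray hcone) (hrise' ray hfall) x hx
        (flip2 z) (show -u.2 ≤ -z.2 by have := mem_lower.1 hzl; omega) fun h' => hz (hin z h')
      rw [show ((x, (flip2 u).2) : Pt) = flip2 (x, u.2) from rfl, ← hset,
        busIn_map flip2 flip2_flip2, busIn_map flip2 flip2_flip2,
        ttIn_map flip2 flip2 flip2_flip2 flip2_flip2, flip2_flip2, flip2_flip2] at this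
      exact this
  · have hc := tendsto_core G hb0 hε.le hlow' (fun v => hshape ε hε v)
    have h := (hc u).add (hc (flip2 u))
    rw [add_zero] at h
    refine tendsto_of_tendsto_of_tendsto_of_le_of_le' tendsto_const_nhds h
      (Eventually.of_forall fun r => zero_le) ?_
    filter_upwards [eventually_ge_atTop 1] with r hr
    rw [← (map_preserving G flip2 flip2_flip2).measure_preimage
      (s := {ω | ¬ Core μ k2 k3 b ε r ω (flip2 u)})
      (measurableSet_core hε.le r _).compl.nullMeasurableSet]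
    refine le_trans (measure_mono fun ω hω => ?_) (measure_union_le _ _)
    simp only [Set.mem_compl_iff, Set.mem_ofPred_eq] at hω
    simp only [Set.mem_union, Set.mem_ofPred_eq, Set.mem_preimage]
    tauto

end Vale.Agent.P158.V4
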