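import Vale.Agent.P158.V4.Faces

/-!
P158, for module Stars2 (notes 1446, 1451): every strict slope is enclosed by a strict slope beyond
all the directions sharing a supporting functional with it.
-/

namespace Vale.Agent.P158.V4

open Filter Topology

/-- The faces met by slopes up to a little over `κ` end before a strict slope. -/
def Encl (μ : ℝ × ℝ → ℝ) (κ : ℝ) : Prop :=
  ∃ κ₁, StrictSlope μ κ₁ ∧ ∃ k > κ, ∀ s x : ℝ, ∀ ρ, |s| ≤ k → κ₁ ≤ |x| →
    Supports μ (s, 1) ρ → ¬ Supports μ (x, 1) ρ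

theorem IsLatticeNorm.encl {μ : ℝ × ℝ → ℝ} (h : IsLatticeNorm μ) (hnf : NoFacet μ) {κ : ℝ}
    (hκ : StrictSlope μ κ) : Encl μ κ := by
  obtain ⟨k, hk, a, -, ha, hb⟩ := h.strictSlope_bound hκ
  have hk0 : 0 ≤ k := hκ.1.trans hk.le
  set m := μ (1, 0) with hm
  -- slopes sharing a functional with those up to `k`
  set X : Set ℝ := {x | ∃ ρ : ℝ × ℝ, Supports μ (x, 1) ρ ∧ |ρ.1| ≤ a}
  have hflip : ∀ x ∈ X, -x ∈ X := fun x ⟨ρ, hρ, hle⟩ =>
    ⟨_, h.supports_flip hρ, by simpa using hle⟩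
  -- they are bounded
  have hbound : ∀ x ∈ X, |x| ≤ (m + m) / (m - a) := by
    rintro x ⟨ρ, hρ, hle⟩
    have h1 := hρ.2
    have h2 := norm_ge_hor_aux h x 1
    have h3 := (h.supports_bound hρ).2
    have h4 : ρ.1 * x ≤ a * |x| :=
      (le_abs_self _).trans (by rw [abs_mul]; exact mul_le_mul_of_nonneg_right hle (abs_nonneg x))
    rw [le_div_iff₀ (sub_pos.2 ha)]
    simp only [mul_one] at h1
    nlinarith [abs_le.1 h3]
  obtain ⟨ρ0, hρ0⟩ := h.exists_supports (k, 1)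
  have hne : X.Nonempty := ⟨k, ρ0, hρ0, hb k ρ0 (abs_of_nonneg hk0).le hρ0⟩
  have hbdd : BddAbove X := ⟨_, fun x hx => (le_abs_self x).trans (hbound x hx)⟩
  set e := sSup X
  have hek : k ≤ e := le_csSup hbdd ⟨ρ0, hρ0, hb k ρ0 (abs_of_nonneg hk0).le hρ0⟩
  -- the last of them is strict
  obtain ⟨u, -, hu, huX⟩ := exists_seq_tendsto_sSup hne hbdd
  choose ρ hρ hle using huX
  obtain ⟨σ, -, φ, hφ, hlim⟩ := (isCompact_box m).tendsto_subseq
    (x := ρ) fun n => h.supports_mem_box (hρ n)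
  have hθ : Tendsto (fun n => ((u n, (1 : ℝ)) : ℝ × ℝ)) atTop (𝓝 (e, 1)) :=
    hu.prodMk_nhds tendsto_const_nhds
  have hσ : Supports μ (e, 1) σ :=
    h.supports_of_tendsto (fun n => hρ (φ n)) (hθ.comp hφ.tendsto_atTop) hlim
  have hσa : |σ.1| ≤ a :=
    le_of_tendsto' (((continuous_fst.tendsto _).comp hlim).abs) fun n => hle (φ n)
  have hs : StrictSlope μ e := by
    refine h.strictSlope_of (hk0.trans hek) fun τ hτ he => ?_
    rcases eq_or_eq_neg_of_abs_eq he with he' | he'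
    · have := h.extreme_unique hnf (one_ne_zero (α := ℝ)) hτ he' hσ
      rw [this, he', abs_of_pos h.axis_pos] at hσa
      linarith
    · have hτ' := h.supports_flip hτ
      have := h.extreme_unique hnf (θ := (-e, 1)) (one_ne_zero (α := ℝ)) hτ'
        (by simp only; linarith) (h.supports_flip hσ)
      simp only [Prod.mk.injEq] at this
      rw [show σ.1 = τ.1 by linarith [this.1], he', abs_neg, abs_of_pos h.axis_pos] at hσa
      linarith
  obtain ⟨he0, e', he', hlt⟩ := hs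
  refine ⟨(e + e') / 2, ⟨by linarith, e', by linarith, hlt⟩, k, hk,
    fun s x τ hs' hx hsup hcon => ?_⟩
  have hxX : x ∈ X := ⟨τ, hcon, hb s τ hs' hsup⟩
  have h1 := le_csSup hbdd hxX
  have h2 := le_csSup hbdd (hflip x hxX)
  rcases abs_cases x with ⟨h3, -⟩ | ⟨h3, -⟩ <;> linarith
where
  norm_ge_hor_aux {μ : ℝ × ℝ → ℝ} (h : IsLatticeNorm μ) (x y : ℝ) :
      μ (1, 0) * |x| ≤ μ (x, y) := by
    have h1 := h.tri (x, y) (x, -y)
    have h2 : μ (x, -y) = μ (x, y) := by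
      have := h.neg (-x, y)
      rw [Prod.neg_mk, neg_neg, h.flip] at this
      exact this
    rw [Prod.mk_add_mk, add_neg_cancel, h.horizontal, h2, ← two_mul, abs_mul, abs_two] at h1
    linarith

end Vale.Agent.P158.V4
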