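import Vale.Agent.P158.V4.NullStrict
import Vale.Agent.P158.V4.MainLanes
import Vale.Agent.P158.V4.LaneNullRays

/-!
P158, note 1446, section F: without stars of class rays the labels of selected lanes give no star
boxes.
-/

namespace Vale.Agent.P158.V4

open MeasureTheory Filter Topology

variable {G : Measure ℝ} [IsProbabilityMeasure G] {μ : ℝ × ℝ → ℝ}

/-- Module LaneNull, strict version. -/
theorem laneNullStmt_strict (hatom : ∀ x, G {x} = 0)
    (hstar : ∀ κ, StrictSlope μ κ → ∀ᵐ ω ∂law G, ∀ (w : Pt) (a b c : Ray),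
      ClassRays κ ω a b c → ¬ StarAt ω a.pt b.pt c.pt w) :
    LaneNullStmt G μ := by
  intro b κ hκ rr cg hcg hgood F A v₁ v₂ u₁ u₂ t₂ hA _ _ _ hlane
  -- a slightly wider strict cone holds all the rays
  obtain ⟨hκ0, κ', hκ', hρ⟩ := hκ
  set k := (κ + κ') / 2 with hk
  have hkκ : κ < k := by rw [hk]; linarith
  have hs := hstar k ⟨by linarith, κ', by rw [hk]; linarith, hρ⟩
  have ends : ∀ (ω : Cfg) (v : ℤ → Pt), IsLane ω v → Profile μ κ rr v →
      Rises (labOf ω v).up ∧ Falls (labOf ω v).lo ∧ ConeRay k (labOf ω v).up ∧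
        ConeRay k (labOf ω v).lo :=
    fun ω v hv hP => profile_ends hP hv.inj hκ0 hkκ
  have tails : ∀ (ω x : Cfg) (v : ℤ → Pt) (E : Finset (Sym2 Pt)), IsLane ω v → Good b cg ω →
      Good b cg x → (∀ e, e ∉ E → x e = ω e) →
      IsTail x (labOf ω v).lo ∧ IsTail x (labOf ω v).up := fun ω x v E hv hg hgx heq =>
    ⟨(isTail_lo hv hg.nonneg).congr (hg.escape hcg) hg.nonneg hgx.nonneg E heq,
      (isTail_up hv hg.nonneg).congr (hg.escape hcg) hg.nonneg hgx.nonneg E heq⟩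
  -- the events of the two ends lie in null events of the first field
  have hnull : ∀ {P : Cfg → Prop}, (∀ᵐ ω ∂law G, P ω) →
      (markLaw.prod markLaw) (Prod.fst ⁻¹' {s | ¬ (Good b cg (cfg G s) ∧ P (cfg G s))}) = 0 :=
    fun {P} hP => Measure.quasiMeasurePreserving_fst.preimage_null
      (ae_iff.1 (ae_of_ae_map (p := fun ω => Good b cg ω ∧ P ω) (measurable_cfg' G).aemeasurable
        (by rw [map_cfg]; exact hgood.and hP)))
  have hoff : ∀ (p : Marks × Marks) (E : Finset (Sym2 Pt)), resample E p.2 p.1 ∈ A →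
      (∀ e, e ∉ E → cfg G p.1 e = cfg G (resample E p.2 p.1) e) ∧
        ∀ e, e ∉ E ∪ F → cfg G p.1 e = cfg G (t₂ (resample E p.2 p.1)) e := by
    intro p E hp
    have h1 : ∀ e, e ∉ E → cfg G p.1 e = cfg G (resample E p.2 p.1) e := fun e he => by
      simp [cfg, resample, he]
    refine ⟨h1, fun e he => ?_⟩
    rw [Finset.mem_union, not_or] at he
    rw [h1 e he.1, (hlane _ hp).2.2.2.2.2.2.2.2 e he.2]
  have h1 := ae_no_starBox G hatom hgood A (fun t => (labOf (cfg G t) (v₁ t)).lo)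
    (fun t => (labOf (cfg G t) (v₁ t)).up) (fun t => (labOf (cfg G (t₂ t)) (v₂ t)).up) fun w E => by
      refine measure_mono_null ?_ (hnull (ae_no_strictSplit G hatom hgood hcg hs))
      rintro p ⟨hp, hsp⟩
      show ¬ (_ ∧ _)
      rintro ⟨hgx, hno⟩
      obtain ⟨l₁, -, pr₁, l₂, -, pr₂, g₁, g₂, -⟩ := hlane _ hp
      obtain ⟨o₁, o₂⟩ := hoff p E hp
      obtain ⟨ta, tb⟩ := tails _ _ _ E l₁ g₁ hgx o₁
      obtain ⟨-, tc⟩ := tails _ _ _ (E ∪ F) l₂ g₂ hgx o₂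
      obtain ⟨rb, fa, cb, ca⟩ := ends (cfg G (resample E p.2 p.1)) _ l₁ pr₁
      obtain ⟨rc, -, cc, -⟩ := ends (cfg G (t₂ (resample E p.2 p.1))) _ l₂ pr₂
      exact hno w _ _ _ ⟨ta, tb, tc, fa, rb, rc, ca, cb, cc⟩ hsp
  have h2 := ae_no_starBox G hatom hgood A (fun t => (labOf (cfg G t) (v₁ t)).up)
    (fun t => (labOf (cfg G t) (v₁ t)).lo) (fun t => (labOf (cfg G (t₂ t)) (v₂ t)).lo) fun w E => by
      refine measure_mono_null ?_ (hnull (ae_no_strictSplit_lower G hatom hgood hcg hs))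
      rintro p ⟨hp, hsp⟩
      show ¬ (_ ∧ _)
      rintro ⟨hgx, hno⟩
      obtain ⟨l₁, -, pr₁, l₂, -, pr₂, g₁, g₂, -⟩ := hlane _ hp
      obtain ⟨o₁, o₂⟩ := hoff p E hp
      obtain ⟨tb, ta⟩ := tails _ _ _ E l₁ g₁ hgx o₁
      obtain ⟨tc, -⟩ := tails _ _ _ (E ∪ F) l₂ g₂ hgx o₂
      obtain ⟨ra, fb, ca, cb⟩ := ends (cfg G (resample E p.2 p.1)) _ l₁ pr₁
      obtain ⟨-, fc, -, cc⟩ := ends (cfg G (t₂ (resample E p.2 p.1))) _ l₂ pr₂
      exact hno w _ _ _ ta tb tc ra fb fc ca cb cc hsp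
  filter_upwards [h1, h2] with t ht ht' hA'
  exact ⟨ht hA', ht' hA'⟩

end Vale.Agent.P158.V4
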