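import Vale.Agent.P158.V4.SteerShift
import Vale.Agent.P158.V4.StripTime

/-!
P158: main count: the hypothesis on the cost of crossing a window of a line inside either of its
half-planes, and its translations.
-/

namespace Vale.Agent.P158.V4

open MeasureTheory Filter Topology

/-- Passage times in regions are symmetric. -/
theorem ttIn_comm {ω : Cfg} (h0 : ∀ e, 0 ≤ ω e) {S : Set Pt} (hS : Linked S) {x y : Pt}
    (hx : x ∈ S) (hy : y ∈ S) : ttIn S ω x y = ttIn S ω y x := by
  have key : ∀ {a c : Pt}, a ∈ S → c ∈ S → ttS ω S a c ≤ ttS ω S c a := fun {a c} ha hc =>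
    le_ttS hS hc ha fun p hp => (ttS_le h0 p.reverse fun z hz => hp z (by simpa using hz)).trans_eq
      (wt_reverse p)
  simp only [ttIn_eq]
  exact le_antisymm (key hx hy) (key hy hx)

/-- Crossing the window `[-W, N + W]` of the axis inside one of its half-planes costs more than
`C` times its width. -/
def CostlyWindow (C : ℝ) (W N : ℕ) : Set Cfg :=
  {ω | C * (N + 2 * W) < ttIn (upper 0) ω (-(W : ℤ), 0) ((N : ℤ) + W, 0)} ∪
    {ω | C * (N + 2 * W) < ttIn (lower 0) ω (-(W : ℤ), 0) ((N : ℤ) + W, 0)}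

/-- Long windows of the axis are, with high probability, crossed at cost linear in their width
inside either half-plane. -/
def AxisCost (G : Measure ℝ) (C : ℝ) : Prop :=
  ∀ ε > 0, ∃ N₀ : ℕ, ∀ N ≥ N₀, (law G).real
    ({ω | C * N < ttIn (upper 0) ω (0, 0) ((N : ℤ), 0)} ∪
      {ω | C * N < ttIn (lower 0) ω (0, 0) ((N : ℤ), 0)}) ≤ ε

theorem measurableSet_costlyWindow (C : ℝ) (W N : ℕ) : MeasurableSet (CostlyWindow C W N) :=
  (measurableSet_lt measurable_const (measurable_ttIn _ _ _)).union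
    (measurableSet_lt measurable_const (measurable_ttIn _ _ _))

theorem AxisCost.window {G : Measure ℝ} [IsProbabilityMeasure G] {C ε : ℝ} (h : AxisCost G C)
    (hε : 0 < ε) : ∃ N₀ : ℕ, ∀ W N : ℕ, N₀ ≤ N + 2 * W → (law G).real (CostlyWindow C W N) ≤ ε := by
  obtain ⟨N₀, hN₀⟩ := h ε hε
  refine ⟨N₀, fun W N hN => le_trans (le_of_eq ?_) (hN₀ (N + 2 * W) hN)⟩
  set a : Pt := (-(W : ℤ), 0)
  have hm : MeasurableSet ({ω : Cfg | C * ((N + 2 * W : ℕ) : ℝ) <
      ttIn (upper 0) ω (0, 0) (((N + 2 * W : ℕ) : ℤ), 0)} ∪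
      {ω : Cfg | C * ((N + 2 * W : ℕ) : ℝ) < ttIn (lower 0) ω (0, 0) (((N + 2 * W : ℕ) : ℤ), 0)}) :=
    (measurableSet_lt measurable_const (measurable_ttIn _ _ _)).union
      (measurableSet_lt measurable_const (measurable_ttIn _ _ _))
  conv_rhs => rw [measureReal_def, ← map_moveCfg (G := G) a,
    Measure.map_apply (measurable_moveCfg a) hm, ← measureReal_def]
  congr 1
  have hu : upper 0 = (fun z : Pt => z + a) ⁻¹' upper 0 := by
    simpa [a] using (preimage_upper a 0).symm
  have hl : lower 0 = (fun z : Pt => z + a) ⁻¹' lower 0 := by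
    simpa [a] using (preimage_lower a 0).symm
  ext ω
  simp only [CostlyWindow, Set.mem_union, Set.mem_ofPred_eq, Set.mem_preimage]
  conv_rhs => rw [hu, hl]
  rw [ttIn_move, ttIn_move, show ((0, 0) : Pt) + a = a by simp,
    show ((((N + 2 * W : ℕ) : ℤ), 0) : Pt) + a = ((N : ℤ) + W, 0) by
      ext <;> simp [a]; ring]
  push_cast
  rfl

/-- Bounded weights. -/
theorem axisCost_of_le {G : Measure ℝ} [IsProbabilityMeasure G] {b : ℝ}
    (hG : ∀ᵐ t ∂G, 0 < t ∧ t ≤ b) : AxisCost G b := by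
  intro ε hε
  refine ⟨0, fun N _ => le_trans (le_of_eq ?_) hε.le⟩
  rw [measureReal_def, ENNReal.toReal_eq_zero_iff]
  refine Or.inl (measure_eq_zero_iff_ae_notMem.2 ?_)
  filter_upwards [good_ae G hG] with ω hω h
  have key : ∀ S : Set Pt, (∀ z : Pt, z.2 = 0 → z ∈ S) →
      ttIn S ω (0, 0) ((N : ℤ), 0) ≤ b * N := fun S hS =>
    (ttIn_le_l1 (fun e => (hω e).1.le) (fun e => (hω e).2) (0, 0) ((N : ℤ), 0) fun z hz hz' =>
      hS z (by simp only [min_self, max_self] at hz hz'; omega)).trans_eq (by simp [l1, mul_comm])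
  rcases h with h | h
  · exact absurd (key (upper 0) fun z hz => hz.ge) (not_le.2 h)
  · exact absurd (key (lower 0) fun z hz => hz.le) (not_le.2 h)

end Vale.Agent.P158.V4
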