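import Vale.Agent.P158.V4.Interfaces
import Vale.Agent.P158.V4.Increment

/-!
P158: the order of labels at their ends, monotone increments, and bounded hybrids.
-/

namespace Vale.Agent.P158.V4

open Filter Topology

variable {ω : Cfg} {r s : Ray}

theorem isFirstVisit_flip {v : ℕ → Pt} {H : ℤ} {n : ℕ} :
    IsFirstVisit (fun k => flip2 (v k)) (-H) n ↔ IsFirstVisit v H n := by
  simp [IsFirstVisit, flip2]

theorem Falls.map_flip2 (h : Falls r) : Rises (r.map flip2) :=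
  (tendsto_neg_atBot_atTop.comp h).congr fun _ => rfl

theorem Rises.map_flip2 (h : Rises r) : Falls (r.map flip2) :=
  (tendsto_neg_atTop_atBot.comp h).congr fun _ => rfl

theorem ordDown_iff (r s : Ray) : OrdDown r s ↔ OrdUp (r.map flip2) (s.map flip2) := by
  refine frequently_congr (Eventually.of_forall fun H => ?_)
  have e : ∀ (t : Ray) (i : ℕ),
      IsFirstVisit (t.map flip2).pt (H : ℤ) i ↔ IsFirstVisit t.pt (-(H : ℤ)) i := fun t i => by
    rw [← isFirstVisit_flip (v := t.pt), neg_neg]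
    rfl
  simp only [e]
  rfl

theorem ordUp_total (hr : Rises r) (hs : Rises s) (hra : ∀ n, grid.Adj (r.pt n) (r.pt (n + 1)))
    (hsa : ∀ n, grid.Adj (s.pt n) (s.pt (n + 1))) : OrdUp r s ∨ OrdUp s r := by
  by_contra hne
  simp only [OrdUp, not_or, not_frequently] at hne
  obtain ⟨H, ⟨h1, h2⟩, h3, h4⟩ := ((hne.1.and hne.2).and
    ((eventually_ge_atTop (r.pt 0).2.natAbs).and (eventually_ge_atTop (s.pt 0).2.natAbs))).exists
  obtain ⟨i, hi⟩ := exists_firstVisit hra (H := (H : ℤ)) (by omega) ((tendsto_atTop.1 hr _).exists)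
  obtain ⟨j, hj⟩ := exists_firstVisit hsa (H := (H : ℤ)) (by omega) ((tendsto_atTop.1 hs _).exists)
  rcases le_total (r.pt i).1 (s.pt j).1 with hle | hle
  · exact h1 ⟨i, j, hi, hj, hle⟩
  · exact h2 ⟨j, i, hj, hi, hle⟩

/-- From an index `m` on, the segments to the first visits of high lines are geodesic and stay below them. -/
theorem exists_up_seg {M : ℕ}
    (hM : ∀ i j, M ≤ i → i ≤ j → tt ω (r.pt i) (r.pt j) = r.acc j - r.acc i ∧
      ∃ w : grid.Walk (r.pt i) (r.pt j), wt ω w = r.acc j - r.acc i ∧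
        (∀ z ∈ w.support, ∃ k, i ≤ k ∧ k ≤ j ∧ z = r.pt k) ∧
        ∀ e ∈ w.edges, ∃ k, i ≤ k ∧ k < j ∧ e = s(r.pt k, r.pt (k + 1)))
    (hadj : ∀ n, grid.Adj (r.pt n) (r.pt (n + 1))) {low : ℤ} (hlow : ∀ k, M ≤ k → low ≤ (r.pt k).2)
    {m : ℕ} (hm : M ≤ m) :
    ∃ B : ℤ, ∀ H i, B ≤ H → IsFirstVisit r.pt H i → M ≤ i ∧
      ∃ w : grid.Walk (r.pt m) (r.pt i), wt ω w = r.acc i - r.acc m ∧
        ∀ z ∈ w.support, low ≤ z.2 ∧ z.2 ≤ H := by
  obtain ⟨B, hB⟩ := ((Finset.range (m + 1)).image fun k => (r.pt k).2).bddAbove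
  refine ⟨B + 1, fun H i hH hi => ?_⟩
  have hmi : m < i := by
    by_contra hle
    have := hB (Finset.mem_image_of_mem _ (Finset.mem_range.2 (show i < m + 1 by omega)))
    have := hi.1
    omega
  have h0 : (r.pt 0).2 ≤ H := by
    have := hB (Finset.mem_image_of_mem (fun k => (r.pt k).2) (Finset.mem_range.2 m.succ_pos))
    omega
  obtain ⟨-, w, hw, hs, -⟩ := hM m i hm hmi.le
  refine ⟨by omega, w, hw, fun z hz => ?_⟩
  obtain ⟨k, hk, hk', rfl⟩ := hs z hz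
  exact ⟨hlow k (by omega), hi.below hadj h0 k hk'⟩

theorem height_bound {u v : Pt} (p : grid.Walk u v) : ∃ B : ℤ, ∀ z ∈ p.support, -B ≤ z.2 ∧ z.2 ≤ B := by
  obtain ⟨B, hB⟩ := (p.support.toFinset.image fun z => |z.2|).bddAbove
  exact ⟨B, fun z hz => abs_le.1 (hB (Finset.mem_image_of_mem _ (List.mem_toFinset.2 hz)))⟩

/-- Increments of the half-plane Busemann function are monotone in the order at infinity. -/
theorem monge_up (h0 : ∀ e, 0 ≤ ω e) (hr : IsTail ω r) (hs : IsTail ω s) (hr' : Rises r) (hs' : Rises s)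
    (hord : OrdUp r s) (h : ℤ) {x x' : ℤ} (hx : x ≤ x') :
    busIn (upper h) ω s (x', h) - busIn (upper h) ω r (x', h) ≤
      busIn (upper h) ω s (x, h) - busIn (upper h) ω r (x, h) := by
  have hL : Linked (upper h) := linked_upper' h
  have m1 : ((x, h) : Pt) ∈ upper h := le_refl h
  have m2 : ((x', h) : Pt) ∈ upper h := le_refl h
  have er := hr'.eventually_upper h
  have es := hs'.eventually_upper h
  obtain ⟨A, hA⟩ := hr.busIn_le h0 hL er
  obtain ⟨A', hA'⟩ := exists_seg_walk hr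
  obtain ⟨A'', hA''⟩ := eventually_atTop.1 er
  obtain ⟨B, hB⟩ := hs.busIn_le h0 hL es
  obtain ⟨B', hB'⟩ := exists_seg_walk hs
  obtain ⟨B'', hB''⟩ := eventually_atTop.1 es
  set M := max A (max A' A'')
  set N := max B (max B' B'')
  refine le_of_forall_pos_le_add fun η hη => ?_
  obtain ⟨n, hn, hnη⟩ := ((eventually_ge_atTop N).and ((hs.tendsto_busIn h0 hL es m1).eventually_lt_const
    (show busIn (upper h) ω s (x, h) < busIn (upper h) ω s (x, h) + η / 2 by linarith))).exists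
  obtain ⟨m, hm, hmη⟩ := ((eventually_ge_atTop M).and ((hr.tendsto_busIn h0 hL er m2).eventually_lt_const
    (show busIn (upper h) ω r (x', h) < busIn (upper h) ω r (x', h) + η / 2 by linarith))).exists
  obtain ⟨p, hp, hpw⟩ := exists_walk_lt hL m1 (hB'' n (by omega))
    (show ttIn (upper h) ω (x, h) (s.pt n) < busIn (upper h) ω s (x, h) + η / 2 + s.acc n by linarith)
  obtain ⟨q, hq, hqw⟩ := exists_walk_lt hL m2 (hA'' m (by omega))
    (show ttIn (upper h) ω (x', h) (r.pt m) < busIn (upper h) ω r (x', h) + η / 2 + r.acc m by linarith)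
  obtain ⟨Br, hBr⟩ := exists_up_seg (M := M) (low := h) (fun i j hi hij => hA' i j (by omega) hij) hr.adj
    (fun k hk => hA'' k (by omega)) hm
  obtain ⟨Bs, hBs⟩ := exists_up_seg (M := N) (low := h) (fun i j hi hij => hB' i j (by omega) hij) hs.adj
    (fun k hk => hB'' k (by omega)) hn
  obtain ⟨P, hP⟩ := height_bound p
  obtain ⟨Q, hQ⟩ := height_bound q
  obtain ⟨H, ⟨i, j, hi, hj, hle⟩, hH⟩ :=
    (hord.and_eventually (eventually_ge_atTop (max (max Br Bs) (max P Q)).toNat)).exists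
  have hH' : max (max Br Bs) (max P Q) ≤ (H : ℤ) := by omega
  obtain ⟨hiM, w, hw, hwS⟩ := hBr H i (by omega) hi
  obtain ⟨hjN, w', hw', hwS'⟩ := hBs H j (by omega) hj
  obtain ⟨z, hz1, hz2⟩ := strip_meet (p.append w') (q.append w)
    (fun z hz => by
      rcases (SimpleGraph.Walk.mem_support_append_iff _ _).1 hz with hz | hz
      · exact ⟨hp z hz, hj.1.symm ▸ (hP z hz).2.trans (by omega)⟩
      · exact ⟨(hwS' z hz).1, hj.1.symm ▸ (hwS' z hz).2⟩)
    (fun z hz => by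
      rcases (SimpleGraph.Walk.mem_support_append_iff _ _).1 hz with hz | hz
      · exact ⟨hq z hz, hj.1.symm ▸ (hQ z hz).2.trans (by omega)⟩
      · exact ⟨(hwS z hz).1, hj.1.symm ▸ (hwS z hz).2⟩)
    rfl (hi.1.trans hj.1.symm) hx hle
  have hsup : ∀ {a c d : Pt} (p : grid.Walk a c) (q : grid.Walk c d), (∀ z ∈ p.support, z ∈ upper h) →
      (∀ z ∈ q.support, h ≤ z.2) → ∀ z ∈ (p.append q).support, z ∈ upper h := fun p q hp hq z hz =>
    ((SimpleGraph.Walk.mem_support_append_iff _ _).1 hz).elim (hp z) (hq z)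
  have hex := exchange h0 (p.append w') (q.append w) (hsup p w' hp fun z hz => (hwS' z hz).1)
    (hsup q w hq fun z hz => (hwS z hz).1) hz1 hz2
  have b1 := hA (x, h) m1 i (by omega)
  have b2 := hB (x', h) m2 j (by omega)
  rw [wt_append, wt_append, hw, hw'] at hex
  simp only [ttIn_eq] at b1 b2 ⊢
  linarith

/-- The excess between two indices dominates that at the larger one. -/
theorem IsLab.excess_pair {L : Lab} (hL : IsLab ω L) (h0 : ∀ e, 0 ≤ ω e) :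
    ∃ M, ∀ i j, M ≤ i → M ≤ j →
      excess ω L (max i j) ≤ tt ω (L.lo.pt i) (L.up.pt j) - L.lo.acc i - L.up.acc j := by
  obtain ⟨A, hA⟩ := hL.lo.geo
  obtain ⟨B, hB⟩ := hL.up.geo
  refine ⟨max A B, fun i j hi hj => ?_⟩
  have h1 := tt_triangle h0 (L.lo.pt (max i j)) (L.lo.pt i) (L.up.pt (max i j))
  have h2 := tt_triangle h0 (L.lo.pt i) (L.up.pt j) (L.up.pt (max i j))
  have h3 := tt_comm h0 (L.lo.pt (max i j)) (L.lo.pt i)
  unfold excess
  linarith [(hA i (max i j) (by omega) (le_max_left _ _)).1, (hB j (max i j) (by omega) (le_max_right _ _)).1]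

theorem exists_walk_tt {u v : Pt} {c : ℝ} (h : tt ω u v < c) : ∃ p : grid.Walk u v, wt ω p < c :=
  exists_lt_of_ciInf_lt h

/-- From an index `m` on, the segments to the first visits of low lines are geodesic and stay above them. -/
theorem exists_down_seg {t : Ray} {M b m : ℕ} (ht : IsTail ω t) (hm : M ≤ m) (hbM : b ≤ M)
    (hseg : ∀ i j, b ≤ i → i ≤ j → tt ω (t.pt i) (t.pt j) = t.acc j - t.acc i ∧
      ∃ w : grid.Walk (t.pt i) (t.pt j), wt ω w = t.acc j - t.acc i ∧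
        (∀ z ∈ w.support, ∃ k, i ≤ k ∧ k ≤ j ∧ z = t.pt k) ∧
        ∀ e ∈ w.edges, ∃ k, i ≤ k ∧ k < j ∧ e = s(t.pt k, t.pt (k + 1)))
    (hlow : ∀ k, M ≤ k → (t.pt k).2 ≤ 0) :
    ∃ B : ℤ, ∀ H i, B ≤ H → IsFirstVisit t.pt (-H) i → M ≤ i ∧
      ∃ w : grid.Walk (t.pt m) (t.pt i), wt ω w = t.acc i - t.acc m ∧
        ∀ z ∈ w.support, -H ≤ z.2 ∧ z.2 ≤ 0 := by
  obtain ⟨B, hB⟩ := ((Finset.range (m + 1)).image fun k => -(t.pt k).2).bddAbove
  refine ⟨B + 1, fun H i hH hi => ?_⟩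
  have hbd : ∀ k ≤ m, -(t.pt k).2 ≤ B := fun k hk =>
    hB (Finset.mem_image_of_mem (fun k => -(t.pt k).2) (Finset.mem_range.2 (by omega)))
  have hmi : m < i := by
    by_contra hle
    have := hbd i (by omega)
    have := hi.1
    omega
  have hH0 : ((fun k => flip2 (t.pt k)) 0).2 ≤ H := by
    have := hbd 0 (Nat.zero_le _)
    show -(t.pt 0).2 ≤ H
    omega
  have hi' : IsFirstVisit (fun k => flip2 (t.pt k)) H i := by
    have h := (isFirstVisit_flip (v := t.pt)).2 hi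
    rwa [neg_neg] at h
  obtain ⟨-, w, hw, hws, -⟩ := hseg m i (by omega) hmi.le
  refine ⟨by omega, w, hw, fun z hz => ?_⟩
  obtain ⟨k, hk, hk', rfl⟩ := hws z hz
  have h3 : -(t.pt k).2 ≤ H := hi'.below (fun k => flip2.map_adj (ht.adj k)) hH0 k hk'
  exact ⟨by omega, hlow k (by omega)⟩

/-- Two three-piece walks across a strip with ends in opposite orders exchange their ends. -/
theorem cross3 (h0 : ∀ e, 0 ≤ ω e) {lo hi : ℤ} {A₀ A B B₀ C₀ C D D₀ : Pt} (a : grid.Walk A₀ A)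
    (p : grid.Walk A B) (u : grid.Walk B B₀) (a' : grid.Walk C₀ C) (q : grid.Walk C D) (u' : grid.Walk D D₀)
    (ha : ∀ z ∈ a.support, lo ≤ z.2 ∧ z.2 ≤ hi) (hp : ∀ z ∈ p.support, lo ≤ z.2 ∧ z.2 ≤ hi)
    (hu : ∀ z ∈ u.support, lo ≤ z.2 ∧ z.2 ≤ hi) (ha' : ∀ z ∈ a'.support, lo ≤ z.2 ∧ z.2 ≤ hi)
    (hq : ∀ z ∈ q.support, lo ≤ z.2 ∧ z.2 ≤ hi) (hu' : ∀ z ∈ u'.support, lo ≤ z.2 ∧ z.2 ≤ hi)
    (eA : A₀.2 = lo) (eC : C₀.2 = lo) (eB : B₀.2 = hi) (eD : D₀.2 = hi) (h1 : A₀.1 ≤ C₀.1)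
    (h2 : D₀.1 ≤ B₀.1) :
    tt ω A₀ D₀ + tt ω C₀ B₀ ≤ wt ω a + (wt ω p + wt ω u) + (wt ω a' + (wt ω q + wt ω u')) := by
  have glue : ∀ {X Y Z W : Pt} (a : grid.Walk X Y) (p : grid.Walk Y Z) (u : grid.Walk Z W),
      (∀ z ∈ a.support, lo ≤ z.2 ∧ z.2 ≤ hi) → (∀ z ∈ p.support, lo ≤ z.2 ∧ z.2 ≤ hi) →
      (∀ z ∈ u.support, lo ≤ z.2 ∧ z.2 ≤ hi) → ∀ z ∈ (a.append (p.append u)).support, lo ≤ z.2 ∧ z.2 ≤ hi := by
    intro X Y Z W a p u ha hp hu z hz
    simp only [SimpleGraph.Walk.mem_support_append_iff] at hz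
    exact hz.elim (ha z) (Or.rec (hp z) (hu z))
  obtain ⟨z, hz1, hz2⟩ := strip_meet (a.append (p.append u)) (a'.append (q.append u'))
    (eA.symm ▸ eB.symm ▸ glue a p u ha hp hu) (eA.symm ▸ eB.symm ▸ glue a' q u' ha' hq hu')
    (eC.trans eA.symm) (eD.trans eB.symm) h1 h2
  have := tt_exchange_le h0 _ _ hz1 hz2
  simpa only [wt_append] using this

/-- Labels in the same order at both ends have bounded hybrids. -/
theorem bounded_cross (h0 : ∀ e, 0 ≤ ω e) {L₁ L₂ : Lab} (h₁ : IsLab ω L₁) (h₂ : IsLab ω L₂)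
    (b₁ : Bounded ω L₁) (b₂ : Bounded ω L₂) (hu : OrdUp L₁.up L₂.up) (hd : OrdDown L₁.lo L₂.lo) :
    Bounded ω ⟨L₁.lo, L₂.up⟩ ∧ Bounded ω ⟨L₂.lo, L₁.up⟩ := by
  have i12 : IsLab ω ⟨L₁.lo, L₂.up⟩ := ⟨h₁.lo, h₂.up, h₁.falls, h₂.rises⟩
  have i21 : IsLab ω ⟨L₂.lo, L₁.up⟩ := ⟨h₂.lo, h₁.up, h₂.falls, h₁.rises⟩
  obtain ⟨c₁, hc₁⟩ := b₁
  obtain ⟨c₂, hc₂⟩ := b₂
  obtain ⟨E₁, hE₁⟩ := h₁.excess_pair h0
  obtain ⟨E₂, hE₂⟩ := h₂.excess_pair h0
  obtain ⟨a, ha⟩ := exists_seg_walk h₁.lo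
  obtain ⟨a', ha'⟩ := exists_seg_walk h₂.lo
  obtain ⟨c, hc⟩ := exists_seg_walk h₁.up
  obtain ⟨c', hc'⟩ := exists_seg_walk h₂.up
  obtain ⟨D, hD⟩ := eventually_atTop.1
    (((h₁.rises.eventually_upper 0).and (h₂.rises.eventually_upper 0)).and
      ((tendsto_atBot.1 h₁.falls 0).and (tendsto_atBot.1 h₂.falls 0)))
  obtain ⟨M, la, la', lc, lc', lE₁, lE₂, lD⟩ :
      ∃ M, a ≤ M ∧ a' ≤ M ∧ c ≤ M ∧ c' ≤ M ∧ E₁ ≤ M ∧ E₂ ≤ M ∧ D ≤ M :=
    ⟨max (max (max a a') (max c c')) (max (max E₁ E₂) D), by omega⟩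
  suffices key : ∀ n m, M ≤ n → M ≤ m → c₁ + c₂ ≤
      excess ω ⟨L₁.lo, L₂.up⟩ n + excess ω ⟨L₂.lo, L₁.up⟩ m from
    ⟨i12.bounded_of_eventually h0 (c := c₁ + c₂ - excess ω ⟨L₂.lo, L₁.up⟩ M) fun N =>
      ⟨max N M, le_max_left _ _, by linarith [key (max N M) M (le_max_right _ _) le_rfl]⟩,
    i21.bounded_of_eventually h0 (c := c₁ + c₂ - excess ω ⟨L₁.lo, L₂.up⟩ M) fun N =>
      ⟨max N M, le_max_left _ _, by linarith [key M (max N M) le_rfl (le_max_right _ _)]⟩⟩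
  intro n m hn hm
  refine le_of_forall_pos_le_add fun η hη => ?_
  obtain ⟨p, hp⟩ := exists_walk_tt (show tt ω (L₁.lo.pt n) (L₂.up.pt n) <
    tt ω (L₁.lo.pt n) (L₂.up.pt n) + η / 2 by linarith)
  obtain ⟨q, hq⟩ := exists_walk_tt (show tt ω (L₂.lo.pt m) (L₁.up.pt m) <
    tt ω (L₂.lo.pt m) (L₁.up.pt m) + η / 2 by linarith)
  obtain ⟨P, hP⟩ := height_bound p
  obtain ⟨Q, hQ⟩ := height_bound q
  obtain ⟨U₁, hU₁⟩ := exists_up_seg (M := M) (low := 0) (fun i j hi hij => hc i j (by omega) hij) h₁.up.adj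
    (fun k hk => (hD k (by omega)).1.1) hm
  obtain ⟨U₂, hU₂⟩ := exists_up_seg (M := M) (low := 0) (fun i j hi hij => hc' i j (by omega) hij) h₂.up.adj
    (fun k hk => (hD k (by omega)).1.2) hn
  obtain ⟨V₁, hV₁⟩ := exists_down_seg (M := M) (b := a) h₁.lo hn (by omega) ha
    fun k hk => (hD k (by omega)).2.1
  obtain ⟨V₂, hV₂⟩ := exists_down_seg (M := M) (b := a') h₂.lo hm (by omega) ha'
    fun k hk => (hD k (by omega)).2.2
  obtain ⟨H, ⟨i, j, hi, hj, hle⟩, hH⟩ :=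
    (hu.and_eventually (eventually_ge_atTop (max (max U₁ U₂) (max P Q)).toNat)).exists
  obtain ⟨K, ⟨k, l, hk, hl, hle'⟩, hK⟩ :=
    (hd.and_eventually (eventually_ge_atTop (max (max V₁ V₂) (max P Q)).toNat)).exists
  obtain ⟨⟨hU1H, hU2H⟩, hPH, hQH⟩ : (U₁ ≤ H ∧ U₂ ≤ H) ∧ P ≤ H ∧ Q ≤ H := by
    simpa only [max_le_iff] using (Int.self_le_toNat _).trans (Int.ofNat_le.2 hH)
  obtain ⟨⟨hV1K, hV2K⟩, hPK, hQK⟩ : (V₁ ≤ K ∧ V₂ ≤ K) ∧ P ≤ K ∧ Q ≤ K := by
    simpa only [max_le_iff] using (Int.self_le_toNat _).trans (Int.ofNat_le.2 hK)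
  obtain ⟨iM, u₁, hu₁, su₁⟩ := hU₁ H i hU1H hi
  obtain ⟨jM, u₂, hu₂, su₂⟩ := hU₂ H j hU2H hj
  obtain ⟨kM, d₁, hd₁, sd₁⟩ := hV₁ K k hV1K hk
  obtain ⟨lM, d₂, hd₂, sd₂⟩ := hV₂ K l hV2K hl
  have hex := cross3 h0 (lo := -(K : ℤ)) (hi := (H : ℤ)) d₁.reverse p u₂ d₂.reverse q u₁
    (fun z hz => by
      rw [SimpleGraph.Walk.support_reverse, List.mem_reverse] at hz
      exact ⟨(sd₁ z hz).1, (sd₁ z hz).2.trans (Int.natCast_nonneg H)⟩)
    (fun z hz => ⟨(neg_le_neg (hPK)).trans (hP z hz).1, (hP z hz).2.trans hPH⟩)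
    (fun z hz => ⟨(neg_nonpos.2 (Int.natCast_nonneg K)).trans (su₂ z hz).1, (su₂ z hz).2⟩)
    (fun z hz => by
      rw [SimpleGraph.Walk.support_reverse, List.mem_reverse] at hz
      exact ⟨(sd₂ z hz).1, (sd₂ z hz).2.trans (Int.natCast_nonneg H)⟩)
    (fun z hz => ⟨(neg_le_neg (hQK)).trans (hQ z hz).1, (hQ z hz).2.trans hQH⟩)
    (fun z hz => ⟨(neg_nonpos.2 (Int.natCast_nonneg K)).trans (su₁ z hz).1, (su₁ z hz).2⟩)
    hk.1 hl.1 hj.1 hi.1 hle' hle
  simp only [wt_reverse, hu₁, hu₂, hd₁, hd₂] at hex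
  have e1 := (hc₁ ⟨max k i, rfl⟩).trans (hE₁ k i (by omega) (by omega))
  have e2 := (hc₂ ⟨max l j, rfl⟩).trans (hE₂ l j (by omega) (by omega))
  unfold excess
  linarith

/-- The last visit of a line splits off a final piece in the half-plane. -/
theorem exists_last_visit_line {u v : Pt} (p : grid.Walk u v) {h : ℤ} (hu : u.2 ≤ h) (hv : h ≤ v.2) :
    ∃ z, z.2 = h ∧ ∃ q : grid.Walk u z, ∃ r : grid.Walk z v, p = q.append r ∧ ∀ w ∈ r.support, h ≤ w.2 := by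
  have gen : ∀ {u v : Pt} (p : grid.Walk u v), h ≤ v.2 → (∀ w ∈ p.support, h ≤ w.2) ∨
      ∃ z, z.2 = h ∧ ∃ q : grid.Walk u z, ∃ r : grid.Walk z v, p = q.append r ∧ ∀ w ∈ r.support, h ≤ w.2 := by
    intro u v p
    induction p with
    | nil =>
      intro hv
      exact Or.inl fun w hw => by simp only [SimpleGraph.Walk.support_nil, List.mem_singleton] at hw; exact hw ▸ hv
    | @cons A A' B hadj p ih =>
      intro hv
      rcases ih hv with hall | ⟨z, hz, q, r, rfl, hr⟩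
      · by_cases hA : h ≤ A.2
        · refine Or.inl fun w hw => ?_
          rw [SimpleGraph.Walk.support_cons, List.mem_cons] at hw
          rcases hw with rfl | hw
          · exact hA
          · exact hall w hw
        · have h1 := hall A' p.start_mem_support
          have h2 := adj_snd_le hadj
          exact Or.inr ⟨A', by omega, .cons hadj .nil, p, rfl, hall⟩
      · exact Or.inr ⟨z, hz, .cons hadj q, r, rfl, hr⟩
  rcases gen p hv with hall | hex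
  · exact ⟨u, le_antisymm hu (hall u p.start_mem_support), .nil, p, rfl, hall⟩
  · exact hex

/-- Labels whose increments on one line differ boundedly have bounded hybrids. -/
theorem bounded_line (h0 : ∀ e, 0 ≤ ω e) {L₁ L₂ : Lab} (h₁ : IsLab ω L₁) (h₂ : IsLab ω L₂)
    (b₁ : Bounded ω L₁) {C : ℝ} {h : ℤ}
    (hC : ∀ x : ℤ, busIn (upper h) ω L₁.up (x, h) - busIn (upper h) ω L₂.up (x, h) ≤ C) :
    Bounded ω ⟨L₁.lo, L₂.up⟩ := by
  have i12 : IsLab ω ⟨L₁.lo, L₂.up⟩ := ⟨h₁.lo, h₂.up, h₁.falls, h₂.rises⟩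
  have hL : Linked (upper h) := linked_upper' h
  have e1 := h₁.rises.eventually_upper h
  have e2 := h₂.rises.eventually_upper h
  obtain ⟨A, hA⟩ := h₁.lo.bus_le h0
  obtain ⟨B, hB⟩ := h₂.up.busIn_le h0 hL e2
  obtain ⟨D, hD⟩ := eventually_atTop.1 ((tendsto_atBot.1 h₁.falls h).and e2)
  refine i12.bounded_of_eventually h0 (c := total ω L₁ - C) fun N => ?_
  set n := max (max N D) (max A B)
  refine ⟨n, by omega, ?_⟩
  refine le_of_forall_pos_le_add fun η hη => ?_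
  obtain ⟨p, hp⟩ := exists_walk_tt (show tt ω (L₁.lo.pt n) (L₂.up.pt n) <
    tt ω (L₁.lo.pt n) (L₂.up.pt n) + η by linarith)
  obtain ⟨z, hz, q, r, rfl, hr⟩ := exists_last_visit_line p (hD n (by omega)).1 (hD n (by omega)).2
  rw [wt_append] at hp
  have hzS : z ∈ upper h := hz.ge
  have t1 := tt_le h0 q
  have t2 : ttIn (upper h) ω z (L₂.up.pt n) ≤ wt ω r := ttS_le h0 r fun w hw => hr w hw
  have t3 := hA z n (by omega)
  have t4 := hB z hzS n (by omega)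
  have t5 := hC z.1
  rw [show ((z.1, h) : Pt) = z from Prod.ext rfl hz.symm] at t5
  have t6 := h₁.up.bus_le_busIn h0 hL e1 hzS
  have t7 := h₁.total_le_gsum h0 b₁ z
  have t8 := tt_comm h0 z (L₁.lo.pt n)
  unfold gsum at t7
  unfold excess
  linarith

/-- The mirror image of a label. -/
def Lab.mirror (L : Lab) : Lab := ⟨L.up.map flip2, L.lo.map flip2⟩

theorem IsLab.mirror {L : Lab} (hL : IsLab ω L) (h0 : ∀ e, 0 ≤ ω e) :
    IsLab (ω ∘ Sym2.map flip2) L.mirror :=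
  ⟨hL.up.map h0 flip2 flip2_flip2, hL.lo.map h0 flip2 flip2_flip2, hL.rises.map_flip2, hL.falls.map_flip2⟩

theorem bounded_mirror (h0 : ∀ e, 0 ≤ ω e) (L : Lab) :
    Bounded (ω ∘ Sym2.map flip2) L.mirror ↔ Bounded ω L := by
  have : excess (ω ∘ Sym2.map flip2) L.mirror = excess ω L := by
    funext n
    simp only [excess, Lab.mirror, Ray.map, tt_map h0 flip2 flip2 flip2_flip2 flip2_flip2, flip2_flip2]
    rw [tt_comm h0]
    ring
  rw [Bounded, Bounded, this]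

theorem busIn_lower (ω : Cfg) (r : Ray) (x h : ℤ) :
    busIn (upper (-h)) (ω ∘ Sym2.map flip2) (r.map flip2) (x, -h) = busIn (lower h) ω r (x, h) := by
  rw [← busIn_map (ω := ω) flip2 flip2_flip2 (lower h) r (x, h)]
  congr 1
  ext z
  show -h ≤ z.2 ↔ -z.2 ≤ h
  omega

/-- Module Order. -/
theorem orderStmt : OrderStmt := by
  intro ω h0 L₁ L₂ h₁ h₂
  have h0' : ∀ e, 0 ≤ (ω ∘ Sym2.map flip2) e := fun e => h0 _
  have tot : OrdDown L₁.lo L₂.lo ∨ OrdDown L₂.lo L₁.lo := by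
    rw [ordDown_iff, ordDown_iff]
    exact ordUp_total h₁.falls.map_flip2 h₂.falls.map_flip2
      (h₁.mirror h0).up.adj (h₂.mirror h0).up.adj
  refine ⟨ordUp_total h₁.rises h₂.rises h₁.up.adj h₂.up.adj, tot,
    fun ho h x x' hx => monge_up h0 h₁.up h₂.up h₁.rises h₂.rises ho h hx, fun ho h x x' hx => ?_, ?_⟩
  · have := monge_up h0' (h₁.mirror h0).up (h₂.mirror h0).up h₁.falls.map_flip2 h₂.falls.map_flip2
      ((ordDown_iff _ _).1 ho) (-h) hx
    simpa only [Lab.mirror, busIn_lower] using this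
  · intro b₁ b₂ hcase
    rcases hcase with ⟨hu, hd⟩ | ⟨C, h, hC⟩ | ⟨C, h, hC⟩
    · exact bounded_cross h0 h₁ h₂ b₁ b₂ hu hd
    · exact ⟨bounded_line h0 h₁ h₂ b₁ (C := C) (h := h) fun x => by linarith [(abs_le.1 (hC x)).1],
        bounded_line h0 h₂ h₁ b₂ (C := C) (h := h) fun x => by linarith [(abs_le.1 (hC x)).2]⟩
    · have g1 := bounded_line h0' (h₂.mirror h0) (h₁.mirror h0) ((bounded_mirror h0 L₂).2 b₂) (C := C)
        (h := -h) fun x => by
          simp only [Lab.mirror, busIn_lower]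
          linarith [(abs_le.1 (hC x)).2]
      have g2 := bounded_line h0' (h₁.mirror h0) (h₂.mirror h0) ((bounded_mirror h0 L₁).2 b₁) (C := C)
        (h := -h) fun x => by
          simp only [Lab.mirror, busIn_lower]
          linarith [(abs_le.1 (hC x)).1]
      exact ⟨(bounded_mirror h0 ⟨L₁.lo, L₂.up⟩).1 g1, (bounded_mirror h0 ⟨L₂.lo, L₁.up⟩).1 g2⟩

end Vale.Agent.P158.V4
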