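import Vale.Agent.P158.V4.MainBase
import Vale.Agent.P158.V4.LaneLabel
import Vale.Agent.P158.V4.Order
import Vale.Agent.P158.V4.MainCost

/-!
P158: main argument (note 1433, section 6), deterministic part: the swap between two claimed lanes,
the contradiction with the pair lemma, and the coordinates (`MainLaneStmt`).
-/

namespace Vale.Agent.P158.V4

open MeasureTheory Filter Topology

namespace MainData

variable {D : MainData} {s : Marks} {gv : ℝ} {x x₁ x₂ : ℤ} {v v₁ v₂ : ℤ → Pt}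

theorem Good'.rad_one (h : D.Good') : (1 : ℝ) ≤ D.rad := by
  exact_mod_cast (by have := h.hrad; omega : 1 ≤ D.rad)

theorem Good'.rad_pos (h : D.Good') : (0 : ℝ) < D.rad := zero_lt_one.trans_le h.rad_one

theorem Good'.K_pos (h : D.Good') : 0 < D.K := zero_lt_one.trans_le h.hK

theorem eq_off (hD : D.Good') (hs : OKMarks s) (x : ℤ) :
    ∀ e, e ∉ profSupport D.K D.rad D.S {ctr x} → cfg D.G (D.raised x s) e = cfg D.G s e :=
  fun _ he => cfg_raise_of_prof_zero hD.q_mem hs (prof_eq_zero_of_notMem hD.hK he)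

theorem Claim.isLab (hb : D.Base s) (hc : D.Claim s gv x v) :
    IsLab (cfg D.G (D.raised x s)) (D.lab s x v) :=
  hc.lane.isLab (hb.tilt_good x).nonneg hc.rises hc.falls

theorem Claim.lab_base (hD : D.Good') (hb : D.Base s) (hc : D.Claim s gv x v) :
    IsLab (cfg D.G s) (D.lab s x v) :=
  (hc.isLab hb).congr ((hb.tilt_good x).escape hD.cpos) (hb.tilt_good x).nonneg hb.good.nonneg _
    fun e h => (eq_off hD hb.ok x e h).symm

theorem Claim.lab_other (hD : D.Good') (hb : D.Base s) (hc : D.Claim s gv x v) (x' : ℤ) :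
    IsLab (cfg D.G (D.raised x' s)) (D.lab s x v) :=
  (hc.lab_base hD hb).congr (hb.good.escape hD.cpos) hb.good.nonneg (hb.tilt_good x').nonneg _
    fun e h => eq_off hD hb.ok x' e h

theorem Claim.bdd_base (hD : D.Good') (hb : D.Base s) (hc : D.Claim s gv x v) :
    Bounded (cfg D.G s) (D.lab s x v) :=
  IsLab.bounded_congr (hb.tilt_good x).nonneg hb.good.nonneg _
    (fun e h => (eq_off hD hb.ok x e h).symm) (hc.lane.bounded (hb.tilt_good x).nonneg)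

theorem Claim.bdd_other (hD : D.Good') (hb : D.Base s) (hc : D.Claim s gv x v) (x' : ℤ) :
    Bounded (cfg D.G (D.raised x' s)) (D.lab s x v) :=
  IsLab.bounded_congr hb.good.nonneg (hb.tilt_good x').nonneg _
    (fun e h => eq_off hD hb.ok x' e h) (hc.bdd_base hD hb)

theorem Claim.inCone (hb : D.Base s) (hc : D.Claim s gv x v) (i : ℤ) :
    InCone D.K D.rad (ctr x) (v i) := by
  rw [← hc.start]
  exact hc.lane.inCone (hb.tilt_good x).nonneg hc.rises hc.falls hc.coneUp hc.coneLo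
    (by rw [hc.start]; exact hc.steer) i

theorem abs_coord_le (hD : D.Good') (hb : D.Base s) (hc : D.Claim s gv x v) (a b : ℤ) :
    |D.coord s (D.lab s x v) a b| ≤
      ttIn (lower 0) (cfg D.G s) (a, 0) (b, 0) + ttIn (upper 0) (cfg D.G s) (a, 0) (b, 0) := by
  have h0 := hb.good.nonneg
  have hL := hc.lab_base hD hb
  set L := D.lab s x v
  have key : ∀ (S : Set Pt) (r : Ray), IsTail (cfg D.G s) r → Linked S →
      (∀ᶠ n in atTop, r.pt n ∈ S) → (∀ z : Pt, z.2 = 0 → z ∈ S) →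
      |busIn S (cfg D.G s) r (b, 0) - busIn S (cfg D.G s) r (a, 0)| ≤
        ttIn S (cfg D.G s) (a, 0) (b, 0) := by
    intro S r hr hS hev hz
    have h1 := hr.busIn_le_add h0 hS hev (hz (b, 0) rfl) (hz (a, 0) rfl)
    have h2 := hr.busIn_le_add h0 hS hev (hz (a, 0) rfl) (hz (b, 0) rfl)
    rw [ttIn_comm h0 hS (hz (b, 0) rfl) (hz (a, 0) rfl)] at h1
    rw [abs_le]
    constructor <;> linarith
  have e1 := key _ L.lo hL.lo (linked_lower 0) (hL.falls.eventually_lower 0) fun z hz => hz.le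
  have e2 := key _ L.up hL.up (linked_upper 0) (hL.rises.eventually_upper 0) fun z hz => hz.ge
  have e3 := abs_sub (busIn (lower 0) (cfg D.G s) L.lo (b, 0) - busIn (lower 0) (cfg D.G s) L.lo (a, 0))
    (busIn (upper 0) (cfg D.G s) L.up (b, 0) - busIn (upper 0) (cfg D.G s) L.up (a, 0))
  unfold coord
  exact e3.trans (add_le_add e1 e2)

theorem prof_le (hD : D.Good') {x x' : ℤ} {a c : Pt} (ha : InCone D.K D.rad (ctr x) a)
    (hc : InCone D.K D.rad (ctr x) c) :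
    prof D.K D.rad D.S {ctr x'} s(a, c) ≤ prof D.K D.rad D.S {ctr x} s(a, c) := by
  rw [prof_singleton hD.rad_pos.le, prof_singleton hD.rad_pos.le]
  exact prof1_le_of_inCone hD.K_pos hD.rad_pos D.S ha hc rfl

theorem raised_le (hD : D.Good') (hb : D.Base s) {x x' : ℤ} {a c : Pt}
    (ha : InCone D.K D.rad (ctr x) a) (hc : InCone D.K D.rad (ctr x) c) :
    cfg D.G (D.raised x' s) s(a, c) ≤ cfg D.G (D.raised x s) s(a, c) :=
  have := hD.prob
  cfg_raise_mono hD.atom hD.q_mem hb.ok (prof_le hD ha hc)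

/-- The lower chain of the swap: the first lane's foot costs the second label at least zero. -/
theorem gsum_nonneg (hD : D.Good') (hb : D.Base s) (hc₁ : D.Claim s gv x₁ v₁)
    (hc₂ : D.Claim s gv x₂ v₂) :
    0 ≤ gsum (cfg D.G (D.raised x₁ s)) (D.lab s x₂ v₂) (ctr x₁) := by
  have h1 := (hb.tilt_good x₁).nonneg
  have h2 := (hb.tilt_good x₂).nonneg
  have hL1 := hc₂.lab_other hD hb x₁
  have hL2 := hc₂.isLab hb
  have hlo := hL1.lo.bus_mono_of hL2.lo h1 h2 (Sc := {z | InCone D.K D.rad (ctr x₁) z})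
    (fun z hz => hc₁.steer.full _ hL1.lo hc₂.coneLo (Or.inr hL1.falls) z hz)
    (fun a c ha hc _ => raised_le hD hb ha hc)
  have hup := hL1.up.bus_mono_of hL2.up h1 h2 (Sc := {z | InCone D.K D.rad (ctr x₁) z})
    (fun z hz => hc₁.steer.full _ hL1.up hc₂.coneUp (Or.inl hL1.rises) z hz)
    (fun a c ha hc _ => raised_le hD hb ha hc)
  have h3 : total (cfg D.G (D.raised x₂ s)) (D.lab s x₂ v₂) = 0 := hc₂.lane.total_eq h2
  have h4 := hL2.total_le_gsum h2 (hc₂.lane.bounded h2) (ctr x₁)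
  unfold gsum at *
  linarith

/-- The saving on the second lane. -/
theorem route_second_le (hD : D.Good') (hb : D.Base s) (hc₂ : D.Claim s gv x₂ v₂) {iy ix : ℤ}
    (hy0 : iy ≤ 0) (hx0 : 0 ≤ ix) (hy : (v₂ iy).2 = 0) (hx : (v₂ ix).2 = 0)
    (hlow : ∀ i, i ≤ iy → (v₂ i).2 ≤ 0) (hup : ∀ i, ix ≤ i → 0 ≤ (v₂ i).2) (x₁ : ℤ) (n : ℕ) :
    route (cfg D.G (D.raised x₁ s)) (D.lab s x₂ v₂) 0 0 (v₂ iy) (v₂ ix) ≤
      laneSum v₂ (cfg D.G (D.raised x₁ s)) 0 n - laneSum v₂ (cfg D.G (D.raised x₂ s)) 0 n :=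
  route_lane_le hc₂.lane (hb.tilt_good x₂).nonneg (hb.tilt_good x₁).nonneg
    (hc₂.lab_other hD hb x₁) hy0 hx0 hy hx hlow hup
    (fun i => raised_le hD hb (hc₂.inCone hb i) (hc₂.inCone hb (i + 1))) n

theorem laneSum_drop (hD : D.Good') (hb : D.Base s) (hc₂ : D.Claim s gv x₂ v₂)
    (hd : D.K * D.rad + 1 < |((x₂ - x₁ : ℤ) : ℝ)|) :
    laneSum v₂ (cfg D.G (D.raised x₁ s)) 0 1 < laneSum v₂ (cfg D.G (D.raised x₂ s)) 0 1 := by
  have := hD.prob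
  simp only [laneSum, Finset.sum_range_one, Nat.cast_zero, add_zero, zero_add]
  refine cfg_raise_lt hD.atom hD.q_mem hb.ok ?_
  rw [prof_singleton hD.rad_pos.le, prof_singleton hD.rad_pos.le, hc₂.start]
  refine prof1_far_lt hD.hK hD.rad_one hD.hS ?_ ?_
  · rw [← hc₂.start]
    simpa using hc₂.lane.adj 0
  · show D.K * D.rad < |((x₂ - x₁ : ℤ) : ℝ)|
    linarith

theorem route_second_neg (hD : D.Good') (hb : D.Base s) (hc₂ : D.Claim s gv x₂ v₂)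
    (hd : D.K * D.rad + 1 < |((x₂ - x₁ : ℤ) : ℝ)|) :
    total (cfg D.G (D.raised x₁ s)) (D.lab s x₂ v₂) < 0 := by
  obtain ⟨iy, ix, hy0, hx0, hy, hx, hlow, hup⟩ :=
    lane_visits hc₂.lane.adj (by rw [hc₂.start]; rfl) hc₂.rises hc₂.falls
  have h1 := total_le_route (hc₂.lab_other hD hb x₁) (hb.tilt_good x₁).nonneg
    (hc₂.bdd_other hD hb x₁) (hy.le : v₂ iy ∈ lower 0) (hx.ge : v₂ ix ∈ upper 0)
  have h2 := route_second_le hD hb hc₂ hy0 hx0 hy hx hlow hup x₁ 1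
  linarith [laneSum_drop hD hb hc₂ hd]

/-- The pair lemma in the form used: a lane optimal for its label makes the second label optimal
at its foot. -/
theorem foot_optimal {ω : Cfg} {bb cg : ℝ} {Sup : Set ℝ} {L₁ L₂ : Lab} {v : ℤ → Pt}
    (hg : Good bb cg ω) (hc : 0 < cg) (hel : Eligible Sup ω) (hsup : ∀ t ∈ Sup, 0 ≤ t)
    (hlab₁ : IsLab ω L₁) (hlab₂ : IsLab ω L₂) (hv : IsLane ω v) (hcal : Calib ω L₁ v)
    (hb₁ : Bounded ω L₁) (hb₂ : Bounded ω L₂) (hB1 : Bounded ω ⟨L₁.lo, L₂.up⟩)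
    (hB2 : Bounded ω ⟨L₂.lo, L₁.up⟩) (hnu : ¬ StarBox Sup bb cg ω L₁.lo.pt L₁.up.pt L₂.up.pt)
    (hnl : ¬ StarBox Sup bb cg ω L₁.up.pt L₁.lo.pt L₂.lo.pt)
    (hopt : ∀ p, gsum ω L₁ (v 0) ≤ gsum ω L₁ p) : gsum ω L₂ (v 0) ≤ total ω L₂ := by
  obtain ⟨a, b⟩ := L₁
  obtain ⟨d, c⟩ := L₂
  simp only at *
  have h0 := hg.nonneg
  have bd : ∀ {l u : Ray}, Bounded ω ⟨l, u⟩ → ∃ C, ∀ᶠ N in atTop,
      C ≤ tt ω (l.pt N) (u.pt N) - l.acc N - u.acc N := fun ⟨C, hC⟩ =>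
    ⟨C, Eventually.of_forall fun N => hC ⟨N, rfl⟩⟩
  have bd' : ∀ {l u : Ray}, Bounded ω ⟨l, u⟩ → ∃ C, ∀ᶠ N in atTop,
      C ≤ tt ω (u.pt N) (l.pt N) - u.acc N - l.acc N := fun {l u} hlu => by
    obtain ⟨C, hC⟩ := bd hlu
    refine ⟨C, hC.mono fun N hN => ?_⟩
    rw [tt_comm h0]
    linarith
  have hcal' : Calib ω ⟨b, a⟩ fun i => v (-i) := by
    refine ⟨fun i j hij => ?_, fun i j hij => ?_⟩
    · have := hcal.up (-j) (-i) (neg_le_neg hij)
      rw [tt_comm h0] at this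
      show bus ω b (v (-j)) = bus ω b (v (-i)) + tt ω (v (-i)) (v (-j))
      linarith
    · have := hcal.lo (-j) (-i) (neg_le_neg hij)
      rw [tt_comm h0] at this
      show bus ω a (v (-i)) = tt ω (v (-i)) (v (-j)) + bus ω a (v (-j))
      linarith
  exact gsum_le_total
    (⟨hg, hc, hel, hlab₁.lo, hlab₁.up, hlab₂.up, hv, hsup, hcal, bd hb₁, bd hB1⟩ :
      PairHyp bb cg Sup ω a b c v)
    (⟨hg, hc, hel, hlab₁.up, hlab₁.lo, hlab₂.lo, hv.reverse, hsup, hcal', bd' hb₁, bd' hB2⟩ :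
      PairHyp bb cg Sup ω b a d fun i => v (-i))
    rfl hnu hnl hopt hb₂ hlab₂

/-- The pair lemma: one of the hybrids has no bound. -/
theorem hybrid_unbounded (hD : D.Good') (hb : D.Base s) (hc₁ : D.Claim s gv x₁ v₁)
    (hc₂ : D.Claim s gv x₂ v₂) (hd : D.K * D.rad + 1 < |((x₂ - x₁ : ℤ) : ℝ)|)
    (hns : D.NoStar s x₁ v₁ x₂ v₂) :
    ¬ (Bounded (cfg D.G s) ⟨(D.lab s x₁ v₁).lo, (D.lab s x₂ v₂).up⟩ ∧
      Bounded (cfg D.G s) ⟨(D.lab s x₂ v₂).lo, (D.lab s x₁ v₁).up⟩) := by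
  rintro ⟨hB1, hB2⟩
  have hg := hb.tilt_good x₁
  have h0 := hg.nonneg
  have hB1' := IsLab.bounded_congr hb.good.nonneg h0 _ (fun e h => eq_off hD hb.ok x₁ e h) hB1
  have hB2' := IsLab.bounded_congr hb.good.nonneg h0 _ (fun e h => eq_off hD hb.ok x₁ e h) hB2
  have h := foot_optimal (L₁ := D.lab s x₁ v₁) hg hD.cpos (hb.elig x₁) hD.supp (hc₁.isLab hb)
    (hc₂.lab_other hD hb x₁) hc₁.lane (hc₁.lane.calib h0) (hc₁.lane.bounded h0)
    (hc₂.bdd_other hD hb x₁) hB1' hB2' hns.1 hns.2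
    (fun p => hc₁.lane.gsum_min h0 hc₁.rises hc₁.falls p)
  rw [hc₁.start] at h
  linarith [route_second_neg hD hb hc₂ hd, gsum_nonneg hD hb hc₁ hc₂]

/-- The increments of two claimed lanes are oppositely monotone in every configuration with both
labels. -/
theorem opposite (hD : D.Good') (hb : D.Base s) (hc₁ : D.Claim s gv x₁ v₁)
    (hc₂ : D.Claim s gv x₂ v₂) (hd : D.K * D.rad + 1 < |((x₂ - x₁ : ℤ) : ℝ)|)
    (hns : D.NoStar s x₁ v₁ x₂ v₂) (ω : Cfg) (h0 : ∀ e, 0 ≤ ω e)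
    (h1 : IsLab ω (D.lab s x₁ v₁)) (h2 : IsLab ω (D.lab s x₂ v₂)) :
    let α := fun y : ℤ => busIn (upper 0) ω (D.lab s x₂ v₂).up (y, 0) -
      busIn (upper 0) ω (D.lab s x₁ v₁).up (y, 0)
    let β := fun y : ℤ => busIn (lower 0) ω (D.lab s x₂ v₂).lo (y, 0) -
      busIn (lower 0) ω (D.lab s x₁ v₁).lo (y, 0)
    (Antitone α ∧ Monotone β) ∨ (Monotone α ∧ Antitone β) := by
  intro α β
  have hn := hybrid_unbounded hD hb hc₁ hc₂ hd hns
  obtain ⟨su, sd, -, -, sb⟩ := orderStmt (cfg D.G s) hb.good.nonneg _ _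
    (hc₁.lab_base hD hb) (hc₂.lab_base hD hb)
  obtain ⟨-, -, -, -, sb'⟩ := orderStmt (cfg D.G s) hb.good.nonneg _ _
    (hc₂.lab_base hD hb) (hc₁.lab_base hD hb)
  obtain ⟨-, -, mu12, md12, -⟩ := orderStmt ω h0 _ _ h1 h2
  obtain ⟨-, -, mu21, md21, -⟩ := orderStmt ω h0 _ _ h2 h1
  have b1 := hc₁.bdd_base hD hb
  have b2 := hc₂.bdd_base hD hb
  rcases su with hu | hu
  · rcases sd with hd' | hd'
    · exact absurd (sb b1 b2 (Or.inl ⟨hu, hd'⟩)) hn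
    · refine Or.inl ⟨fun y y' hy => mu12 hu 0 y y' hy, fun y y' hy => ?_⟩
      have := md21 hd' 0 y y' hy
      simp only [β]
      linarith
  · rcases sd with hd' | hd'
    · refine Or.inr ⟨fun y y' hy => ?_, fun y y' hy => md12 hd' 0 y y' hy⟩
      have := mu21 hu 0 y y' hy
      simp only [α]
      linarith
    · exact absurd (sb' b2 b1 (Or.inl ⟨hu, hd'⟩)).symm hn

theorem far_eq (hD : D.Good') (hb : D.Base s) (hc₂ : D.Claim s gv x₂ v₂)
    (hd : (D.dist₁ : ℤ) < |x₂ - x₁|) (n : ℕ) :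
    laneSum v₂ (cfg D.G (D.raised x₂ s)) 0 n - laneSum v₂ (cfg D.G (D.raised x₁ s)) 0 n =
      ∑ k ∈ Finset.range n,
        saving D.G D.q D.K D.rad D.S (ctr x₂) (D.raised x₂ s) s(v₂ k, v₂ ((k : ℤ) + 1)) := by
  have := hD.prob
  rw [laneSum, laneSum, ← Finset.sum_sub_distrib]
  refine Finset.sum_congr rfl fun k _ => ?_
  simp only [zero_add]
  set e := s(v₂ (k : ℤ), v₂ ((k : ℤ) + 1))
  have ha := hc₂.inCone hb (k : ℤ)
  have hc := hc₂.inCone hb ((k : ℤ) + 1)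
  have h1 : prof D.K D.rad D.S {ctr x₁} e = 0 := by
    refine le_antisymm ?_ (prof_nonneg _ _)
    rw [prof_singleton hD.rad_pos.le]
    by_cases h : e ∈ grid.edgeSet ∧ edgeN D.K D.rad (ctr x₂) e ≤ 2 ^ D.S * (D.rad : ℝ)
    · refine le_of_eq (prof1_eq_zero_of_width hD.K_pos ?_)
      have h2 : siteN D.K D.rad (ctr x₂) (v₂ (k : ℤ)) ≤ 2 ^ D.S * (D.rad : ℝ) :=
        (le_max_left _ _).trans h.2
      have h3 : |((v₂ (k : ℤ)).1 - (x₂ : ℤ) : ℝ)| ≤ D.K * (2 ^ D.S * D.rad) := by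
        have := ((le_max_right _ _).trans (le_max_left _ _)).trans h2
        rw [div_le_iff₀ hD.K_pos, mul_comm] at this
        simpa [ctr] using this
      have h4 : (D.dist₁ : ℝ) < |((x₂ : ℝ) - x₁)| := by
        have h5 : ((D.dist₁ : ℤ) : ℝ) < ((|x₂ - x₁| : ℤ) : ℝ) := Int.cast_lt.2 hd
        simpa using h5
      have h6 : 2 * (D.K * (2 ^ D.S * D.rad)) + 2 ≤ (D.dist₁ : ℝ) := Nat.le_ceil _
      show D.K * (2 ^ D.S * D.rad) < |(((v₂ (k : ℤ)).1 - x₁ : ℤ) : ℝ)|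
      push_cast
      have := abs_sub_le (x₂ : ℝ) (v₂ (k : ℤ)).1 x₁
      rw [abs_sub_comm (x₂ : ℝ) ((v₂ (k : ℤ)).1 : ℝ)] at this
      linarith
    · refine (prof1_le_of_inCone (u' := ctr x₁) hD.K_pos hD.rad_pos D.S ha hc rfl).trans (le_of_eq ?_)
      rw [prof1, if_neg h]
  have e1 : cfg D.G (D.raised x₁ s) e = cfg D.G s e := cfg_raise_of_prof_zero hD.q_mem hb.ok h1
  rw [e1]
  simp only [saving, lower', raised, raise, cfg]
  rw [lower1_raise1 hD.q_mem (prof_mem (by exact_mod_cast hD.hrad) hD.hS _ _) (hb.ok _).1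
    (hb.ok _).2.1.le]

theorem end_zero (hD : D.Good') {rad' : ℕ} (hr' : 2 ^ D.S * D.rad ≤ rad') {x y : ℤ}
    (hxy : D.K * (3 * rad') + 1 ≤ |((x - y : ℤ) : ℝ)|) {a c : Pt}
    (ha : InCone D.K rad' (ctr y) a) : prof D.K D.rad D.S {ctr x} s(a, c) = 0 := by
  rw [prof_singleton hD.rad_pos.le]
  have hr'' : (2 : ℝ) ^ D.S * D.rad ≤ rad' := by exact_mod_cast hr'
  rcases lt_or_ge ((2 : ℝ) ^ D.S * D.rad) |((a.2 - (ctr x).2 : ℤ) : ℝ)| with h | h
  · exact prof1_eq_zero_of_height h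
  · refine prof1_eq_zero_of_width hD.K_pos ?_
    unfold InCone at ha
    rw [max_eq_right (le_trans h hr'' : |((a.2 - (ctr y).2 : ℤ) : ℝ)| ≤ rad')] at ha
    simp only [ctr] at ha ⊢
    push_cast at ha hxy ⊢
    have h1 := abs_sub_le (x : ℝ) a.1 y
    rw [abs_sub_comm (x : ℝ) (a.1 : ℝ)] at h1
    nlinarith [hD.K_pos, mul_le_mul_of_nonneg_left hr'' hD.K_pos.le]

theorem end_eq (hD : D.Good') (hb : D.Base s) (hc : D.Claim s gv x v) {rad' : ℕ}
    (hr' : 2 ^ D.S * D.rad ≤ rad') {y x₀ : ℤ}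
    (hst : Steered D.κ D.K rad' (cfg D.G s) (ctr y))
    (hxy : D.K * (3 * rad') + 1 ≤ |((x₀ - y : ℤ) : ℝ)|) :
    busIn (upper 0) (cfg D.G (D.raised x₀ s)) (D.lab s x v).up (y, 0) =
        busIn (upper 0) (cfg D.G s) (D.lab s x v).up (y, 0) ∧
      busIn (lower 0) (cfg D.G (D.raised x₀ s)) (D.lab s x v).lo (y, 0) =
        busIn (lower 0) (cfg D.G s) (D.lab s x v).lo (y, 0) := by
  have := hD.prob
  have hL := hc.lab_base hD hb
  have hL' := hc.lab_other hD hb x₀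
  have h0 := (hb.tilt_good x₀).nonneg
  constructor
  · refine hL.up.busIn_eq_of hL'.up hb.good.nonneg h0 (linked_upper 0)
      (hL.rises.eventually_upper 0) (show ((y, 0) : Pt) ∈ upper 0 from le_refl (0 : ℤ))
      (Sc := {z | InCone D.K rad' (ctr y) z ∧ z ∈ upper 0}) ?_
      (fun e => le_cfg_raise hD.atom hD.q_mem hb.ok _ e)
      fun a c ha _ _ => cfg_raise_of_prof_zero hD.q_mem hb.ok (end_zero hD hr' hxy ha.1)
    intro z hz hz'
    exact hst.above _ hL.up hc.coneUp hL.rises y (by simp [ctr]) z hz fun h => hz' ⟨h, hz⟩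
  · refine hL.lo.busIn_eq_of hL'.lo hb.good.nonneg h0 (linked_lower 0)
      (hL.falls.eventually_lower 0) (show ((y, 0) : Pt) ∈ lower 0 from le_refl (0 : ℤ))
      (Sc := {z | InCone D.K rad' (ctr y) z ∧ z ∈ lower 0}) ?_
      (fun e => le_cfg_raise hD.atom hD.q_mem hb.ok _ e)
      fun a c ha _ _ => cfg_raise_of_prof_zero hD.q_mem hb.ok (end_zero hD hr' hxy ha.1)
    intro z hz hz'
    exact hst.below _ hL.lo hc.coneLo hL.falls y (by simp [ctr]) z hz fun h => hz' ⟨h, hz⟩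

theorem line_mem (hb : D.Base s) (hc : D.Claim s gv x v) {i : ℤ} (hi : (v i).2 = 0) :
    |(((v i).1 - x : ℤ) : ℝ)| ≤ D.K * D.rad := by
  have h := hc.inCone hb i
  unfold InCone at h
  simp only [ctr, hi, sub_self, Int.cast_zero, abs_zero] at h
  rwa [max_eq_right (Nat.cast_nonneg _)] at h

/-- Far apart lanes differ by the saving on every good window around them. -/
theorem far_sep (hD : D.Good') (hb : D.Base s) (hc₁ : D.Claim s gv x₁ v₁)
    (hc₂ : D.Claim s gv x₂ v₂) (hd : D.K * D.rad + 1 < |((x₂ - x₁ : ℤ) : ℝ)|)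
    (hns : D.NoStar s x₁ v₁ x₂ v₂) {a b : ℤ} {rad' : ℕ} (hr' : 2 ^ D.S * D.rad ≤ rad')
    (hsa : Steered D.κ D.K rad' (cfg D.G s) (ctr a)) (hsb : Steered D.κ D.K rad' (cfg D.G s) (ctr b))
    (hwin : ∀ x, x = x₁ ∨ x = x₂ →
      (a : ℝ) + (D.K * (3 * rad') + 1) ≤ (x : ℝ) ∧ (x : ℝ) + (D.K * (3 * rad') + 1) ≤ (b : ℝ))
    (hfar : (D.dist₁ : ℤ) < |x₂ - x₁|) : gv ≤ |D.gap s x₁ v₁ x₂ v₂ a b| := by
  set ω := cfg D.G (D.raised x₁ s) with hω
  have hg := hb.tilt_good x₁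
  have h0 := hg.nonneg
  set L₁ := D.lab s x₁ v₁ with hL₁
  set L₂ := D.lab s x₂ v₂ with hL₂
  have hlab₁ : IsLab ω L₁ := hc₁.isLab hb
  have hlab₂ : IsLab ω L₂ := hc₂.lab_other hD hb x₁
  obtain ⟨y₁, z₁, a1, a2, a3, a4, a5, a6⟩ :=
    lane_visits hc₁.lane.adj (by rw [hc₁.start]; rfl) hc₁.rises hc₁.falls
  obtain ⟨y₂, z₂, b1, b2, b3, b4, b5, b6⟩ :=
    lane_visits hc₂.lane.adj (by rw [hc₂.start]; rfl) hc₂.rises hc₂.falls
  obtain ⟨n, hn⟩ := hc₂.gain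
  have hmin : route ω L₁ 0 0 (v₁ y₁) (v₁ z₁) ≤ route ω L₁ 0 0 (v₂ y₂) (v₂ z₂) := by
    have h : route ω L₁ 0 0 (v₁ y₁) (v₁ z₁) ≤
        laneSum v₁ ω 0 0 - laneSum v₁ ω 0 0 :=
      route_lane_le hc₁.lane h0 h0 hlab₁ a1 a2 a3 a4 a5 a6 (fun _ => le_rfl) 0
    rw [sub_self] at h
    have h' : total ω L₁ = 0 := hc₁.lane.total_eq h0
    linarith [total_le_route hlab₁ h0 (hc₁.lane.bounded h0) (b3.le : v₂ y₂ ∈ lower 0)
      (b4.ge : v₂ z₂ ∈ upper 0)]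
  have hsave : route ω L₂ 0 0 (v₂ y₂) (v₂ z₂) + gv ≤ route ω L₂ 0 0 (v₁ y₁) (v₁ z₁) := by
    have h2 := route_second_le hD hb hc₂ b1 b2 b3 b4 b5 b6 x₁ n
    have h3 := far_eq hD hb hc₂ hfar n
    have h4 := gsum_nonneg hD hb hc₁ hc₂
    have h5 := hlab₂.lo.bus_le_add h0 (ctr x₁) (v₁ y₁)
    have h6 := hlab₂.up.bus_le_add h0 (ctr x₁) (v₁ z₁)
    have h7 := hlab₂.lo.bus_le_busIn h0 (S := lower 0) (linked_lower 0)
      (hlab₂.falls.eventually_lower 0) (a3.le : v₁ y₁ ∈ lower 0)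
    have h8 := hlab₂.up.bus_le_busIn h0 (S := upper 0) (linked_upper 0)
      (hlab₂.rises.eventually_upper 0) (a4.ge : v₁ z₁ ∈ upper 0)
    have h9 := hc₁.lane.tt_add h0 a1 a2
    rw [hc₁.start, tt_comm h0 (v₁ y₁) (ctr x₁)] at h9
    simp only [← hω] at h9
    change busIn (lower 0) ω L₂.lo (v₂ y₂) + tt ω (v₂ y₂) (v₂ z₂) +
      busIn (upper 0) ω L₂.up (v₂ z₂) ≤ _ at h2
    unfold gsum at h4
    simp only [← hω, ← hL₂] at h4 h2 h3
    change bus ω L₂.lo (v₁ y₁) ≤ busIn (lower 0) ω L₂.lo (v₁ y₁) at h7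
    change bus ω L₂.up (v₁ z₁) ≤ busIn (upper 0) ω L₂.up (v₁ z₁) at h8
    unfold route
    linarith
  have hswap := swap_bound hmin hsave
  have hKr : 0 ≤ D.K * (3 * (rad' : ℝ)) + 1 := by
    have := hD.K_pos
    positivity
  have hmem : ∀ {x : ℤ} {v : ℤ → Pt}, D.Claim s gv x v → (x = x₁ ∨ x = x₂) →
      ∀ i, (v i).2 = 0 → (v i).1 ∈ Set.Icc a b := by
    intro x v hc hx i hi
    have h1 := abs_le.1 (line_mem hb hc hi)
    have h2 := hwin x hx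
    have h3 : D.K * (D.rad : ℝ) ≤ D.K * (3 * (rad' : ℝ)) + 1 := by
      have : (D.rad : ℝ) ≤ rad' := by
        refine le_trans ?_ (show ((2 ^ D.S * D.rad : ℕ) : ℝ) ≤ rad' by exact_mod_cast hr')
        exact_mod_cast Nat.le_mul_of_pos_left _ (by positivity)
      nlinarith [hD.K_pos, (Nat.cast_nonneg rad' : (0 : ℝ) ≤ rad')]
    push_cast at h1
    constructor
    · exact_mod_cast (by linarith : (a : ℝ) ≤ ((v i).1 : ℝ))
    · exact_mod_cast (by linarith : ((v i).1 : ℝ) ≤ (b : ℝ))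
  have hxa : D.K * (3 * (rad' : ℝ)) + 1 ≤ |((x₁ - a : ℤ) : ℝ)| := by
    refine le_trans ?_ (le_abs_self _)
    push_cast
    linarith [(hwin x₁ (Or.inl rfl)).1]
  have hxb : D.K * (3 * (rad' : ℝ)) + 1 ≤ |((x₁ - b : ℤ) : ℝ)| := by
    rw [← abs_neg]
    refine le_trans ?_ (le_abs_self _)
    push_cast
    linarith [(hwin x₁ (Or.inl rfl)).2]
  obtain ⟨e1, e1'⟩ := end_eq hD hb hc₁ hr' hsa hxa
  obtain ⟨e2, e2'⟩ := end_eq hD hb hc₁ hr' hsb hxb
  obtain ⟨e3, e3'⟩ := end_eq hD hb hc₂ hr' hsa hxa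
  obtain ⟨e4, e4'⟩ := end_eq hD hb hc₂ hr' hsb hxb
  have hpt : ∀ p : Pt, p.2 = 0 → p = (p.1, 0) := fun p hp => Prod.ext rfl hp
  rw [hpt _ a3, hpt _ a4, hpt _ b3, hpt _ b4] at hswap
  rcases opposite hD hb hc₁ hc₂ hd hns ω h0 hlab₁ hlab₂ with ⟨hα, hβ⟩ | ⟨hα, hβ⟩
  · have w1 := abs_sub_le_window (Or.inr hα) (hmem hc₁ (Or.inl rfl) _ a4) (hmem hc₂ (Or.inr rfl) _ b4)
    have w2 := abs_sub_le_window (Or.inl hβ) (hmem hc₁ (Or.inl rfl) _ a3) (hmem hc₂ (Or.inr rfl) _ b3)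
    have hab : a ≤ b := (hmem hc₁ (Or.inl rfl) _ a3).1.trans (hmem hc₁ (Or.inl rfl) _ a3).2
    rw [abs_of_nonpos (sub_nonpos.2 (hα hab))] at w1
    rw [abs_of_nonneg (sub_nonneg.2 (hβ hab))] at w2
    refine le_trans ?_ (le_abs_self _)
    simp only [gap, coord, ← hω, ← hL₁, ← hL₂] at *
    linarith
  · have w1 := abs_sub_le_window (Or.inl hα) (hmem hc₁ (Or.inl rfl) _ a4) (hmem hc₂ (Or.inr rfl) _ b4)
    have w2 := abs_sub_le_window (Or.inr hβ) (hmem hc₁ (Or.inl rfl) _ a3) (hmem hc₂ (Or.inr rfl) _ b3)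
    have hab : a ≤ b := (hmem hc₁ (Or.inl rfl) _ a3).1.trans (hmem hc₁ (Or.inl rfl) _ a3).2
    rw [abs_of_nonneg (sub_nonneg.2 (hα hab))] at w1
    rw [abs_of_nonpos (sub_nonpos.2 (hβ hab))] at w2
    refine le_trans ?_ (neg_le_abs _)
    simp only [gap, coord, ← hω, ← hL₁, ← hL₂] at *
    linarith

/-- The difference of the coordinates is monotone in the window and unbounded. -/
theorem gap_grows (hD : D.Good') (hb : D.Base s) (hc₁ : D.Claim s gv x₁ v₁)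
    (hc₂ : D.Claim s gv x₂ v₂) (hd : D.K * D.rad + 1 < |((x₂ - x₁ : ℤ) : ℝ)|)
    (hns : D.NoStar s x₁ v₁ x₂ v₂) :
    (∀ a b a' b' : ℤ, a' ≤ a → a ≤ b → b ≤ b' →
      |D.gap s x₁ v₁ x₂ v₂ a b| ≤ |D.gap s x₁ v₁ x₂ v₂ a' b'|) ∧
    ∀ M : ℝ, ∃ L : ℕ, M ≤ |D.gap s x₁ v₁ x₂ v₂ (x₁ - L) (x₁ + L)| := by
  have hl₁ := hc₁.lab_base hD hb
  have hl₂ := hc₂.lab_base hD hb
  have hopp := opposite hD hb hc₁ hc₂ hd hns _ hb.good.nonneg hl₁ hl₂
  set α := fun y : ℤ => busIn (upper 0) (cfg D.G s) (D.lab s x₂ v₂).up (y, 0) -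
    busIn (upper 0) (cfg D.G s) (D.lab s x₁ v₁).up (y, 0) with hα
  set β := fun y : ℤ => busIn (lower 0) (cfg D.G s) (D.lab s x₂ v₂).lo (y, 0) -
    busIn (lower 0) (cfg D.G s) (D.lab s x₁ v₁).lo (y, 0) with hβ
  have hgap : ∀ a b, D.gap s x₁ v₁ x₂ v₂ a b = (β b - β a) - (α b - α a) := fun a b => by
    simp only [gap, coord, hα, hβ]
    ring
  have habs : ∀ a b, a ≤ b → |D.gap s x₁ v₁ x₂ v₂ a b| = |β b - β a| + |α b - α a| := by
    intro a b hab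
    rw [hgap]
    rcases hopp with ⟨ha, hb'⟩ | ⟨ha, hb'⟩
    · rw [abs_of_nonneg (sub_nonneg.2 (hb' hab)), abs_of_nonpos (sub_nonpos.2 (ha hab)),
        abs_of_nonneg]
      · ring
      · linarith [hb' hab, ha hab]
    · rw [abs_of_nonpos (sub_nonpos.2 (hb' hab)), abs_of_nonneg (sub_nonneg.2 (ha hab)),
        abs_of_nonpos]
      · ring
      · linarith [hb' hab, ha hab]
  have monα : Monotone α ∨ Antitone α := hopp.elim (fun h => Or.inr h.1) (fun h => Or.inl h.1)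
  have monβ : Monotone β ∨ Antitone β := hopp.elim (fun h => Or.inl h.2) (fun h => Or.inr h.2)
  refine ⟨fun a b a' b' h1 h2 h3 => ?_, fun M => ?_⟩
  · rw [habs a b h2, habs a' b' (h1.trans (h2.trans h3))]
    exact add_le_add (abs_sub_le_window monβ ⟨h1.trans h2, h3⟩ ⟨h1, h2.trans h3⟩)
      (abs_sub_le_window monα ⟨h1.trans h2, h3⟩ ⟨h1, h2.trans h3⟩)
  · obtain ⟨-, -, -, -, sb⟩ := orderStmt (cfg D.G s) hb.good.nonneg _ _ hl₁ hl₂
    have hunb : ∀ C, ∃ y : ℤ, C < |α y| := by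
      intro C
      by_contra hc
      push Not at hc
      exact hybrid_unbounded hD hb hc₁ hc₂ hd hns
        (sb (hc₁.bdd_base hD hb) (hc₂.bdd_base hD hb) (Or.inr (Or.inl ⟨C, 0, hc⟩)))
    obtain ⟨y, hy⟩ := hunb (|α x₁| + M)
    refine ⟨(y - x₁).natAbs, ?_⟩
    rw [habs _ _ (by omega)]
    have h1 := abs_sub_le_window monα (a := x₁ - ((y - x₁).natAbs : ℤ))
      (b := x₁ + ((y - x₁).natAbs : ℤ)) (x := y) (x' := x₁) ⟨by omega, by omega⟩ ⟨by omega, by omega⟩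
    linarith [abs_nonneg (β (x₁ + ((y - x₁).natAbs : ℤ)) - β (x₁ - ((y - x₁).natAbs : ℤ))),
      abs_sub_abs_le_abs_sub (α y) (α x₁)]

end MainData

theorem mainLaneStmt : MainLaneStmt := by
  intro D hD s hb gv x₁ x₂ v₁ v₂ hc₁ hc₂
  refine ⟨fun a b => MainData.abs_coord_le hD hb hc₁ a b, fun hd hns => ?_⟩
  exact ⟨(MainData.gap_grows hD hb hc₁ hc₂ hd hns).1, (MainData.gap_grows hD hb hc₁ hc₂ hd hns).2,
    fun a b rad' hr' hsa hsb hwin hfar =>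
      MainData.far_sep hD hb hc₁ hc₂ hd hns hr' hsa hsb hwin hfar⟩

end Vale.Agent.P158.V4
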