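import Mathlib
import Vale.Agent.P158.V4.Interfaces
import Vale.Agent.P158.V4.TiltProb

/-!
P158, module Null, second part: invariance of the marks under translation and under the exchange of
two independent fields on finitely many edges.
-/

namespace Vale.Agent.P158.V4

open MeasureTheory

theorem map_moveMarks (a : Pt) : markLaw.map (moveMarks a) = markLaw :=
  Measure.map_infinitePi_infinitePi_of_inj (P := fun _ : Sym2 Pt => unitSquare)
    (Sym2.map.injective (add_left_injective a))

/-- Two fields as one field of pairs. -/
def zipMarks (p : Marks × Marks) : Sym2 Pt → (ℝ × ℝ) × (ℝ × ℝ) := fun e => (p.1 e, p.2 e)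

/-- A field of pairs as two fields. -/
def unzipMarks (z : Sym2 Pt → (ℝ × ℝ) × (ℝ × ℝ)) : Marks × Marks :=
  (fun e => (z e).1, fun e => (z e).2)

theorem measurable_zipMarks : Measurable zipMarks := by unfold zipMarks; fun_prop

theorem measurable_unzipMarks : Measurable unzipMarks := by unfold unzipMarks; fun_prop

/-- Two independent fields of marks form one product field. -/
theorem map_zipMarks :
    (markLaw.prod markLaw).map zipMarks =
      Measure.infinitePi fun _ : Sym2 Pt => unitSquare.prod unitSquare := by
  refine Measure.eq_infinitePi _ fun t A hA => ?_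
  have hcyl : MeasurableSet (Set.pi (Set.univ : Set t) fun i => A i) :=
    MeasurableSet.univ_pi fun i => hA i
  have hP := (measurePreserving_arrowProdEquivProdArrow (ℝ × ℝ) (ℝ × ℝ) t (fun _ => unitSquare)
    fun _ => unitSquare).symm
  set φ : Marks × Marks → t → (ℝ × ℝ) × (ℝ × ℝ) := fun p =>
    (MeasurableEquiv.arrowProdEquivProdArrow (ℝ × ℝ) (ℝ × ℝ) t).symm
      (Prod.map t.restrict t.restrict p) with hφ
  have hφm : Measurable φ := hP.measurable.comp
    ((Finset.measurable_restrict t).prodMap (Finset.measurable_restrict t))
  have h1 : (markLaw.prod markLaw).map φ = Measure.pi fun _ : t => unitSquare.prod unitSquare := by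
    refine (Measure.map_map hP.measurable
      ((Finset.measurable_restrict t).prodMap (Finset.measurable_restrict t))).symm.trans ?_
    rw [← Measure.map_prod_map _ _ (Finset.measurable_restrict t) (Finset.measurable_restrict t),
      markLaw, Measure.infinitePi_map_restrict]
    exact hP.map_eq
  have h2 := congrArg (fun m : Measure (t → (ℝ × ℝ) × (ℝ × ℝ)) =>
    m (Set.pi Set.univ fun i => A i)) h1
  simp only [Measure.pi_pi] at h2
  rw [Measure.map_apply hφm hcyl] at h2
  rw [Measure.map_apply measurable_zipMarks
      (MeasurableSet.pi t.countable_toSet fun i _ => hA i),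
    ← Finset.prod_coe_sort t (fun i => (unitSquare.prod unitSquare) (A i))]
  refine Eq.trans ?_ (h2.trans rfl)
  congr 1
  ext p
  simp only [Set.mem_preimage, Set.mem_pi, Finset.mem_coe, Set.mem_univ, forall_const, Subtype.forall]
  rfl

/-- The exchange of two fields on a finite set of edges. -/
def swapMarks (E : Finset (Sym2 Pt)) (p : Marks × Marks) : Marks × Marks :=
  (resample E p.2 p.1, resample E p.1 p.2)

theorem resample_swapMarks (E : Finset (Sym2 Pt)) (p : Marks × Marks) :
    resample E (swapMarks E p).2 (swapMarks E p).1 = p.1 := by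
  funext e
  by_cases he : e ∈ E <;> simp [swapMarks, resample, he]

theorem measurePreserving_swapMarks (E : Finset (Sym2 Pt)) :
    MeasurePreserving (swapMarks E) (markLaw.prod markLaw) (markLaw.prod markLaw) := by
  classical
  set f : Sym2 Pt → (ℝ × ℝ) × (ℝ × ℝ) → (ℝ × ℝ) × (ℝ × ℝ) :=
    fun e x => if e ∈ E then x.swap else x with hf
  have hfm : ∀ e, Measurable (f e) := fun e => by
    by_cases he : e ∈ E
    · simpa [hf, he] using measurable_swap
    · simpa [hf, he] using measurable_id'
  have hmid : Measurable fun (z : Sym2 Pt → (ℝ × ℝ) × (ℝ × ℝ)) e => f e (z e) :=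
    measurable_pi_lambda _ fun e => (hfm e).comp (measurable_pi_apply e)
  have heq : swapMarks E = unzipMarks ∘ (fun z e => f e (z e)) ∘ zipMarks := by
    funext p
    refine Prod.ext (funext fun e => ?_) (funext fun e => ?_) <;>
      by_cases he : e ∈ E <;> simp [swapMarks, resample, unzipMarks, zipMarks, hf, he]
  refine ⟨heq ▸ measurable_unzipMarks.comp (hmid.comp measurable_zipMarks), ?_⟩
  have hid : (markLaw.prod markLaw) =
      ((markLaw.prod markLaw).map zipMarks).map unzipMarks := by
    rw [Measure.map_map measurable_unzipMarks measurable_zipMarks]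
    exact Measure.map_id.symm
  rw [heq, ← Measure.map_map measurable_unzipMarks (hmid.comp measurable_zipMarks),
    ← Measure.map_map hmid measurable_zipMarks, map_zipMarks, Measure.infinitePi_map_pi _ hfm]
  have : ∀ e, (unitSquare.prod unitSquare).map (f e) = unitSquare.prod unitSquare := fun e => by
    by_cases he : e ∈ E
    · simp only [hf, he, if_true]; exact Measure.prod_swap
    · simp only [hf, he, if_false]; exact Measure.map_id
  simp only [this]
  rw [← map_zipMarks]
  exact hid.symm

end Vale.Agent.P158.V4
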