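import Vale.Agent.P158.V4.Split

/-!
P158: strict splittings (notes 1446, 1448, section F). A splitting is strict when one of the two
routes loses a positive amount by the other edge. Without ties between routes of which only one uses
a modified edge, a splitting before a modified edge is strict, and lowering one edge makes a strict
splitting strict for both routes.
-/

namespace Vale.Agent.P158.V4

open Filter Topology

/-- The route from `w` to far points of `r` by the neighbour `n` loses a positive amount. -/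
def StrictAt (x : Cfg) (r : ℕ → Pt) (w n : Pt) : Prop :=
  ∃ k : ℕ, ∀ᶠ N in atTop, tt x w (r N) + 1 / ((k : ℝ) + 1) ≤ x s(w, n) + tt x n (r N)

/-- The routes from `w` to far points of `r` by the two neighbours have the same limit cost. -/
def Tied (x : Cfg) (r : ℕ → Pt) (w n₀ n₁ : Pt) : Prop :=
  ∀ k : ℕ, ∀ᶠ N in atTop,
    |(x s(w, n₀) + tt x n₀ (r N)) - (x s(w, n₁) + tt x n₁ (r N))| ≤ 1 / ((k : ℝ) + 1)

/-- An asymptotically optimal route from `n` to far points of `r` runs through `e`. -/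
def Thru (x : Cfg) (r : ℕ → Pt) (n : Pt) (e : Sym2 Pt) : Prop :=
  ∃ p q, grid.Adj p q ∧ e = s(p, q) ∧ ∀ k : ℕ, ∃ᶠ N in atTop,
    tt x n p + x e + tt x q (r N) ≤ tt x n (r N) + 1 / ((k : ℝ) + 1)

/-- The route from `w` by the neighbour `n` can use `e`. -/
def Uses (x : Cfg) (r : ℕ → Pt) (w n : Pt) (e : Sym2 Pt) : Prop := e = s(w, n) ∨ Thru x r n e

/-- No two tied routes of which only one can use a given edge of `E`. -/
def TieFree (E : Finset (Sym2 Pt)) (x : Cfg) (b c : ℕ → Pt) : Prop :=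
  ∀ r, (r = b ∨ r = c) → ∀ e ∈ E, ∀ w n₀ n₁, grid.Adj w n₀ → grid.Adj w n₁ →
    Tied x r w n₀ n₁ → Uses x r w n₀ e → Uses x r w n₁ e

/-- A splitting at `w` at which one of the routes is strictly better by its own edge. -/
def SplitsStrictAt (x : Cfg) (a b c : ℕ → Pt) (w : Pt) : Prop :=
  ∃ n₀ n₁, n₀ ≠ n₁ ∧ (∃ᶠ N in atTop, EdgeOn x (a N) (b N) w n₀ ∧ EdgeOn x (a N) (c N) w n₁) ∧
    (StrictAt x b w n₁ ∨ StrictAt x c w n₀)

/-- A strict splitting somewhere. -/
def SplitsStrict (x : Cfg) (a b c : ℕ → Pt) : Prop := ∃ w, SplitsStrictAt x a b c w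

/-- A star: a splitting at `w` at which both routes are strictly better by their own edges. -/
def StarAt (x : Cfg) (a b c : ℕ → Pt) (w : Pt) : Prop :=
  ∃ n₀ n₁, n₀ ≠ n₁ ∧ (∃ᶠ N in atTop, EdgeOn x (a N) (b N) w n₀ ∧ EdgeOn x (a N) (c N) w n₁) ∧
    StrictAt x b w n₁ ∧ StrictAt x c w n₀

variable {bb cg : ℝ} {x : Cfg} {a b c : ℕ → Pt} {w n n₀ n₁ : Pt} {e : Sym2 Pt}

theorem SplitsStrict.symm (h : SplitsStrict x a b c) : SplitsStrict x a c b := by
  obtain ⟨w, n₀, n₁, hne, hf, hs⟩ := h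
  exact ⟨w, n₁, n₀, hne.symm, hf.mono fun N hN => ⟨hN.2, hN.1⟩, hs.symm⟩

theorem TieFree.symm {E : Finset (Sym2 Pt)} (h : TieFree E x b c) : TieFree E x c b :=
  fun r hr => h r hr.symm

theorem StarAt.splitsStrictAt (h : StarAt x a b c w) : SplitsStrictAt x a b c w := by
  obtain ⟨n₀, n₁, hne, hf, hb, -⟩ := h
  exact ⟨n₀, n₁, hne, hf, Or.inl hb⟩

theorem StarAt.symm (h : StarAt x a b c w) : StarAt x a c b w := by
  obtain ⟨n₀, n₁, hne, hf, hb, hc⟩ := h
  exact ⟨n₁, n₀, hne.symm, hf.mono fun N hN => ⟨hN.2, hN.1⟩, hc, hb⟩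

theorem tt_le_step (h0 : ∀ e, 0 ≤ x e) {p q : Pt} (h : grid.Adj p q) : tt x p q ≤ x s(p, q) :=
  (tt_le h0 h.toWalk).trans_eq (by simp [wt])

theorem le_of_forall_inv {s t : ℝ} (h : ∀ k : ℕ, s ≤ t + 1 / ((k : ℝ) + 1)) : s ≤ t :=
  le_of_forall_pos_le_add fun ε hε => by
    obtain ⟨k, hk⟩ := exists_nat_one_div_lt hε
    linarith [h k]

variable {r : Ray}

theorem tendsto_route (hr : IsTail x r) (h0 : ∀ e, 0 ≤ x e) (w n : Pt) :
    Tendsto (fun N => x s(w, n) + tt x n (r.pt N) - r.acc N) atTop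
      (𝓝 (x s(w, n) + bus x r n)) :=
  ((hr.tendsto_bus h0 n).const_add _).congr fun N => by ring

theorem bus_le_step (hr : IsTail x r) (h0 : ∀ e, 0 ≤ x e) (hadj : grid.Adj w n) :
    bus x r w ≤ x s(w, n) + bus x r n :=
  (hr.bus_le_add h0 w n).trans (by linarith [tt_le_step h0 hadj])

theorem strictAt_iff (hr : IsTail x r) (h0 : ∀ e, 0 ≤ x e) (w n : Pt) :
    StrictAt x r.pt w n ↔ bus x r w < x s(w, n) + bus x r n := by
  constructor
  · rintro ⟨k, hk⟩
    have h := le_of_tendsto_of_tendsto ((hr.tendsto_bus h0 w).add_const (1 / ((k : ℝ) + 1)))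
      (tendsto_route hr h0 w n) (hk.mono fun N hN => by linarith)
    have : (0 : ℝ) < 1 / ((k : ℝ) + 1) := by positivity
    linarith
  · intro h
    obtain ⟨k, hk⟩ := exists_nat_one_div_lt (sub_pos.2 h)
    exact ⟨k, (((tendsto_route hr h0 w n).sub (hr.tendsto_bus h0 w)).eventually_const_lt hk).mono
      fun N hN => by linarith⟩

theorem tied_of_bus (hr : IsTail x r) (h0 : ∀ e, 0 ≤ x e)
    (h : x s(w, n₀) + bus x r n₀ = x s(w, n₁) + bus x r n₁) : Tied x r.pt w n₀ n₁ := by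
  intro k
  have hpos : (0 : ℝ) < 1 / ((k : ℝ) + 1) := by positivity
  have ht := ((tendsto_route hr h0 w n₀).sub (tendsto_route hr h0 w n₁)).abs
  rw [h, sub_self, abs_zero] at ht
  filter_upwards [ht.eventually_le_const hpos] with N hN
  rwa [sub_sub_sub_cancel_right] at hN

theorem Thru.bus_eq (h : Thru x r.pt n e) (hr : IsTail x r) (h0 : ∀ e, 0 ≤ x e) :
    ∃ p q, e = s(p, q) ∧ bus x r n = tt x n p + x e + bus x r q := by
  obtain ⟨p, q, hadj, rfl, hk⟩ := h
  refine ⟨p, q, rfl, le_antisymm ?_ (le_of_forall_inv fun k => ?_)⟩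
  · linarith [hr.bus_le_add h0 n p, hr.bus_le_add h0 p q, tt_le_step h0 hadj]
  · exact le_of_tendsto_of_tendsto_of_frequently ((hr.tendsto_bus h0 q).const_add (tt x n p + x s(p, q)))
      ((hr.tendsto_bus h0 n).add_const _) ((hk k).mono fun N hN => by linarith)

theorem bus_eq_of_frequently (hr : IsTail x r) (h0 : ∀ e, 0 ≤ x e)
    (h : ∃ᶠ N in atTop, EdgeOn x (a N) (r.pt N) w n) : bus x r w = x s(w, n) + bus x r n := by
  obtain ⟨N, hN⟩ := h.exists
  refine le_antisymm (bus_le_step hr h0 hN.1) ?_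
  refine le_of_tendsto_of_tendsto_of_frequently (tendsto_route hr h0 w n) (hr.tendsto_bus h0 w)
    (h.mono fun N hN => ?_)
  linarith [tt_triangle h0 (a N) w (r.pt N), hN.2]

theorem edgeOn_head (hg : Good bb cg x) (hc : 0 < cg) {w p n n' : Pt} (h : EdgeOn x w p w n)
    (h' : EdgeOn x w p w n') : n = n' := by
  classical
  have key : ∀ {m}, EdgeOn x w p w m → ∃ (hadj : grid.Adj w m) (q : grid.Walk m p),
      IsShortest x (SimpleGraph.Walk.cons hadj q) := fun {m} hm => by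
    obtain ⟨q, hq, hqw⟩ := hg.exists_shortest hc m p
    have e0 : tt x w w = 0 :=
      le_antisymm ((tt_le hg.nonneg SimpleGraph.Walk.nil).trans_eq (by simp [wt])) (tt_nonneg hg.nonneg)
    have hwt : wt x (SimpleGraph.Walk.cons hm.1 q) = tt x w p := by
      have : wt x (SimpleGraph.Walk.cons hm.1 q) = x s(w, m) + wt x q := by simp [wt]
      rw [this, hqw, ← hm.2, e0, zero_add]
    refine ⟨hm.1, q, hq.cons fun hw => ?_, hwt⟩
    have h1 := wt_append (ω := x) (q.takeUntil w hw) (q.dropUntil w hw)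
    rw [SimpleGraph.Walk.take_spec, hqw] at h1
    linarith [hm.2, hg.pos s(w, m), wt_nonneg hg.nonneg (q.takeUntil w hw),
      tt_le hg.nonneg (q.dropUntil w hw)]
  obtain ⟨h₁, q, hq⟩ := key h
  obtain ⟨h₂, q', hq'⟩ := key h'
  have := congrArg (fun p => SimpleGraph.Walk.getVert p 1) (hg.shortest_eq hq hq')
  simpa using this

/-- Two tied routes cannot both use the same edge. -/
theorem both_uses_absurd (hg : Good bb cg x) (hc : 0 < cg) (hr : IsTail x r) (hadj : grid.Adj w n)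
    (hadj₁ : grid.Adj w n₁) (hne : n ≠ n₁) (hb : bus x r w = x s(w, n) + bus x r n)
    (hb₁ : bus x r w = x s(w, n₁) + bus x r n₁) (h : Uses x r.pt w n e)
    (h₁ : Uses x r.pt w n₁ e) : False := by
  have h0 := hg.nonneg
  -- a route through the first edge of the other one
  have first : ∀ {m m' : Pt}, bus x r w = x s(w, m) + bus x r m →
      bus x r w = x s(w, m') + bus x r m' → Thru x r.pt m' s(w, m) → False := by
    intro m m' hm hm' ht
    obtain ⟨p, q, he, hbus⟩ := ht.bus_eq hr h0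
    have h2 := hg.pos s(w, m')
    have h3 := hg.pos s(w, m)
    have h4 := tt_nonneg h0 (u := m') (v := p)
    rcases Sym2.eq_iff.1 he with ⟨rfl, rfl⟩ | ⟨rfl, rfl⟩ <;> linarith
  rcases h with rfl | h <;> rcases h₁ with h₁ | h₁
  · exact hne (Sym2.congr_right.1 h₁)
  · exact first hb hb₁ h₁
  · exact first hb₁ hb (h₁ ▸ h)
  obtain ⟨p, q, he, hp⟩ := h.bus_eq hr h0
  obtain ⟨p', q', he', hp'⟩ := h₁.bus_eq hr h0
  have hpe := hg.pos e
  have t0 := tt_triangle h0 w n p
  have t1 := tt_le_step h0 hadj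
  have t0' := tt_triangle h0 w n₁ p'
  have t1' := tt_le_step h0 hadj₁
  rcases Sym2.eq_iff.1 (he.symm.trans he') with ⟨rfl, rfl⟩ | ⟨rfl, rfl⟩
  · -- both routes begin a geodesic from `w` to `p`
    have hs : x s(w, n) + tt x n p = x s(w, n₁) + tt x n₁ p := by linarith
    have hle : x s(w, n) + tt x n p ≤ tt x w p := by
      have h3 : tt x p q ≤ x e := by
        obtain ⟨p₂, q₂, hadj₂, rfl, -⟩ := h
        rcases Sym2.eq_iff.1 he with ⟨rfl, rfl⟩ | ⟨rfl, rfl⟩
        · exact tt_le_step h0 hadj₂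
        · rw [Sym2.eq_swap]; exact tt_le_step h0 hadj₂.symm
      linarith [hr.bus_le_add h0 w p, hr.bus_le_add h0 p q]
    have e0 : tt x w w = 0 :=
      le_antisymm ((tt_le h0 SimpleGraph.Walk.nil).trans_eq (by simp [wt])) (tt_nonneg h0)
    exact hne (edgeOn_head hg hc ⟨hadj, by linarith⟩ ⟨hadj₁, by linarith⟩)
  · -- opposite senses
    linarith [hr.bus_le_add h0 w p, hr.bus_le_add h0 w q]

/-- A modified edge used by the geodesic to `b` and not by that to `c` gives a strict split. -/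
theorem strict_of_edge (hg : Good bb cg x) (hc : 0 < cg) {a : ℕ → Pt} {b c : Ray}
    (hb : IsTail x b) (hc' : IsTail x c) {E : Finset (Sym2 Pt)} (hfree : TieFree E x b.pt c.pt)
    {q p p' : Pt} (he : s(p, p') ∈ E) (hqb : ∀ᶠ N in atTop, OnGeo x (a N) (b.pt N) q)
    (hqc : ∀ᶠ N in atTop, OnGeo x (a N) (c.pt N) q)
    (h : ∃ᶠ N in atTop, EdgeOn x q (b.pt N) p p' ∧ ¬ EdgeOn x q (c.pt N) p p') :
    SplitsStrict x a b.pt c.pt := by
  classical
  have h0 := hg.nonneg
  obtain ⟨π, hπ⟩ := hg.exists_shortest hc q p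
  set S := π.support.toFinset
  set F : Finset (Pt × Pt × Pt) :=
    S ×ˢ (insert p' S) ×ˢ S.biUnion fun z => (Finset.univ : Finset (Fin 4)).image fun d => z + step d
    with hF
  have key : ∃ᶠ N in atTop, ∃ i ∈ F, i.2.1 ≠ i.2.2 ∧
      EdgeOn x (a N) (b.pt N) i.1 i.2.1 ∧ EdgeOn x (a N) (c.pt N) i.1 i.2.2 ∧
      (s(p, p') = s(i.1, i.2.1) ∨
        tt x i.2.1 p + x s(p, p') + tt x p' (b.pt N) = tt x i.2.1 (b.pt N)) := by
    refine (h.and_eventually (hqb.and (hqc.and (eventually_notMem hc'.inj S)))).mono ?_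
    rintro N ⟨⟨hpb, hpc⟩, hqb', hqc', hcS⟩
    obtain ⟨pc, hpc'⟩ := hg.exists_shortest hc q (c.pt N)
    have other : ∀ w ∈ S, OnGeo x q (c.pt N) w → ∃ n₁, (∃ d : Fin 4, n₁ = w + step d) ∧
        EdgeOn x q (c.pt N) w n₁ ∧ OnGeo x q (c.pt N) n₁ := by
      intro w hwS hw
      obtain ⟨n₁, hadj₁, r₁, r₂, hre, -⟩ :=
        exists_step_after hpc'.1 (hg.mem_of_onGeo hc hpc' hw) fun e => hcS (e ▸ hwS)
      have := edgeOn_of_split h0 r₁ hadj₁ r₂ (by rw [← hre, hpc'.2])
      exact ⟨n₁, exists_step hadj₁, this, (edgeOn_onGeo h0 this).2⟩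
    by_cases hp : OnGeo x q (c.pt N) p
    · have hpS : p ∈ S := List.mem_toFinset.2 π.end_mem_support
      obtain ⟨n₁, ⟨d, rfl⟩, hn₁, -⟩ := other p hpS hp
      refine ⟨(p, p', p + step d), ?_, fun (e : p' = p + step d) => hpc (e ▸ hn₁),
        edgeOn_extend h0 hqb' hpb, edgeOn_extend h0 hqc' hn₁, Or.inl rfl⟩
      simp only [hF, Finset.mem_product, Finset.mem_biUnion, Finset.mem_image, Finset.mem_univ,
        true_and, Finset.mem_insert]
      exact ⟨hpS, Or.inl trivial, p, hpS, d, rfl⟩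
    · obtain ⟨w, n, hadj, π₁, π₂, hπe, hw, hn⟩ :=
        exists_exit π (fun z => OnGeo x q (c.pt N) z)
          (by
            have e0 : tt x q q = 0 := le_antisymm
              ((tt_le h0 SimpleGraph.Walk.nil).trans_eq (by simp [wt])) (tt_nonneg h0)
            unfold OnGeo; rw [e0, zero_add]) hp
      have hwS : w ∈ S := by
        rw [List.mem_toFinset, hπe, SimpleGraph.Walk.mem_support_append_iff]
        exact Or.inl π₁.end_mem_support
      have hnS : n ∈ S := by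
        rw [List.mem_toFinset, hπe, SimpleGraph.Walk.mem_support_append_iff]
        exact Or.inr (by simp)
      obtain ⟨n₁, ⟨d, rfl⟩, hn₁, hn₁'⟩ := other w hwS hw
      have hwn : EdgeOn x q p w n := edgeOn_of_split h0 π₁ hadj π₂ (by rw [← hπe, hπ.2])
      have hpp : OnGeo x q (b.pt N) p := (edgeOn_onGeo h0 hpb).1
      refine ⟨(w, n, w + step d), ?_, fun (e : n = w + step d) => hn (e ▸ hn₁'),
        edgeOn_extend h0 hqb' (edgeOn_extend_right h0 hpp hwn), edgeOn_extend h0 hqc' hn₁,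
        Or.inr (le_antisymm ?_ ?_)⟩
      · simp only [hF, Finset.mem_product, Finset.mem_biUnion, Finset.mem_image, Finset.mem_univ,
          true_and, Finset.mem_insert]
        exact ⟨hwS, Or.inr hnS, w, hwS, d, rfl⟩
      · linarith [hpb.2, hwn.2, tt_triangle h0 q w (b.pt N), tt_triangle h0 w n (b.pt N),
          tt_le_step h0 hadj]
      · linarith [tt_triangle h0 n p (b.pt N), tt_triangle h0 p p' (b.pt N), tt_le_step h0 hpb.1]
  obtain ⟨⟨w, n, n₁⟩, -, hfr⟩ := frequently_exists key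
  obtain ⟨N, hne, hwb, hwc, -⟩ := hfr.exists
  refine ⟨w, n, n₁, hne, hfr.mono fun N hN => ⟨hN.2.1, hN.2.2.1⟩, Or.inl ?_⟩
  rw [strictAt_iff hb h0]
  by_contra hcon
  have e₀ := bus_eq_of_frequently hb h0 (hfr.mono fun N hN => hN.2.1)
  have e₁ : bus x b w = x s(w, n₁) + bus x b n₁ :=
    le_antisymm (bus_le_step hb h0 hwc.1) (not_lt.1 hcon)
  obtain ⟨N', hN'⟩ := (h.mono fun N hN => hN.1).exists
  have hu : Uses x b.pt w n s(p, p') := by
    by_cases heq : s(p, p') = s(w, n)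
    · exact Or.inl heq
    · refine Or.inr ⟨p, p', hN'.1, rfl, fun k => hfr.mono fun N hN => ?_⟩
      rw [hN.2.2.2.resolve_left heq]
      exact le_add_of_nonneg_right (by positivity)
  exact both_uses_absurd hg hc hb hwb.1 hwc.1 hne e₀ e₁ hu
    (hfree _ (Or.inl rfl) _ he w n n₁ hwb.1 hwc.1 (tied_of_bus hb h0 (e₀.symm.trans e₁)) hu)

/-- A walk using an edge splits at it, with no second use if it is a path. -/
theorem exists_at_edge {u v : Pt} (r : grid.Walk u v) (hr : e ∈ r.edges) :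
    ∃ p q, ∃ hadj : grid.Adj p q, ∃ r₁ : grid.Walk u p, ∃ r₂ : grid.Walk q v,
      e = s(p, q) ∧ r = r₁.append (.cons hadj r₂) := by
  induction r with
  | nil => simp at hr
  | @cons u v' v hadj r ih =>
    rw [SimpleGraph.Walk.edges_cons, List.mem_cons] at hr
    rcases hr with rfl | hr
    · exact ⟨u, v', hadj, .nil, r, rfl, rfl⟩
    · obtain ⟨p, q, h, r₁, r₂, he, rfl⟩ := ih hr
      exact ⟨p, q, h, .cons hadj r₁, r₂, he, rfl⟩

/-- The passage time after lowering one weight. -/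
theorem tt_lower_ge {y : Cfg} (h0 : ∀ e, 0 ≤ x e) (hy : ∀ e, 0 ≤ y e) {p q : Pt}
    (heq : ∀ e', e' ≠ s(p, q) → y e' = x e') (u v : Pt) :
    min (tt x u v)
      (min (tt x u p + y s(p, q) + tt x q v) (tt x u q + y s(p, q) + tt x p v)) ≤ tt y u v := by
  classical
  refine le_tt fun r₀ => le_trans ?_ (wt_bypass_le hy r₀)
  have hP := r₀.bypass_isPath
  generalize r₀.bypass = r at hP ⊢
  by_cases he : s(p, q) ∈ r.edges
  · obtain ⟨p', q', hadj, r₁, r₂, he', rfl⟩ := exists_at_edge r he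
    have hnd := hP.isTrail.edges_nodup
    rw [SimpleGraph.Walk.edges_append, SimpleGraph.Walk.edges_cons, List.nodup_append] at hnd
    obtain ⟨-, hnd₂, hdisj⟩ := hnd
    rw [← he'] at hdisj hnd₂
    have h1 : wt y r₁ = wt x r₁ := congrArg List.sum (List.map_congr_left fun a ha =>
      heq a (hdisj a ha _ List.mem_cons_self))
    have h2 : wt y r₂ = wt x r₂ := congrArg List.sum (List.map_congr_left fun a ha =>
      heq a (ne_of_mem_of_not_mem ha (List.nodup_cons.1 hnd₂).1))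
    have hw : wt y (r₁.append (.cons hadj r₂)) = wt x r₁ + (y s(p, q) + wt x r₂) := by
      rw [wt_append, h1, ← h2, he']
      simp [wt]
    rw [hw]
    rcases Sym2.eq_iff.1 he' with ⟨rfl, rfl⟩ | ⟨rfl, rfl⟩
    · refine (min_le_right _ _).trans ((min_le_left _ _).trans ?_)
      linarith [tt_le h0 r₁, tt_le h0 r₂]
    · refine (min_le_right _ _).trans ((min_le_right _ _).trans ?_)
      linarith [tt_le h0 r₁, tt_le h0 r₂]
  · refine (min_le_left _ _).trans ((tt_le h0 r).trans_eq ?_)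
    exact congrArg List.sum (List.map_congr_left fun a ha => (heq a (ne_of_mem_of_not_mem ha he)).symm)

theorem tt_mono {y : Cfg} (hy : ∀ e, 0 ≤ y e) (hle : ∀ e, y e ≤ x e) (u v : Pt) :
    tt y u v ≤ tt x u v :=
  le_tt fun r => (tt_le hy r).trans (List.sum_le_sum fun e _ => hle e)

/-- Lowering the rejected edge of a strictly better route gives a star. -/
theorem lower_star (hg : Good bb cg x) {a : ℕ → Pt} {b c : Ray} (hc' : IsTail x c)
    (hne : n₀ ≠ n₁)
    (hf : ∃ᶠ N in atTop, EdgeOn x (a N) (b.pt N) w n₀ ∧ EdgeOn x (a N) (c.pt N) w n₁)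
    (hs : StrictAt x b.pt w n₁) :
    ∃ δ > 0, ∀ y : Cfg, (∀ e, 0 ≤ y e) → (∀ e, e ≠ s(w, n₁) → y e = x e) →
      x s(w, n₁) - δ < y s(w, n₁) → y s(w, n₁) < x s(w, n₁) → StarAt y a b.pt c.pt w := by
  have h0 := hg.nonneg
  obtain ⟨N, hN, hN'⟩ := hf.exists
  have hadj₀ := hN.1
  have hadj₁ := hN'.1
  obtain ⟨k, hk⟩ := hs
  set d : ℝ := 1 / ((k : ℝ) + 1) with hd
  have hd0 : 0 < d := by positivity
  have hxe := hg.pos s(w, n₁)
  have hx0 := hg.pos s(w, n₀)
  refine ⟨min d (x s(w, n₁)) / 2, by positivity, fun y hy heq hlt hlt' => ?_⟩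
  set η := x s(w, n₁) - y s(w, n₁) with hη
  have hη0 : 0 < η := sub_pos.2 hlt'
  have hηd : η < d / 2 := by linarith [min_le_left d (x s(w, n₁))]
  have hye : x s(w, n₁) / 2 < y s(w, n₁) := by linarith [min_le_right d (x s(w, n₁))]
  have hle : ∀ e, y e ≤ x e := fun e => by
    by_cases he : e = s(w, n₁)
    · subst he; exact hlt'.le
    · exact (heq e he).le
  have hy₀ : y s(w, n₀) = x s(w, n₀) := heq _ fun h => hne (Sym2.congr_right.1 h)
  have key := tt_lower_ge h0 hy heq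
  have e₁ := bus_eq_of_frequently hc' h0 (hf.mono fun N hN => hN.2)
  have hclose : ∀ᶠ N in atTop,
      x s(w, n₁) + tt x n₁ (c.pt N) ≤ tt x w (c.pt N) + η / 4 := by
    have ht := (tendsto_route hc' h0 w n₁).sub (hc'.tendsto_bus h0 w)
    rw [e₁, sub_self] at ht
    exact (ht.eventually_le_const (by linarith : (0 : ℝ) < η / 4)).mono fun N hN => by linarith
  refine ⟨n₀, n₁, hne, (hf.and_eventually hk).mono ?_, ?_, ?_⟩
  · rintro N ⟨⟨hb, hcN⟩, hbk⟩
    have o1 := edgeOn_onGeo h0 hb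
    have o2 := edgeOn_onGeo h0 hcN
    unfold OnGeo at o1 o2
    have ha : tt x (a N) w + x s(w, n₁) = tt x (a N) n₁ := by linarith [hcN.2, o2.2]
    have g1 : tt x (a N) (b.pt N) ≤ tt y (a N) (b.pt N) := by
      refine le_trans (le_min le_rfl (le_min ?_ ?_)) (key (a N) (b.pt N))
      · linarith [o1.1]
      · linarith [o1.1]
    have g2 : tt x (a N) (c.pt N) - η ≤ tt y (a N) (c.pt N) := by
      refine le_trans (le_min (by linarith) (le_min ?_ ?_)) (key (a N) (c.pt N))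
      · linarith [hcN.2]
      · linarith [o2.1]
    have m1 := tt_mono hy hle (a N) w
    constructor
    · refine ⟨hadj₀, le_antisymm ?_ ?_⟩
      · rw [hy₀]
        linarith [tt_mono hy hle n₀ (b.pt N), hb.2]
      · linarith [tt_triangle hy (a N) w (b.pt N), tt_triangle hy w n₀ (b.pt N), tt_le_step hy hadj₀]
    · refine ⟨hadj₁, le_antisymm ?_ ?_⟩
      · linarith [tt_mono hy hle n₁ (c.pt N), hcN.2]
      · linarith [tt_triangle hy (a N) w (c.pt N), tt_triangle hy w n₁ (c.pt N), tt_le_step hy hadj₁]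
  · obtain ⟨j, hj⟩ := exists_nat_one_div_lt
      (show (0 : ℝ) < min (d / 2) (x s(w, n₁)) from lt_min (by linarith) hxe)
    refine ⟨j, hk.mono fun N hN => ?_⟩
    have hj₁ := hj.trans_le (min_le_left _ _)
    have hj₂ := hj.trans_le (min_le_right _ _)
    have : tt x w (b.pt N) + 1 / ((j : ℝ) + 1) - y s(w, n₁) ≤ tt y n₁ (b.pt N) := by
      refine le_trans (le_min ?_ (le_min ?_ ?_)) (key n₁ (b.pt N))
      · linarith
      · linarith [tt_nonneg h0 (u := n₁) (v := w)]
      · linarith [tt_nonneg h0 (u := n₁) (v := n₁)]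
    linarith [tt_mono hy hle w (b.pt N)]
  · obtain ⟨j, hj⟩ := exists_nat_one_div_lt
      (show (0 : ℝ) < min (η / 2) (x s(w, n₀) / 2) from lt_min (by linarith) (by linarith))
    refine ⟨j, hclose.mono fun N hN => ?_⟩
    have hj₁ := hj.trans_le (min_le_left _ _)
    have hj₂ := hj.trans_le (min_le_right _ _)
    have hup : tt y w (c.pt N) ≤ y s(w, n₁) + tt x n₁ (c.pt N) := by
      linarith [tt_triangle hy w n₁ (c.pt N), tt_le_step hy hadj₁, tt_mono hy hle n₁ (c.pt N)]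
    have : y s(w, n₁) + tt x n₁ (c.pt N) + 1 / ((j : ℝ) + 1) - x s(w, n₀) ≤ tt y n₀ (c.pt N) := by
      refine le_trans (le_min ?_ (le_min ?_ ?_)) (key n₀ (c.pt N))
      · linarith [tt_triangle h0 w n₀ (c.pt N), tt_le_step h0 hadj₀]
      · linarith [tt_nonneg h0 (u := n₀) (v := w)]
      · linarith [tt_nonneg h0 (u := n₀) (v := n₁)]
    rw [hy₀]
    linarith

end Vale.Agent.P158.V4
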