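import Vale.Agent.P158.V4.NullGood
import Vale.Agent.P158.V4.Strict

/-!
P158, module Null, ties (note 1448, section F): almost every resampling of finitely many weights has no
tie between two routes of which only one uses a resampled edge.
-/

namespace Vale.Agent.P158.V4

open MeasureTheory Filter Topology

/-- A set all of whose points have a gap on the left is countable. -/
theorem countable_of_left_gap {Z : Set ℝ}
    (h : ∀ t ∈ Z, ∃ η > 0, ∀ s, t - η < s → s < t → s ∉ Z) : Z.Countable := by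
  choose! η hη hgap using h
  choose! q hq using fun t (ht : t ∈ Z) => exists_rat_btwn (show t - η t < t by linarith [hη t ht])
  refine (Set.mapsTo_univ q Z).countable_of_injOn (fun t ht t' ht' hqq => ?_) Set.countable_univ
  rcases lt_trichotomy t t' with hlt | heq | hlt
  · exact absurd ht (hgap t' ht' t (by linarith [(hq t' ht').1, (hq t ht).2, congrArg (Rat.cast : ℚ → ℝ) hqq]) hlt)
  · exact heq
  · exact absurd ht' (hgap t ht t' (by linarith [(hq t ht).1, (hq t' ht').2, congrArg (Rat.cast : ℚ → ℝ) hqq]) hlt)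

variable {x y : Cfg} {r : ℕ → Pt} {w n₀ n₁ : Pt} {e : Sym2 Pt}

/-- Lowering an edge used by only one of two tied routes breaks the tie. -/
theorem tie_broken (hx : ∀ e, 0 ≤ x e) (hadj₀ : grid.Adj w n₀) (ht : Tied x r w n₀ n₁)
    (h₀ : Uses x r w n₀ e) (h₁ : ¬ Uses x r w n₁ e) :
    ∃ η > 0, ∀ y : Cfg, (∀ e', 0 ≤ y e') → (∀ e', e' ≠ e → y e' = x e') →
      x e - η < y e → y e < x e → ¬ Tied y r w n₀ n₁ := by
  obtain ⟨p, q, hadj, rfl⟩ : ∃ p q, grid.Adj p q ∧ e = s(p, q) := by
    rcases h₀ with rfl | ⟨p, q, hadj, rfl, -⟩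
    exacts [⟨w, n₀, hadj₀, rfl⟩, ⟨p, q, hadj, rfl⟩]
  simp only [Uses, not_or] at h₁
  obtain ⟨hne, hnot⟩ := h₁
  have hmargin : ∀ p' q', grid.Adj p' q' → s(p, q) = s(p', q') → ∃ k : ℕ, ∀ᶠ N in atTop,
      tt x n₁ (r N) + 1 / ((k : ℝ) + 1) < tt x n₁ p' + x s(p, q) + tt x q' (r N) := by
    intro p' q' hadj' heq
    by_contra hcon
    push Not at hcon
    exact hnot ⟨p', q', hadj', heq, hcon⟩
  obtain ⟨k, hk⟩ := hmargin p q hadj rfl
  obtain ⟨k', hk'⟩ := hmargin q p hadj.symm Sym2.eq_swap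
  refine ⟨min (1 / ((k : ℝ) + 1)) (1 / ((k' : ℝ) + 1)), by positivity,
    fun y hy heq hlt hlt' hty => ?_⟩
  have hk1 := min_le_left (1 / ((k : ℝ) + 1)) (1 / ((k' : ℝ) + 1))
  have hk2 := min_le_right (1 / ((k : ℝ) + 1)) (1 / ((k' : ℝ) + 1))
  set η := x s(p, q) - y s(p, q) with hη
  have hle : ∀ e, y e ≤ x e := fun e => by
    by_cases he : e = s(p, q)
    · subst he; exact hlt'.le
    · exact (heq e he).le
  obtain ⟨j, hj⟩ := exists_nat_one_div_lt (show (0 : ℝ) < η / 3 by linarith)
  have hlow : ∃ᶠ N in atTop, y s(w, n₀) + tt y n₀ (r N) ≤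
      x s(w, n₀) + tt x n₀ (r N) - η + 1 / ((j : ℝ) + 1) := by
    rcases h₀ with he | ⟨p', q', hadj', he, hf⟩
    · refine Frequently.of_forall fun N => ?_
      rw [← he]
      have : (0 : ℝ) < 1 / ((j : ℝ) + 1) := by positivity
      linarith [tt_mono hy hle n₀ (r N)]
    · refine (hf j).mono fun N hN => ?_
      have h2 : tt y p' q' ≤ y s(p, q) := he ▸ tt_le_step hy hadj'
      linarith [tt_triangle hy n₀ p' (r N), tt_triangle hy p' q' (r N), tt_mono hy hle n₀ p',
        tt_mono hy hle q' (r N), hle s(w, n₀)]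
  have hsame : ∀ᶠ N in atTop, y s(w, n₁) + tt y n₁ (r N) = x s(w, n₁) + tt x n₁ (r N) := by
    filter_upwards [hk, hk'] with N hN hN'
    rw [heq _ fun h => hne h.symm]
    refine congrArg _ (le_antisymm (tt_mono hy hle _ _) ?_)
    exact le_trans (le_min le_rfl (le_min (by linarith) (by linarith)))
      (tt_lower_ge hx hy heq n₁ (r N))
  obtain ⟨N, hN, ⟨h1, h2⟩, h3⟩ := (hlow.and_eventually ((hsame.and (ht j)).and (hty j))).exists
  have := abs_le.1 h2
  have := abs_le.1 h3
  linarith

theorem measurableSet_tied (r : ℕ → Pt) (w n₀ n₁ : Pt) :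
    MeasurableSet {x : Cfg | Tied x r w n₀ n₁} := by
  simp only [Tied, eventually_atTop, Set.ofPred_forall, Set.ofPred_exists]
  exact MeasurableSet.iInter fun k => MeasurableSet.iUnion fun N => MeasurableSet.iInter fun M =>
    MeasurableSet.iInter fun _ => measurableSet_le
      (_root_.continuous_abs.measurable.comp (((measurable_pi_apply _).add (measurable_tt _ _)).sub
        ((measurable_pi_apply _).add (measurable_tt _ _)))) measurable_const

theorem measurableSet_uses (r : ℕ → Pt) (w n : Pt) (e : Sym2 Pt) :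
    MeasurableSet {x : Cfg | Uses x r w n e} := by
  simp only [Uses, Thru, frequently_atTop, Set.ofPred_or, Set.ofPred_exists, Set.ofPred_and,
    Set.ofPred_forall]
  exact (MeasurableSet.const _).union (MeasurableSet.iUnion fun p => MeasurableSet.iUnion fun q =>
    (MeasurableSet.const _).inter ((MeasurableSet.const _).inter (MeasurableSet.iInter fun k =>
      MeasurableSet.iInter fun N => MeasurableSet.iUnion fun M => (MeasurableSet.const _).inter
        (measurableSet_le (((measurable_tt n p).add (measurable_pi_apply e)).add (measurable_tt q (r M)))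
          ((measurable_tt n (r M)).add_const _)))))

open Classical in
/-- Almost every resampling of the weights on `E` is free of ties. -/
theorem ae_tieFree (G : Measure ℝ) [IsProbabilityMeasure G] (hatom : ∀ x, G {x} = 0)
    (E : Finset (Sym2 Pt)) (ω₀ : Cfg) (b c : ℕ → Pt) :
    ∀ᵐ ω ∂law G, (∀ e, 0 ≤ E.piecewise ω ω₀ e) → TieFree E (E.piecewise ω ω₀) b c := by
  have hnull : ∀ (r : ℕ → Pt) (i : Sym2 Pt × Pt × Pt × Pt), ∀ᵐ ω ∂law G,
      (∀ e, 0 ≤ E.piecewise ω ω₀ e) → i.1 ∈ E → grid.Adj i.2.1 i.2.2.1 →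
        Tied (E.piecewise ω ω₀) r i.2.1 i.2.2.1 i.2.2.2 →
        Uses (E.piecewise ω ω₀) r i.2.1 i.2.2.1 i.1 → Uses (E.piecewise ω ω₀) r i.2.1 i.2.2.2 i.1 := by
    rintro r ⟨e, w, n₀, n₁⟩
    by_cases hcond : e ∈ E ∧ grid.Adj w n₀
    swap
    · exact ae_of_all _ fun ω _ h1 h2 => absurd ⟨h1, h2⟩ hcond
    obtain ⟨he, hadj⟩ := hcond
    have hpw : Measurable fun ω : Cfg => E.piecewise ω ω₀ := measurable_pi_lambda _ fun a => by
      by_cases ha : a ∈ E
      · simpa [Finset.piecewise, ha] using measurable_pi_apply a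
      · simp [Finset.piecewise, ha]
    set B : Set Cfg := {x | (∀ a, 0 ≤ x a) ∧ Tied x r w n₀ n₁ ∧ Uses x r w n₀ e ∧ ¬ Uses x r w n₁ e}
    have hB : MeasurableSet B := by
      simp only [B, Set.ofPred_and, Set.ofPred_forall]
      exact (MeasurableSet.iInter fun a => measurableSet_le measurable_const (measurable_pi_apply a)).inter
        ((measurableSet_tied r w n₀ n₁).inter
          ((measurableSet_uses r w n₀ e).inter (measurableSet_uses r w n₁ e).compl))
    have h0 := measure_eq_zero_of_countable_section G hatom e (hpw hB) fun ω => by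
      refine countable_of_left_gap fun t ht => ?_
      obtain ⟨hnn, htd, hu, hnu⟩ := ht
      obtain ⟨η, hη, hbrk⟩ := tie_broken hnn hadj htd hu hnu
      refine ⟨η, hη, fun s hs hst hmem => ?_⟩
      refine hbrk _ hmem.1 (fun a ha => ?_) ?_ ?_ hmem.2.1
      · by_cases haE : a ∈ E <;> simp [Finset.piecewise, haE, ha]
      · simpa [Finset.piecewise, he] using hs
      · simpa [Finset.piecewise, he] using hst
    filter_upwards [measure_eq_zero_iff_ae_notMem.1 h0] with ω hω hnn _ _ htd hu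
    by_contra hnu
    exact hω ⟨hnn, htd, hu, hnu⟩
  filter_upwards [ae_all_iff.2 (hnull b), ae_all_iff.2 (hnull c)] with ω hb hc hnn
  intro r hr e he w n₀ n₁ hadj₀ _ htd hu
  rcases hr with rfl | rfl
  · exact hb (e, w, n₀, n₁) hnn he hadj₀ htd hu
  · exact hc (e, w, n₀, n₁) hnn he hadj₀ htd hu

end Vale.Agent.P158.V4
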