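import Mathlib
import Vale.Agent.P158.V4.NullGood
import Vale.Agent.P158.V4.NullResample
import Vale.Agent.P158.V4.NullTie

/-!
P158, module Null: if strict splittings at resampled labels are null events, almost no labels carry
star boxes, because the small perturbations of a star box without ties have positive probability.
-/

namespace Vale.Agent.P158.V4

open MeasureTheory Filter Topology

variable (G : Measure ℝ) [IsProbabilityMeasure G]

theorem ae_no_starBox {b c : ℝ} (hatom : ∀ x, G {x} = 0) (hgood : ∀ᵐ ω ∂law G, Good b c ω) (A : Set Marks)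
    (ra rb rc : Marks → Ray)
    (h : ∀ (w : Pt) (E : Finset (Sym2 Pt)),
      (markLaw.prod markLaw) {p : Marks × Marks | resample E p.2 p.1 ∈ A ∧
        SplitsStrictAt (cfg G p.1) (ra (resample E p.2 p.1)).pt (rb (resample E p.2 p.1)).pt
          (rc (resample E p.2 p.1)).pt w} = 0) :
    ∀ᵐ t ∂markLaw, t ∈ A →
      ¬ StarBox (lawSupp G) b c (cfg G t) (ra t).pt (rb t).pt (rc t).pt := by
  have hcfg : Measurable (cfg G) :=
    measurable_pi_lambda _ fun e => measurable_qf.comp (measurable_fst.comp (measurable_pi_apply e))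
  have hnosplit : ∀ (E : Finset (Sym2 Pt)) (w : Pt), ∀ᵐ t ∂markLaw, ∀ᵐ y ∂markLaw,
      t ∈ A → ¬ SplitsStrictAt (cfg G (resample E y t)) (ra t).pt (rb t).pt (rc t).pt w := by
    intro E w
    have h0 := (measurePreserving_swapMarks E).quasiMeasurePreserving.preimage_null (h w E)
    refine Measure.ae_ae_of_ae_prod (μ := markLaw) (ν := markLaw)
      (p := fun q : Marks × Marks => q.1 ∈ A → ¬ SplitsStrictAt (cfg G (resample E q.2 q.1))
        (ra q.1).pt (rb q.1).pt (rc q.1).pt w) ?_
    filter_upwards [measure_eq_zero_iff_ae_notMem.1 h0] with p hp hA hs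
    refine hp ?_
    simp only [Set.mem_preimage, Set.mem_ofPred_eq, resample_swapMarks]
    exact ⟨hA, hs⟩
  have hgoods : ∀ E : Finset (Sym2 Pt), ∀ᵐ t ∂markLaw, ∀ᵐ y ∂markLaw,
      Good b c (cfg G (resample E y t)) := by
    intro E
    have h1 : ∀ᵐ s ∂markLaw, Good b c (cfg G s) :=
      ae_of_ae_map hcfg.aemeasurable (by rw [map_cfg]; exact hgood)
    have h2 : ∀ᵐ p ∂markLaw.prod markLaw, Good b c (cfg G p.1) :=
      Measure.quasiMeasurePreserving_fst.ae h1
    exact Measure.ae_ae_of_ae_prod ((measurePreserving_swapMarks E).quasiMeasurePreserving.ae h2)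
  filter_upwards [ae_all_iff.2 fun E => ae_all_iff.2 fun w => hnosplit E w, ae_all_iff.2 hgoods]
    with t ht hg hA hbox
  obtain ⟨E, x₀, ρ, hρ, hoff, hmem, hsplit⟩ := hbox
  set Y := cfg G ⁻¹' Set.pi (E : Set (Sym2 Pt)) fun e => Set.Ioo (x₀ e - ρ) (x₀ e + ρ) with hY
  have hpos : markLaw Y ≠ 0 := by
    rw [hY, ← Measure.map_apply hcfg
      (MeasurableSet.pi E.countable_toSet fun _ _ => measurableSet_Ioo), map_cfg,
      Measure.infinitePi_pi _ fun _ _ => measurableSet_Ioo]
    exact Finset.prod_ne_zero_iff.2 fun e he => (hmem e he ρ hρ).ne'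
  refine hpos (measure_eq_zero_iff_ae_notMem.2 ?_)
  have hties : ∀ᵐ y ∂markLaw, (∀ e, 0 ≤ E.piecewise (cfg G y) (cfg G t) e) →
      TieFree E (E.piecewise (cfg G y) (cfg G t)) (rb t).pt (rc t).pt :=
    ae_of_ae_map (p := fun ω : Cfg => (∀ e, 0 ≤ E.piecewise ω (cfg G t) e) →
        TieFree E (E.piecewise ω (cfg G t)) (rb t).pt (rc t).pt) hcfg.aemeasurable
      (by rw [map_cfg]; exact ae_tieFree G hatom E (cfg G t) (rb t).pt (rc t).pt)
  filter_upwards [hg E, ae_all_iff.2 fun w => ht E w, hties] with y hy hy' hty hyY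
  have hpw : cfg G (resample E y t) = E.piecewise (cfg G y) (cfg G t) := funext fun e => by
    by_cases he : e ∈ E <;> simp [cfg, resample, Finset.piecewise, he]
  have hfree : TieFree E (cfg G (resample E y t)) (rb t).pt (rc t).pt :=
    hpw ▸ hty (hpw ▸ hy.nonneg)
  obtain ⟨w, hw⟩ := hsplit (cfg G (resample E y t)) hy hfree
    (fun e he => by simp [cfg, resample, he])
    (fun e he => by
      have hm : cfg G y e ∈ Set.Ioo (x₀ e - ρ) (x₀ e + ρ) :=
        hyY e (Finset.mem_coe.2 he)
      simp only [cfg, resample, he, if_true] at hm ⊢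
      rw [abs_lt]
      exact ⟨by linarith [hm.1], by linarith [hm.2]⟩)
  exact hy' w hA hw

/-- Module Null. -/
theorem nullStmt : NullStmt G := by
  intro b hG hatom
  obtain ⟨c, hc, hgood⟩ := ae_good G hG hatom
  refine ⟨⟨c, hc, ?_⟩, lawSupp_nonneg G hG, map_moveMarks,
    fun c _ hgood A ra rb rc _ _ _ _ h => ae_no_starBox G hatom hgood A ra rb rc h⟩
  filter_upwards [hgood, ae_eligible G hatom, ae_mem_lawSupp G] with ω h1 h2 h3
  exact ⟨h1, h2, h3⟩

end Vale.Agent.P158.V4
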