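import Vale.Agent.P158.V4.LaneNullRays
import Vale.Agent.P158.V4.Null
import Vale.Agent.P158.V4.Class

/-!
P158, module LaneNull: measurability of quantities of selected lanes.
-/

namespace Vale.Agent.P158.V4

open MeasureTheory Filter Topology

theorem measurableSet_fibres {α β : Type*} [MeasurableSpace α] [Countable β] {g : α → β}
    (hg : ∀ b, MeasurableSet {p | g p = b}) {P : α → β → Prop} (hP : ∀ b, MeasurableSet {p | P p b}) :
    MeasurableSet {p | P p (g p)} := by
  have : {p | P p (g p)} = ⋃ b, {p | g p = b} ∩ {p | P p b} := by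
    ext p; simp
  rw [this]
  exact MeasurableSet.iUnion fun b => (hg b).inter (hP b)

theorem measurableSet_pair {α β γ : Type*} [MeasurableSpace α] {g : α → β} {h : α → γ}
    (hg : ∀ b, MeasurableSet {p | g p = b}) (hh : ∀ c, MeasurableSet {p | h p = c}) (x : β × γ) :
    MeasurableSet {p | (g p, h p) = x} := by
  have : {p | (g p, h p) = x} = {p | g p = x.1} ∩ {p | h p = x.2} := by
    ext p; simp [Prod.ext_iff]
  rw [this]
  exact (hg _).inter (hh _)

theorem measurable_tt_fibres {α : Type*} [MeasurableSpace α] {f : α → Cfg} (hf : Measurable f)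
    {g h : α → Pt} (hg : ∀ z, MeasurableSet {p | g p = z}) (hh : ∀ z, MeasurableSet {p | h p = z}) :
    Measurable fun p => tt (f p) (g p) (h p) := fun s hs =>
  measurableSet_fibres (g := fun p => (g p, h p)) (P := fun p x => tt (f p) x.1 x.2 ∈ s)
    (measurableSet_pair hg hh) fun x => ((measurable_tt x.1 x.2).comp hf) hs

theorem measRay_labOf {α : Type} [MeasurableSpace α] {f : α → Cfg} (hf : Measurable f)
    {v : α → ℤ → Pt} (hv : ∀ i z, MeasurableSet {p | v p i = z}) :
    MeasRay (fun p => (labOf (f p) (v p)).lo) ∧ MeasRay (fun p => (labOf (f p) (v p)).up) :=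
  ⟨⟨fun n z => hv (-(n : ℤ)) z, fun n => measurable_tt_fibres hf (hv (-(n : ℤ))) (hv 0)⟩,
    ⟨fun n z => hv n z, fun n => measurable_tt_fibres hf (hv 0) (hv n)⟩⟩

theorem MeasRay.comp_shift {α β : Type} [MeasurableSpace α] [MeasurableSpace β] {r : α → Ray}
    (hr : MeasRay r) {g : β → α} (hg : Measurable g) (a : Pt) :
    MeasRay fun q => (r (g q)).shift a := by
  refine ⟨fun n z => ?_, fun n => (hr.2 n).comp hg⟩
  have : {q | ((r (g q)).shift a).pt n = z} = g ⁻¹' {p | (r p).pt n = z + -a} := by
    ext q; simp [Ray.shift, eq_add_neg_iff_add_eq]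
  rw [this]
  exact hg (hr.1 n _)

theorem measurableSet_splitsAt {α : Type*} [MeasurableSpace α] {f : α → Cfg} (hf : Measurable f)
    {a b c : α → ℕ → Pt} (ha : ∀ n z, MeasurableSet {p | a p n = z})
    (hb : ∀ n z, MeasurableSet {p | b p n = z}) (hc : ∀ n z, MeasurableSet {p | c p n = z}) (w : Pt) :
    MeasurableSet {p | SplitsAt (f p) (a p) (b p) (c p) w} := by
  have hedge : ∀ (u z n : Pt), MeasurableSet {p | EdgeOn (f p) u z w n} := fun u z n => by
    simp only [EdgeOn, Set.ofPred_and]
    exact (MeasurableSet.const _).inter (measurableSet_eq_fun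
      ((((measurable_tt u w).comp hf).add ((measurable_pi_apply _).comp hf)).add
        ((measurable_tt n z).comp hf)) ((measurable_tt u z).comp hf))
  simp only [SplitsAt, frequently_atTop, Set.ofPred_exists, Set.ofPred_and, Set.ofPred_forall]
  refine MeasurableSet.iUnion fun n₀ => MeasurableSet.iUnion fun n₁ =>
    (MeasurableSet.iInter fun _ => MeasurableSet.const _).inter
      (MeasurableSet.iInter fun N => MeasurableSet.iUnion fun M => (MeasurableSet.const _).inter
        (MeasurableSet.inter ?_ ?_))
  · exact measurableSet_fibres (g := fun p => (a p M, b p M))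
      (P := fun p x => EdgeOn (f p) x.1 x.2 w n₀) (measurableSet_pair (ha M) (hb M))
      fun x => hedge x.1 x.2 n₀
  · exact measurableSet_fibres (g := fun p => (a p M, c p M))
      (P := fun p x => EdgeOn (f p) x.1 x.2 w n₁) (measurableSet_pair (ha M) (hc M))
      fun x => hedge x.1 x.2 n₁

theorem measurable_cfg (G : Measure ℝ) [IsProbabilityMeasure G] : Measurable (cfg G) :=
  measurable_pi_lambda _ fun e => measurable_qf.comp (measurable_fst.comp (measurable_pi_apply e))

theorem measurable_resample (E : Finset (Sym2 Pt)) :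
    Measurable fun p : Marks × Marks => resample E p.2 p.1 :=
  measurable_pi_lambda _ fun e => by
    by_cases h : e ∈ E
    · simp only [resample, if_pos h]
      exact (measurable_pi_apply e).comp measurable_snd
    · simp only [resample, if_neg h]
      exact (measurable_pi_apply e).comp measurable_fst

theorem change_le_card {bb : ℝ} {ω ω' : Cfg} (E : Finset (Sym2 Pt)) (h0 : ∀ e, 0 ≤ ω e)
    (hb : ∀ e, ω e ≤ bb) (h0' : ∀ e, 0 ≤ ω' e) (hb' : ∀ e, ω' e ≤ bb) :
    change E ω ω' ≤ E.card * bb :=
  (Finset.sum_le_card_nsmul _ _ bb fun e _ =>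
    abs_le.2 ⟨by linarith [h0 e, hb' e], by linarith [hb e, h0' e]⟩).trans_eq (nsmul_eq_mul _ _)

end Vale.Agent.P158.V4
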