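import Mathlib

/-!
P158: compact inner approximation of analytic sets (Lusin), null measurability of projections, and measurable
selection on a large part of the projection.
-/

namespace Vale.Agent.P158.V4

open MeasureTheory Set Filter Topology

/-- Sequences bounded by `n`. -/
def box (n : ℕ → ℕ) : Set (ℕ → ℕ) := {x | ∀ i, x i ≤ n i}

theorem isClosed_box (n : ℕ → ℕ) : IsClosed (box n) := by
  simp only [box, setOf_forall]
  exact isClosed_iInter fun i => isClosed_le (continuous_apply i) continuous_const

theorem isCompact_box (n : ℕ → ℕ) : IsCompact (box n) := by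
  have h : box n = Set.pi univ fun i => Iic (n i) := by ext; simp [box, Set.mem_pi, Pi.le_def]
  rw [h]
  exact isCompact_univ_pi fun i => (finite_Iic _).isCompact

/-- Sequences with bounded first terms, for a bound given by a finite prefix. -/
def below (n : ℕ → ℕ) (k : ℕ) : Set (ℕ → ℕ) := {x | ∀ i < k, x i ≤ n i}

variable {X : Type*} [TopologicalSpace X] [TopologicalSpace.MetrizableSpace X] [MeasurableSpace X] [BorelSpace X]

/-- Lusin: the outer measure of a continuous image of the Baire space is approximated by images of compact boxes. -/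
theorem exists_box_measure {f : (ℕ → ℕ) → X} (hf : Continuous f) (μ : Measure X) [IsFiniteMeasure μ]
    {a : ENNReal} (ha : a < μ (range f)) : ∃ n : ℕ → ℕ, a ≤ μ (f '' box n) := by
  have step : ∀ (m : ℕ → ℕ) (k : ℕ), a < μ (f '' below m k) →
      ∃ j, a < μ (f '' below (Function.update m k j) (k + 1)) := by
    intro m k h
    have hu : f '' below m k = ⋃ j, f '' below (Function.update m k j) (k + 1) := by
      rw [← image_iUnion]
      congr 1
      ext x
      simp only [below, mem_ofPred_eq, mem_iUnion]
      constructor
      · intro hx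
        refine ⟨x k, fun i hi => ?_⟩
        rcases Nat.lt_succ_iff_lt_or_eq.1 hi with h' | rfl
        · rw [Function.update_of_ne h'.ne]; exact hx i h'
        · simp
      · rintro ⟨j, hx⟩ i hi
        have := hx i (by omega)
        rwa [Function.update_of_ne hi.ne] at this
    have hmono : Monotone fun j => f '' below (Function.update m k j) (k + 1) := by
      intro j j' hjj
      refine image_mono fun x hx i hi => ?_
      rcases Nat.lt_succ_iff_lt_or_eq.1 hi with h' | rfl
      · have := hx i hi; rwa [Function.update_of_ne h'.ne] at this ⊢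
      · have := hx i hi; simp only [Function.update_self] at this ⊢; omega
    rw [hu, hmono.measure_iUnion] at h
    exact lt_iSup_iff.1 h
  choose g hg using step
  let seq : ∀ k, {m : ℕ → ℕ // a < μ (f '' below m k)} := fun k => Nat.rec
    ⟨fun _ => 0, by
      have : below (fun _ => 0) 0 = univ := by ext; simp [below]
      rwa [this, image_univ]⟩
    (fun k ih => ⟨Function.update ih.1 k (g ih.1 k ih.2), hg _ _ _⟩) k
  let n : ℕ → ℕ := fun i => (seq (i + 1)).1 i
  have hn : ∀ k i, i < k → (seq k).1 i = n i := by
    intro k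
    induction k with
    | zero => intro i hi; omega
    | succ k ih =>
      intro i hi
      rcases Nat.lt_succ_iff_lt_or_eq.1 hi with h' | rfl
      · change Function.update (seq k).1 k _ i = _
        rw [Function.update_of_ne h'.ne]
        exact ih i h'
      · rfl
  have hk : ∀ k, a < μ (f '' below n k) := by
    intro k
    have : below (seq k).1 k = below n k := by
      ext x; exact forall₂_congr fun i hi => by rw [hn k i hi]
    rw [← this]
    exact (seq k).2
  refine ⟨n, ?_⟩
  letI := TopologicalSpace.metrizableSpaceMetric X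
  have hI : ⋂ k, closure (f '' below n k) ⊆ f '' box n := by
    intro y hy
    simp only [mem_iInter] at hy
    have hex : ∀ k : ℕ, ∃ x ∈ below n k, dist y (f x) < 1 / ((k : ℝ) + 1) := fun k => by
      obtain ⟨_, ⟨x, hx, rfl⟩, hd⟩ := Metric.mem_closure_iff.1 (hy k) (1 / ((k : ℝ) + 1)) (by positivity)
      exact ⟨x, hx, hd⟩
    choose x hx hd using hex
    let M : ℕ → ℕ := fun i => max (n i) ((Finset.range (i + 1)).sup fun k => x k i)
    have hM : ∀ k, x k ∈ box M := fun k i => by
      rcases Nat.lt_or_ge i k with h | h
      · exact (hx k i h).trans (le_max_left _ _)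
      · exact le_max_of_le_right (Finset.le_sup (f := fun k => x k i) (by simp only [Finset.mem_range]; omega))
    obtain ⟨z, -, φ, hφ, hz⟩ := (isCompact_box M).tendsto_subseq hM
    refine ⟨z, fun i => ?_, ?_⟩
    · refine le_of_tendsto (((continuous_apply i).tendsto z).comp hz) (eventually_atTop.2 ⟨i + 1, fun k hk => ?_⟩)
      exact hx (φ k) i (lt_of_lt_of_le (Nat.lt_of_succ_le hk) hφ.le_apply)
    · refine tendsto_nhds_unique ((hf.tendsto z).comp hz) (tendsto_iff_dist_tendsto_zero.2 ?_)
      refine squeeze_zero (fun k => dist_nonneg) (fun k => ?_)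
        ((tendsto_one_div_add_atTop_nhds_zero_nat (𝕜 := ℝ)).comp hφ.tendsto_atTop)
      rw [dist_comm]
      exact (hd (φ k)).le
  refine le_trans ?_ (measure_mono hI)
  rw [Antitone.measure_iInter (fun k l h => closure_mono (image_mono (s := below n l) fun x hx i hi => hx i (Nat.lt_of_lt_of_le hi h)))
    (fun k => (isClosed_closure.measurableSet).nullMeasurableSet) ⟨0, measure_ne_top _ _⟩]
  exact le_iInf fun k => (hk k).le.trans (measure_mono subset_closure)

/-- Analytic sets are null measurable for finite Borel measures. -/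
theorem nullMeasurable_of_analytic {A : Set X} (hA : AnalyticSet A) (μ : Measure X) [IsFiniteMeasure μ] :
    NullMeasurableSet A μ := by
  rw [AnalyticSet] at hA
  rcases hA with rfl | ⟨f, hf, rfl⟩
  · exact MeasurableSet.empty.nullMeasurableSet
  rcases eq_or_ne (μ (range f)) 0 with h0 | h0
  · exact NullMeasurableSet.of_null h0
  obtain ⟨u, -, hu1, hu2⟩ := exists_seq_strictMono_tendsto' h0.bot_lt
  choose n hn using fun k => exists_box_measure hf μ (hu1 k).2
  have hBm : MeasurableSet (⋃ k, f '' box (n k)) :=
    MeasurableSet.iUnion fun k => ((isCompact_box _).image hf).isClosed.measurableSet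
  have hle : (⋃ k, f '' box (n k)) ≤ᵐ[μ] range f :=
    (iUnion_subset fun k => image_subset_range _ _).eventuallyLE
  have hμ : μ (range f) ≤ μ (⋃ k, f '' box (n k)) :=
    le_of_tendsto' hu2 fun k => (hn k).trans (measure_mono (subset_iUnion (fun k => f '' box (n k)) k))
  have hae := ae_eq_of_ae_subset_of_measure_ge hle hμ hBm.nullMeasurableSet (measure_ne_top _ _)
  exact hBm.nullMeasurableSet.congr hae

section Selection

variable {g : (ℕ → ℕ) → X}

/-- The least admissible prefix over `x`. -/
noncomputable def pre (g : (ℕ → ℕ) → X) (n : ℕ → ℕ) : ∀ k, X → Fin k → ℕ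
  | 0, _ => Fin.elim0
  | k + 1, x => Fin.snoc (pre g n k x)
      (sInf {d | x ∈ g '' (box n ∩ {z | (∀ i : Fin k, z i = pre g n k x i) ∧ z k = d})})

theorem measurable_pre (hg : Continuous g) (n : ℕ → ℕ) : ∀ k, Measurable (pre g n k)
  | 0 => measurable_const
  | k + 1 => by
    have ih := measurable_pre hg n k
    set F : (Fin k → ℕ) → ℕ → Set X := fun p d =>
      g '' (box n ∩ {z | (∀ i : Fin k, z i = p i) ∧ z k = d}) with hF
    have hFm : ∀ p d, MeasurableSet (F p d) := fun p d => by
      refine (((isCompact_box n).inter_right ?_).image hg).isClosed.measurableSet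
      simp only [setOf_and, setOf_forall]
      exact (isClosed_iInter fun i : Fin k => isClosed_eq (continuous_apply _) continuous_const).inter
        (isClosed_eq (continuous_apply _) continuous_const)
    have hd : ∀ p, Measurable fun x => sInf {d | x ∈ F p d} := fun p => by
      refine measurable_to_countable' fun m => ?_
      have : (fun x => sInf {d | x ∈ F p d}) ⁻¹' {m} =
          (F p m ∩ ⋂ d ∈ Iio m, (F p d)ᶜ) ∪ ({x | m = 0} ∩ ⋂ d, (F p d)ᶜ) := by
        ext x
        simp only [mem_preimage, mem_singleton_iff, mem_union, mem_inter_iff, mem_iInter, mem_compl_iff,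
          mem_ofPred_eq, mem_Iio]
        rcases eq_empty_or_nonempty {d | x ∈ F p d} with h | h
        · have h' : ∀ d, x ∉ F p d := fun d hd => (eq_empty_iff_forall_notMem.1 h) d hd
          rw [h, Nat.sInf_empty]
          constructor
          · exact fun hm => Or.inr ⟨hm.symm, h'⟩
          · rintro (⟨hx, -⟩ | ⟨hm, -⟩)
            · exact absurd hx (h' m)
            · exact hm.symm
        · constructor
          · rintro rfl
            exact Or.inl ⟨Nat.sInf_mem h, fun d hd => Nat.notMem_of_lt_sInf hd⟩
          · rintro (⟨hx, hlt⟩ | ⟨-, hno⟩)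
            · refine le_antisymm (Nat.sInf_le hx) (not_lt.1 fun hlt' => hlt _ hlt' (Nat.sInf_mem h))
            · exact absurd h.some_mem (hno _)
      rw [this]
      exact ((hFm p m).inter (MeasurableSet.biInter (to_countable _) fun d _ => (hFm p d).compl)).union
        ((MeasurableSet.const _).inter (MeasurableSet.iInter fun d => (hFm p d).compl))
    refine measurable_pi_iff.2 fun i => ?_
    refine Fin.lastCases ?_ ?_ i
    · simp only [pre, Fin.snoc_last]
      refine measurable_to_countable' fun m => ?_
      have : (fun x => sInf {d | x ∈ g '' (box n ∩ {z | (∀ i : Fin k, z i = pre g n k x i) ∧ z k = d})}) ⁻¹' {m}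
          = ⋃ p, pre g n k ⁻¹' {p} ∩ (fun x => sInf {d | x ∈ F p d}) ⁻¹' {m} := by
        ext x
        simp only [mem_preimage, mem_singleton_iff, mem_iUnion, mem_inter_iff, hF]
        constructor
        · exact fun h => ⟨_, rfl, h⟩
        · rintro ⟨p, rfl, h⟩; exact h
      rw [this]
      exact MeasurableSet.iUnion fun p => (ih (measurableSet_singleton p)).inter (hd p (measurableSet_singleton m))
    · intro j
      simp only [pre, Fin.snoc_castSucc]
      exact (measurable_pi_apply j).comp ih

/-- A measurable right inverse of a continuous map on a compact box, over the image of the box. -/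
theorem exists_right_inverse (hg : Continuous g) (n : ℕ → ℕ) :
    ∃ c : X → ℕ → ℕ, Measurable c ∧ ∀ x ∈ g '' box n, c x ∈ box n ∧ g (c x) = x := by
  let c : X → ℕ → ℕ := fun x i => pre g n (i + 1) x (Fin.last i)
  refine ⟨c, measurable_pi_iff.2 fun i => (measurable_pi_apply _).comp (measurable_pre hg n (i + 1)),
    fun x hx => ?_⟩
  have hc : ∀ k (i : Fin k), pre g n k x i = c x i := by
    intro k
    induction k with
    | zero => exact fun i => i.elim0
    | succ k ih =>
      intro i
      refine Fin.lastCases ?_ ?_ i
      · rfl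
      · intro j
        rw [pre, Fin.snoc_castSucc]
        exact ih j
  have hk : ∀ k, ∃ z ∈ box n, g z = x ∧ ∀ i < k, z i = c x i := by
    intro k
    induction k with
    | zero =>
      obtain ⟨z, hz, hzx⟩ := hx
      exact ⟨z, hz, hzx, fun i hi => by omega⟩
    | succ k ih =>
      set S := {d | x ∈ g '' (box n ∩ {z | (∀ i : Fin k, z i = pre g n k x i) ∧ z k = d})}
      have hne : S.Nonempty := by
        obtain ⟨z, hz, hzx, hzi⟩ := ih
        exact ⟨z k, z, ⟨hz, fun i => (hzi i i.2).trans (hc k i).symm, rfl⟩, hzx⟩
      obtain ⟨z, ⟨hz, hz1, hz2⟩, hzx⟩ := Nat.sInf_mem hne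
      refine ⟨z, hz, hzx, fun i hi => ?_⟩
      rcases Nat.lt_succ_iff_lt_or_eq.1 hi with h' | rfl
      · exact (hz1 ⟨i, h'⟩).trans (hc k ⟨i, h'⟩)
      · rw [hz2]
        simp only [c, pre, Fin.snoc_last]
        rfl
  choose z hz hzx hzi using hk
  have hlim : Tendsto z atTop (𝓝 (c x)) := tendsto_pi_nhds.2 fun i =>
    tendsto_const_nhds.congr' (eventually_atTop.2 ⟨i + 1, fun k hk => (hzi k i (by omega)).symm⟩)
  refine ⟨(isClosed_box n).mem_of_tendsto hlim (Eventually.of_forall hz),
    tendsto_nhds_unique ((hg.tendsto _).comp hlim) ?_⟩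
  simp only [Function.comp_def, hzx]
  exact tendsto_const_nhds

end Selection

/-- A measurable selection of a Borel relation over almost all of its projection. -/
theorem exists_selection [PolishSpace X] {Y : Type*} [TopologicalSpace Y] [PolishSpace Y] [MeasurableSpace Y]
    [BorelSpace Y] (μ : Measure X) [IsFiniteMeasure μ] {B : Set (X × Y)} (hB : MeasurableSet B)
    {a : ENNReal} (ha : a < μ (Prod.fst '' B)) :
    ∃ (A : Set X) (s : X → Y), MeasurableSet A ∧ Measurable s ∧ a ≤ μ A ∧ ∀ x ∈ A, (x, s x) ∈ B := by
  have hBa := hB.analyticSet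
  rw [AnalyticSet] at hBa
  rcases hBa with rfl | ⟨f, hf, hfB⟩
  · simp at ha
  have hg : Continuous fun z => (f z).1 := continuous_fst.comp hf
  rw [← hfB, ← range_comp] at ha
  obtain ⟨n, hn⟩ := exists_box_measure hg μ ha
  obtain ⟨c, hcm, hc⟩ := exists_right_inverse hg n
  refine ⟨(fun z => (f z).1) '' box n, fun x => (f (c x)).2,
    ((isCompact_box n).image hg).isClosed.measurableSet, ?_, hn, fun x hx => ?_⟩
  · exact ((continuous_snd.comp hf).measurable).comp hcm
  · rw [← hfB]
    exact ⟨c x, Prod.ext (hc x hx).2 rfl⟩

end Vale.Agent.P158.V4
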