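import Vale.Agent.P158.V4.Interfaces

/-!
P158: in a tree of unique geodesics the branch sites are no more than the ends.
-/

namespace Vale.Agent.P158.V4

variable {bb cg : ℝ} {ω : Cfg}

/-- In a good configuration a walk attaining the passage time is a geodesic path. -/
theorem Good.isShortest_of_wt (hg : Good bb cg ω) {u v : Pt} (q : grid.Walk u v) (h : wt ω q = tt ω u v) :
    IsShortest ω q := by
  classical
  refine ⟨?_, h⟩
  rcases lt_or_ge q.bypass.edges.length q.edges.length with hlen | hlen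
  · obtain ⟨l, hl, hs⟩ := List.subperm_of_subset q.bypass_isPath.isTrail.edges_nodup
      (SimpleGraph.Walk.edges_bypass_subset_edges q)
    have hlt : (l.map ω).sum < (q.edges.map ω).sum :=
      sum_lt_of_sublist hg.pos hs (hl.length_eq ▸ hlen)
    have e1 : wt ω q.bypass = (l.map ω).sum := ((hl.map ω).sum_eq).symm
    have e2 : wt ω q = (q.edges.map ω).sum := rfl
    linarith [tt_le hg.nonneg q.bypass]
  · have e : q.bypass = q := SimpleGraph.Walk.bypass_eq_self_of_length_le _ (by simpa using hlen)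
    rw [← e]
    exact q.bypass_isPath

theorem EdgeOn.walk (hg : Good bb cg ω) (hc : 0 < cg) {u v w n : Pt} (h : EdgeOn ω u v w n) :
    ∃ (a : grid.Walk u w) (b : grid.Walk n v), IsShortest ω (a.append (.cons h.1 b)) := by
  obtain ⟨a, -, ha⟩ := hg.exists_shortest hc u w
  obtain ⟨b, -, hb⟩ := hg.exists_shortest hc n v
  refine ⟨a, b, hg.isShortest_of_wt _ ?_⟩
  rw [wt_append]
  have : wt ω (SimpleGraph.Walk.cons h.1 b) = ω s(w, n) + wt ω b := by simp [wt]
  linarith [h.2]

/-- The next site on a geodesic is unique. -/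
theorem EdgeOn.unique (hg : Good bb cg ω) (hc : 0 < cg) {u v w n n' : Pt} (h : EdgeOn ω u v w n)
    (h' : EdgeOn ω u v w n') : n = n' := by
  obtain ⟨a, b, hp⟩ := h.walk hg hc
  obtain ⟨a', b', hp'⟩ := h'.walk hg hc
  set p := a.append (.cons h.1 b) with hpd
  set p' := a'.append (.cons h'.1 b') with hpd'
  have e : p = p' := hg.shortest_eq hp hp'
  have g1 : p.getVert a.length = w := by simp [hpd, SimpleGraph.Walk.getVert_append]
  have g2 : p'.getVert a'.length = w := by simp [hpd', SimpleGraph.Walk.getVert_append]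
  have g3 : p.getVert (a.length + 1) = n := by simp [hpd, SimpleGraph.Walk.getVert_append]
  have g4 : p'.getVert (a'.length + 1) = n' := by simp [hpd', SimpleGraph.Walk.getVert_append]
  have l1 : a.length ≤ p.length := by simp [hpd]
  have l2 : a'.length ≤ p'.length := by simp [hpd']
  rw [← e] at g2 g4 l2
  have := hp.1.getVert_injOn (show a.length ∈ {i | i ≤ p.length} from l1)
    (show a'.length ∈ {i | i ≤ p.length} from l2) (g1.trans g2.symm)
  rw [← g3, ← g4, this]

/-- Two sites on one geodesic: the earlier one keeps its next step in every geodesic through the later one. -/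
theorem step_shared (hg : Good bb cg ω) {y x x' w₁ w₂ n : Pt} {p : grid.Walk y w₂}
    {q : grid.Walk w₂ x} (hp : IsShortest ω (p.append q)) (hx' : OnGeo ω y x' w₂) {a : grid.Walk y w₁}
    {hadj : grid.Adj w₁ n} {b : grid.Walk n w₂} (hpd : p = a.append (.cons hadj b)) :
    EdgeOn ω y x w₁ n ∧ EdgeOn ω y x' w₁ n := by
  have h0 := hg.nonneg
  have e1 : wt ω p = tt ω y w₂ := by
    refine le_antisymm ?_ (tt_le h0 p)
    have := hp.2
    rw [wt_append] at this
    linarith [tt_le h0 q, tt_triangle h0 y w₂ x]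
  have e2 : EdgeOn ω y w₂ w₁ n := edgeOn_of_split h0 a hadj b (by rw [← hpd, e1])
  have ext : ∀ {z}, OnGeo ω y z w₂ → EdgeOn ω y z w₁ n := fun {z} hz => by
    refine ⟨hadj, le_antisymm ?_ ?_⟩
    · rw [← hz, ← e2.2]
      linarith [tt_triangle h0 n w₂ z]
    · have h1 : tt ω w₁ n ≤ ω s(w₁, n) := (tt_le h0 hadj.toWalk).trans_eq (by simp [wt])
      linarith [tt_triangle h0 y w₁ z, tt_triangle h0 w₁ n z]
  refine ⟨ext ?_, ext hx'⟩
  exact onGeo_of_mem h0 hp ((SimpleGraph.Walk.mem_support_append_iff _ _).2 (Or.inl p.end_mem_support))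

/-- Module Order: branch sites. -/
theorem branchStmt : BranchStmt := by
  classical
  intro bb cg ω hg hc y X
  induction X using Finset.induction with
  | empty =>
    intro W hW
    simp only [Finset.card_empty, Nat.le_zero, Finset.card_eq_zero]
    refine Finset.eq_empty_of_forall_notMem fun w hw => ?_
    obtain ⟨x, hx, -⟩ := hW w hw
    simp at hx
  | @insert x X hx ih =>
    intro W hW
    set old := fun w => ∃ x₁ ∈ X, ∃ x₂ ∈ X, ∃ n n', n ≠ n' ∧ EdgeOn ω y x₁ w n ∧ EdgeOn ω y x₂ w n'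
    have hold := ih (W.filter old) fun w hw => (Finset.mem_filter.1 hw).2
    have hnew : ∀ w ∈ W, ¬ old w → ∃ x' ∈ X, ∃ n n', n ≠ n' ∧ EdgeOn ω y x w n ∧ EdgeOn ω y x' w n' := by
      intro w hw hno
      obtain ⟨x₁, h₁, x₂, h₂, n, n', hne, e, e'⟩ := hW w hw
      rw [Finset.mem_insert] at h₁ h₂
      rcases h₁ with rfl | h₁
      · rcases h₂ with rfl | h₂
        · exact absurd (e.unique hg hc e') hne
        · exact ⟨x₂, h₂, n, n', hne, e, e'⟩
      · rcases h₂ with rfl | h₂
        · exact ⟨x₁, h₁, n', n, hne.symm, e', e⟩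
        · exact absurd ⟨x₁, h₁, x₂, h₂, n, n', hne, e, e'⟩ hno
    have h1 : (W.filter fun w => ¬ old w).card ≤ 1 := by
      rw [Finset.card_le_one]
      intro u hu v hv
      rw [Finset.mem_filter] at hu hv
      by_contra huv
      obtain ⟨p, hp⟩ := hg.exists_shortest hc y x
      obtain ⟨x₁, hx₁, n₁, m₁, hn₁, e₁, e₁'⟩ := hnew u hu.1 hu.2
      obtain ⟨x₂, hx₂, n₂, m₂, hn₂, e₂, e₂'⟩ := hnew v hv.1 hv.2
      have mu := hg.mem_of_onGeo hc hp (edgeOn_onGeo hg.nonneg e₁).1
      have mv := hg.mem_of_onGeo hc hp (edgeOn_onGeo hg.nonneg e₂).1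
      -- the earlier of the two sites branches among the old ends
      have main : ∀ {u v : Pt}, u ≠ v → ¬ old u → ∀ {x₁ x₂ : Pt}, x₁ ∈ X → x₂ ∈ X → ∀ {n₁ m₁ m₂ : Pt},
          n₁ ≠ m₁ → EdgeOn ω y x u n₁ → EdgeOn ω y x₁ u m₁ → EdgeOn ω y x₂ v m₂ →
          ∀ (a : grid.Walk y v) (c : grid.Walk v x), p = a.append c → u ∈ a.support → False := by
        intro u v huv hno x₁ x₂ h₁ h₂ n₁ m₁ m₂ hne e₁ e₁' e₂' a c hpd hmem
        have ha : a.IsPath := (hpd ▸ hp.1).of_append_left
        obtain ⟨n, hadj, a₁, a₂, had, -⟩ := exists_step_after ha hmem huv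
        obtain ⟨f, f'⟩ := step_shared hg (x' := x₂) (hpd ▸ hp : IsShortest ω (a.append c))
          (edgeOn_onGeo hg.nonneg e₂').1 had
        have : n = n₁ := f.unique hg hc e₁
        subst this
        exact hno ⟨x₂, h₂, x₁, h₁, n, m₁, hne, f', e₁'⟩
      obtain ⟨a, c, hpd⟩ := SimpleGraph.Walk.mem_support_iff_exists_append.1 mv
      have mu' := mu
      rw [hpd, SimpleGraph.Walk.mem_support_append_iff] at mu'
      rcases mu' with h | h
      · exact main huv hu.2 hx₁ hx₂ hn₁ e₁ e₁' e₂' a c hpd h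
      · obtain ⟨c₁, c₂, hcd⟩ := SimpleGraph.Walk.mem_support_iff_exists_append.1 h
        refine main (Ne.symm huv) hv.2 hx₂ hx₁ hn₂ e₂ e₂' e₁' (a.append c₁) c₂ ?_ ?_
        · rw [hpd, hcd, SimpleGraph.Walk.append_assoc]
        · exact (SimpleGraph.Walk.mem_support_append_iff _ _).2 (Or.inl a.end_mem_support)
    rw [Finset.card_insert_of_notMem hx, ← Finset.card_filter_add_card_filter_not (s := W) old]
    omega

end Vale.Agent.P158.V4
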