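import Mathlib
import Vale.Agent.P158.V4.StarBase
import Vale.Agent.P158.V4.Branch
import Vale.Agent.P158.V4.Order

/-!
P158, module Stars2 (note 1451), first part: geodesic rays from a site, their intersections, and the
order of disjoint rays at their first visits of high lines.
-/

namespace Vale.Agent.P158.V4

open Filter Topology

variable {bb cg : ℝ} {ω : Cfg} {u : Pt} {r s : ℕ → Pt}

/-- A path from `u` whose initial segments are geodesics. -/
structure GeoRay (ω : Cfg) (u : Pt) (r : ℕ → Pt) : Prop where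
  start : r 0 = u
  adj : ∀ n, grid.Adj (r n) (r (n + 1))
  sum : ∀ n, ∑ k ∈ Finset.range n, ω s(r k, r (k + 1)) = tt ω u (r n)

/-- The ray of a path, normalised at its start. -/
noncomputable def rayOf (ω : Cfg) (r : ℕ → Pt) : Ray := ⟨r, fun n => tt ω (r 0) (r n)⟩

/-- The path goes up inside the double cone of aperture `κ`. -/
def UpPath (κ : ℝ) (r : ℕ → Pt) : Prop := Rises ⟨r, fun _ => 0⟩ ∧ ConeRay κ ⟨r, fun _ => 0⟩

theorem UpPath.rises {κ : ℝ} (h : UpPath κ r) : Rises (rayOf ω r) := h.1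

theorem UpPath.cone {κ : ℝ} (h : UpPath κ r) : ConeRay κ (rayOf ω r) := h.2

namespace GeoRay

theorem acc_eq (hr : GeoRay ω u r) (n : ℕ) : (rayOf ω r).acc n = tt ω u (r n) := by
  show tt ω (r 0) (r n) = _
  rw [hr.start]

theorem strictMono (hr : GeoRay ω u r) (hpos : ∀ e, 0 < ω e) :
    StrictMono fun n => tt ω u (r n) := by
  refine strictMono_nat_of_lt_succ fun n => ?_
  show tt ω u (r n) < tt ω u (r (n + 1))
  rw [← hr.sum, ← hr.sum, Finset.sum_range_succ]
  linarith [hpos s(r n, r (n + 1))]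

theorem inj (hr : GeoRay ω u r) (hpos : ∀ e, 0 < ω e) : Function.Injective r :=
  fun i j h => (hr.strictMono hpos).injective (by simp [h])

theorem between (hr : GeoRay ω u r) (h0 : ∀ e, 0 ≤ ω e) {i j : ℕ} (hij : i ≤ j) :
    tt ω (r i) (r j) = tt ω u (r j) - tt ω u (r i) ∧
      ∑ k ∈ Finset.Ico i j, ω s(r k, r (k + 1)) = tt ω u (r j) - tt ω u (r i) := by
  obtain ⟨n, rfl⟩ := Nat.exists_eq_add_of_le hij
  obtain ⟨w, hw, -, -⟩ := exists_walk_Ico ω hr.adj i n
  have hs : ∑ k ∈ Finset.Ico i (i + n), ω s(r k, r (k + 1)) =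
      tt ω u (r (i + n)) - tt ω u (r i) := by
    rw [← hr.sum, ← hr.sum, Finset.sum_Ico_eq_sub _ (Nat.le_add_right i n)]
  refine ⟨le_antisymm (by rw [← hs, ← hw]; exact tt_le h0 w) ?_, hs⟩
  linarith [tt_triangle h0 u (r i) (r (i + n))]

theorem edge (hr : GeoRay ω u r) (h0 : ∀ e, 0 ≤ ω e) (n : ℕ) :
    tt ω (r n) (r (n + 1)) = ω s(r n, r (n + 1)) := by
  obtain ⟨h1, h2⟩ := hr.between h0 (Nat.le_succ n)
  rw [h1, ← h2, Nat.Ico_succ_singleton, Finset.sum_singleton]

theorem drop (hr : GeoRay ω u r) (h0 : ∀ e, 0 ≤ ω e) (d : ℕ) :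
    GeoRay ω (r d) fun n => r (n + d) where
  start := by simp
  adj n := by rw [add_right_comm]; exact hr.adj _
  sum n := by
    obtain ⟨h1, h2⟩ := hr.between h0 (Nat.le_add_left d n)
    rw [h1, ← h2, Finset.sum_Ico_eq_sum_range, Nat.add_sub_cancel]
    refine Finset.sum_congr rfl fun k _ => ?_
    rw [show k + 1 + d = d + k + 1 by omega, add_comm k d]

theorem isTail (hr : GeoRay ω u r) (hg : Good bb cg ω) : IsTail ω (rayOf ω r) := by
  refine ⟨hr.adj, hr.inj hg.pos, 0, fun i j _ hij => ?_⟩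
  rw [hr.acc_eq, hr.acc_eq]
  exact hr.between hg.nonneg hij

/-- The sites between two points of a geodesic ray lie on it. -/
theorem mem_of_onGeo (hr : GeoRay ω u r) (hg : Good bb cg ω) (hc : 0 < cg) {i j : ℕ} (hij : i ≤ j)
    {w : Pt} (hw : OnGeo ω (r i) (r j) w) : ∃ k, i ≤ k ∧ k ≤ j ∧ r k = w := by
  classical
  obtain ⟨n, rfl⟩ := Nat.exists_eq_add_of_le hij
  obtain ⟨p, hp, hps, -⟩ := exists_walk_Ico ω hr.adj i n
  obtain ⟨h1, h2⟩ := hr.between hg.nonneg hij
  have hp' : IsShortest ω p.bypass := ⟨p.bypass_isPath,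
    le_antisymm ((wt_bypass_le hg.nonneg p).trans_eq (by rw [hp, h2, h1])) (tt_le hg.nonneg _)⟩
  obtain ⟨k, hk, hk', rfl⟩ :=
    hps w (SimpleGraph.Walk.support_bypass_subset p (hg.mem_of_onGeo hc hp' hw))
  exact ⟨k, hk, hk', rfl⟩

theorem onGeo (hr : GeoRay ω u r) (h0 : ∀ e, 0 ≤ ω e) {i j k : ℕ} (hij : i ≤ k) (hkj : k ≤ j) :
    OnGeo ω (r i) (r j) (r k) := by
  show _ + _ = _
  rw [(hr.between h0 hij).1, (hr.between h0 hkj).1, (hr.between h0 (hij.trans hkj)).1]
  ring

/-- Two geodesic rays from one site agree up to every common point. -/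
theorem eq_of_meet (hr : GeoRay ω u r) (hs : GeoRay ω u s) (hg : Good bb cg ω) (hc : 0 < cg)
    {i j : ℕ} (h : r i = s j) : i = j ∧ ∀ k ≤ i, r k = s k := by
  suffices H : ∀ k, k ≤ i → k ≤ j → r k = s k by
    rcases le_total i j with hij | hij
    · have e : i = j := hs.inj hg.pos ((H i le_rfl hij).symm.trans h)
      exact ⟨e, fun k hk => H k hk (hk.trans hij)⟩
    · have e : i = j := hr.inj hg.pos (h.trans (H j hij le_rfl).symm)
      exact ⟨e, fun k hk => H k hk (hk.trans e.le)⟩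
  intro k
  induction k with
  | zero => exact fun _ _ => hr.start.trans hs.start.symm
  | succ k ih =>
    intro hki hkj
    have hk := ih (by omega) (by omega)
    have key : ∀ {t : ℕ → Pt} {m : ℕ}, GeoRay ω u t → k + 1 ≤ m →
        EdgeOn ω u (t m) (t k) (t (k + 1)) := fun {t m} ht hm => by
      refine ⟨ht.adj k, ?_⟩
      rw [← ht.edge hg.nonneg k, (ht.between hg.nonneg (Nat.le_succ k)).1,
        (ht.between hg.nonneg hm).1]
      ring
    have h1 := key hr hki
    rw [h, hk] at h1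
    exact h1.unique hg hc (key hs hkj)

end GeoRay

/-! ### First visits -/

/-- The abscissa of the first visit of a line. -/
noncomputable def fx (r : ℕ → Pt) (H : ℤ) : ℤ := (r (Classical.epsilon (IsFirstVisit r H))).1

theorem IsFirstVisit.unique {H : ℤ} {i j : ℕ} (hi : IsFirstVisit r H i) (hj : IsFirstVisit r H j) :
    i = j := by
  rcases lt_trichotomy i j with h | h | h
  · exact absurd hi.1 (hj.2 i h)
  · exact h
  · exact absurd hj.1 (hi.2 j h)

theorem fx_eq {H : ℤ} {i : ℕ} (hi : IsFirstVisit r H i) : fx r H = (r i).1 := by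
  rw [fx, (Classical.epsilon_spec (p := IsFirstVisit r H) ⟨i, hi⟩).unique hi]

theorem eventually_firstVisit (hr : Rises ⟨r, fun _ => 0⟩)
    (hadj : ∀ n, grid.Adj (r n) (r (n + 1))) : ∀ᶠ H : ℤ in atTop, ∃ i, IsFirstVisit r H i :=
  (eventually_ge_atTop (r 0).2).mono fun H hH =>
    exists_firstVisit hadj hH (tendsto_atTop.1 hr H).exists

theorem rises_drop (hr : Rises ⟨r, fun _ => 0⟩) (d : ℕ) :
    Rises ⟨fun n => r (n + d), fun _ => 0⟩ :=
  hr.comp (tendsto_add_atTop_nat d)

/-- Dropping an initial part does not change the first visits of high lines. -/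
theorem fx_drop (hr : Rises ⟨r, fun _ => 0⟩) (hadj : ∀ n, grid.Adj (r n) (r (n + 1))) (d : ℕ) :
    ∀ᶠ H : ℤ in atTop, fx (fun n => r (n + d)) H = fx r H := by
  obtain ⟨B, hB⟩ := ((Finset.range (d + 1)).image fun k => (r k).2).bddAbove
  filter_upwards [eventually_firstVisit hr hadj, eventually_gt_atTop B] with H ⟨i, hi⟩ hH
  have hd : d < i := by
    by_contra hle
    have := hB (Finset.mem_image_of_mem _ (Finset.mem_range.2 (show i < d + 1 by omega)))
    have := hi.1
    omega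
  have hid : i - d + d = i := by omega
  have hi' : IsFirstVisit (fun n => r (n + d)) H (i - d) :=
    ⟨(congrArg (fun n => (r n).2) hid).trans hi.1, fun k hk => hi.2 _ (by omega)⟩
  rw [fx_eq hi', fx_eq hi, hid]

/-- On all high lines `r` is strictly left of `s`. -/
def LtUp (r s : ℕ → Pt) : Prop := ∀ᶠ H : ℤ in atTop, fx r H < fx s H

theorem LtUp.trans {t : ℕ → Pt} (h : LtUp r s) (h' : LtUp s t) : LtUp r t :=
  (h.and h').mono fun _ h => h.1.trans h.2

theorem LtUp.asymm (h : LtUp r s) : ¬ LtUp s r := fun h' => by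
  obtain ⟨H, h1, h2⟩ := (h.and h').exists
  omega

theorem LtUp.of_drop (hr : Rises ⟨r, fun _ => 0⟩) (hra : ∀ n, grid.Adj (r n) (r (n + 1)))
    (hs : Rises ⟨s, fun _ => 0⟩) (hsa : ∀ n, grid.Adj (s n) (s (n + 1))) (d d' : ℕ) :
    LtUp (fun n => r (n + d)) (fun n => s (n + d')) ↔ LtUp r s := by
  refine eventually_congr ?_
  filter_upwards [fx_drop hr hra d, fx_drop hs hsa d'] with H h1 h2
  rw [h1, h2]

theorem exists_last {g : ℤ} (hr : Rises ⟨r, fun _ => 0⟩) (hra : ∀ n, grid.Adj (r n) (r (n + 1)))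
    (h0 : (r 0).2 ≤ g) : ∃ d, (r d).2 = g ∧ ∀ n, g ≤ (r (n + d)).2 := by
  classical
  obtain ⟨M, hM⟩ := eventually_atTop.1 (tendsto_atTop.1 hr (g + 1))
  set S := (Finset.range (M + 1)).filter fun n => (r n).2 ≤ g with hS
  have hne : S.Nonempty := ⟨0, by simp [hS, h0]⟩
  obtain ⟨-, hdg⟩ := Finset.mem_filter.1 (S.max'_mem hne)
  set d := S.max' hne with hddef
  have habove : ∀ n, d < n → g < (r n).2 := fun n hn => by
    by_contra hle
    push Not at hle
    rcases le_or_gt n M with h | h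
    · have := S.le_max' n (by simp [hS, hle]; omega)
      omega
    · have : g + 1 ≤ (r n).2 := hM n h.le
      omega
  have hd : (r d).2 = g := by
    have := habove (d + 1) (by omega)
    have := adj_snd_le (hra d)
    omega
  refine ⟨d, hd, fun n => ?_⟩
  rcases Nat.eq_zero_or_pos n with rfl | hn
  · rw [zero_add, hd]
  · exact (habove _ (by omega)).le

/-- Disjoint paths going up are strictly ordered on all high lines. -/
theorem ltUp_or (hr : Rises ⟨r, fun _ => 0⟩) (hra : ∀ n, grid.Adj (r n) (r (n + 1)))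
    (hs : Rises ⟨s, fun _ => 0⟩) (hsa : ∀ n, grid.Adj (s n) (s (n + 1)))
    (hdisj : ∀ i j, r i ≠ s j) : LtUp r s ∨ LtUp s r := by
  obtain ⟨d, hd, hd'⟩ := exists_last hr hra (le_max_left (r 0).2 (s 0).2)
  obtain ⟨e, he, he'⟩ := exists_last hs hsa (le_max_right (r 0).2 (s 0).2)
  generalize max (r 0).2 (s 0).2 = g at hd hd' he he'
  wlog hlt : (r d).1 < (s e).1 generalizing r s d e
  · exact (this hs hsa hr hra (fun i j => (hdisj j i).symm) e d he he' hd hd'
      (lt_of_le_of_ne (not_lt.1 hlt) fun h => hdisj d e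
        (Prod.ext h.symm (hd.trans he.symm)))).symm
  left
  rw [← LtUp.of_drop hr hra hs hsa d e]
  have a1 : ∀ n, grid.Adj (r (n + d)) (r (n + 1 + d)) := fun n => by
    rw [add_right_comm]; exact hra _
  have a2 : ∀ n, grid.Adj (s (n + e)) (s (n + 1 + e)) := fun n => by
    rw [add_right_comm]; exact hsa _
  filter_upwards [eventually_ge_atTop g, eventually_firstVisit (rises_drop hr d) a1,
    eventually_firstVisit (rises_drop hs e) a2] with H hH ⟨i, hi⟩ ⟨j, hj⟩
  rw [fx_eq hi, fx_eq hj]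
  exact rays_order a1 a2 (h := g) (by simpa using hd) (by simpa using he)
    hd' he' hH (fun a c => hdisj _ _) (by simpa using hlt) hi hj

theorem LtUp.ordUp (hr : Rises ⟨r, fun _ => 0⟩) (hra : ∀ n, grid.Adj (r n) (r (n + 1)))
    (hs : Rises ⟨s, fun _ => 0⟩) (hsa : ∀ n, grid.Adj (s n) (s (n + 1))) (h : LtUp r s) :
    OrdUp (rayOf ω r) (rayOf ω s) := by
  refine ((tendsto_natCast_atTop_atTop (R := ℤ)).eventually ((h.and (eventually_firstVisit hr hra)).and
    (eventually_firstVisit hs hsa))).frequently.mono ?_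
  rintro H ⟨⟨hlt, i, hi⟩, j, hj⟩
  rw [fx_eq hi, fx_eq hj] at hlt
  exact ⟨i, j, hi, hj, hlt.le⟩

theorem ltUp_of_not_ordUp (hr : Rises ⟨r, fun _ => 0⟩) (hra : ∀ n, grid.Adj (r n) (r (n + 1)))
    (hs : Rises ⟨s, fun _ => 0⟩) (hsa : ∀ n, grid.Adj (s n) (s (n + 1)))
    (h : ¬ OrdUp (rayOf ω s) (rayOf ω r)) : LtUp r s := by
  have h' := (not_frequently.1 h).and
    ((tendsto_natCast_atTop_atTop (R := ℤ)).eventually
      ((eventually_firstVisit hr hra).and (eventually_firstVisit hs hsa)))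
  obtain ⟨N, hN⟩ := eventually_atTop.1 h'
  refine eventually_atTop.2 ⟨(N : ℤ), fun H hH => ?_⟩
  obtain ⟨hno, ⟨i, hi⟩, j, hj⟩ := hN H.toNat (by omega)
  have e : ((H.toNat : ℕ) : ℤ) = H := Int.toNat_of_nonneg (by omega)
  rw [e] at hi hj
  rw [fx_eq hi, fx_eq hj]
  by_contra hle
  exact hno ⟨j, i, e ▸ hj, e ▸ hi, not_lt.1 hle⟩

/-- A path reaching a low line without meeting two paths with a common start above that line is not
strictly between them. -/
theorem not_between {a c q : ℕ → Pt} {h : ℤ} (hac : a 0 = c 0)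
    (haa : ∀ n, grid.Adj (a n) (a (n + 1))) (hca : ∀ n, grid.Adj (c n) (c (n + 1)))
    (hqa : ∀ n, grid.Adj (q n) (q (n + 1))) (ha : Rises ⟨a, fun _ => 0⟩)
    (hc : Rises ⟨c, fun _ => 0⟩) (hq : Rises ⟨q, fun _ => 0⟩) (hah : ∀ n, h ≤ (a n).2)
    (hch : ∀ n, h ≤ (c n).2) {k₀ : ℕ} (hq0 : (q k₀).2 ≤ h) (hda : ∀ i n, q i ≠ a n)
    (hdc : ∀ i n, q i ≠ c n) : ¬ (LtUp a q ∧ LtUp q c) := by
  rintro ⟨h1, h2⟩
  obtain ⟨B, hB⟩ := ((Finset.range (k₀ + 1)).image fun k => (q k).2).bddAbove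
  obtain ⟨H, ⟨⟨hlt, hlt'⟩, hH, hHq⟩, ⟨i, hi⟩, ⟨j, hj⟩, k, hk⟩ := (((h1.and h2).and
    ((eventually_ge_atTop (a 0).2).and (eventually_gt_atTop B))).and
    ((eventually_firstVisit ha haa).and
      ((eventually_firstVisit hc hca).and (eventually_firstVisit hq hqa)))).exists
  rw [fx_eq hi, fx_eq hk] at hlt
  rw [fx_eq hk, fx_eq hj] at hlt'
  have hk₀ : k₀ ≤ k := by
    by_contra hle
    have := hB (Finset.mem_image_of_mem _ (Finset.mem_range.2 (show k < k₀ + 1 by omega)))
    have := hk.1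
    omega
  -- in the mirror image the line `H` is the base
  obtain ⟨p, hp, hps, -⟩ := exists_walk_Ico (fun _ => 0) hqa k₀ (k - k₀)
  set P : grid.Walk (flip2 (q k)) (flip2 (q k₀)) :=
    ((p.copy rfl (by rw [Nat.add_sub_cancel' hk₀])).map flip2).reverse with hP
  set γ : grid.Walk (a i) (c j) := (seg haa i).reverse.append ((seg hca j).copy hac.symm rfl) with hγ
  have hγy : ∀ y ∈ γ.support, (∃ n ≤ i, y = a n) ∨ ∃ n ≤ j, y = c n := by
    intro y hy
    rw [hγ, SimpleGraph.Walk.mem_support_append_iff, SimpleGraph.Walk.support_reverse, List.mem_reverse,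
      SimpleGraph.Walk.support_copy, mem_seg, mem_seg] at hy
    rcases hy with ⟨n, hn, e⟩ | ⟨n, hn, e⟩
    · exact Or.inl ⟨n, hn, e.symm⟩
    · exact Or.inr ⟨n, hn, e.symm⟩
  have hPy : ∀ y ∈ P.support, ∃ n, k₀ ≤ n ∧ n ≤ k ∧ y = flip2 (q n) := by
    intro y hy
    simp only [hP, SimpleGraph.Walk.support_reverse, List.mem_reverse, SimpleGraph.Walk.support_map,
      SimpleGraph.Walk.support_copy, List.mem_map] at hy
    obtain ⟨y', hy', rfl⟩ := hy
    obtain ⟨n, hn, hn', rfl⟩ := hps y' hy'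
    exact ⟨n, hn, by omega, rfl⟩
  obtain ⟨y, hy, hy'⟩ := base_meet P (γ.map flip2)
    (fun y hy => by
      obtain ⟨n, hn, hn', rfl⟩ := hPy y hy
      show -(q k).2 ≤ -(q n).2
      have hbelow : (q n).2 ≤ H := by
        rcases Nat.lt_or_ge k₀ n with h' | h'
        · by_contra hgt
          obtain ⟨l, hl⟩ := exists_firstVisit hqa (H := H)
            (by have := hB (Finset.mem_image_of_mem _ (Finset.mem_range.2 (show 0 < k₀ + 1 by omega))); omega)
            ⟨n, by omega⟩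
          have := hk.below hqa
            (by have := hB (Finset.mem_image_of_mem _ (Finset.mem_range.2 (show 0 < k₀ + 1 by omega))); omega)
            n hn'
          omega
        · have := hB (Finset.mem_image_of_mem _ (Finset.mem_range.2 (show n < k₀ + 1 by omega)))
          omega
      rw [hk.1]
      omega)
    (fun y hy => by
      rw [SimpleGraph.Walk.support_map, List.mem_map] at hy
      obtain ⟨y', hy', rfl⟩ := hy
      show -(q k).2 ≤ -y'.2 ∧ -y'.2 ≤ -(q k₀).2
      rw [hk.1]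
      have hc0 : (c 0).2 ≤ H := hac ▸ hH
      rcases hγy y' hy' with ⟨n, hn, rfl⟩ | ⟨n, hn, rfl⟩
      · have := hi.below haa hH n hn
        have := hah n
        omega
      · have := hj.below hca hc0 n hn
        have := hch n
        omega)
    (show -(a i).2 = -(q k).2 by rw [hi.1, hk.1]) (show -(c j).2 = -(q k).2 by rw [hj.1, hk.1])
    (le_of_lt hlt) (le_of_lt hlt')
  obtain ⟨n, -, -, rfl⟩ := hPy y hy
  rw [SimpleGraph.Walk.support_map, List.mem_map] at hy'
  obtain ⟨y', hy', e⟩ := hy'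
  have e' : y' = q n := by
    have := congrArg (fun z : Pt => flip2 z) e
    simpa [flip2_flip2] using this
  rcases hγy y' hy' with ⟨m, -, h'⟩ | ⟨m, -, h'⟩
  · exact hda n m (e'.symm.trans h')
  · exact hdc n m (e'.symm.trans h')

end Vale.Agent.P158.V4
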