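import Mathlib
import Vale.Agent.P158.V4.Stars2Rays

/-!
P158, module Stars2, second part: the increments of two rays of the class at a regular site lie
between those at the ends of a wide window of a low line.
-/

namespace Vale.Agent.P158.V4

open Filter Topology

variable {bb cg κ K rad : ℝ} {ω : Cfg} {h : ℤ} {q : Pt} {a c : Ray}

/-- The half-plane Busemann function of a path. -/
noncomputable def hb (ω : Cfg) (h : ℤ) (r : ℕ → Pt) (p : Pt) : ℝ := busIn (upper h) ω (rayOf ω r) p

/-- Sites on or below the line `h` are farther from `q` than its own level is inside the cone. -/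
def Deep (K rad : ℝ) (ω : Cfg) (h : ℤ) (q : Pt) : Prop :=
  ∀ p y : Pt, p.2 ≤ h → y.2 = q.2 → InCone K rad q y → tt ω q y < tt ω q p

/-- A regular site inside the window `[-W, W]` of the line `h`. -/
structure Inner (κ K rad : ℝ) (W : ℕ) (ω : Cfg) (h : ℤ) (q : Pt) : Prop where
  steer : Steered κ K rad ω q
  deep : Deep K rad ω h q
  above : h ≤ q.2
  fits : |(q.1 : ℝ)| + K * rad + K * max ((q.2 - h : ℤ) : ℝ) rad ≤ W

/-- The two regular ends of a window of the line `h`, joined above it at cost at most `B`. -/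
structure Gauge (κ K rad : ℝ) (W : ℕ) (B : ℝ) (ω : Cfg) (h : ℤ) : Prop where
  left : Steered κ K rad ω (-(W : ℤ), h)
  right : Steered κ K rad ω ((W : ℤ), h)
  cost : ttIn (upper h) ω (-(W : ℤ), h) ((W : ℤ), h) ≤ B
  cost' : ttIn (upper h) ω ((W : ℤ), h) (-(W : ℤ), h) ≤ B

theorem upper_mono {g : ℤ} (hg : h ≤ g) : upper g ⊆ upper h := fun _ hz => le_trans hg hz

theorem busIn_anti (hr : IsTail ω a) (h0 : ∀ e, 0 ≤ ω e) (hris : Rises a) {g : ℤ} (hg : h ≤ g)
    {p : Pt} (hp : p ∈ upper g) : busIn (upper h) ω a p ≤ busIn (upper g) ω a p := by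
  refine le_of_tendsto_of_tendsto (hr.tendsto_busIn h0 (linked_upper' h) (hris.eventually_upper h)
    (upper_mono hg hp)) (hr.tendsto_busIn h0 (linked_upper' g) (hris.eventually_upper g) hp) ?_
  filter_upwards [hris.eventually_upper g] with n hn
  refine sub_le_sub_right ?_ _
  simp only [ttIn_eq]
  exact le_ttS (linked_upper' g) hp hn fun w hw => ttS_le h0 w fun z hz => upper_mono hg (hw z hz)

/-- The increments at a regular site are dominated by those at a point of the low line which is
reached past them. -/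
theorem site_le_end (hg : Good bb cg ω) (hc : 0 < cg) (hK : 0 ≤ K) (hrad : 0 ≤ rad)
    (ha : IsTail ω a) (hb' : IsTail ω c) (hra : Rises a) (hrc : Rises c)
    (hca : ConeRay κ a) (hcc : ConeRay κ c) (hq : Steered κ K rad ω q) (hd : Deep K rad ω h q)
    (hhq : h ≤ q.2) {e : Pt} (he : e.2 = h) (hst : Steered κ K rad ω e)
    (hmono : ∀ y y' : ℤ, |((y - q.1 : ℤ) : ℝ)| ≤ K * rad →
      |((y' - e.1 : ℤ) : ℝ)| ≤ K * max ((q.2 - h : ℤ) : ℝ) rad →
      busIn (upper q.2) ω a (y, q.2) - busIn (upper q.2) ω c (y, q.2) ≤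
        busIn (upper q.2) ω a (y', q.2) - busIn (upper q.2) ω c (y', q.2)) :
    busIn (upper h) ω a q - busIn (upper h) ω c q ≤
      busIn (upper h) ω a e - busIn (upper h) ω c e := by
  have h0 := hg.nonneg
  have hS := linked_upper' h
  have hSq := linked_upper' q.2
  have heS : e ∈ upper h := he.ge
  have hqS : q ∈ upper h := hhq
  -- the end is reached through the line of the site
  have hend : ∀ ε : ℝ, 0 < ε → ∃ y', |((y' - e.1 : ℤ) : ℝ)| ≤ K * max ((q.2 - h : ℤ) : ℝ) rad ∧
      ttIn (upper h) ω e (y', q.2) + busIn (upper q.2) ω a (y', q.2) ≤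
        busIn (upper h) ω a e + ε := by
    intro ε hε
    have hev := ha.eventually_inside h0 hS (hra.eventually_upper h) heS
      (Sc := {z | InCone K rad e z}) fun z hz hz' => by
        have hz2 : z ∈ upper e.2 := by rw [he]; exact hz
        have := hst.above a ha hca hra e.1 (by simpa using hrad) z hz2 hz'
        rwa [he, show ((e.1, h) : Pt) = e from Prod.ext rfl he.symm] at this
    obtain ⟨M, hM⟩ := ha.busIn_le h0 hSq (hra.eventually_upper q.2)
    obtain ⟨n, hin, hn2, hlim, hnM⟩ := (hev.and ((hra.eventually_upper q.2).and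
      (((ha.tendsto_busIn h0 hS (hra.eventually_upper h) heS).eventually_lt_const
        (lt_add_of_pos_right _ (half_pos hε))).and (eventually_ge_atTop M)))).exists
    have hmin : 0 < min (ε / 2) (1 / 2) := lt_min (half_pos hε) one_half_pos
    obtain ⟨p, hp, hw⟩ := exists_walk_lt hS heS (upper_mono hhq hn2) (ω := ω)
      (lt_add_of_pos_right (ttIn (upper h) ω e (a.pt n)) hmin)
    obtain ⟨y, q₁, s, hy, hps, hs⟩ :=
      exists_last_visit p q.2 hn2 ⟨e, p.start_mem_support, by omega⟩
    have hmem : y ∈ p.support := by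
      rw [hps, SimpleGraph.Walk.mem_support_append_iff]
      exact Or.inl q₁.end_mem_support
    have hcone : InCone K rad e y :=
      hin p hp (by linarith [min_le_right (ε / 2) (1 / 2 : ℝ)]) y hmem
    obtain ⟨y', rfl⟩ : ∃ y', y = (y', q.2) := ⟨y.1, Prod.ext rfl hy⟩
    refine ⟨y', ?_, ?_⟩
    · unfold InCone at hcone
      simp only [he] at hcone
      rwa [abs_of_nonneg (by exact_mod_cast (sub_nonneg.2 hhq) : (0 : ℝ) ≤ ((q.2 - h : ℤ) : ℝ))]
        at hcone
    · have h1 : ttIn (upper h) ω e (y', q.2) ≤ wt ω q₁ := ttS_le h0 q₁ fun z hz => hp z (by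
        rw [hps, SimpleGraph.Walk.mem_support_append_iff]; exact Or.inl hz)
      have h2 : ttIn (upper q.2) ω (y', q.2) (a.pt n) ≤ wt ω s := ttS_le h0 s hs
      have h3 := hM (y', q.2) (le_refl q.2) n hnM
      have h4 : wt ω q₁ + wt ω s = wt ω p := by rw [hps, wt_append]
      linarith [min_le_left (ε / 2) (1 / 2 : ℝ)]
  refine le_of_forall_pos_le_add fun ε hε => ?_
  obtain ⟨y', hy', hey⟩ := hend ε hε
  have hce : busIn (upper h) ω c e ≤
      ttIn (upper h) ω e (y', q.2) + busIn (upper q.2) ω c (y', q.2) :=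
    (hb'.busIn_le_add h0 hS (hrc.eventually_upper h) heS (show ((y', q.2) : Pt) ∈ upper h from hhq)).trans
      (add_le_add_right (busIn_anti hb' h0 hrc hhq (p := (y', q.2)) (le_refl q.2)) _)
  -- the site reaches its line inside the cone
  suffices hsite : busIn (upper h) ω a q ≤
      busIn (upper h) ω c q + (busIn (upper h) ω a e - busIn (upper h) ω c e + ε) by linarith
  refine le_trans ?_ (add_le_add_left (hb'.bus_le_busIn h0 hS (hrc.eventually_upper h) hqS) _)
  rw [← sub_le_iff_le_add]
  obtain ⟨M, hM⟩ := hb'.busIn_le h0 hSq (hrc.eventually_upper q.2)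
  refine ge_of_tendsto (hb'.tendsto_bus h0 q) ?_
  filter_upwards [eventually_geo_inCone hb' h0 hq hcc (Or.inl hrc), hrc.eventually_upper q.2,
    eventually_ge_atTop M] with n hin hn hnM
  obtain ⟨p, hp⟩ := hg.exists_shortest hc q (c.pt n)
  obtain ⟨y, q₁, s, hy, hps, hs⟩ := exists_last_visit p q.2 hn ⟨q, p.start_mem_support, le_rfl⟩
  have hmem : y ∈ p.support := by
    rw [hps, SimpleGraph.Walk.mem_support_append_iff]
    exact Or.inl q₁.end_mem_support
  have hcone : InCone K rad q y := hin p hp.2.le y hmem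
  have h4 : wt ω q₁ + wt ω s = tt ω q (c.pt n) := by rw [← hp.2, hps, wt_append]
  have h5 : wt ω q₁ ≤ tt ω q y := by linarith [tt_triangle h0 q y (c.pt n), tt_le h0 s]
  have hup : ∀ z ∈ q₁.support, z ∈ upper h := fun z hz => by
    classical
    by_contra hlow
    have hz2 : ¬ h ≤ z.2 := hlow
    have := hd z y (by omega) hy hcone
    have h6 := tt_le h0 (q₁.takeUntil z hz)
    have h7 : wt ω (q₁.takeUntil z hz) ≤ wt ω q₁ := by
      conv_rhs => rw [← q₁.take_spec hz, wt_append]
      linarith [wt_nonneg h0 (q₁.dropUntil z hz)]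
    linarith
  have h6 : ttIn (upper h) ω q y ≤ wt ω q₁ := ttS_le h0 q₁ hup
  obtain ⟨y₁, rfl⟩ : ∃ y₁, y = (y₁, q.2) := ⟨y.1, Prod.ext rfl hy⟩
  have h7 := ha.busIn_le_add h0 hS (hra.eventually_upper h) hqS
    (show ((y₁, q.2) : Pt) ∈ upper h from hhq)
  have h8 := busIn_anti ha h0 hra hhq (p := (y₁, q.2)) (le_refl q.2)
  have h9 := hM (y₁, q.2) (le_refl q.2) n hnM
  have h10 : ttIn (upper q.2) ω (y₁, q.2) (c.pt n) ≤ wt ω s := ttS_le h0 s hs
  have hy₁ : |((y₁ - q.1 : ℤ) : ℝ)| ≤ K * rad := by
    unfold InCone at hcone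
    simpa [max_eq_right hrad] using hcone
  linarith [hmono y₁ y' hy₁ hy']

/-- At a regular site the increments of two rays lie between those at the ends of the window. -/
theorem window_bound (hg : Good bb cg ω) (hc : 0 < cg) (hK : 0 ≤ K) (hrad : 0 ≤ rad) {W : ℕ}
    {B : ℝ} (hw : Gauge κ K rad W B ω h) (hq : Inner κ K rad W ω h q)
    (ha : IsTail ω a) (hb' : IsTail ω c) (hra : Rises a) (hrc : Rises c)
    (hca : ConeRay κ a) (hcc : ConeRay κ c) (hord : OrdUp a c) :
    busIn (upper h) ω c ((W : ℤ), h) - busIn (upper h) ω a ((W : ℤ), h) ≤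
        busIn (upper h) ω c q - busIn (upper h) ω a q ∧
      busIn (upper h) ω c q - busIn (upper h) ω a q ≤
        busIn (upper h) ω c (-(W : ℤ), h) - busIn (upper h) ω a (-(W : ℤ), h) := by
  have hm : ∀ {x x' : ℤ}, x ≤ x' → _ := fun {x x'} hx =>
    monge_up hg.nonneg ha hb' hra hrc hord q.2 (x := x) (x' := x') hx
  have hfit := hq.fits
  have hq1 := le_abs_self (q.1 : ℝ)
  have hq1' := neg_abs_le (q.1 : ℝ)
  constructor
  · have := site_le_end hg hc hK hrad ha hb' hra hrc hca hcc hq.steer hq.deep hq.above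
      (e := ((W : ℤ), h)) rfl hw.right fun y y' hy hy' => by
        push_cast at hy hy'
        rw [abs_le] at hy hy'
        have hle : y ≤ y' := by
          have : (y : ℝ) ≤ y' := by push_cast at hfit; linarith
          exact_mod_cast this
        linarith [hm hle]
    linarith
  · exact site_le_end hg hc hK hrad hb' ha hrc hra hcc hca hq.steer hq.deep hq.above
      (e := (-(W : ℤ), h)) rfl hw.left fun y y' hy hy' => by
        push_cast at hy hy'
        rw [abs_le] at hy hy'
        have hle : y' ≤ y := by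
          have : (y' : ℝ) ≤ y := by push_cast at hfit; linarith
          exact_mod_cast this
        linarith [hm hle]

end Vale.Agent.P158.V4
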