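import Mathlib
import Vale.Agent.P158.V4.Stars2Line

/-!
P158, module Stars2, third part: forks of rays from the line `h`, the value of their half-plane
Busemann functions on their own sites, and the range of increments over a window.
-/

namespace Vale.Agent.P158.V4

open Filter Topology

variable {bb cg κ K rad B η : ℝ} {W : ℕ} {ω : Cfg} {h : ℤ} {r s A C : ℕ → Pt} {N : ℕ}

/-- A geodesic ray from the line `h` which stays above it and rises in the cone. -/
structure HRay (κ : ℝ) (ω : Cfg) (h : ℤ) (r : ℕ → Pt) : Prop where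
  base : (r 0).2 = h
  geo : GeoRay ω (r 0) r
  up : UpPath κ r
  above : ∀ n, h ≤ (r n).2

/-- Two rays from one site of the line `h` which part at their `N`th site. -/
structure Fork (κ : ℝ) (ω : Cfg) (h : ℤ) (A C : ℕ → Pt) (N : ℕ) : Prop where
  left : HRay κ ω h A
  right : HRay κ ω h C
  high : h < (A N).2
  agree : ∀ k ≤ N, A k = C k
  split : A (N + 1) ≠ C (N + 1)

/-- Every other first step at the `N`th site costs at least `η` more. -/
def Excess (ω : Cfg) (η : ℝ) (A : ℕ → Pt) (N : ℕ) : Prop :=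
  ∀ n, grid.Adj (A N) n → n ≠ A (N + 1) → ∀ m, N < m →
    tt ω (A N) (A m) + η ≤ ω s(A N, n) + tt ω n (A m)

/-- The coordinate of a ray on the window. -/
noncomputable def Pw (ω : Cfg) (h : ℤ) (W : ℕ) (r : ℕ → Pt) : ℝ :=
  hb ω h r (-(W : ℤ), h) - hb ω h r ((W : ℤ), h)

/-- A regular site of the window or one of its points on the line. -/
def InWindow (κ K rad : ℝ) (W : ℕ) (ω : Cfg) (h : ℤ) (q : Pt) : Prop :=
  Inner κ K rad W ω h q ∨ (q.2 = h ∧ |q.1| ≤ W)

/-- The sites of a fork used by the count are regular. -/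
structure ForkIn (κ K rad : ℝ) (W : ℕ) (ω : Cfg) (h : ℤ) (A C : ℕ → Pt) (N : ℕ) : Prop where
  site : Inner κ K rad W ω h (A N)
  stepA : Inner κ K rad W ω h (A (N + 1))
  stepC : Inner κ K rad W ω h (C (N + 1))
  foot : |(A 0).1| ≤ W

theorem Fork.symm (hf : Fork κ ω h A C N) : Fork κ ω h C A N :=
  ⟨hf.right, hf.left, hf.agree N le_rfl ▸ hf.high, fun k hk => (hf.agree k hk).symm, hf.split.symm⟩

theorem ForkIn.symm (hi : ForkIn κ K rad W ω h A C N) (hf : Fork κ ω h A C N) :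
    ForkIn κ K rad W ω h C A N :=
  ⟨hf.agree N le_rfl ▸ hi.site, hi.stepC, hi.stepA, hf.agree 0 N.zero_le ▸ hi.foot⟩

namespace HRay

theorem tail (hr : HRay κ ω h r) (hg : Good bb cg ω) : IsTail ω (rayOf ω r) := hr.geo.isTail hg

theorem ev (hr : HRay κ ω h r) : ∀ᶠ n in atTop, (rayOf ω r).pt n ∈ upper h :=
  Eventually.of_forall hr.above

theorem seg_upper (hr : HRay κ ω h r) (h0 : ∀ e, 0 ≤ ω e) {i j : ℕ} (hij : i ≤ j) :
    ttIn (upper h) ω (r i) (r j) = tt ω (r 0) (r j) - tt ω (r 0) (r i) := by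
  obtain ⟨n, rfl⟩ := Nat.exists_eq_add_of_le hij
  obtain ⟨w, hw, hs, -⟩ := exists_walk_Ico ω hr.geo.adj i n
  obtain ⟨h1, h2⟩ := hr.geo.between h0 hij
  rw [← h1]
  refine le_antisymm ((ttS_le h0 w fun z hz => ?_).trans_eq (by rw [hw, h2, h1]))
    (tt_le_ttS h0 (linked_upper' h) (hr.above _) (hr.above _))
  obtain ⟨k, -, -, rfl⟩ := hs z hz
  exact hr.above k

theorem hb_on (hr : HRay κ ω h r) (hg : Good bb cg ω) (k : ℕ) :
    hb ω h r (r k) = -tt ω (r 0) (r k) := by
  have h0 := hg.nonneg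
  refine tendsto_nhds_unique ((hr.tail hg).tendsto_busIn h0 (linked_upper' h) hr.ev (hr.above k)) ?_
  refine tendsto_const_nhds.congr' (eventually_atTop.2 ⟨k, fun n hn => ?_⟩)
  show _ = ttIn (upper h) ω (r k) (r n) - tt ω (r 0) (r n)
  rw [hr.seg_upper h0 hn]
  ring

theorem hb_base (hr : HRay κ ω h r) (hg : Good bb cg ω) : hb ω h r (r 0) = 0 := by
  rw [hr.hb_on hg 0, tt_self hg.nonneg, neg_zero]

theorem hb_le_add (hr : HRay κ ω h r) (hg : Good bb cg ω) {p q : Pt} (hp : h ≤ p.2) (hq : h ≤ q.2) :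
    hb ω h r p ≤ ttIn (upper h) ω p q + hb ω h r q :=
  (hr.tail hg).busIn_le_add hg.nonneg (linked_upper' h) hr.ev hp hq

theorem abs_Pw (hr : HRay κ ω h r) (hg : Good bb cg ω) (hw : Gauge κ K rad W B ω h) :
    |Pw ω h W r| ≤ B := by
  have h1 := hr.hb_le_add hg (p := (-(W : ℤ), h)) (q := ((W : ℤ), h)) le_rfl le_rfl
  have h2 := hr.hb_le_add hg (p := ((W : ℤ), h)) (q := (-(W : ℤ), h)) le_rfl le_rfl
  unfold Pw
  rw [abs_le]
  constructor <;> linarith [hw.cost, hw.cost']

/-- Increments of the class are monotone in the order. -/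
theorem Pw_le (hr : HRay κ ω h r) (hs : HRay κ ω h s) (hg : Good bb cg ω)
    (hord : OrdUp (rayOf ω r) (rayOf ω s)) : Pw ω h W r ≤ Pw ω h W s := by
  have := monge_up hg.nonneg (hr.tail hg) (hs.tail hg) hr.up.rises hs.up.rises hord h
    (x := -(W : ℤ)) (x' := (W : ℤ)) (by omega)
  unfold Pw hb
  linarith

theorem Pw_le_of_ltUp (hr : HRay κ ω h r) (hs : HRay κ ω h s) (hg : Good bb cg ω)
    (hlt : LtUp r s) : Pw ω h W r ≤ Pw ω h W s :=
  hr.Pw_le hs hg (hlt.ordUp hr.up.1 hr.geo.adj hs.up.1 hs.geo.adj)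

theorem ltUp_of_Pw_lt (hr : HRay κ ω h r) (hs : HRay κ ω h s) (hg : Good bb cg ω)
    (hlt : Pw ω h W r < Pw ω h W s) : LtUp r s :=
  ltUp_of_not_ordUp (ω := ω) hr.up.1 hr.geo.adj hs.up.1 hs.geo.adj fun hord =>
    (hs.Pw_le hr hg hord).not_gt hlt

/-- Over the window the difference of two rays varies no more than between its ends. -/
theorem range (hr : HRay κ ω h r) (hs : HRay κ ω h s) (hg : Good bb cg ω) (hc : 0 < cg)
    (hK : 0 ≤ K) (hrad : 0 ≤ rad) (hw : Gauge κ K rad W B ω h) {p q : Pt}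
    (hp : InWindow κ K rad W ω h p) (hq : InWindow κ K rad W ω h q) :
    |(hb ω h s p - hb ω h r p) - (hb ω h s q - hb ω h r q)| ≤ |Pw ω h W s - Pw ω h W r| := by
  wlog hord : OrdUp (rayOf ω r) (rayOf ω s) generalizing r s
  · have := this hs hr ((ordUp_total hr.up.rises hs.up.rises hr.geo.adj hs.geo.adj).resolve_left hord)
    rw [← abs_neg, show -(hb ω h s p - hb ω h r p - (hb ω h s q - hb ω h r q)) =
      hb ω h r p - hb ω h s p - (hb ω h r q - hb ω h s q) by ring, abs_sub_comm (Pw ω h W s)]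
    exact this
  have key : ∀ {z : Pt}, InWindow κ K rad W ω h z →
      hb ω h s ((W : ℤ), h) - hb ω h r ((W : ℤ), h) ≤ hb ω h s z - hb ω h r z ∧
        hb ω h s z - hb ω h r z ≤ hb ω h s (-(W : ℤ), h) - hb ω h r (-(W : ℤ), h) := by
    rintro z (hz | ⟨hz, hzW⟩)
    · exact window_bound hg hc hK hrad hw hz (hr.tail hg) (hs.tail hg) hr.up.rises hs.up.rises
        hr.up.cone hs.up.cone hord
    · obtain ⟨x, rfl⟩ : ∃ x, z = (x, h) := ⟨z.1, Prod.ext rfl hz⟩
      have hm := fun {a c : ℤ} (hac : a ≤ c) =>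
        monge_up hg.nonneg (hr.tail hg) (hs.tail hg) hr.up.rises hs.up.rises hord h hac
      rw [abs_le] at hzW
      exact ⟨hm hzW.2, hm hzW.1⟩
  obtain ⟨p1, p2⟩ := key hp
  obtain ⟨q1, q2⟩ := key hq
  have := hr.Pw_le hs hg hord (W := W)
  unfold Pw at this ⊢
  rw [abs_of_nonneg (a := hb ω h s (-(W : ℤ), h) - _ - _) (by linarith), abs_le]
  constructor <;> linarith

end HRay

namespace Fork

theorem base_eq (hf : Fork κ ω h A C N) : A 0 = C 0 := hf.agree 0 N.zero_le

/-- The excess in terms of the half-plane Busemann function. -/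
theorem excess_hb (hf : Fork κ ω h A C N) (hg : Good bb cg ω) (hx : Excess ω η A N) {n : Pt}
    (hadj : grid.Adj (A N) n) (hne : n ≠ A (N + 1)) :
    hb ω h A (A N) + η ≤ ω s(A N, n) + hb ω h A n := by
  have hn : n ∈ upper h := by
    have := adj_snd_le hadj
    have := hf.high
    show h ≤ n.2
    omega
  have h0 := hg.nonneg
  rw [hf.left.hb_on hg, ← sub_le_iff_le_add']
  refine ge_of_tendsto ((hf.left.tail hg).tendsto_busIn h0 (linked_upper' h) hf.left.ev hn) ?_
  filter_upwards [eventually_gt_atTop N] with m hm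
  have h1 := tt_le_ttS h0 (linked_upper' h) hn (hf.left.above m : A m ∈ upper h) (ω := ω)
  have h2 := hx n hadj hne m hm
  have h3 := (hf.left.geo.between h0 hm.le).1
  show _ ≤ ttIn (upper h) ω n (A m) - tt ω (A 0) (A m)
  simp only [ttIn_eq]
  linarith

/-- The two rays of a fork with excess differ over the window. -/
theorem two_le_Pw (hf : Fork κ ω h A C N) (hg : Good bb cg ω) (hc : 0 < cg) (hK : 0 ≤ K)
    (hrad : 0 ≤ rad) (hw : Gauge κ K rad W B ω h) (hi : ForkIn κ K rad W ω h A C N)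
    (hxA : Excess ω η A N) (hxC : Excess ω η C N) : 2 * η ≤ |Pw ω h W C - Pw ω h W A| := by
  have hz : A N = C N := hf.agree N le_rfl
  have h0 := hg.nonneg
  have e1 := hf.excess_hb hg hxA (n := C (N + 1)) (hz ▸ hf.right.geo.adj N) hf.split.symm
  have e2 := hf.symm.excess_hb hg hxC (n := A (N + 1)) (hz ▸ hf.left.geo.adj N) hf.split
  have a1 : hb ω h A (A (N + 1)) = hb ω h A (A N) - ω s(A N, A (N + 1)) := by
    rw [hf.left.hb_on hg, hf.left.hb_on hg, ← hf.left.geo.edge h0 N,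
      (hf.left.geo.between h0 (Nat.le_succ N)).1]
    ring
  have c1 : hb ω h C (C (N + 1)) = hb ω h C (C N) - ω s(C N, C (N + 1)) := by
    rw [hf.right.hb_on hg, hf.right.hb_on hg, ← hf.right.geo.edge h0 N,
      (hf.right.geo.between h0 (Nat.le_succ N)).1]
    ring
  rw [← hz] at c1 e2
  refine le_trans ?_ ((le_abs_self _).trans
    (hf.left.range hf.right hg hc hK hrad hw (Or.inl hi.stepA) (Or.inl hi.stepC)))
  linarith

end Fork

end Vale.Agent.P158.V4
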