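import Mathlib
import Vale.Agent.P158.V4.Stars2Fork
import Vale.Agent.P158.V4.Strict

/-!
P158, module Stars2, sixth part: lowering the step of the right ray of a fork with excess along the
left one makes a fork with excess along both and changes the window little.
-/

namespace Vale.Agent.P158.V4

open Filter Topology

variable {bb cg κ η τ : ℝ} {ω y : Cfg} {h : ℤ} {W : ℕ} {A C : ℕ → Pt} {N : ℕ}

/-- The weights of the steps from a site are at least `η`. -/
def Floor (ω : Cfg) (η : ℝ) (z : Pt) : Prop := ∀ n, grid.Adj z n → η ≤ ω s(z, n)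

/-- The increment over the window of the passage times to the `m`th sites, one ray against the
other. -/
noncomputable def spread (ω : Cfg) (h : ℤ) (W : ℕ) (A C : ℕ → Pt) (m : ℕ) : ℝ :=
  ((ttIn (upper h) ω (-(W : ℤ), h) (C m) - ttIn (upper h) ω ((W : ℤ), h) (C m)) -
    (ttIn (upper h) ω (-(W : ℤ), h) (A m) - ttIn (upper h) ω ((W : ℤ), h) (A m)))

theorem Fork.tendsto_spread (hf : Fork κ ω h A C N) (hg : Good bb cg ω) :
    Tendsto (spread ω h W A C) atTop (𝓝 (Pw ω h W C - Pw ω h W A)) := by
  have key : ∀ {r : ℕ → Pt}, HRay κ ω h r → Tendsto (fun m =>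
      ttIn (upper h) ω (-(W : ℤ), h) (r m) - ttIn (upper h) ω ((W : ℤ), h) (r m)) atTop
      (𝓝 (Pw ω h W r)) := fun {r} hr =>
    (((hr.tail hg).tendsto_busIn hg.nonneg (linked_upper' h) hr.ev
      (p := (-(W : ℤ), h)) (le_refl h)).sub
      ((hr.tail hg).tendsto_busIn hg.nonneg (linked_upper' h) hr.ev
        (p := ((W : ℤ), h)) (le_refl h))).congr fun m => by simp only [rayOf]; ring
  exact (key hf.right).sub (key hf.left)

/-- Times inside a region after lowering one weight. -/
theorem ttIn_lower {p q : Pt} (h0 : ∀ e, 0 ≤ ω e) (hy : ∀ e, 0 ≤ y e)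
    (heq : ∀ e, e ≠ s(p, q) → y e = ω e) (he : y s(p, q) = ω s(p, q) - τ) (hτ : 0 ≤ τ) {S : Set Pt}
    (hS : Linked S) {u v : Pt} (hu : u ∈ S) (hv : v ∈ S) :
    ttIn S ω u v - τ ≤ ttIn S y u v ∧ ttIn S y u v ≤ ttIn S ω u v := by
  classical
  have hchange : change {s(p, q)} ω y = τ := by
    rw [change, Finset.sum_singleton, he, sub_sub_cancel, abs_of_nonneg hτ]
  simp only [ttIn_eq]
  refine ⟨le_ttS hS hu hv fun w hw => ?_, le_ttS hS hu hv fun w hw => ?_⟩
  · have h1 := abs_le.1 (wt_le_change (ω := ω) (ω' := y) {s(p, q)}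
      (fun e he' => heq e fun h => he' (Finset.mem_singleton.2 h)) w.bypass w.bypass_isPath)
    have h2 := ttS_le (S := S) h0 w.bypass fun z hz =>
      hw z (w.support_bypass_subset_support hz)
    have h3 := wt_bypass_le hy w
    rw [hchange] at h1
    linarith
  · refine (ttS_le hy w hw).trans (List.sum_le_sum fun e _ => ?_)
    by_cases h : e = s(p, q)
    · subst h; linarith
    · exact (heq e h).le

/-- The lowered fork. -/
theorem Fork.lower (hf : Fork κ ω h A C N) (hg : Good bb cg ω) (hx : Excess ω η A N)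
    (hfl : Floor ω η (A N)) (hy : ∀ e, 0 ≤ y e) (heq : ∀ e, e ≠ s(A N, C (N + 1)) → y e = ω e)
    (he : y s(A N, C (N + 1)) = ω s(A N, C (N + 1)) - τ) (hτ : 0 ≤ τ) (hτη : τ ≤ η) :
    Fork κ y h A C N ∧ Excess y (η - τ) A N ∧ Excess y τ C N ∧
      ∀ m, |spread y h W A C m - spread ω h W A C m| ≤ 4 * τ := by
  have h0 := hg.nonneg
  have hz : A N = C N := hf.agree N le_rfl
  have hCu : C 0 = A 0 := hf.base_eq.symm
  have gA := hf.left.geo
  have gC : GeoRay ω (A 0) C := hCu ▸ hf.right.geo
  have hxadj : grid.Adj (A N) (C (N + 1)) := hz ▸ hf.right.geo.adj N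
  set e := s(A N, C (N + 1)) with hedef
  have key := tt_lower_ge (p := A N) (q := C (N + 1)) h0 hy heq
  have hle : ∀ e', y e' ≤ ω e' := fun e' => by
    by_cases hh : e' = e
    · subst hh; linarith
    · exact (heq e' hh).le
  have hmono := tt_mono (x := ω) hy hle
  have hye : 0 ≤ y e := hy e
  have hex : tt ω (A 0) (C (N + 1)) = tt ω (A 0) (A N) + ω e := by
    have := gC.edge h0 N
    rw [(gC.between h0 (Nat.le_succ N)).1, ← hz] at this
    linarith
  have hinj := gA.inj hg.pos
  have hinjC := gC.inj hg.pos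
  -- times along the two rays
  have offA : ∀ k, s(A k, A (k + 1)) ≠ e := fun k hk => by
    rcases Sym2.eq_iff.1 hk with ⟨h1, h2⟩ | ⟨h1, h2⟩
    · obtain rfl := hinj h1
      exact hf.split h2
    · obtain rfl : k + 1 = N := hinj h2
      exact absurd (hinjC (h1.symm.trans (hf.agree k (by omega)))) (by omega)
  have hA : ∀ m, tt y (A 0) (A m) = tt ω (A 0) (A m) := fun m => by
    refine le_antisymm (hmono _ _) (le_trans (le_min le_rfl (le_min ?_ ?_)) (key _ _))
    · rcases le_or_gt m N with hm | hm
      · linarith [(gA.strictMono hg.pos).monotone hm, tt_nonneg h0 (u := C (N + 1)) (v := A m)]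
      · linarith [hx (C (N + 1)) hxadj hf.split.symm m hm, (gA.between h0 hm.le).1]
    · have h1 := hfl _ hxadj
      rcases le_or_gt m N with hm | hm
      · linarith [(gA.strictMono hg.pos).monotone hm, tt_nonneg h0 (u := A N) (v := A m)]
      · linarith [(gA.between h0 hm.le).1]
  have hC : ∀ m, tt y (A 0) (C m) = tt ω (A 0) (C m) - if m ≤ N then 0 else τ := fun m => by
    have hCN : tt ω (A 0) (C N) = tt ω (A 0) (A N) := by rw [hz]
    split_ifs with hm
    · rw [sub_zero, ← hf.agree m hm]
      exact hA m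
    · push Not at hm
      have e1 := (gC.between h0 (show N + 1 ≤ m by omega)).1
      have e2 := (gC.between h0 hm.le).1
      rw [← hz] at e2
      refine le_antisymm ?_ (le_trans (le_min ?_ (le_min ?_ ?_)) (key _ _))
      · have t1 := tt_triangle hy (A 0) (A N) (C m)
        have t2 := tt_triangle hy (A N) (C (N + 1)) (C m)
        linarith [hmono (A 0) (A N), hmono (C (N + 1)) (C m), tt_le_step hy hxadj]
      · linarith
      · linarith
      · linarith [hfl _ hxadj]
  have geoA : GeoRay y (A 0) A := ⟨rfl, gA.adj, fun m => by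
    rw [hA, ← gA.sum m]
    exact Finset.sum_congr rfl fun k _ => heq _ (offA k)⟩
  have geoC : GeoRay y (A 0) C := ⟨hCu, gC.adj, fun m => by
    rw [hC, ← gC.sum m]
    have hk : ∀ k, k ≠ N → y s(C k, C (k + 1)) = ω s(C k, C (k + 1)) := fun k hk => heq _ fun hh => by
      rcases Sym2.eq_iff.1 hh with ⟨h1, -⟩ | ⟨h1, h2⟩
      · exact hk (hinjC (h1.trans hz))
      · have h3 := hinjC h1
        have h4 := hinjC (h2.trans hz)
        omega
    split_ifs with hm
    · rw [sub_zero]
      exact Finset.sum_congr rfl fun k hk' => hk k (by have := Finset.mem_range.1 hk'; omega)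
    · have hN : N ∈ Finset.range m := Finset.mem_range.2 (not_le.1 hm)
      rw [eq_sub_iff_add_eq, ← Finset.sum_erase_add (Finset.range m) (fun k => y s(C k, C (k + 1))) hN,
        ← Finset.sum_erase_add (Finset.range m) (fun k => ω s(C k, C (k + 1))) hN,
        Finset.sum_congr rfl fun k hk' => hk k (Finset.ne_of_mem_erase hk'),
        show s(C N, C (N + 1)) = e by rw [hedef, hz], he]
      ring⟩
  refine ⟨⟨⟨hf.left.base, geoA, hf.left.up, hf.left.above⟩,
    ⟨hf.right.base, hCu.symm ▸ geoC, hf.right.up, hf.right.above⟩, hf.high, hf.agree, hf.split⟩,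
    fun n hadj hne m hm => ?_, fun n hadj hne m hm => ?_, fun m => ?_⟩
  · have a1 := hmono (A N) (A m)
    have a2 := hx n hadj hne m hm
    have a3 := hx (C (N + 1)) hxadj hf.split.symm m hm
    have a4 := hfl n hadj
    have a5 := tt_nonneg h0 (u := n) (v := A N)
    have a6 := tt_nonneg h0 (u := n) (v := C (N + 1))
    by_cases hn : n = C (N + 1)
    · subst hn
      refine le_trans ?_ (add_le_add_right (key (C (N + 1)) (A m)) _)
      rw [← hedef] at a4 ⊢
      rw [he, ← min_add_add_left, ← min_add_add_left]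
      refine le_min (by linarith) (le_min (by linarith) ?_)
      rw [tt_self h0]
      linarith
    · refine le_trans ?_ (add_le_add_right (key n (A m)) _)
      rw [heq _ fun hh => hn (Sym2.congr_right.1 hh), ← min_add_add_left, ← min_add_add_left]
      exact le_min (by linarith) (le_min (by linarith) (by linarith))
  · rw [← hz] at hadj ⊢
    have hn : n ≠ C (N + 1) := hne
    have b1 : tt y (A N) (C m) ≤ tt ω (A N) (C m) - τ := by
      have e1 := (gC.between h0 hm).1
      have e2 := (gC.between h0 hm.le).1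
      rw [← hz] at e2
      linarith [tt_triangle hy (A N) (C (N + 1)) (C m), hmono (C (N + 1)) (C m), tt_le_step hy hxadj]
    have b2 : tt ω (A N) (C m) ≤ ω s(A N, n) + tt ω n (C m) := by
      linarith [tt_triangle h0 (A N) n (C m), tt_le_step h0 hadj]
    have b3 : tt ω (A N) (C m) ≤ ω e + tt ω (C (N + 1)) (C m) := by
      linarith [tt_triangle h0 (A N) (C (N + 1)) (C m), tt_le_step h0 hxadj]
    have b4 := hfl n hadj
    have b5 := tt_nonneg h0 (u := n) (v := A N)
    have b6 := tt_nonneg h0 (u := n) (v := C (N + 1))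
    refine le_trans ?_ (add_le_add_right (key n (C m)) _)
    rw [heq _ fun hh => hn (Sym2.congr_right.1 hh), ← min_add_add_left, ← min_add_add_left]
    exact le_min (by linarith) (le_min (by linarith) (by linarith))
  · have hb : ∀ x r : Pt, x.2 = h → h ≤ r.2 → ttIn (upper h) ω x r - τ ≤ ttIn (upper h) y x r ∧
        ttIn (upper h) y x r ≤ ttIn (upper h) ω x r := fun x r hx hr =>
      ttIn_lower h0 hy heq he hτ (linked_upper' h) hx.ge hr
    have c1 := hb (-(W : ℤ), h) (A m) rfl (hf.left.above m)
    have c2 := hb ((W : ℤ), h) (A m) rfl (hf.left.above m)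
    have c3 := hb (-(W : ℤ), h) (C m) rfl (hf.right.above m)
    have c4 := hb ((W : ℤ), h) (C m) rfl (hf.right.above m)
    rw [abs_le]
    unfold spread
    constructor <;> linarith [c1.1, c1.2, c2.1, c2.2, c3.1, c3.2, c4.1, c4.2]

end Vale.Agent.P158.V4
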