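import Vale.Agent.P158.V4.StarBase
import Vale.Agent.P158.V4.Class

/-!
P158: translations of regular sites. Cones of rays have their vertex at the origin, so a translation
costs an arbitrarily small part of the aperture.
-/

namespace Vale.Agent.P158.V4

open Filter Topology

theorem moveCfg_shift (ω : Cfg) (a : Pt) : moveCfg a ω = ω ∘ Sym2.map (shift a) := rfl

/-- Passage times in regions after a translation. -/
theorem ttIn_move (ω : Cfg) (a : Pt) (S : Set Pt) (u v : Pt) :
    ttIn ((fun z => z + a) ⁻¹' S) (moveCfg a ω) u v = ttIn S ω (u + a) (v + a) :=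
  ttIn_map (shift a) (shift (-a)) (fun z => show z + a + -a = z by simp)
    (fun z => show z + -a + a = z by simp) S u v

theorem preimage_upper (a : Pt) (h : ℤ) : (fun z : Pt => z + a) ⁻¹' upper (h + a.2) = upper h := by
  ext z
  simp [mem_upper]

theorem preimage_lower (a : Pt) (h : ℤ) : (fun z : Pt => z + a) ⁻¹' lower (h + a.2) = lower h := by
  ext z
  simp [mem_lower]

theorem busIn_move (ω : Cfg) (a : Pt) (S : Set Pt) (r : Ray) (p : Pt) :
    busIn ((fun z => z + a) ⁻¹' S) (moveCfg a ω) r p = busIn S ω (r.shift a) (p + a) := by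
  unfold busIn
  congr 1
  funext n
  rw [ttIn_move]
  rfl

theorem Ray.shift_shift (a : Pt) (r : Ray) : (r.shift (-a)).shift a = r := by
  simp [Ray.shift]

theorem IsTail.unshift {ω : Cfg} {r : Ray} (hr : IsTail ω r) (h0 : ∀ e, 0 ≤ ω e) (a : Pt) :
    IsTail (moveCfg a ω) (r.shift (-a)) := by
  refine IsTail.shift ?_ (fun e => h0 _)
  rw [moveCfg_neg]
  exact hr

theorem rises_shift {r : Ray} (hr : Rises r) (a : Pt) : Rises (r.shift a) := by
  refine tendsto_atTop.2 fun M => (tendsto_atTop.1 hr (M - a.2)).mono fun n hn => ?_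
  show M ≤ (r.pt n + a).2
  rw [Prod.snd_add]
  omega

theorem falls_shift {r : Ray} (hr : Falls r) (a : Pt) : Falls (r.shift a) := by
  refine tendsto_atBot.2 fun M => (tendsto_atBot.1 hr (M - a.2)).mono fun n hn => ?_
  show (r.pt n + a).2 ≤ M
  rw [Prod.snd_add]
  omega

theorem coneRay_shift {r : Ray} {κ κ' : ℝ} (hc : ConeRay κ r) (hκ : 0 ≤ κ) (hlt : κ < κ')
    (hd : Rises r ∨ Falls r) (a : Pt) : ConeRay κ' (r.shift a) := by
  set T := (|(a.1 : ℝ)| + κ' * |(a.2 : ℝ)|) / (κ' - κ) with hT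
  have hev : ∀ᶠ n in atTop, T ≤ |((r.pt n).2 : ℝ)| := by
    rcases hd with h | h
    · filter_upwards [tendsto_atTop.1 h ⌈T⌉] with n hn
      exact (Int.le_ceil T).trans ((Int.cast_le.2 hn).trans (le_abs_self _))
    · filter_upwards [tendsto_atBot.1 h (-⌈T⌉)] with n hn
      have h1 : ((r.pt n).2 : ℝ) ≤ -(⌈T⌉ : ℝ) := by exact_mod_cast hn
      linarith [Int.le_ceil T, neg_abs_le ((r.pt n).2 : ℝ)]
  refine (hc.and hev).mono fun n hn => ?_
  obtain ⟨h1, h2⟩ := hn
  rw [hT, div_le_iff₀ (by linarith)] at h2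
  show |((r.pt n + a).1 : ℝ)| ≤ κ' * |((r.pt n + a).2 : ℝ)|
  simp only [Prod.fst_add, Prod.snd_add, Int.cast_add]
  have h3 := abs_add_le ((r.pt n).1 : ℝ) (a.1 : ℝ)
  have h4 := abs_add_le (((r.pt n).2 : ℝ) + a.2) (-(a.2 : ℝ))
  rw [abs_neg, show ((r.pt n).2 : ℝ) + a.2 + -(a.2 : ℝ) = ((r.pt n).2 : ℝ) by ring] at h4
  have h5 := mul_le_mul_of_nonneg_left h4 (by linarith : 0 ≤ κ')
  linarith

theorem inCone_shift {K r : ℝ} {u z a : Pt} : InCone K r (u + a) (z + a) ↔ InCone K r u z := by
  simp [InCone]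

/-- A regular site of the translated field gives one of the field, with less aperture. -/
theorem Steered.shift {ω : Cfg} {κ κ' K r : ℝ} {u a : Pt} (h : Steered κ' K r (moveCfg a ω) u)
    (h0 : ∀ e, 0 ≤ ω e) (hκ : 0 ≤ κ) (hlt : κ < κ') : Steered κ K r ω (u + a) := by
  have hcone : ∀ ray, ConeRay κ ray → Rises ray ∨ Falls ray → ConeRay κ' (ray.shift (-a)) :=
    fun ray hc hd => coneRay_shift hc hκ hlt hd (-a)
  have hout : ∀ z, ¬ InCone K r (u + a) z → ¬ InCone K r u (z - a) := fun z hz hc =>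
    hz (by rw [← inCone_shift (a := a), sub_add_cancel] at hc; exact hc)
  refine ⟨fun ray hr hc hd z hz => ?_, fun ray hr hc hris x hx z hzu hz => ?_,
    fun ray hr hc hfal x hx z hzl hz => ?_⟩
  · have := h.full _ (hr.unshift h0 a) (hcone ray hc hd)
      (hd.imp (fun h => rises_shift h (-a)) fun h => falls_shift h (-a)) (z - a) (hout z hz)
    rw [← bus_shift h0, ← bus_shift h0, Ray.shift_shift, tt_move h0, sub_add_cancel] at this
    exact this
  · have hx' : |((x - a.1 - u.1 : ℤ) : ℝ)| ≤ r := by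
      rwa [show x - a.1 - u.1 = x - (u + a).1 by rw [Prod.fst_add]; ring]
    have hz' : z - a ∈ upper u.2 := by
      rw [mem_upper, Prod.snd_sub]
      have := mem_upper.1 hzu
      rw [Prod.snd_add] at this
      omega
    have := h.above _ (hr.unshift h0 a) (hcone ray hc (Or.inl hris)) (rises_shift hris (-a))
      (x - a.1) hx' (z - a) hz' (hout z hz)
    rw [← preimage_upper a u.2, busIn_move, busIn_move, ttIn_move, Ray.shift_shift, sub_add_cancel,
      show ((x - a.1, u.2) : Pt) + a = (x, (u + a).2) by ext <;> simp] at this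
    rwa [show u.2 + a.2 = (u + a).2 from rfl] at this
  · have hx' : |((x - a.1 - u.1 : ℤ) : ℝ)| ≤ r := by
      rwa [show x - a.1 - u.1 = x - (u + a).1 by rw [Prod.fst_add]; ring]
    have hz' : z - a ∈ lower u.2 := by
      rw [mem_lower, Prod.snd_sub]
      have := mem_lower.1 hzl
      rw [Prod.snd_add] at this
      omega
    have := h.below _ (hr.unshift h0 a) (hcone ray hc (Or.inr hfal)) (falls_shift hfal (-a))
      (x - a.1) hx' (z - a) hz' (hout z hz)
    rw [← preimage_lower a u.2, busIn_move, busIn_move, ttIn_move, Ray.shift_shift, sub_add_cancel,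
      show ((x - a.1, u.2) : Pt) + a = (x, (u + a).2) by ext <;> simp] at this
    rwa [show u.2 + a.2 = (u + a).2 from rfl] at this

end Vale.Agent.P158.V4
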