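import Mathlib
import Vale.Agent.P158.V4.Stars2Lower
import Vale.Agent.P158.V4.LaneNull
import Vale.Agent.P158.V4.Selection
import Vale.Agent.P158.V4.SteerShift

/-!
P158, module Stars2, seventh part: marked sites, forks with bounded spread, and the measurability of
these events.
-/

namespace Vale.Agent.P158.V4

open MeasureTheory Filter Topology

/-- The path goes down inside the double cone of aperture `κ`. -/
def DownPath (κ : ℝ) (r : ℕ → Pt) : Prop := Falls ⟨r, fun _ => 0⟩ ∧ ConeRay κ ⟨r, fun _ => 0⟩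

/-- The step to `n` loses at least `σ` against the path at its `N`th site. -/
def GapTo (ω : Cfg) (r : ℕ → Pt) (N : ℕ) (n : Pt) (σ : ℝ) : Prop :=
  ∀ m, N < m → tt ω (r N) (r m) + σ ≤ ω s(r N, n) + tt ω n (r m)

/-- A lower and two upper rays from `z`, of which the lower one continues both upper ones. -/
structure Tri (κ : ℝ) (ω : Cfg) (z : Pt) (a b c : ℕ → Pt) : Prop where
  geoA : GeoRay ω z a
  geoB : GeoRay ω z b
  geoC : GeoRay ω z c
  down : DownPath κ a
  upB : UpPath κ b
  upC : UpPath κ c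
  addB : ∀ i j, tt ω (a i) (b j) = tt ω z (a i) + tt ω z (b j)
  addC : ∀ i j, tt ω (a i) (c j) = tt ω z (a i) + tt ω z (c j)
  ne : b 1 ≠ c 1

/-- A marked site: both upper rays have excess at least `η` and so have the weights there. -/
def Mark (κ η : ℝ) (ω : Cfg) (z : Pt) : Prop :=
  ∃ a b c, Tri κ ω z a b c ∧ Excess ω η b 0 ∧ Excess ω η c 0 ∧ Floor ω η z

/-- A fork at `z` through `n` with excess along the other ray and spread at most `L`. -/
def Wide (κ η : ℝ) (W : ℕ) (L : ℝ) (ω : Cfg) (z n : Pt) : Prop :=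
  ∃ A C N, A N = z ∧ C (N + 1) = n ∧ Fork κ ω 0 A C N ∧ |(A 0).1| ≤ (W : ℤ) ∧ Excess ω η A N ∧
    ∀ᶠ m in atTop, |spread ω 0 W A C m| ≤ L

/-- A fork at `z` with excess along both rays and spread at most `L`. -/
def Both (κ η : ℝ) (W : ℕ) (L : ℝ) (ω : Cfg) (z : Pt) : Prop :=
  ∃ A C N, A N = z ∧ Fork κ ω 0 A C N ∧ |(A 0).1| ≤ (W : ℤ) ∧ Excess ω η A N ∧ Excess ω η C N ∧
    ∀ᶠ m in atTop, |spread ω 0 W A C m| ≤ L

theorem Tri.symm {κ : ℝ} {ω : Cfg} {z : Pt} {a b c : ℕ → Pt} (t : Tri κ ω z a b c) :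
    Tri κ ω z a c b :=
  ⟨t.geoA, t.geoC, t.geoB, t.down, t.upC, t.upB, t.addC, t.addB, t.ne.symm⟩

/-! ### Translations -/

section Shift

variable {κ κ' η σ : ℝ} {ω : Cfg} {a z : Pt} {r s : ℕ → Pt} {N : ℕ} {n : Pt}

theorem GeoRay.shift (h0 : ∀ e, 0 ≤ ω e) (hr : GeoRay (moveCfg a ω) z r) :
    GeoRay ω (z + a) fun k => r k + a := by
  refine ⟨congrArg (· + a) hr.start, fun k => ?_, fun k => ?_⟩
  · exact (V4.shift a).map_rel (hr.adj k)
  · rw [← tt_move h0, ← hr.sum k]
    exact Finset.sum_congr rfl fun i _ => (moveCfg_edge a _ _ ω).symm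

theorem GapTo.shift (h0 : ∀ e, 0 ≤ ω e) (h : GapTo (moveCfg a ω) r N n σ) :
    GapTo ω (fun k => r k + a) N (n + a) σ := fun m hm => by
  have := h m hm
  rwa [moveCfg_edge, tt_move h0, tt_move h0] at this

theorem Excess.shift (h0 : ∀ e, 0 ≤ ω e) (h : Excess (moveCfg a ω) η r N) :
    Excess ω η (fun k => r k + a) N := fun n hadj hne => by
  have h1 : grid.Adj (r N) (n + -a) := by simpa [V4.shift] using (V4.shift (-a)).map_rel hadj
  have h2 : n + -a ≠ r (N + 1) := fun e => hne (by simp [← e])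
  have h3 := GapTo.shift h0 (n := n + -a) (σ := η) (fun m hm => h (n + -a) h1 h2 m hm)
  intro m hm
  have h4 := h3 m hm
  rwa [neg_add_cancel_right] at h4

theorem Tri.shift (h0 : ∀ e, 0 ≤ ω e) (hκ : 0 ≤ κ) (hlt : κ < κ') {ra rb rc : ℕ → Pt}
    (t : Tri κ (moveCfg a ω) z ra rb rc) :
    Tri κ' ω (z + a) (fun k => ra k + a) (fun k => rb k + a) fun k => rc k + a := by
  have up : ∀ {r : ℕ → Pt}, UpPath κ r → UpPath κ' fun k => r k + a := fun {r} hu =>
    ⟨rises_shift (r := ⟨r, fun _ => 0⟩) hu.1 a,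
      coneRay_shift (r := ⟨r, fun _ => 0⟩) hu.2 hκ hlt (Or.inl hu.1) a⟩
  refine ⟨t.geoA.shift h0, t.geoB.shift h0, t.geoC.shift h0,
    ⟨falls_shift (r := ⟨ra, fun _ => 0⟩) t.down.1 a,
      coneRay_shift (r := ⟨ra, fun _ => 0⟩) t.down.2 hκ hlt (Or.inr t.down.1) a⟩, up t.upB, up t.upC,
    fun i j => ?_, fun i j => ?_, fun e => t.ne (add_right_cancel e)⟩
  · simp only [← tt_move h0]; exact t.addB i j
  · simp only [← tt_move h0]; exact t.addC i j

theorem Mark.shift (h0 : ∀ e, 0 ≤ ω e) (hκ : 0 ≤ κ) (hlt : κ < κ')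
    (h : Mark κ η (moveCfg a ω) z) : Mark κ' η ω (z + a) := by
  obtain ⟨ra, rb, rc, t, hb, hc, hf⟩ := h
  refine ⟨_, _, _, t.shift h0 hκ hlt, hb.shift h0, hc.shift h0, fun n hn => ?_⟩
  have := hf (n + -a) (by simpa [V4.shift] using (V4.shift (-a)).map_rel hn)
  rwa [moveCfg_edge, neg_add_cancel_right] at this

end Shift

/-! ### Measurability -/

section Meas

variable {X : Type*} [MeasurableSpace X] {f : X → Cfg} {r s : X → ℕ → Pt}

theorem measurable_pick {β γ : Type*} [Countable β] [MeasurableSpace β] [MeasurableSingletonClass β]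
    [MeasurableSpace γ] {F : β → Cfg → γ} (hF : ∀ x, Measurable (F x)) {g : X → β}
    (hf : Measurable f) (hg : Measurable g) : Measurable fun p => F (g p) (f p) :=
  (measurable_from_prod_countable_right (f := fun q : β × Cfg => F q.1 q.2) hF).comp (hg.prodMk hf)

theorem measurable_tt_at (hf : Measurable f) {g h : X → Pt} (hg : Measurable g) (hh : Measurable h) :
    Measurable fun p => tt (f p) (g p) (h p) :=
  measurable_pick (F := fun (x : Pt × Pt) ω => tt ω x.1 x.2) (fun x => measurable_tt _ _) hf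
    (hg.prodMk hh)

theorem measurable_ttIn_at (S : Set Pt) (hf : Measurable f) {g h : X → Pt} (hg : Measurable g)
    (hh : Measurable h) : Measurable fun p => ttIn S (f p) (g p) (h p) :=
  measurable_pick (F := fun (x : Pt × Pt) ω => ttIn S ω x.1 x.2) (fun x => measurable_ttIn S _ _) hf
    (hg.prodMk hh)

theorem measurable_edge_at (hf : Measurable f) {g h : X → Pt} (hg : Measurable g) (hh : Measurable h) :
    Measurable fun p => f p s(g p, h p) :=
  measurable_pick (F := fun (x : Pt × Pt) ω => ω s(x.1, x.2)) (fun _ => measurable_pi_apply _) hf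
    (hg.prodMk hh)

theorem measurable_rel {g h : X → Pt} (hg : Measurable g) (hh : Measurable h) (R : Pt → Pt → Prop) :
    Measurable fun p => R (g p) (h p) :=
  (Measurable.of_discrete (f := fun x : Pt × Pt => R x.1 x.2)).comp (hg.prodMk hh)

theorem measurable_le' {g h : X → ℝ} (hg : Measurable g) (hh : Measurable h) :
    Measurable fun p => g p ≤ h p :=
  measurableSet_setOfPred.1 (measurableSet_le hg hh)

theorem measurable_eq' {g h : X → ℝ} (hg : Measurable g) (hh : Measurable h) :
    Measurable fun p => g p = h p :=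
  measurableSet_setOfPred.1 (measurableSet_eq_fun hg hh)

variable (hf : Measurable f) (hr : ∀ n, Measurable fun p => r p n) (hs : ∀ n, Measurable fun p => s p n)
include hf hr

theorem measurable_geoRay {u : X → Pt} (hu : Measurable u) :
    Measurable fun p => GeoRay (f p) (u p) (r p) := by
  have e : (fun p => GeoRay (f p) (u p) (r p)) = fun p => r p 0 = u p ∧
      (∀ n, grid.Adj (r p n) (r p (n + 1))) ∧
        ∀ n, ∑ k ∈ Finset.range n, f p s(r p k, r p (k + 1)) = tt (f p) (u p) (r p n) :=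
    funext fun p => propext ⟨fun h => ⟨h.1, h.2, h.3⟩, fun h => ⟨h.1, h.2.1, h.2.2⟩⟩
  rw [e]
  exact (measurable_rel (hr 0) hu Eq).and ((Measurable.forall fun n =>
    measurable_rel (hr n) (hr (n + 1)) grid.Adj).and (Measurable.forall fun n =>
      measurable_eq' (Finset.measurable_sum _ fun k _ => measurable_edge_at hf (hr k) (hr (k + 1)))
        (measurable_tt_at hf hu (hr n))))

omit hf in
theorem measurable_path (κ : ℝ) :
    (Measurable fun p => UpPath κ (r p)) ∧ Measurable fun p => DownPath κ (r p) := by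
  have hc : Measurable fun p => ConeRay κ ⟨r p, fun _ => 0⟩ := by
    simp only [ConeRay, eventually_atTop]
    exact Measurable.exists fun N => Measurable.forall fun n => Measurable.forall fun _ =>
      (Measurable.of_discrete (f := fun z : Pt => |(z.1 : ℝ)| ≤ κ * |(z.2 : ℝ)|)).comp (hr n)
  refine ⟨?_, ?_⟩
  · refine Measurable.and ?_ hc
    simp only [Rises, tendsto_atTop, eventually_atTop]
    exact Measurable.forall fun M => Measurable.exists fun N => Measurable.forall fun n =>
      Measurable.forall fun _ => (Measurable.of_discrete (f := fun z : Pt => M ≤ z.2)).comp (hr n)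
  · refine Measurable.and ?_ hc
    simp only [Falls, tendsto_atBot, eventually_atTop]
    exact Measurable.forall fun M => Measurable.exists fun N => Measurable.forall fun n =>
      Measurable.forall fun _ => (Measurable.of_discrete (f := fun z : Pt => z.2 ≤ M)).comp (hr n)

theorem measurable_excess (η : ℝ) {N : X → ℕ} (hN : Measurable N) :
    Measurable fun p => Excess (f p) η (r p) (N p) := by
  have hN' : ∀ k, Measurable fun p => r p (N p + k) := fun k =>
    (measurable_from_prod_countable_right (f := fun q : ℕ × X => r q.2 (q.1 + k)) fun i => hr (i + k)).comp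
      (hN.prodMk measurable_id)
  simp only [Excess]
  exact Measurable.forall fun n => (measurable_rel (hN' 0) measurable_const grid.Adj).imp
    ((measurable_rel measurable_const (hN' 1) (· ≠ ·)).imp (Measurable.forall fun m =>
      ((Measurable.of_discrete (f := fun i => i < m)).comp hN).imp (measurable_le'
        ((measurable_tt_at hf (hN' 0) (hr m)).add measurable_const)
        ((measurable_edge_at hf (hN' 0) measurable_const).add
          (measurable_tt_at hf measurable_const (hr m))))))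

omit hr in
theorem measurable_floor (η : ℝ) (z : Pt) : Measurable fun p => Floor (f p) η z := by
  simp only [Floor]
  exact Measurable.forall fun n => Measurable.forall fun _ =>
    measurable_le' measurable_const ((measurable_pi_apply _).comp hf)

theorem measurable_hray (κ : ℝ) (h : ℤ) : Measurable fun p => HRay κ (f p) h (r p) := by
  have e : (fun p => HRay κ (f p) h (r p)) = fun p => (r p 0).2 = h ∧
      GeoRay (f p) (r p 0) (r p) ∧ UpPath κ (r p) ∧ ∀ n, h ≤ (r p n).2 :=
    funext fun p => propext ⟨fun h => ⟨h.1, h.2, h.3, h.4⟩, fun h => ⟨h.1, h.2.1, h.2.2.1, h.2.2.2⟩⟩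
  rw [e]
  exact ((Measurable.of_discrete (f := fun z : Pt => z.2 = h)).comp (hr 0)).and
    ((measurable_geoRay hf hr (hr 0)).and ((measurable_path hr κ).1.and (Measurable.forall fun n =>
      (Measurable.of_discrete (f := fun z : Pt => h ≤ z.2)).comp (hr n))))

include hs in
theorem measurable_spread (h : ℤ) (W m : ℕ) :
    Measurable fun p => spread (f p) h W (r p) (s p) m := by
  unfold spread
  exact (((measurable_ttIn_at _ hf measurable_const (hs m)).sub
    (measurable_ttIn_at _ hf measurable_const (hs m))).sub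
      ((measurable_ttIn_at _ hf measurable_const (hr m)).sub
        (measurable_ttIn_at _ hf measurable_const (hr m))))

include hs in
theorem measurable_tri (κ : ℝ) (z : Pt) {t : X → ℕ → Pt} (ht : ∀ n, Measurable fun p => t p n) :
    Measurable fun p => Tri κ (f p) z (r p) (s p) (t p) := by
  have e : (fun p => Tri κ (f p) z (r p) (s p) (t p)) = fun p =>
      GeoRay (f p) z (r p) ∧ GeoRay (f p) z (s p) ∧ GeoRay (f p) z (t p) ∧ DownPath κ (r p) ∧
      UpPath κ (s p) ∧ UpPath κ (t p) ∧
      (∀ i j, tt (f p) (r p i) (s p j) = tt (f p) z (r p i) + tt (f p) z (s p j)) ∧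
      (∀ i j, tt (f p) (r p i) (t p j) = tt (f p) z (r p i) + tt (f p) z (t p j)) ∧ s p 1 ≠ t p 1 :=
    funext fun p => propext ⟨fun h => ⟨h.1, h.2, h.3, h.4, h.5, h.6, h.7, h.8, h.9⟩,
      fun ⟨a, b, c, d, e, g, i, j, k⟩ => ⟨a, b, c, d, e, g, i, j, k⟩⟩
  rw [e]
  have add : ∀ {u : X → ℕ → Pt}, (∀ n, Measurable fun p => u p n) → Measurable fun p =>
      ∀ i j, tt (f p) (r p i) (u p j) = tt (f p) z (r p i) + tt (f p) z (u p j) := fun hu =>
    Measurable.forall fun i => Measurable.forall fun j => measurable_eq'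
      (measurable_tt_at hf (hr i) (hu j))
      ((measurable_tt_at hf measurable_const (hr i)).add (measurable_tt_at hf measurable_const (hu j)))
  exact (measurable_geoRay hf hr measurable_const).and ((measurable_geoRay hf hs measurable_const).and
    ((measurable_geoRay hf ht measurable_const).and ((measurable_path hr κ).2.and
      ((measurable_path hs κ).1.and ((measurable_path ht κ).1.and ((add hs).and
        ((add ht).and (measurable_rel (hs 1) (ht 1) (· ≠ ·)))))))))

end Meas

/-- Projections of Borel sets are null measurable. -/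
theorem nullMeasurableSet_proj (G : Measure ℝ) [IsProbabilityMeasure G] {Y : Type*}
    [TopologicalSpace Y] [PolishSpace Y] [MeasurableSpace Y] [BorelSpace Y] {P : Cfg → Y → Prop}
    (hP : Measurable fun p : Cfg × Y => P p.1 p.2) :
    NullMeasurableSet {ω | ∃ y, P ω y} (law G) := by
  have hB : MeasurableSet {p : Cfg × Y | P p.1 p.2} := measurableSet_setOfPred.2 hP
  have he : {ω | ∃ y, P ω y} = Prod.fst '' {p : Cfg × Y | P p.1 p.2} := by
    ext ω; simp
  rw [he]
  exact nullMeasurable_of_analytic (hB.analyticSet.image_of_continuous continuous_fst) _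

set_option synthInstance.maxSize 512 in
theorem nullMeasurableSet_mark (G : Measure ℝ) [IsProbabilityMeasure G] (κ η : ℝ) (z : Pt) :
    NullMeasurableSet {ω | Mark κ η ω z} (law G) := by
  have h := nullMeasurableSet_proj G (Y := (ℕ → Pt) × (ℕ → Pt) × (ℕ → Pt)) (P := fun ω r =>
    Tri κ ω z r.1 r.2.1 r.2.2 ∧ Excess ω η r.2.1 0 ∧ Excess ω η r.2.2 0 ∧ Floor ω η z) ?_
  · simpa only [Mark, Prod.exists] using h
  · have ha : ∀ n, Measurable fun p : Cfg × (ℕ → Pt) × (ℕ → Pt) × (ℕ → Pt) => p.2.1 n := fun n => by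
      fun_prop
    have hb : ∀ n, Measurable fun p : Cfg × (ℕ → Pt) × (ℕ → Pt) × (ℕ → Pt) => p.2.2.1 n := fun n => by
      fun_prop
    have hc : ∀ n, Measurable fun p : Cfg × (ℕ → Pt) × (ℕ → Pt) × (ℕ → Pt) => p.2.2.2 n := fun n => by
      fun_prop
    exact (measurable_tri measurable_fst ha hb κ z hc).and
      ((measurable_excess measurable_fst hb η measurable_const).and
        ((measurable_excess measurable_fst hc η measurable_const).and
          (measurable_floor measurable_fst η z)))

set_option synthInstance.maxSize 512 in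
theorem nullMeasurableSet_both (G : Measure ℝ) [IsProbabilityMeasure G] (κ η : ℝ) (W : ℕ) (L : ℝ)
    (z : Pt) : NullMeasurableSet {ω | Both κ η W L ω z} (law G) := by
  have h := nullMeasurableSet_proj G (Y := (ℕ → Pt) × (ℕ → Pt) × ℕ) (P := fun ω r =>
    r.1 r.2.2 = z ∧ Fork κ ω 0 r.1 r.2.1 r.2.2 ∧ |(r.1 0).1| ≤ (W : ℤ) ∧ Excess ω η r.1 r.2.2 ∧ Excess ω η r.2.1 r.2.2 ∧
      ∀ᶠ m in atTop, |spread ω 0 W r.1 r.2.1 m| ≤ L) ?_
  · simpa only [Both, Prod.exists] using h
  · have hf : Measurable fun p : Cfg × (ℕ → Pt) × (ℕ → Pt) × ℕ => p.1 := measurable_fst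
    have ha : ∀ n, Measurable fun p : Cfg × (ℕ → Pt) × (ℕ → Pt) × ℕ => p.2.1 n := fun n => by fun_prop
    have hc : ∀ n, Measurable fun p : Cfg × (ℕ → Pt) × (ℕ → Pt) × ℕ => p.2.2.1 n := fun n => by fun_prop
    have hN : Measurable fun p : Cfg × (ℕ → Pt) × (ℕ → Pt) × ℕ => p.2.2.2 := by fun_prop
    have at' : ∀ {u : Cfg × (ℕ → Pt) × (ℕ → Pt) × ℕ → ℕ → Pt}, (∀ n, Measurable fun p => u p n) →
        ∀ k, Measurable fun p => u p (p.2.2.2 + k) := fun {u} hu k =>
      (measurable_from_prod_countable_right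
        (f := fun q : ℕ × (Cfg × (ℕ → Pt) × (ℕ → Pt) × ℕ) => u q.2 (q.1 + k)) fun i => hu (i + k)).comp
          (hN.prodMk measurable_id)
    have hfork : Measurable fun p : Cfg × (ℕ → Pt) × (ℕ → Pt) × ℕ =>
        Fork κ p.1 0 p.2.1 p.2.2.1 p.2.2.2 := by
      have e : (fun p : Cfg × (ℕ → Pt) × (ℕ → Pt) × ℕ => Fork κ p.1 0 p.2.1 p.2.2.1 p.2.2.2) =
          fun p => HRay κ p.1 0 p.2.1 ∧ HRay κ p.1 0 p.2.2.1 ∧ 0 < (p.2.1 p.2.2.2).2 ∧
            (∀ k, k ≤ p.2.2.2 → p.2.1 k = p.2.2.1 k) ∧ p.2.1 (p.2.2.2 + 1) ≠ p.2.2.1 (p.2.2.2 + 1) :=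
        funext fun p => propext ⟨fun h => ⟨h.1, h.2, h.3, h.4, h.5⟩,
          fun ⟨a, b, c, d, e⟩ => ⟨a, b, c, d, e⟩⟩
      rw [e]
      exact (measurable_hray hf ha κ 0).and ((measurable_hray hf hc κ 0).and
        (((Measurable.of_discrete (f := fun z : Pt => 0 < z.2)).comp (at' ha 0)).and
          ((Measurable.forall fun k => ((Measurable.of_discrete (f := fun i => k ≤ i)).comp hN).imp
            (measurable_rel (ha k) (hc k) Eq)).and (measurable_rel (at' ha 1) (at' hc 1) (· ≠ ·)))))
    have hsp : Measurable fun p : Cfg × (ℕ → Pt) × (ℕ → Pt) × ℕ =>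
        ∀ᶠ m in atTop, |spread p.1 0 W p.2.1 p.2.2.1 m| ≤ L := by
      simp only [eventually_atTop]
      exact Measurable.exists fun M => Measurable.forall fun m => Measurable.forall fun _ =>
        measurable_le' (measurable_spread hf ha hc 0 W m).abs measurable_const
    exact (measurable_rel (at' ha 0) measurable_const Eq).and (hfork.and
      (((Measurable.of_discrete (f := fun z : Pt => |z.1| ≤ (W : ℤ))).comp (ha 0)).and
      ((measurable_excess hf ha η hN).and ((measurable_excess hf hc η hN).and hsp))))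

end Vale.Agent.P158.V4
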