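import Mathlib
import Vale.Agent.P158.V4.Stars2Mark
import Vale.Agent.P158.V4.Regular
import Vale.Agent.P158.V4.FacesEncl

/-!
P158, module Stars2, twelfth part: a geodesic ray from a site whose sites lie on geodesics to far
points of a rising ray of the class rises inside the enclosing aperture.
-/

namespace Vale.Agent.P158.V4

open MeasureTheory Filter Topology

variable {μ : ℝ × ℝ → ℝ} {bb cg κ κ1 κ' k k2 k3 α ε γ K : ℝ} {ω : Cfg} {j0 rad : ℕ} {w : Pt} {ray : Ray}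
  {r : ℕ → Pt}

/-- The margin between an enclosed slope and the faces beyond the enclosing one. -/
theorem Encl.margin (h : IsLatticeNorm μ) (hE : Encl μ κ) (hκ : 0 ≤ κ) (K : ℝ) :
    ∃ κ1, StrictSlope μ κ1 ∧ ∃ k, κ < k ∧ k < κ1 ∧ ∃ a, 0 ≤ a ∧ a < μ (1, 0) ∧
      (∀ s ρ, |s| ≤ (κ + 3 * k) / 4 → Supports μ (s, 1) ρ → |ρ.1| ≤ a) ∧
      ∃ γ > 0, ∀ x ∈ Set.Icc κ1 K, μ (k, 1) + a * (x - k) + γ ≤ μ (x, 1) := by
  obtain ⟨κ1, hs, k, hk, hEk⟩ := hE
  have hk0 : 0 < k := lt_of_le_of_lt hκ hk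
  obtain ⟨ρ, hρ⟩ := h.exists_supports (k, 1)
  have hk1 : k < κ1 := by
    by_contra hle
    obtain ⟨σ, hσ⟩ := h.exists_supports (κ1, 1)
    exact hEk κ1 κ1 σ (by rw [abs_of_nonneg hs.1]; exact not_lt.1 hle) (le_abs_self _) hσ hσ
  have hside : ∀ s σ, |s| < k → Supports μ (s, 1) σ → |σ.1| ≤ ρ.1 := by
    intro s σ hsk hσ
    rw [abs_lt] at hsk
    have h1 := h.supports_mono hsk.2 hσ hρ
    have h2 := h.supports_mono (show -s < k by linarith) (h.supports_flip (a := σ.1) (b := σ.2) hσ) hρ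
    exact abs_le.2 ⟨by linarith, h1⟩
  obtain ⟨σ0, hσ0⟩ := h.exists_supports (0, 1)
  have ha0 : 0 ≤ ρ.1 := (abs_nonneg _).trans (hside 0 σ0 (by simpa using hk0) hσ0)
  obtain ⟨κ'', hκ'', hlt⟩ := hs.2
  obtain ⟨σ, hσ⟩ := h.exists_supports (κ'', 1)
  have ham : ρ.1 < μ (1, 0) := (h.supports_mono (by linarith) hρ hσ).trans_lt (hlt σ hσ)
  refine ⟨κ1, hs, k, hk, hk1, ρ.1, ha0, ham, fun s σ hsk hσ => hside s σ (by linarith) hσ, ?_⟩
  have e : μ (k, 1) = ρ.1 * k + ρ.2 := by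
    have := hρ.2
    simp only [mul_one] at this
    linarith
  set φ : ℝ → ℝ := fun x => μ (x, 1) - (ρ.1 * x + ρ.2) with hφ
  have hpos : ∀ x, κ1 ≤ x → 0 < φ x := by
    intro x hx
    have h1 := hρ.1 (x, 1)
    simp only [mul_one] at h1
    rcases h1.lt_or_eq with h2 | h2
    · exact sub_pos.2 h2
    · exact absurd (⟨hρ.1, by simpa using h2⟩ : Supports μ (x, 1) ρ)
        (hEk k x ρ (abs_of_nonneg hk0.le).le (hx.trans (le_abs_self x)) hρ)
  rcases lt_or_ge K κ1 with hK | hK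
  · exact ⟨1, one_pos, fun x hx => absurd (hx.1.trans hx.2) (not_le.2 hK)⟩
  have hcont : Continuous φ := (h.continuous.comp (continuous_id.prodMk continuous_const)).sub
    ((continuous_const.mul continuous_id).add continuous_const)
  obtain ⟨x0, hx0, hmin⟩ := isCompact_Icc.exists_isMinOn (Set.nonempty_Icc.2 hK) hcont.continuousOn
  refine ⟨φ x0, hpos x0 hx0.1, fun x hx => ?_⟩
  have h3 : φ x0 ≤ φ x := hmin hx
  simp only [hφ] at h3 ⊢
  rw [e]
  linarith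

/-- The regularity used at a site. -/
structure Tilted (μ : ℝ × ℝ → ℝ) (κ k2 k3 bb α ε K : ℝ) (rad j0 : ℕ) (ω : Cfg) (w : Pt) : Prop where
  steer : Steered κ K rad ω w
  shape : Shape μ ε j0 ω w
  fwd : Fwd k2 k3 bb α j0 ω w
  fwd' : Fwd k2 k3 bb α j0 (ω ∘ Sym2.map flipX) (flipX w)

/-- The parameters of the estimate. -/
structure Margins (μ : ℝ × ℝ → ℝ) (κ k k2 k3 κ1 α ε γ K : ℝ) : Prop where
  norm : IsLatticeNorm μ
  κ0 : 0 ≤ κ
  hκ : κ < k2
  h23 : k2 < k3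
  hk : 0 ≤ k
  hk1 : k < κ1
  hK : 1 ≤ K
  α0 : 0 ≤ α
  ε0 : 0 ≤ ε
  hαm : α + ε ≤ μ (1, 0)
  γ0 : 0 < γ
  far : ∀ x ∈ Set.Icc κ1 K, μ (k, 1) + α * (x - k) + 3 * ε * (x + 1) + γ ≤ μ (x, 1)

/-- The lower bound for the Busemann function on the line of a site. -/
theorem line_low_bound (d : Margins μ κ k k2 k3 κ1 α ε γ K) (hg : Good bb cg ω)
    (hle : ∀ e, ω e ≤ bb) (ht : Tilted μ κ k2 k3 bb α ε K rad j0 ω w) (hr : IsTail ω ray) (hcone : ConeRay κ ray)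
    (hrise : Rises ray) (x : ℤ) :
    bus ω ray w - ((α + ε) * |((x - w.1 : ℤ) : ℝ)| + (bb + ε) * j0) ≤ bus ω ray (x, w.2) := by
  have h0 := hg.nonneg
  have hb0 : 0 ≤ bb := (hg.nonneg s(w, w)).trans (hle _)
  have h1 : bus ω ray w ≤ busIn (upper w.2) ω ray w :=
    hr.bus_le_busIn h0 (linked_upper' w.2) (hrise.eventually_upper w.2) (le_refl w.2)
  suffices busIn (upper w.2) ω ray w - ((α + ε) * |((x - w.1 : ℤ) : ℝ)| + (bb + ε) * j0) ≤
      bus ω ray (x, w.2) by linarith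
  obtain ⟨M, hM⟩ := hr.busIn_le h0 (linked_upper' w.2) (hrise.eventually_upper w.2)
  refine ge_of_tendsto (hr.tendsto_bus h0 (x, w.2)) ?_
  filter_upwards [eventually_ge_atTop M, hrise.eventually_upper w.2] with n hn hnS
  rw [le_sub_iff_add_le]
  refine le_tt fun p => ?_
  obtain ⟨C, q, s, hC, hp, hS⟩ :=
    exists_last_visit p w.2 hnS ⟨(x, w.2), p.start_mem_support, le_refl w.2⟩
  obtain ⟨c, rfl⟩ : ∃ c : ℤ, C = (c, w.2) := ⟨C.1, Prod.ext rfl hC⟩
  have h1 : tt ω (x, w.2) (c, w.2) ≤ wt ω q := tt_le h0 q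
  have h2 : busIn (upper w.2) ω ray (c, w.2) + ray.acc n ≤ wt ω s := by
    have := hM (c, w.2) (le_refl w.2) n hn
    have := ttS_le (S := upper w.2) h0 s hS
    simp only [ttIn_eq] at *
    linarith
  rw [hp, wt_append]
  set D := |((x - w.1 : ℤ) : ℝ)|
  set W := |((c - x : ℤ) : ℝ)|
  have hD : 0 ≤ D := abs_nonneg _
  have hW : 0 ≤ W := abs_nonneg _
  have hj : (0 : ℝ) ≤ j0 := Nat.cast_nonneg _
  have hcu : |((c - w.1 : ℤ) : ℝ)| ≤ D + W := by
    rw [show ((c - w.1 : ℤ) : ℝ) = ((x - w.1 : ℤ) : ℝ) + ((c - x : ℤ) : ℝ) by push_cast; ring]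
    exact abs_add_le _ _
  have hlx : (l1 w (x, w.2) : ℝ) = D := by simp [l1, D, Nat.cast_natAbs, abs_sub_comm]
  have hlc : (l1 w (c, w.2) : ℝ) = |((c - w.1 : ℤ) : ℝ)| := by
    simp [l1, Nat.cast_natAbs, abs_sub_comm]
  have h3 := (abs_le.1 (ht.shape (j0 + D + W) (by linarith) (x, w.2) (c, w.2) (by rw [hlx]; linarith)
    (by rw [hlc]; linarith))).1
  have e : toR (((c, w.2) : Pt) - ((x, w.2) : Pt)) = (((c - x : ℤ) : ℝ), 0) := by simp [toR]
  rw [e, d.norm.horizontal] at h3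
  have h4 := drop_bound h0 hle hb0 hr hrise hcone d.κ0 d.hκ d.h23 d.α0 ht.fwd ht.fwd' c
  have h5 := mul_le_mul_of_nonneg_left hcu d.α0
  have h6 := mul_le_mul_of_nonneg_right d.hαm hW
  linarith

/-- Geodesics to far points of the ray stay in the cone of a regular site. -/
theorem eventually_onGeo_inCone (hg : Good bb cg ω) (hc : 0 < cg) {R : ℝ}
    (hst : Steered κ K R ω w) (hr : IsTail ω ray) (hcone : ConeRay κ ray)
    (hd : Rises ray ∨ Falls ray) :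
    ∀ᶠ N in atTop, ∀ y, OnGeo ω w (ray.pt N) y → InCone K R w y := by
  refine (eventually_geo_inCone hr hg.nonneg hst hcone hd).mono fun N hN y hy => ?_
  obtain ⟨p, hp⟩ := hg.exists_shortest hc w (ray.pt N)
  exact hN p hp.2.le y (hg.mem_of_onGeo hc hp hy)

/-- A limit of geodesics to far points of a rising ray rises inside the cone of a regular site. -/
theorem rises_of_approach (hg : Good bb cg ω) (hc : 0 < cg) {R : ℝ} (hK : 0 ≤ K) (hR : 0 ≤ R)
    (hst : Steered κ K R ω w) (hr : IsTail ω ray) (hcone : ConeRay κ ray) (hrise : Rises ray)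
    (hinj : Function.Injective r) (happ : ∀ m, ∃ᶠ N in atTop, OnGeo ω w (ray.pt N) (r m)) :
    Rises ⟨r, fun _ => 0⟩ ∧ ∀ m, InCone K R w (r m) := by
  have h0 := hg.nonneg
  have hgeo := eventually_onGeo_inCone hg hc hst hr hcone (Or.inl hrise)
  have hin : ∀ m, InCone K R w (r m) := fun m => by
    obtain ⟨N, h1, h2⟩ := ((happ m).and_eventually hgeo).exists
    exact h2 _ h1
  -- no late site is below the site
  have hup : ∀ᶠ m in atTop, w.2 ≤ (r m).2 := by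
    obtain ⟨B, hB⟩ := ((finite_cone_level K R w w.2).image fun y => tt ω w y).bddAbove
    set F : Set Pt := {v | tt ω w v ≤ B}
    have hfin : (r ⁻¹' F).Finite := ((hg.escape hc) w _).preimage hinj.injOn
    refine (Filter.eventually_cofinite.2 (hfin.subset fun m hm => ?_)).filter_mono Nat.cofinite_eq_atTop.ge
    simp only [Set.mem_ofPred_eq, not_le] at hm
    obtain ⟨N, hon, hNc, hNh⟩ :=
      ((happ m).and_eventually (hgeo.and (hrise.eventually_upper w.2))).exists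
    obtain ⟨p, hp⟩ := hg.exists_shortest hc (r m) (ray.pt N)
    obtain ⟨y, q, s, hy, hps, -⟩ :=
      exists_last_visit p w.2 hNh ⟨r m, p.start_mem_support, hm.le⟩
    have hyp : OnGeo ω (r m) (ray.pt N) y := onGeo_of_mem h0 hp (by
      rw [hps, SimpleGraph.Walk.mem_support_append_iff]
      exact Or.inl q.end_mem_support)
    have hwy : OnGeo ω w (ray.pt N) y := by
      unfold OnGeo at hon hyp ⊢
      linarith [tt_triangle h0 w (r m) y, tt_triangle h0 w y (ray.pt N)]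
    have hl : tt ω w y ≤ B := hB ⟨y, ⟨hy, hNc y hwy⟩, rfl⟩
    show tt ω w (r m) ≤ B
    unfold OnGeo at hon hyp hwy
    linarith [tt_nonneg h0 (u := r m) (v := y)]
  refine ⟨tendsto_atTop.2 fun M => ?_, hin⟩
  have hfin : (r ⁻¹' ⋃ h ∈ Finset.Ico w.2 M, {z : Pt | z.2 = h ∧ InCone K R w z}).Finite :=
    (Set.Finite.biUnion (Finset.finite_toSet _) fun h _ => finite_cone_level K R w h).preimage
      hinj.injOn
  refine (hup.and (hfin.eventually_cofinite_notMem.filter_mono Nat.cofinite_eq_atTop.ge)).mono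
    fun m hm => ?_
  by_contra hlt
  exact hm.2 (Set.mem_iUnion₂.2 ⟨(r m).2, Finset.mem_Ico.2 ⟨hm.1, not_le.1 hlt⟩, rfl, hin m⟩)

/-- A limit of geodesics to far points of a rising ray rises inside the enclosing aperture. -/
theorem upPath_of_approach (d : Margins μ κ k k2 k3 κ1 α ε γ K) (hg : Good bb cg ω) (hc : 0 < cg)
    (hle : ∀ e, ω e ≤ bb) (ht : Tilted μ κ k2 k3 bb α ε K rad j0 ω w) (hlt : κ1 < κ')
    (hr : IsTail ω ray) (hcone : ConeRay κ ray) (hrise : Rises ray) (hinj : Function.Injective r)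
    (happ : ∀ m, ∃ᶠ N in atTop, OnGeo ω w (ray.pt N) (r m)) : UpPath κ' r := by
  have h0 := hg.nonneg
  obtain ⟨hris, hin⟩ := rises_of_approach hg hc (zero_le_one.trans d.hK) (Nat.cast_nonneg rad)
    ht.steer hr hcone hrise hinj happ
  refine ⟨hris, ?_⟩
  -- the slope
  set C := (bb + ε) * j0 + 2 * ε * j0 + μ (1, 0) with hC
  obtain ⟨M, hM⟩ : ∃ M : ℤ, ∀ Y : ℤ, M ≤ Y → (rad : ℝ) ≤ Y ∧ C < γ * Y ∧
      |(w.1 : ℝ)| + κ' * |(w.2 : ℝ)| ≤ (κ' - κ1) * Y := by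
    refine ⟨max (rad : ℤ) (max ⌈C / γ + 1⌉ ⌈(|(w.1 : ℝ)| + κ' * |(w.2 : ℝ)|) / (κ' - κ1)⌉),
      fun Y hY => ?_⟩
    simp only [max_le_iff, Int.ceil_le] at hY
    obtain ⟨h1, h2, h3⟩ := hY
    refine ⟨by exact_mod_cast h1, ?_, by rwa [div_le_iff₀' (sub_pos.2 hlt)] at h3⟩
    have h4 : C / γ < Y := by linarith
    rwa [div_lt_iff₀' d.γ0] at h4
  show ∀ᶠ n in atTop, |((r n).1 : ℝ)| ≤ κ' * |((r n).2 : ℝ)|
  refine (tendsto_atTop.1 hris (w.2 + max M 1)).mono fun m hm => ?_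
  change w.2 + max M 1 ≤ (r m).2 at hm
  obtain ⟨Y, hY⟩ : ∃ Y : ℤ, (r m).2 = w.2 + Y := ⟨(r m).2 - w.2, by ring⟩
  obtain ⟨X, hX⟩ : ∃ X : ℤ, (r m).1 = w.1 + X := ⟨(r m).1 - w.1, by ring⟩
  obtain ⟨hYr, hYC, hYw⟩ := hM Y (by omega)
  have hY1 : (1 : ℝ) ≤ Y := by exact_mod_cast (show 1 ≤ Y by omega)
  have hcz := hin m
  unfold InCone at hcz
  rw [hX, hY, add_sub_cancel_left, add_sub_cancel_left, abs_of_pos (by linarith : (0 : ℝ) < Y),
    max_eq_left hYr] at hcz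
  suffices hsl : |(X : ℝ)| < κ1 * Y by
    have h1 : |((r m).1 : ℝ)| ≤ |(w.1 : ℝ)| + |(X : ℝ)| := by
      rw [hX, Int.cast_add]; exact abs_add_le _ _
    have h2 : (Y : ℝ) - |(w.2 : ℝ)| ≤ |((r m).2 : ℝ)| := by
      rw [hY, Int.cast_add]
      linarith [le_abs_self ((w.2 : ℝ) + Y), neg_abs_le (w.2 : ℝ)]
    have h3 : 0 ≤ κ' := by linarith [d.hk, d.hk1]
    have h4 := mul_le_mul_of_nonneg_left h2 h3
    linarith
  by_contra hge
  push Not at hge
  set x := |(X : ℝ)| / Y with hx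
  have hxY : |(X : ℝ)| = x * Y := by rw [hx, div_mul_cancel₀ _ (by linarith : (Y : ℝ) ≠ 0)]
  have hx1 : κ1 ≤ x := by rw [hx, le_div_iff₀ (by linarith)]; exact hge
  have hx2 : x ≤ K := by rw [hx, div_le_iff₀ (by linarith)]; exact hcz
  have hfar := d.far x ⟨hx1, hx2⟩
  -- the point of the line to compare with
  set c1 : ℤ := ⌊|(X : ℝ)| - k * Y⌋ with hc1
  have hc0 : 0 ≤ c1 := by
    refine Int.floor_nonneg.2 ?_
    linarith [mul_le_mul_of_nonneg_right d.hk1.le (show (0 : ℝ) ≤ Y by linarith)]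
  have hc0' : (0 : ℝ) ≤ c1 := by exact_mod_cast hc0
  have hcl : (c1 : ℝ) ≤ |(X : ℝ)| - k * Y := Int.floor_le _
  have hcu : |(X : ℝ)| - k * Y < c1 + 1 := Int.lt_floor_add_one _
  obtain ⟨c, hcabs, hdiff⟩ : ∃ c : ℤ, |(c : ℝ)| = c1 ∧
      μ ((X : ℝ) - c, Y) = μ (|(X : ℝ)| - c1, Y) := by
    rcases le_or_gt 0 X with h | h
    · exact ⟨c1, abs_of_nonneg hc0', by rw [abs_of_nonneg (show (0 : ℝ) ≤ X by exact_mod_cast h)]⟩
    · refine ⟨-c1, by rw [Int.cast_neg, abs_neg, abs_of_nonneg hc0'], ?_⟩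
      rw [abs_of_neg (show (X : ℝ) < 0 by exact_mod_cast h), ← d.norm.flip]
      congr 2
      push_cast
      ring
  set R : ℝ := j0 + |(X : ℝ)| + Y with hR
  have hj : (0 : ℝ) ≤ j0 := Nat.cast_nonneg _
  have hX0 := abs_nonneg (X : ℝ)
  have hlz : (l1 w (r m) : ℝ) = |(X : ℝ)| + Y := by
    simp only [l1, hX, hY, Nat.cast_add, Nat.cast_natAbs, sub_add_cancel_left, Int.cast_abs,
      Int.cast_neg, abs_neg]
    rw [abs_of_pos (by linarith : (0 : ℝ) < (Y : ℝ))]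
  have hlc : (l1 w (w.1 + c, w.2) : ℝ) = |(c : ℝ)| := by simp [l1, Nat.cast_natAbs]
  -- times by the shape theorem
  have s1 := (abs_le.1 (ht.shape R (by linarith) w (r m)
    (by simp [l1]; linarith) (by rw [hlz]; linarith))).1
  have s2 := (abs_le.1 (ht.shape R (by linarith) (w.1 + c, w.2) (r m)
    (by rw [hlc, hcabs]; linarith [mul_nonneg d.hk (show (0 : ℝ) ≤ Y by linarith)])
    (by rw [hlz]; linarith))).2
  have e1 : toR (r m - w) = ((X : ℝ), (Y : ℝ)) := by simp [toR, hX, hY]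
  have e2 : toR (r m - (w.1 + c, w.2)) = ((X : ℝ) - c, (Y : ℝ)) := by simp [toR, hX, hY]
  rw [e1] at s1
  rw [e2, hdiff] at s2
  -- the Busemann function
  have hbw : bus ω ray w = tt ω w (r m) + bus ω ray (r m) :=
    tendsto_nhds_unique_of_frequently_eq (hr.tendsto_bus h0 w)
      ((hr.tendsto_bus h0 (r m)).const_add _) ((happ m).mono fun N hN => by
        unfold OnGeo at hN
        linarith)
  have hl := line_low_bound d hg hle ht hr hcone hrise (w.1 + c)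
  rw [add_sub_cancel_left, hcabs] at hl
  have hadd := hr.bus_le_add h0 (w.1 + c, w.2) (r m)
  -- norms
  have hn1 : μ (|(X : ℝ)| - c1, Y) ≤ Y * μ (k, 1) + μ (1, 0) := by
    have h1 := d.norm.tri (k * Y, Y) (|(X : ℝ)| - c1 - k * Y, 0)
    rw [Prod.mk_add_mk, add_zero, d.norm.horizontal,
      show k * Y + (|(X : ℝ)| - c1 - k * Y) = |(X : ℝ)| - c1 by ring] at h1
    have h2 : μ (k * Y, (Y : ℝ)) = Y * μ (k, 1) := by
      rw [← d.norm.homog Y (by linarith)]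
      congr 1
      ext <;> simp [mul_comm]
    have h3 : μ (1, 0) * |(|(X : ℝ)| - c1 - k * Y)| ≤ μ (1, 0) :=
      mul_le_of_le_one_right d.norm.axis_pos.le (abs_le.2 ⟨by linarith, by linarith⟩)
    linarith
  have hn2 : μ ((X : ℝ), (Y : ℝ)) = Y * μ (x, 1) := by
    have : μ ((X : ℝ), (Y : ℝ)) = μ (|(X : ℝ)|, Y) := by
      rcases le_or_gt 0 (X : ℝ) with h | h
      · rw [abs_of_nonneg h]
      · rw [abs_of_neg h, d.norm.flip]
    rw [this, ← d.norm.homog Y (by linarith), hxY]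
    congr 1
    ext <;> simp [mul_comm]
  have a1 : (α + ε) * c1 ≤ (α + ε) * (x * Y - k * Y) := by
    rw [← hxY]
    exact mul_le_mul_of_nonneg_left hcl (by linarith [d.α0, d.ε0])
  have a2 := mul_le_mul_of_nonneg_left hfar (show (0 : ℝ) ≤ Y by linarith)
  have a3 : 0 ≤ ε * (k * Y) := mul_nonneg d.ε0 (mul_nonneg d.hk (by linarith))
  have a4 : 0 ≤ ε * Y := mul_nonneg d.ε0 (by linarith)
  rw [hR, hxY] at s1 s2
  rw [hn2] at s1
  rw [hxY] at hn1
  nlinarith [hl, hadd, hn1, hbw]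

end Vale.Agent.P158.V4
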