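import Mathlib
import Vale.Agent.P158.V4.StarBase
import Vale.Agent.P158.V4.Class
import Vale.Agent.P158.V4.SteerShift
import Vale.Agent.P158.V4.Interfaces

/-!
P158, stars: regularity of sites is carried by translations at the price of a slightly smaller
aperture of the rays, so the probability of regularity can be taken independent of the site.
-/

namespace Vale.Agent.P158.V4

open MeasureTheory Filter Topology

variable {ω : Cfg} {κ κ' K : ℝ}

/-- The shape theorem around a site is the shape theorem around the origin after translation. -/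
theorem Shape.shift {μ : ℝ × ℝ → ℝ} {ε r : ℝ} {a : Pt} (h0 : ∀ e, 0 ≤ ω e)
    (h : Shape μ ε r (moveCfg a ω) (0, 0)) : Shape μ ε r ω a := by
  intro R hR p q hp hq
  have h1 := h R hR (p - a) (q - a) ?_ ?_
  · rw [tt_move h0] at h1
    simpa using h1
  · simpa [l1] using hp
  · simpa [l1] using hq

/-- Regularity of sites as events whose probability does not depend on the site. -/
theorem exists_regular (G : Measure ℝ) [IsProbabilityMeasure G] {μ : ℝ × ℝ → ℝ}
    (hG : ∀ᵐ t ∂G, 0 < t) (hsteer : SteerStmt G μ) (hκ0 : 0 ≤ κ)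
    (hκ : κ < κ') (hκ' : StrictSlope μ κ') :
    ∃ K : ℝ, 1 ≤ K ∧ ∃ A : ℕ → Pt → Set Cfg, (∀ r u, MeasurableSet (A r u)) ∧
      (∀ᵐ ω ∂law G, ∀ (r : ℕ) (u : Pt), ω ∈ A r u → Steered κ K r ω u) ∧
      ∀ ε > (0 : ℝ), ∃ N : ℕ, ∀ r ≥ N, ∀ u, (law G).real (A r u)ᶜ ≤ ε := by
  obtain ⟨K, hK, A, hAm, hA, hlim⟩ := hsteer κ' hκ'
  have hmp : ∀ u, MeasurePreserving (moveCfg u) (law G) (law G) := fun u =>
    ⟨measurable_moveCfg u, map_moveCfg G u⟩
  refine ⟨K, hK, fun r u => moveCfg u ⁻¹' A r (0, 0), fun r u => measurable_moveCfg u (hAm r _),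
    ?_, fun ε hε => ?_⟩
  · filter_upwards [law_all G measurableSet_Ioi hG,
      ae_all_iff.2 fun u => (hmp u).quasiMeasurePreserving.ae hA] with ω h0 hω r u hu
    have h := Steered.shift (hω u r (0, 0) hu) (fun e => (h0 e : 0 < ω e).le) hκ0 hκ
    rwa [show ((0, 0) : Pt) + u = u by simp] at h
  · obtain ⟨N, hN⟩ := eventually_atTop.1 ((hlim (0, 0)).eventually
      (eventually_le_nhds (ENNReal.ofReal_pos.2 hε)))
    refine ⟨N, fun r hr u => ?_⟩
    rw [← Set.preimage_compl, measureReal_def, (hmp u).measure_preimage (hAm r _).compl.nullMeasurableSet]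
    exact ENNReal.toReal_le_of_le_ofReal hε.le (hN r hr)

end Vale.Agent.P158.V4
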