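import Mathlib
import Vale.Agent.P158.V4.Stars2Fork

/-!
P158, module Stars2, fourth part: forks with both excesses bounded below and a bounded spread over
the window are few: at most a constant times the length of the window.
-/

namespace Vale.Agent.P158.V4

open Filter Topology

variable {bb cg κ K rad B η d : ℝ} {W : ℕ} {ω : Cfg} {h : ℤ} {A C D S A₁ C₁ A₂ C₂ : ℕ → Pt}
  {N N₁ N₂ : ℕ}

/-- At a fork with excess the ray `D`, close to the left one, loses the excess along the right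
one. -/
theorem Fork.after (hf : Fork κ ω h A C N) (hg : Good bb cg ω) (hc : 0 < cg) (hK : 0 ≤ K)
    (hrad : 0 ≤ rad) (hw : Gauge κ K rad W B ω h) (hi : ForkIn κ K rad W ω h A C N)
    (hx : Excess ω η A N) (hD : HRay κ ω h D) (hd : |Pw ω h W D - Pw ω h W A| ≤ d) {i : ℕ}
    (hiN : N < i) :
    hb ω h D (C 0) ≤ tt ω (C 0) (C i) + hb ω h D (C i) - (η - d) := by
  have h0 := hg.nonneg
  have hz : A N = C N := hf.agree N le_rfl
  have hy : C (N + 1) ≠ A (N + 1) := hf.split.symm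
  have e1 := hf.excess_hb hg hx (n := C (N + 1)) (hz ▸ hf.right.geo.adj N) hy
  have e2 := abs_le.1 ((hf.left.range hD hg hc hK hrad hw (p := A N) (q := C (N + 1))
    (Or.inl hi.site) (Or.inl hi.stepC)).trans hd)
  have e3 := hD.hb_le_add hg (p := C 0) (q := C N) (hf.right.base.ge) (hf.right.above N)
  have e4 := hD.hb_le_add hg (p := C (N + 1)) (q := C i) (hf.right.above _) (hf.right.above i)
  rw [hf.right.seg_upper h0 N.zero_le, tt_self h0] at e3
  rw [hf.right.seg_upper h0 (show N + 1 ≤ i by omega)] at e4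
  have e5 := hf.right.geo.edge h0 N
  rw [(hf.right.geo.between h0 (Nat.le_succ N)).1, ← hz] at e5
  rw [← hz] at e3
  linarith [e2.1, e2.2]

/-- A ray through the site of a fork which follows one of its rays in the window follows it there. -/
theorem Fork.next_eq (hf : Fork κ ω h A C N) (hg : Good bb cg ω) (hc : 0 < cg) (hK : 0 ≤ K)
    (hrad : 0 ≤ rad) (hw : Gauge κ K rad W B ω h) (hx : Excess ω η A N) (hS : HRay κ ω h S)
    (hd : |Pw ω h W A - Pw ω h W S| ≤ d) (hdη : d < η) {k M : ℕ} (hkM : k < M) (hk : S k = A N)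
    (h0w : InWindow κ K rad W ω h (S 0)) (hMw : InWindow κ K rad W ω h (S M)) :
    S (k + 1) = A (N + 1) := by
  have h0 := hg.nonneg
  by_contra hne
  have e1 := hf.excess_hb hg hx (n := S (k + 1)) (hk ▸ hS.geo.adj k) hne
  have e2 := abs_le.1 ((hS.range hf.left hg hc hK hrad hw hMw h0w).trans hd)
  rw [hS.hb_on hg M, hS.hb_base hg] at e2
  have e3 := hf.left.hb_le_add hg (p := S 0) (q := S k) hS.base.ge (hS.above k)
  have e4 := hf.left.hb_le_add hg (p := S (k + 1)) (q := S M) (hS.above _) (hS.above M)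
  rw [hS.seg_upper h0 k.zero_le, tt_self h0] at e3
  rw [hS.seg_upper h0 (show k + 1 ≤ M by omega)] at e4
  have e5 := hS.geo.edge h0 k
  rw [(hS.geo.between h0 (Nat.le_succ k)).1] at e5
  rw [← hk] at e1
  linarith [e2.1, e2.2]

/-- Two forks with excess, close over the window, take values on their feet that differ by nearly
the excess. -/
theorem separation (hg : Good bb cg ω) (hc : 0 < cg) (hK : 0 ≤ K) (hrad : 0 ≤ rad)
    (hw : Gauge κ K rad W B ω h) (hf₁ : Fork κ ω h A₁ C₁ N₁) (hf₂ : Fork κ ω h A₂ C₂ N₂)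
    (hi₁ : ForkIn κ K rad W ω h A₁ C₁ N₁) (hi₂ : ForkIn κ K rad W ω h A₂ C₂ N₂)
    (hA₁ : Excess ω η A₁ N₁) (hC₁ : Excess ω η C₁ N₁) (hA₂ : Excess ω η A₂ N₂)
    (hC₂ : Excess ω η C₂ N₂) (ho₁ : Pw ω h W A₁ < Pw ω h W C₁)
    (ho₂ : Pw ω h W A₂ < Pw ω h W C₂) (hdA : |Pw ω h W A₁ - Pw ω h W A₂| ≤ d)
    (hdC : |Pw ω h W C₁ - Pw ω h W C₂| ≤ d) (hdη : d < η) (hne : A₁ N₁ ≠ A₂ N₂)
    (hfoot : (A₁ 0).1 ≤ (A₂ 0).1) :
    η - d ≤ (hb ω h C₁ (A₁ 0) - hb ω h A₂ (A₁ 0)) - (hb ω h C₁ (A₂ 0) - hb ω h A₂ (A₂ 0)) := by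
  have h0 := hg.nonneg
  have p1 := hf₁.two_le_Pw hg hc hK hrad hw hi₁ hA₁ hC₁
  have p2 := hf₂.two_le_Pw hg hc hK hrad hw hi₂ hA₂ hC₂
  rw [abs_of_pos (sub_pos.2 ho₁)] at p1
  rw [abs_of_pos (sub_pos.2 ho₂)] at p2
  have hA := abs_le.1 hdA
  have hlt21 : LtUp A₂ C₁ := hf₂.left.ltUp_of_Pw_lt hf₁.right hg (W := W) (by linarith)
  have hlt12 : LtUp A₁ C₂ := hf₁.left.ltUp_of_Pw_lt hf₂.right hg (W := W) (by linarith)
  have hb1 : hb ω h C₁ (A₁ 0) = 0 := by rw [hf₁.base_eq]; exact hf₁.right.hb_base hg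
  have hb2 : hb ω h A₂ (A₂ 0) = 0 := hf₂.left.hb_base hg
  have value : ∀ {i j : ℕ}, C₁ i = A₂ j → N₁ < i ∨ N₂ < j →
      η - d ≤ (hb ω h C₁ (A₁ 0) - hb ω h A₂ (A₁ 0)) - (hb ω h C₁ (A₂ 0) - hb ω h A₂ (A₂ 0)) := by
    intro i j hp hor
    rw [hb1, hb2]
    have f1 : hb ω h C₁ (C₁ i) = -tt ω (A₁ 0) (C₁ i) := by
      rw [hf₁.right.hb_on hg, hf₁.base_eq]
    have f2 : hb ω h A₂ (A₂ j) = -tt ω (A₂ 0) (A₂ j) := hf₂.left.hb_on hg j
    have g1 := hf₂.left.hb_le_add hg (p := C₁ 0) (q := C₁ i) hf₁.right.base.ge (hf₁.right.above i)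
    have g2 := hf₁.right.hb_le_add hg (p := A₂ 0) (q := A₂ j) hf₂.left.base.ge (hf₂.left.above j)
    rw [hf₁.right.seg_upper h0 i.zero_le, tt_self h0, ← hf₁.base_eq] at g1
    rw [hf₂.left.seg_upper h0 j.zero_le, tt_self h0] at g2
    rw [hp] at f1 g1
    rcases hor with h' | h'
    · have := hf₁.after hg hc hK hrad hw hi₁ hA₁ hf₂.left (abs_sub_comm (Pw ω h W A₂) (Pw ω h W A₁) ▸ hdA) h'
      rw [hp, ← hf₁.base_eq] at this
      linarith
    · have := hf₂.symm.after hg hc hK hrad hw (hi₂.symm hf₂) hC₂ hf₁.right hdC h'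
      linarith
  -- the two rays meet
  obtain ⟨i, j, hp⟩ : ∃ i j, C₁ i = A₂ j := by
    obtain ⟨H, ⟨hlt, hH⟩, ⟨n, hn⟩, m, hm⟩ := ((hlt21.and (eventually_ge_atTop h)).and
      ((eventually_firstVisit hf₁.right.up.1 hf₁.right.geo.adj).and
        (eventually_firstVisit hf₂.left.up.1 hf₂.left.geo.adj))).exists
    rw [fx_eq hn, fx_eq hm] at hlt
    obtain ⟨i, -, j, -, hij⟩ := rays_meet hf₁.right.geo.adj hf₂.left.geo.adj hf₁.right.base
      hf₂.left.base hf₁.right.above hf₂.left.above hH (hf₁.base_eq ▸ hfoot) hn hm hlt.le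
    exact ⟨i, j, hij⟩
  by_cases hcase : ∃ i j, C₁ i = A₂ j ∧ (N₁ < i ∨ N₂ < j)
  · obtain ⟨i, j, h1, h2⟩ := hcase
    exact value h1 h2
  push Not at hcase
  obtain ⟨hiN, hjN⟩ := hcase i j hp
  exfalso
  have hz1 : A₁ N₁ = C₁ N₁ := hf₁.agree N₁ le_rfl
  have hz2 : A₂ N₂ = C₂ N₂ := hf₂.agree N₂ le_rfl
  have foot1 : InWindow κ K rad W ω h (A₁ 0) := Or.inr ⟨hf₁.left.base, hi₁.foot⟩
  have foot2 : InWindow κ K rad W ω h (A₂ 0) := Or.inr ⟨hf₂.left.base, hi₂.foot⟩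
  have nest1 : ∀ k ≤ N₂, A₂ k ≠ A₁ N₁ := by
    intro k hk e
    rcases hk.lt_or_eq with hk' | rfl
    · have e1 := hf₁.next_eq hg hc hK hrad hw hA₁ hf₂.left hdA hdη hk' e foot2 (Or.inl hi₂.site)
      have e2 := hf₁.symm.next_eq hg hc hK hrad hw hC₁ hf₂.right hdC hdη hk'
        (by rw [← hf₂.agree k hk, e, hz1]) (hf₂.base_eq ▸ foot2) (Or.inl (hz2 ▸ hi₂.site))
      rw [← hf₂.agree (k + 1) hk'] at e2
      exact hf₁.split (e1.symm.trans e2)
    · exact hne e.symm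
  have nest2 : ∀ k ≤ N₁, A₁ k ≠ A₂ N₂ := by
    intro k hk e
    rcases hk.lt_or_eq with hk' | rfl
    · have e1 := hf₂.next_eq hg hc hK hrad hw hA₂ hf₁.left (by rwa [abs_sub_comm]) hdη hk' e
        foot1 (Or.inl hi₁.site)
      have e2 := hf₂.symm.next_eq hg hc hK hrad hw hC₂ hf₁.right (by rwa [abs_sub_comm]) hdη hk'
        (by rw [← hf₁.agree k hk, e, hz2]) (hf₁.base_eq ▸ foot1) (Or.inl (hz1 ▸ hi₁.site))
      rw [← hf₁.agree (k + 1) hk'] at e2
      exact hf₂.split (e1.symm.trans e2)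
    · exact hne e
  have hpA : A₁ i = A₂ j := (hf₁.agree i hiN).trans hp
  have through : ∀ {R T : ℕ → Pt} {a b n k : ℕ}, GeoRay ω (R 0) R → GeoRay ω (T 0) T →
      R a = T b → a ≤ k → ∀ m, k ≤ m → R m = T n → ∃ l, T l = R k := by
    intro R T a b n k hR hT hab hak m hkm hmn
    have hon := hR.onGeo h0 hak hkm
    rw [hab, hmn] at hon
    rcases le_total b n with hbn | hbn
    · obtain ⟨l, -, -, hl⟩ := hT.mem_of_onGeo hg hc hbn hon
      exact ⟨l, hl⟩
    · obtain ⟨l, -, -, hl⟩ := hT.mem_of_onGeo hg hc hbn (w := R k) (by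
        unfold OnGeo at hon ⊢
        rw [tt_comm h0 (T n) (R k), tt_comm h0 (R k) (T b), tt_comm h0 (T n) (T b)]
        linarith)
      exact ⟨l, hl⟩
  have off1 : ∀ n, A₂ n ≠ A₁ N₁ := by
    intro n e
    rcases le_or_gt n N₂ with hn | hn
    · exact nest1 n hn e
    · exact absurd (hcase N₁ n (hz1.symm.trans e.symm)).2 (not_le.2 hn)
  have avoidA : ∀ n m, A₂ n ≠ A₁ (m + N₁) := by
    intro n m e
    obtain ⟨l, hl⟩ := through hf₁.left.geo hf₂.left.geo hpA hiN (m + N₁) (by omega) e.symm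
    exact off1 l hl
  have avoidC : ∀ n m, A₂ n ≠ C₁ (m + N₁) := by
    intro n m e
    rcases Nat.eq_zero_or_pos m with rfl | hm
    · exact off1 n (by rw [e, zero_add, hz1])
    · have := (hcase (m + N₁) n e.symm).1
      omega
  have off2 : ∀ n, A₁ n ≠ A₂ N₂ := by
    intro n e
    rcases le_or_gt n N₁ with hn | hn
    · exact nest2 n hn e
    · exact avoidA N₂ (n - N₁) (by rw [Nat.sub_add_cancel hn.le]; exact e.symm)
  have avoidA' : ∀ n m, A₁ n ≠ A₂ (m + N₂) := by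
    intro n m e
    rcases le_or_gt n N₁ with hn | hn
    · rcases Nat.eq_zero_or_pos m with rfl | hm
      · exact off2 n (by rwa [zero_add] at e)
      · rw [hf₁.agree n hn] at e
        have := (hcase n (m + N₂) e).2
        omega
    · exact avoidA (m + N₂) (n - N₁) (by rw [Nat.sub_add_cancel hn.le]; exact e.symm)
  have avoidC' : ∀ n m, A₁ n ≠ C₂ (m + N₂) := by
    intro n m e
    obtain ⟨l, hl⟩ := through hf₂.right.geo hf₁.left.geo
      (show C₂ j = A₁ i from ((hf₂.agree j hjN).symm.trans hpA.symm)) hjN (m + N₂) (by omega) e.symm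
    exact off2 l (hl.trans hz2.symm)
  have shiftAdj : ∀ {R : ℕ → Pt}, (∀ n, grid.Adj (R n) (R (n + 1))) → ∀ M n,
      grid.Adj (R (n + M)) (R (n + 1 + M)) := fun hR M n => by rw [add_right_comm]; exact hR _
  have nb₁ : ¬ (LtUp A₁ A₂ ∧ LtUp A₂ C₁) := by
    rw [← LtUp.of_drop hf₁.left.up.1 hf₁.left.geo.adj hf₂.left.up.1 hf₂.left.geo.adj N₁ 0,
      ← LtUp.of_drop hf₂.left.up.1 hf₂.left.geo.adj hf₁.right.up.1 hf₁.right.geo.adj 0 N₁]
    exact not_between (a := fun n => A₁ (n + N₁)) (c := fun n => C₁ (n + N₁)) (q := fun n => A₂ (n + 0))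
      (by simpa using hz1) (shiftAdj hf₁.left.geo.adj N₁) (shiftAdj hf₁.right.geo.adj N₁)
      hf₂.left.geo.adj (rises_drop hf₁.left.up.1 _) (rises_drop hf₁.right.up.1 _)
      (rises_drop hf₂.left.up.1 0) (fun n => hf₁.left.above _) (fun n => hf₁.right.above _)
      (k₀ := 0) hf₂.left.base.le avoidA avoidC
  have nb₂ : ¬ (LtUp A₂ A₁ ∧ LtUp A₁ C₂) := by
    rw [← LtUp.of_drop hf₂.left.up.1 hf₂.left.geo.adj hf₁.left.up.1 hf₁.left.geo.adj N₂ 0,
      ← LtUp.of_drop hf₁.left.up.1 hf₁.left.geo.adj hf₂.right.up.1 hf₂.right.geo.adj 0 N₂]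
    exact not_between (a := fun n => A₂ (n + N₂)) (c := fun n => C₂ (n + N₂)) (q := fun n => A₁ (n + 0))
      (by simpa using hz2) (shiftAdj hf₂.left.geo.adj N₂) (shiftAdj hf₂.right.geo.adj N₂)
      hf₁.left.geo.adj (rises_drop hf₂.left.up.1 _) (rises_drop hf₂.right.up.1 _)
      (rises_drop hf₁.left.up.1 0) (fun n => hf₂.left.above _) (fun n => hf₂.right.above _)
      (k₀ := 0) hf₁.left.base.le avoidA' avoidC'
  have hor := ltUp_or (rises_drop hf₁.left.up.1 N₁) (shiftAdj hf₁.left.geo.adj N₁) hf₂.left.up.1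
    hf₂.left.geo.adj fun m n => (avoidA n m).symm
  rcases hor with h' | h'
  · exact nb₁ ⟨(LtUp.of_drop hf₁.left.up.1 hf₁.left.geo.adj hf₂.left.up.1 hf₂.left.geo.adj N₁ 0).1 h',
      hlt21⟩
  · exact nb₂ ⟨(LtUp.of_drop hf₂.left.up.1 hf₂.left.geo.adj hf₁.left.up.1 hf₁.left.geo.adj 0 N₁).1 h',
      hlt12⟩

/-- Reals in an interval with gaps bounded below are few. -/
theorem card_le_of_gaps {ι : Type*} (T : Finset ι) (f : ι → ℝ) {a L δ : ℝ} (hδ : 0 < δ)
    (hL : 0 ≤ L) (hin : ∀ i ∈ T, a ≤ f i ∧ f i ≤ a + L)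
    (hsep : ∀ i ∈ T, ∀ j ∈ T, i ≠ j → δ ≤ |f i - f j|) : (T.card : ℝ) ≤ L / δ + 1 := by
  classical
  have hinj : Set.InjOn (fun i => ⌊(f i - a) / δ⌋) T := fun i hi j hj e => by
    by_contra hne
    have h1 := Int.abs_sub_lt_one_of_floor_eq_floor e
    rw [← sub_div, abs_div, abs_of_pos hδ, div_lt_one hδ, show f i - a - (f j - a) = f i - f j by ring]
      at h1
    exact absurd (hsep i hi j hj hne) (not_le.2 h1)
  have hsub : T.image (fun i => ⌊(f i - a) / δ⌋) ⊆ Finset.Icc 0 ⌊L / δ⌋ := by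
    intro k hk
    obtain ⟨i, hi, rfl⟩ := Finset.mem_image.1 hk
    obtain ⟨h1, h2⟩ := hin i hi
    exact Finset.mem_Icc.2 ⟨Int.floor_nonneg.2 (div_nonneg (by linarith) hδ.le),
      Int.floor_le_floor (by gcongr; linarith)⟩
  have hcard := Finset.card_le_card hsub
  rw [Finset.card_image_of_injOn hinj, Int.card_Icc, sub_zero] at hcard
  have hfl : (0 : ℤ) ≤ ⌊L / δ⌋ := Int.floor_nonneg.2 (div_nonneg hL hδ.le)
  calc (T.card : ℝ) ≤ ((⌊L / δ⌋ + 1).toNat : ℝ) := by exact_mod_cast hcard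
    _ = (⌊L / δ⌋ : ℝ) + 1 := by
      rw [← Int.cast_natCast, Int.toNat_of_nonneg (by omega)]; push_cast; ring
    _ ≤ L / δ + 1 := by linarith [Int.floor_le (L / δ)]

/-- Forks with both excesses at least `η` and spread at most `L` over the window are few. -/
theorem card_forks_le (hg : Good bb cg ω) (hc : 0 < cg) (hK : 0 ≤ K) (hrad : 0 ≤ rad)
    (hw : Gauge κ K rad W B ω h) (hη : 0 < η) {L : ℝ} (hL : 0 ≤ L) (hB : 0 ≤ B) (Z : Finset Pt)
    (hZ : ∀ z ∈ Z, ∃ A C N, A N = z ∧ Fork κ ω h A C N ∧ ForkIn κ K rad W ω h A C N ∧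
      Excess ω η A N ∧ Excess ω η C N ∧ |Pw ω h W C - Pw ω h W A| ≤ L) :
    (Z.card : ℝ) ≤ (24 * B / η + 2) * (12 * L / η + 3) * (4 * L / η + 1) := by
  classical
  have oriented : ∀ z ∈ Z, ∃ A C N, A N = z ∧ Fork κ ω h A C N ∧ ForkIn κ K rad W ω h A C N ∧
      Excess ω η A N ∧ Excess ω η C N ∧ Pw ω h W A < Pw ω h W C ∧ Pw ω h W C ≤ Pw ω h W A + L := by
    intro z hz
    obtain ⟨A, C, N, hN, hf, hi, hA, hC, hP⟩ := hZ z hz
    have h2 := hf.two_le_Pw hg hc hK hrad hw hi hA hC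
    have h3 := abs_le.1 hP
    rcases lt_trichotomy (Pw ω h W A) (Pw ω h W C) with hlt | heq | hgt
    · exact ⟨A, C, N, hN, hf, hi, hA, hC, hlt, by linarith⟩
    · rw [heq, sub_self, abs_zero] at h2; linarith
    · exact ⟨C, A, N, (hf.agree N le_rfl).symm.trans hN, hf.symm, hi.symm hf, hC, hA, hgt,
        by linarith⟩
  choose! A C N hN hf hi hA hC ho hoL using oriented
  set d := η / 12 with hd
  have hd0 : 0 < d := by positivity
  set key : Pt → ℤ × ℤ := fun z =>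
    (⌊Pw ω h W (A z) / d⌋, ⌊Pw ω h W (C z) / d⌋ - ⌊Pw ω h W (A z) / d⌋) with hkey
  set φ : Pt → Pt → ℝ := fun z₀ z => hb ω h (C z₀) (A z 0) - hb ω h (A z₀) (A z 0) with hφ
  have close : ∀ {z z'}, key z = key z' → |Pw ω h W (A z) - Pw ω h W (A z')| ≤ d ∧
      |Pw ω h W (C z) - Pw ω h W (C z')| ≤ d := by
    intro z z' e
    simp only [hkey, Prod.mk.injEq] at e
    have e1 := Int.abs_sub_lt_one_of_floor_eq_floor e.1
    have e2 := Int.abs_sub_lt_one_of_floor_eq_floor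
      (show ⌊Pw ω h W (C z) / d⌋ = ⌊Pw ω h W (C z') / d⌋ by omega)
    rw [← sub_div, abs_div, abs_of_pos hd0, div_lt_one hd0] at e1 e2
    exact ⟨e1.le, e2.le⟩
  have hfib : ∀ k ∈ Z.image key,
      ((Z.filter fun z => key z = k).card : ℝ) ≤ 4 * L / η + 1 := by
    intro k hk
    obtain ⟨z₀, hz₀, rfl⟩ := Finset.mem_image.1 hk
    have := card_le_of_gaps (Z.filter fun z => key z = key z₀) (φ z₀) (a := φ z₀ z₀ - L)
      (L := 2 * L) (δ := η / 2) (half_pos hη) (by linarith) (fun z hz => ?_) (fun z hz z' hz' hne => ?_)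
    · calc _ ≤ 2 * L / (η / 2) + 1 := this
        _ = 4 * L / η + 1 := by ring
    · obtain ⟨hz, -⟩ := Finset.mem_filter.1 hz
      have := abs_le.1 (((hf z₀ hz₀).left.range (hf z₀ hz₀).right hg hc hK hrad hw
        (Or.inr ⟨(hf z hz).left.base, (hi z hz).foot⟩)
        (Or.inr ⟨(hf z₀ hz₀).left.base, (hi z₀ hz₀).foot⟩)).trans
        (abs_le.2 ⟨by linarith [ho z₀ hz₀], by linarith [hoL z₀ hz₀]⟩ :
          |Pw ω h W (C z₀) - Pw ω h W (A z₀)| ≤ L))
      simp only [hφ]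
      constructor <;> linarith [this.1, this.2]
    · wlog hle : (A z 0).1 ≤ (A z' 0).1 generalizing z z'
      · rw [abs_sub_comm]
        exact this z' hz' z hz hne.symm (le_of_not_ge hle)
      obtain ⟨hz, hk⟩ := Finset.mem_filter.1 hz
      obtain ⟨hz', hk'⟩ := Finset.mem_filter.1 hz'
      obtain ⟨cA, cC⟩ := close (hk.trans hk'.symm)
      have sep := separation hg hc hK hrad hw (hf z hz) (hf z' hz') (hi z hz) (hi z' hz') (hA z hz)
        (hC z hz) (hA z' hz') (hC z' hz') (ho z hz) (ho z' hz') cA cC (by rw [hd]; linarith)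
        (fun e => hne ((hN z hz).symm.trans (e.trans (hN z' hz')))) hle
      have p1 : InWindow κ K rad W ω h (A z 0) := Or.inr ⟨(hf z hz).left.base, (hi z hz).foot⟩
      have p2 : InWindow κ K rad W ω h (A z' 0) := Or.inr ⟨(hf z' hz').left.base, (hi z' hz').foot⟩
      have r1 := abs_le.1 (((hf z₀ hz₀).right.range (hf z hz).right hg hc hK hrad hw p1 p2).trans
        (close hk).2)
      have r2 := abs_le.1 (((hf z₀ hz₀).left.range (hf z' hz').left hg hc hK hrad hw p1 p2).trans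
        (close hk').1)
      simp only [hφ]
      refine le_trans ?_ (le_abs_self _)
      rw [hd] at sep r1 r2
      linarith [r1.1, r1.2, r2.1, r2.2]
  have himg : ((Z.image key).card : ℝ) ≤ (24 * B / η + 2) * (12 * L / η + 3) := by
    have hsub : Z.image key ⊆ Finset.Icc ⌊-B / d⌋ ⌊B / d⌋ ×ˢ Finset.Icc 0 (⌊L / d⌋ + 1) := by
      intro k hk
      obtain ⟨z, hz, rfl⟩ := Finset.mem_image.1 hk
      have hP := abs_le.1 ((hf z hz).left.abs_Pw hg hw)
      refine Finset.mem_product.2 ⟨Finset.mem_Icc.2 ⟨Int.floor_le_floor (by gcongr; exact hP.1),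
        Int.floor_le_floor (by gcongr; exact hP.2)⟩, Finset.mem_Icc.2 ⟨?_, ?_⟩⟩
      · exact sub_nonneg.2 (Int.floor_le_floor (by gcongr; exact (ho z hz).le))
      · rw [sub_le_iff_le_add]
        have h1 : Pw ω h W (C z) / d ≤ Pw ω h W (A z) / d + L / d := by
          rw [← add_div]; gcongr; exact hoL z hz
        have h2 := Int.floor_le_floor h1
        have h3 := Int.le_floor_add_floor (Pw ω h W (A z) / d) (L / d)
        omega
    have hcard := Finset.card_le_card hsub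
    rw [Finset.card_product, Int.card_Icc, Int.card_Icc, sub_zero] at hcard
    have hBd : 24 * B / η = B / d - -B / d := by rw [hd]; field_simp; ring
    have hLd : 12 * L / η = L / d := by rw [hd]; field_simp
    have n1 : ((⌊B / d⌋ + 1 - ⌊-B / d⌋).toNat : ℝ) ≤ 24 * B / η + 2 := by
      have hnn : (0 : ℤ) ≤ ⌊B / d⌋ + 1 - ⌊-B / d⌋ := by
        have : ⌊-B / d⌋ ≤ ⌊B / d⌋ := Int.floor_le_floor (by gcongr; linarith)
        omega
      rw [← Int.cast_natCast, Int.toNat_of_nonneg hnn, hBd]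
      push_cast
      linarith [Int.floor_le (B / d), Int.lt_floor_add_one (-B / d)]
    have n2 : ((⌊L / d⌋ + 1 + 1).toNat : ℝ) ≤ 12 * L / η + 3 := by
      have hnn : (0 : ℤ) ≤ ⌊L / d⌋ := Int.floor_nonneg.2 (div_nonneg hL hd0.le)
      rw [← Int.cast_natCast, Int.toNat_of_nonneg (by omega), hLd]
      push_cast
      linarith [Int.floor_le (L / d)]
    calc ((Z.image key).card : ℝ)
        ≤ ((⌊B / d⌋ + 1 - ⌊-B / d⌋).toNat : ℝ) * ((⌊L / d⌋ + 1 + 1).toNat : ℝ) := by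
          exact_mod_cast hcard
      _ ≤ _ := mul_le_mul n1 n2 (Nat.cast_nonneg _) (by positivity)
  rw [Finset.card_eq_sum_card_image key Z]
  push_cast
  refine (Finset.sum_le_sum hfib).trans ?_
  rw [Finset.sum_const, nsmul_eq_mul]
  exact mul_le_mul_of_nonneg_right himg (by positivity)

end Vale.Agent.P158.V4
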