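import Mathlib
import Vale.Agent.P158.V4.Stars2Bins

/-!
P158, module Stars2, fifth part: forks with one foot. Apart from sites with a short interval towards
their neighbours in the tree, they are at most a constant times the spread divided by the threshold.
-/

namespace Vale.Agent.P158.V4

open Filter Topology

variable {bb cg κ K rad B η L : ℝ} {W : ℕ} {ω : Cfg} {h : ℤ} {u : Pt} {R R' T A C : ℕ → Pt} {N : ℕ}

/-- A site and all its neighbours are regular. -/
def Around (κ K rad : ℝ) (W : ℕ) (ω : Cfg) (h : ℤ) (z : Pt) : Prop :=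
  Inner κ K rad W ω h z ∧ ∀ n, grid.Adj z n → Inner κ K rad W ω h n

theorem ForkIn.of_around (hf : Fork κ ω h A C N) (hr : Around κ K rad W ω h (A N))
    (hu : |(A 0).1| ≤ W) : ForkIn κ K rad W ω h A C N :=
  ⟨hr.1, hr.2 _ (hf.left.geo.adj N), hr.2 _ (hf.agree N le_rfl ▸ hf.right.geo.adj N), hu⟩

/-- A fork at a site with excess along one ray and a short interval to the other one. -/
def Short (κ K rad : ℝ) (W : ℕ) (η L : ℝ) (ω : Cfg) (h : ℤ) (z : Pt) : Prop :=
  ∃ A X N, A N = z ∧ Fork κ ω h A X N ∧ ForkIn κ K rad W ω h A X N ∧ Excess ω η A N ∧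
    |Pw ω h W X - Pw ω h W A| ≤ L

/-- The order of rays in one of the two orientations. -/
def ordR (σ : Bool) (r s : ℕ → Pt) : Prop := if σ then LtUp r s else LtUp s r

/-- The coordinate of a ray in one of the two orientations. -/
noncomputable def sP (σ : Bool) (ω : Cfg) (h : ℤ) (W : ℕ) (r : ℕ → Pt) : ℝ :=
  if σ then Pw ω h W r else -Pw ω h W r

theorem sP_le (σ : Bool) (hr : HRay κ ω h R) (hs : HRay κ ω h T) (hg : Good bb cg ω)
    (hlt : ordR σ R T) : sP σ ω h W R ≤ sP σ ω h W T := by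
  cases σ
  · simpa [sP] using hs.Pw_le_of_ltUp hr hg (W := W) hlt
  · exact hr.Pw_le_of_ltUp hs hg (W := W) hlt

theorem ordR_asymm {σ : Bool} (hlt : ordR σ R T) : ¬ ordR σ T R := by
  cases σ <;> exact LtUp.asymm hlt

/-- A ray from the foot which does not pass the site of a fork is on one side of both its rays. -/
theorem Fork.outside (hf : Fork κ ω h A C N) (hT : HRay κ ω h T) (hg : Good bb cg ω) (hc : 0 < cg)
    (hfoot : T 0 = A 0) (hpass : T N ≠ A N) (σ : Bool) :
    (ordR σ T A ∧ ordR σ T C) ∨ (ordR σ A T ∧ ordR σ C T) := by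
  suffices H : (LtUp T A ∧ LtUp T C) ∨ (LtUp A T ∧ LtUp C T) by
    cases σ
    · exact H.symm
    · exact H
  have gT : GeoRay ω (A 0) T := hfoot ▸ hT.geo
  have gC : GeoRay ω (A 0) C := hf.base_eq ▸ hf.right.geo
  have avA : ∀ n m, T n ≠ A (m + N) := fun n m e => by
    obtain ⟨rfl, hk⟩ := gT.eq_of_meet hf.left.geo hg hc e
    exact hpass (hk N (by omega))
  have avC : ∀ n m, T n ≠ C (m + N) := fun n m e => by
    obtain ⟨rfl, hk⟩ := gT.eq_of_meet gC hg hc e
    exact hpass ((hk N (by omega)).trans (hf.agree N le_rfl).symm)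
  have aA : ∀ n, grid.Adj (A (n + N)) (A (n + 1 + N)) := fun n => by
    rw [add_right_comm]; exact hf.left.geo.adj _
  have aC : ∀ n, grid.Adj (C (n + N)) (C (n + 1 + N)) := fun n => by
    rw [add_right_comm]; exact hf.right.geo.adj _
  have nb₁ : ¬ (LtUp (fun n => A (n + N)) T ∧ LtUp T fun n => C (n + N)) :=
    not_between (by simpa using hf.agree N le_rfl) aA aC hT.geo.adj (rises_drop hf.left.up.1 N)
      (rises_drop hf.right.up.1 N) hT.up.1 (fun n => hf.left.above _) (fun n => hf.right.above _)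
      (k₀ := 0) hT.base.le avA avC
  have nb₂ : ¬ (LtUp (fun n => C (n + N)) T ∧ LtUp T fun n => A (n + N)) :=
    not_between (by simpa using (hf.agree N le_rfl).symm) aC aA hT.geo.adj
      (rises_drop hf.right.up.1 N) (rises_drop hf.left.up.1 N) hT.up.1 (fun n => hf.right.above _)
      (fun n => hf.left.above _) (k₀ := 0) hT.base.le avC avA
  have i1 := LtUp.of_drop hT.up.1 hT.geo.adj hf.left.up.1 hf.left.geo.adj 0 N
  have i2 := LtUp.of_drop hf.left.up.1 hf.left.geo.adj hT.up.1 hT.geo.adj N 0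
  have i3 := LtUp.of_drop hT.up.1 hT.geo.adj hf.right.up.1 hf.right.geo.adj 0 N
  have i4 := LtUp.of_drop hf.right.up.1 hf.right.geo.adj hT.up.1 hT.geo.adj N 0
  simp only [add_zero] at i1 i2 i3 i4
  rcases ltUp_or hT.up.1 hT.geo.adj (rises_drop hf.left.up.1 N) aA avA with h1 | h1 <;>
    rcases ltUp_or hT.up.1 hT.geo.adj (rises_drop hf.right.up.1 N) aC avC with h2 | h2
  · exact Or.inl ⟨i1.1 h1, i3.1 h2⟩
  · exact absurd ⟨h2, h1⟩ nb₂
  · exact absurd ⟨h1, h2⟩ nb₁
  · exact Or.inr ⟨i2.1 h1, i4.1 h2⟩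

/-- Rays leaving a site by one edge are on the same side of a ray leaving it by another. -/
theorem ltUp_group (hR : HRay κ ω h R) (hR' : HRay κ ω h R') (hT : HRay κ ω h T)
    (hg : Good bb cg ω) (hc : 0 < cg) (h1 : R 0 = T 0) (h2 : R' 0 = T 0)
    (he : R (N + 1) = R' (N + 1)) (hne : R (N + 1) ≠ T (N + 1)) :
    (LtUp R T → LtUp R' T) ∧ (LtUp T R → LtUp T R') := by
  have avoid : ∀ {X : ℕ → Pt}, HRay κ ω h X → X 0 = T 0 → X (N + 1) = R (N + 1) →
      ∀ n m, T n ≠ X (m + (N + 1)) := fun {X} hX h0 hn n m e => by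
    obtain ⟨rfl, hk⟩ := hT.geo.eq_of_meet (h0 ▸ hX.geo) hg hc e
    exact hne (hn.symm.trans (hk (N + 1) (by omega)).symm)
  have av := avoid hR h1 rfl
  have av' := avoid hR' h2 he.symm
  have aR : ∀ n, grid.Adj (R (n + (N + 1))) (R (n + 1 + (N + 1))) := fun n => by
    rw [add_right_comm n 1]; exact hR.geo.adj _
  have aR' : ∀ n, grid.Adj (R' (n + (N + 1))) (R' (n + 1 + (N + 1))) := fun n => by
    rw [add_right_comm n 1]; exact hR'.geo.adj _
  have nb₁ : ¬ (LtUp (fun n => R (n + (N + 1))) T ∧ LtUp T fun n => R' (n + (N + 1))) :=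
    not_between (by simpa using he) aR aR' hT.geo.adj (rises_drop hR.up.1 _)
      (rises_drop hR'.up.1 _) hT.up.1 (fun n => hR.above _) (fun n => hR'.above _) (k₀ := 0)
      hT.base.le av av'
  have nb₂ : ¬ (LtUp (fun n => R' (n + (N + 1))) T ∧ LtUp T fun n => R (n + (N + 1))) :=
    not_between (by simpa using he.symm) aR' aR hT.geo.adj (rises_drop hR'.up.1 _)
      (rises_drop hR.up.1 _) hT.up.1 (fun n => hR'.above _) (fun n => hR.above _) (k₀ := 0)
      hT.base.le av' av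
  have hor := ltUp_or hT.up.1 hT.geo.adj (rises_drop hR'.up.1 (N + 1)) aR' av'
  have i1 := LtUp.of_drop hR.up.1 hR.geo.adj hT.up.1 hT.geo.adj (N + 1) 0
  have i2 := LtUp.of_drop hT.up.1 hT.geo.adj hR.up.1 hR.geo.adj 0 (N + 1)
  have i3 := LtUp.of_drop hR'.up.1 hR'.geo.adj hT.up.1 hT.geo.adj (N + 1) 0
  have i4 := LtUp.of_drop hT.up.1 hT.geo.adj hR'.up.1 hR'.geo.adj 0 (N + 1)
  simp only [add_zero] at i1 i2 i3 i4
  refine ⟨fun hlt => ?_, fun hlt => ?_⟩ <;> rcases hor with h' | h'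
  · exact absurd ⟨i1.2 hlt, h'⟩ nb₁
  · exact i3.1 h'
  · exact i4.1 h'
  · exact absurd ⟨h', i2.2 hlt⟩ nb₂

/-- Forks with the foot `u`, one at each site of `Z`. -/
structure Tree (κ K rad : ℝ) (W : ℕ) (η : ℝ) (ω : Cfg) (h : ℤ) (u : Pt) (Z : Finset Pt)
    (A C : Pt → ℕ → Pt) (N : Pt → ℕ) : Prop where
  site : ∀ z ∈ Z, A z (N z) = z
  foot : ∀ z ∈ Z, A z 0 = u
  fork : ∀ z ∈ Z, Fork κ ω h (A z) (C z) (N z)
  around : ∀ z ∈ Z, Around κ K rad W ω h z
  inside : |u.1| ≤ W
  excA : ∀ z ∈ Z, Excess ω η (A z) (N z)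
  excC : ∀ z ∈ Z, Excess ω η (C z) (N z)

/-- `z'` comes after `z` through the step to `n`. -/
def Below (A : Pt → ℕ → Pt) (N : Pt → ℕ) (z n z' : Pt) : Prop :=
  N z < N z' ∧ A z' (N z) = z ∧ A z' (N z + 1) = n

namespace Tree

variable {Z : Finset Pt} {A C : Pt → ℕ → Pt} {N : Pt → ℕ}

theorem geoA (t : Tree κ K rad W η ω h u Z A C N) {z : Pt} (hz : z ∈ Z) : GeoRay ω u (A z) :=
  t.foot z hz ▸ (t.fork z hz).left.geo

theorem footC (t : Tree κ K rad W η ω h u Z A C N) {z : Pt} (hz : z ∈ Z) : C z 0 = u :=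
  (t.fork z hz).base_eq ▸ t.foot z hz

theorem flip (t : Tree κ K rad W η ω h u Z A C N) : Tree κ K rad W η ω h u Z C A N :=
  ⟨fun z hz => ((t.fork z hz).agree _ le_rfl).symm.trans (t.site z hz), fun z hz => t.footC hz,
    fun z hz => (t.fork z hz).symm, t.around, t.inside, t.excC, t.excA⟩

theorem below_flip (t : Tree κ K rad W η ω h u Z A C N) {z n z' : Pt} (hz' : z' ∈ Z) :
    Below C N z n z' ↔ Below A N z n z' := by
  unfold Below
  refine and_congr_right fun hlt => ?_
  rw [(t.fork z' hz').agree _ hlt.le, (t.fork z' hz').agree (N z + 1) hlt]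

/-- Sites with an empty side and a long interval are few. -/
theorem card_free (t : Tree κ K rad W η ω h u Z A C N) (hg : Good bb cg ω) (hc : 0 < cg)
    (hw : Gauge κ K rad W B ω h) (hL : 0 < L) (hB : 0 ≤ B) (σ : Bool) (F : Finset Pt)
    (hF : F ⊆ Z) (hord : ∀ z ∈ Z, ordR σ (A z) (C z))
    (hfree : ∀ z ∈ F, ∀ z' ∈ Z, ¬ Below A N z (A z (N z + 1)) z')
    (hlong : ∀ z ∈ F, ¬ Short κ K rad W η L ω h z) :
    (F.card : ℝ) ≤ 2 * B / L + 1 := by
  classical
  have cand : ∀ z ∈ F, ∃ X : ℕ → Pt, L < |sP σ ω h W X - sP σ ω h W (A z)| ∧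
      sP σ ω h W (A z) ≤ sP σ ω h W X ∧ sP σ ω h W X ≤ sP σ ω h W (C z) ∧
      ∀ z' ∈ Z, N z < N z' → A z' (N z) = z → ordR σ (A z) (A z') →
        sP σ ω h W X ≤ sP σ ω h W (A z') := by
    intro z hzF
    have hz := hF hzF
    set S := Z.filter fun z' => N z < N z' ∧ A z' (N z) = z ∧ ordR σ (A z) (A z') with hS
    set V := insert (C z) (S.image A) with hV
    obtain ⟨X, hX, hmin⟩ := V.exists_min_image (sP σ ω h W) ⟨C z, Finset.mem_insert_self _ _⟩
    have hXfork : Fork κ ω h (A z) X (N z) ∧ ordR σ (A z) X := by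
      rcases Finset.mem_insert.1 hX with rfl | hX'
      · exact ⟨t.fork z hz, hord z hz⟩
      · obtain ⟨z', hz', rfl⟩ := Finset.mem_image.1 hX'
        obtain ⟨hz'Z, hlt, hat, ho⟩ := Finset.mem_filter.1 hz'
        obtain ⟨-, hk⟩ := (t.geoA hz).eq_of_meet (t.geoA hz'Z) hg hc
          ((t.site z hz).trans hat.symm)
        exact ⟨⟨(t.fork z hz).left, (t.fork z' hz'Z).left, (t.fork z hz).high, hk,
          fun e => hfree z hzF z' hz'Z ⟨hlt, hat, e.symm⟩⟩, ho⟩
    refine ⟨X, ?_, sP_le σ hXfork.1.left hXfork.1.right hg hXfork.2,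
      hmin _ (Finset.mem_insert_self _ _), fun z' hz' h1 h2 h3 => hmin _ ?_⟩
    · by_contra hle
      refine hlong z hzF ⟨A z, X, N z, t.site z hz, hXfork.1,
        ForkIn.of_around hXfork.1 ((t.site z hz).symm ▸ t.around z hz)
          ((t.foot z hz).symm ▸ t.inside), t.excA z hz, ?_⟩
      have := not_lt.1 hle
      cases σ
      · simpa [sP, ← sub_eq_neg_add, abs_sub_comm] using this
      · simpa [sP] using this
    · exact Finset.mem_insert_of_mem (Finset.mem_image_of_mem _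
        (Finset.mem_filter.2 ⟨hz', h1, h2, h3⟩))
  choose! X hXL hXA hXC hXmin using cand
  have habs : ∀ z ∈ Z, |sP σ ω h W (A z)| ≤ B := fun z hz => by
    have := (t.fork z hz).left.abs_Pw hg hw
    cases σ <;> simpa [sP] using this
  have hcard := card_le_of_gaps F (fun z => sP σ ω h W (A z)) (a := -B) (L := 2 * B) hL
    (by linarith) (fun z hz => by
      have := abs_le.1 (habs z (hF hz))
      constructor <;> linarith) ?_
  · exact hcard
  intro z hzF z' hzF' hne
  have hz := hF hzF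
  have hz' := hF hzF'
  suffices H : sP σ ω h W (X z) ≤ sP σ ω h W (A z') ∨ sP σ ω h W (X z') ≤ sP σ ω h W (A z) by
    have e1 := hXL z hzF
    have e2 := hXL z' hzF'
    rw [abs_of_nonneg (sub_nonneg.2 (hXA z hzF))] at e1
    rw [abs_of_nonneg (sub_nonneg.2 (hXA z' hzF'))] at e2
    rcases H with H | H
    · exact le_trans (by linarith) (neg_le_abs _)
    · exact le_trans (by linarith) (le_abs_self _)
  -- the site below, if any, lies on one side of the ray with the free edge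
  have down : ∀ {z z'}, z ∈ F → z' ∈ F → N z < N z' → A z' (N z) = z →
      sP σ ω h W (X z) ≤ sP σ ω h W (A z') ∨ sP σ ω h W (X z') ≤ sP σ ω h W (A z) := by
    intro z z' hzF hzF' hlt hat
    have hz := hF hzF
    have hz' := hF hzF'
    have hpass : A z (N z') ≠ A z' (N z') := fun e => hfree z hzF z' hz' ⟨hlt, hat,
      (((t.geoA hz).eq_of_meet (t.geoA hz') hg hc e).2 (N z + 1) hlt).symm⟩
    rcases (t.fork z' hz').outside (t.fork z hz).left hg hc
      ((t.foot z hz).trans (t.foot z' hz').symm) hpass σ with ⟨h1, -⟩ | ⟨-, h2⟩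
    · exact Or.inl (hXmin z hzF z' hz' hlt hat h1)
    · exact Or.inr ((hXC z' hzF').trans
        (sP_le σ (t.fork z' hz').right (t.fork z hz).left hg h2))
  by_cases h12 : N z < N z' ∧ A z' (N z) = z
  · exact down hzF hzF' h12.1 h12.2
  by_cases h21 : N z' < N z ∧ A z (N z') = z'
  · exact (down hzF' hzF h21.1 h21.2).symm
  have notpass : ∀ {z z'}, z ∈ Z → z' ∈ Z → z ≠ z' → ¬ (N z < N z' ∧ A z' (N z) = z) →
      ¬ (N z' < N z ∧ A z (N z') = z') → A z (N z') ≠ A z' (N z') := by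
    intro z z' hz hz' hne h12 h21 e
    rcases lt_trichotomy (N z) (N z') with hl | he | hl
    · exact h12 ⟨hl, ((((t.geoA hz).eq_of_meet (t.geoA hz') hg hc e).2 (N z) hl.le).symm).trans
        (t.site z hz)⟩
    · exact hne ((t.site z hz).symm.trans ((by rw [he]; exact e : A z (N z) = A z' (N z')).trans
        (t.site z' hz')))
    · exact h21 ⟨hl, e.trans (t.site z' hz')⟩
  rcases (t.fork z' hz').outside (t.fork z hz).left hg hc
    ((t.foot z hz).trans (t.foot z' hz').symm) (notpass hz hz' hne h12 h21) σ with ⟨h1, -⟩ | ⟨-, h2⟩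
  · rcases (t.fork z hz).outside (t.fork z' hz').left hg hc
      ((t.foot z' hz').trans (t.foot z hz).symm) (notpass hz' hz hne.symm h21 h12) σ with
      ⟨h3, -⟩ | ⟨-, h4⟩
    · exact absurd h3 (ordR_asymm h1)
    · exact Or.inl ((hXC z hzF).trans (sP_le σ (t.fork z hz).right (t.fork z' hz').left hg h4))
  · exact Or.inr ((hXC z' hzF').trans
      (sP_le σ (t.fork z' hz').right (t.fork z hz).left hg h2))

/-- Sites with both sides occupied are no more than those with an empty left side. -/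
theorem card_branching (t : Tree κ K rad W η ω h u Z A C N) (hg : Good bb cg ω) (hc : 0 < cg)
    (hord : ∀ z ∈ Z, LtUp (A z) (C z)) (Bn F : Finset Pt) (hBn : Bn ⊆ Z)
    (hboth : ∀ z ∈ Bn, (∃ z' ∈ Z, Below A N z (A z (N z + 1)) z') ∧
      ∃ z' ∈ Z, Below A N z (C z (N z + 1)) z')
    (hFdef : ∀ z ∈ Z, (∀ z' ∈ Z, ¬ Below A N z (A z (N z + 1)) z') → z ∈ F) :
    Bn.card ≤ F.card := by
  classical
  obtain ⟨H, hH⟩ := ((Finset.eventually_all (Z ×ˢ Z) (p := fun p H =>
    LtUp (C p.1) (C p.2) → fx (C p.1) H < fx (C p.2) H)).2 fun p _ => by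
      by_cases hp : LtUp (C p.1) (C p.2)
      · exact hp.mono fun _ h _ => h
      · exact Eventually.of_forall fun _ h => absurd h hp).exists
  have pick : ∀ z ∈ Bn, ∃ w ∈ Z, Below A N z (C z (N z + 1)) w ∧
      ∀ w' ∈ Z, Below A N z (C z (N z + 1)) w' → ¬ LtUp (C w') (C w) := by
    intro z hz
    obtain ⟨-, z', hz', hb⟩ := hboth z hz
    obtain ⟨w, hw, hmin⟩ := (Z.filter fun w => Below A N z (C z (N z + 1)) w).exists_min_image
      (fun w => fx (C w) H) ⟨z', Finset.mem_filter.2 ⟨hz', hb⟩⟩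
    obtain ⟨hwZ, hwb⟩ := Finset.mem_filter.1 hw
    exact ⟨w, hwZ, hwb, fun w' hw' hb' hlt =>
      (hH (w', w) (Finset.mem_product.2 ⟨hw', hwZ⟩) hlt).not_ge
        (hmin w' (Finset.mem_filter.2 ⟨hw', hb'⟩))⟩
  choose! g hgZ hgb hgmin using pick
  have footA : ∀ {z}, z ∈ Z → A z 0 = u := fun hz => t.foot _ hz
  -- a site below the left edge of `w` has its right ray left of that of `w`
  have lower : ∀ {z w : Pt}, z ∈ Z → w ∈ Z → Below A N w (A w (N w + 1)) z → LtUp (C z) (C w) := by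
    intro z w hz hw hb
    refine (ltUp_group (N := N w) (t.fork w hw).left (t.fork z hz).right (t.fork w hw).right hg hc
      ((t.fork w hw).base_eq) ((t.footC hz).trans (t.footC hw).symm) ?_ (t.fork w hw).split).1
      (hord w hw)
    rw [← hb.2.2, (t.fork z hz).agree (N w + 1) hb.1]
  refine Finset.card_le_card_of_injOn g (fun z hz => ?_) (fun z hz z0 hz0 e => ?_)
  · refine hFdef _ (hgZ z hz) fun w hw hb => ?_
    obtain ⟨hlt, hat, hnext⟩ := hgb z hz
    have hk := ((t.geoA (hgZ z hz)).eq_of_meet (t.geoA hw) hg hc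
      ((t.site _ (hgZ z hz)).trans hb.2.1.symm)).2
    exact hgmin z hz w hw ⟨hlt.trans hb.1, (hk (N z) hlt.le).symm.trans hat,
      (hk (N z + 1) hlt).symm.trans hnext⟩ (lower hw (hgZ z hz) hb)
  · by_contra hne
    wlog hlt : N z < N z0 generalizing z z0
    · rcases (not_lt.1 hlt).lt_or_eq with h' | h'
      · exact this z0 hz0 z hz e.symm (Ne.symm hne) h'
      · refine hne ?_
        have h1 := (hgb z hz).2.1
        rw [e, ← h'] at h1
        exact h1.symm.trans (hgb z0 hz0).2.1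
    obtain ⟨-, hat, hnext⟩ := hgb z hz
    obtain ⟨hlt0, hat0, hnext0⟩ := hgb z0 hz0
    rw [e] at hat hnext
    have hz0Z := hBn hz0
    have hk0 := ((t.geoA hz0Z).eq_of_meet (t.geoA (hgZ z0 hz0)) hg hc
      ((t.site _ hz0Z).trans hat0.symm)).2
    obtain ⟨⟨z'', hz'', hb''⟩, -⟩ := hboth z0 hz0
    have hk'' := ((t.geoA hz0Z).eq_of_meet (t.geoA hz'') hg hc
      ((t.site _ hz0Z).trans hb''.2.1.symm)).2
    refine hgmin z hz z'' hz'' ⟨hlt.trans hb''.1,
      ((hk'' (N z) hlt.le).symm.trans (hk0 (N z) hlt.le)).trans hat,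
      ((hk'' (N z + 1) hlt).symm.trans (hk0 (N z + 1) hlt)).trans hnext⟩ ?_
    rw [e]
    have h1 : LtUp (C z'') (C z0) := lower hz'' hz0Z hb''
    refine (ltUp_group (N := N z0) (t.fork z0 hz0Z).right (t.fork _ (hgZ z0 hz0)).right
      (t.fork z'' hz'').right hg hc ((t.footC hz0Z).trans (t.footC hz'').symm)
      ((t.footC (hgZ z0 hz0)).trans (t.footC hz'').symm) ?_ ?_).2 h1
    · rw [← hnext0, (t.fork _ (hgZ z0 hz0)).agree (N z0 + 1) hlt0]
    · rw [← (t.fork z'' hz'').agree (N z0 + 1) hb''.1, hb''.2.2]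
      exact (t.fork z0 hz0Z).split.symm

/-- The count at one foot. -/
theorem card_tree (t : Tree κ K rad W η ω h u Z A C N) (hg : Good bb cg ω) (hc : 0 < cg)
    (hw : Gauge κ K rad W B ω h) (hL : 0 < L) (hB : 0 ≤ B) (hord : ∀ z ∈ Z, LtUp (A z) (C z))
    [DecidablePred (Short κ K rad W η L ω h)] :
    (Z.card : ℝ) ≤ 3 * ((Z.filter (Short κ K rad W η L ω h)).card + (2 * B / L + 1)) := by
  classical
  set FL := Z.filter fun z => ∀ z' ∈ Z, ¬ Below A N z (A z (N z + 1)) z' with hFL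
  set FR := Z.filter fun z => ∀ z' ∈ Z, ¬ Below A N z (C z (N z + 1)) z' with hFR
  set Bn := Z.filter fun z => z ∉ FL ∧ z ∉ FR with hBn
  have hcov : Z ⊆ FL ∪ FR ∪ Bn := fun z hz => by
    by_cases h1 : z ∈ FL
    · simp [h1]
    by_cases h2 : z ∈ FR
    · simp [h2]
    simp [hBn, hz, h1, h2]
  have hb : Bn.card ≤ FL.card := t.card_branching hg hc hord Bn FL (Finset.filter_subset _ _)
    (fun z hz => by
      obtain ⟨hzZ, h1, h2⟩ := Finset.mem_filter.1 hz
      simp only [hFL, hFR, Finset.mem_filter, hzZ, true_and, not_forall, not_not] at h1 h2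
      exact ⟨by simpa using h1, by simpa using h2⟩)
    fun z hz h' => Finset.mem_filter.2 ⟨hz, h'⟩
  have key : ∀ F : Finset Pt, F ⊆ Z → ∀ σ : Bool, ∀ A' C' : Pt → ℕ → Pt,
      Tree κ K rad W η ω h u Z A' C' N → (∀ z ∈ Z, ordR σ (A' z) (C' z)) →
      (∀ z ∈ F, ∀ z' ∈ Z, ¬ Below A' N z (A' z (N z + 1)) z') →
      (F.card : ℝ) ≤ (Z.filter (Short κ K rad W η L ω h)).card + (2 * B / L + 1) := by
    intro F hF σ A' C' t' ho hfree
    have h1 := t'.card_free hg hc hw hL hB σ (F.filter fun z => ¬ Short κ K rad W η L ω h z)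
      ((Finset.filter_subset _ _).trans hF) ho (fun z hz => hfree z (Finset.mem_filter.1 hz).1)
      fun z hz => (Finset.mem_filter.1 hz).2
    have h2 : ((F.filter (Short κ K rad W η L ω h)).card : ℝ) ≤
        (Z.filter (Short κ K rad W η L ω h)).card := by
      exact_mod_cast Finset.card_le_card (Finset.filter_subset_filter _ hF)
    have h3 : ((F.filter (Short κ K rad W η L ω h)).card : ℝ) +
        (F.filter fun z => ¬ Short κ K rad W η L ω h z).card = F.card := by
      exact_mod_cast Finset.card_filter_add_card_filter_not (s := F) (p := Short κ K rad W η L ω h)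
    linarith
  have kL := key FL (Finset.filter_subset _ _) true A C t hord fun z hz => (Finset.mem_filter.1 hz).2
  have kR := key FR (Finset.filter_subset _ _) false C A t.flip hord fun z hz z' hz' hb' =>
    (Finset.mem_filter.1 hz).2 z' hz' ((t.below_flip hz').1 hb')
  have h1 : Z.card ≤ FL.card + FR.card + Bn.card := (Finset.card_le_card hcov).trans
    ((Finset.card_union_le _ _).trans (Nat.add_le_add_right (Finset.card_union_le _ _) _))
  have h1' : (Z.card : ℝ) ≤ 2 * FL.card + FR.card := by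
    exact_mod_cast (show Z.card ≤ 2 * FL.card + FR.card by omega)
  linarith

end Tree

end Vale.Agent.P158.V4
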