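import Mathlib
import Vale.Agent.P158.V4.Stars2Tree
import Vale.Agent.P158.V4.Stars2Mark

/-!
P158, module Stars2, eighth part: marked sites of a box give forks from the low line, so apart from
short forks they are few.
-/

namespace Vale.Agent.P158.V4

open Filter Topology

variable {bb cg κ K rad η B L : ℝ} {W : ℕ} {ω : Cfg} {z : Pt} {a b c : ℕ → Pt}

/-- The path `a` run backwards from its `M`th site, continued by `b`. -/
def joinPath (a b : ℕ → Pt) (M : ℕ) : ℕ → Pt := fun n => if n ≤ M then a (M - n) else b (n - M)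

theorem join_left {M n : ℕ} (hn : n ≤ M) : joinPath a b M n = a (M - n) := if_pos hn

theorem join_right (hab : a 0 = b 0) {M n : ℕ} (hn : M ≤ n) : joinPath a b M n = b (n - M) := by
  rcases hn.lt_or_eq with h | rfl
  · exact if_neg (not_le.2 h)
  · rw [join_left le_rfl, Nat.sub_self, hab]

theorem GeoRay.join (ha : GeoRay ω z a) (hb : GeoRay ω z b)
    (hadd : ∀ i j, tt ω (a i) (b j) = tt ω z (a i) + tt ω z (b j)) (h0 : ∀ e, 0 ≤ ω e) (M : ℕ) :
    GeoRay ω (a M) (V4.joinPath a b M) := by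
  have hab : a 0 = b 0 := ha.start.trans hb.start.symm
  refine ⟨by rw [join_left M.zero_le, Nat.sub_zero], fun n => ?_, fun n => ?_⟩
  · rcases Nat.lt_or_ge n M with h | h
    · rw [join_left h.le, join_left h, show M - n = M - (n + 1) + 1 by omega]
      exact (ha.adj _).symm
    · rw [join_right hab h, join_right hab (h.trans n.le_succ), show n + 1 - M = n - M + 1 by omega]
      exact hb.adj _
  induction n with
  | zero => rw [Finset.sum_range_zero, join_left M.zero_le, Nat.sub_zero, tt_self h0]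
  | succ n ih =>
    rw [Finset.sum_range_succ, ih]
    rcases Nat.lt_or_ge n M with h | h
    · rw [join_left h.le, join_left h, show M - n = M - (n + 1) + 1 by omega,
        tt_comm h0 (a M) (a (M - (n + 1) + 1)), tt_comm h0 (a M) (a (M - (n + 1))),
        Sym2.eq_swap, ← ha.edge h0, (ha.between h0 (Nat.le_succ _)).1,
        (ha.between h0 (show M - (n + 1) + 1 ≤ M by omega)).1,
        (ha.between h0 (show M - (n + 1) ≤ M by omega)).1]
      ring
    · rw [join_right hab h, join_right hab (h.trans n.le_succ), show n + 1 - M = n - M + 1 by omega,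
        hadd, hadd, ← hb.edge h0, (hb.between h0 (Nat.le_succ _)).1]
      ring

theorem GeoRay.bus_self (hr : GeoRay ω z a) (hg : Good bb cg ω) (i : ℕ) :
    bus ω (rayOf ω a) (a i) = -tt ω z (a i) := by
  refine tendsto_nhds_unique ((hr.isTail hg).tendsto_bus hg.nonneg _)
    (tendsto_const_nhds.congr' (eventually_atTop.2 ⟨i, fun m hm => ?_⟩))
  show -tt ω z (a i) = tt ω (a i) (a m) - (rayOf ω a).acc m
  rw [hr.acc_eq, (hr.between hg.nonneg hm).1]
  ring

theorem GeoRay.bus_start (hr : GeoRay ω z a) (hg : Good bb cg ω) :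
    bus ω (rayOf ω a) z = 0 := by
  have := hr.bus_self hg 0
  rwa [hr.start, tt_self hg.nonneg, neg_zero] at this

theorem UpPath.join (hb : UpPath κ b) (hab : a 0 = b 0) (M : ℕ) : UpPath κ (V4.joinPath a b M) := by
  have ht := tendsto_sub_atTop_nat M
  have he : ∀ᶠ n in atTop, V4.joinPath a b M n = b (n - M) :=
    (eventually_ge_atTop M).mono fun n hn => join_right hab hn
  exact ⟨(hb.1.comp ht).congr' (he.mono fun n hn => by simp [hn]),
    ((ht.eventually hb.2).and he).mono fun n hn => by simpa [hn.2] using hn.1⟩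

/-- A path from a regular site with rays going up inside the cone stays above the low line. -/
theorem above_of_regular (hg : Good bb cg ω) (hgeo : GeoRay ω z b) (hup : UpPath κ b)
    (hst : Steered κ K rad ω z) (hd : Deep K rad ω 0 z) (hz : 0 < z.2) (k : ℕ) : 0 ≤ (b k).2 := by
  have h0 := hg.nonneg
  by_contra hk
  push Not at hk
  obtain ⟨n, hn⟩ := (tendsto_atTop.1 (rises_drop hup.1 k) z.2).exists
  obtain ⟨j, hj, hj'⟩ : ∃ j, k ≤ j ∧ (b j).2 = z.2 := by
    obtain ⟨i, hi⟩ := exists_firstVisit (r := fun n => b (n + k)) (H := z.2)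
      (fun n => by rw [add_right_comm]; exact hgeo.adj _) (by simp; omega) ⟨n, hn⟩
    exact ⟨i + k, Nat.le_add_left k i, hi.1⟩
  have hin : InCone K rad z (b j) := by
    by_contra hout
    have h1 := hst.full _ (hgeo.isTail hg) hup.cone (Or.inl hup.rises) _ hout
    rw [hgeo.bus_start hg, hgeo.bus_self hg] at h1
    linarith
  have h1 := hd (b k) (b j) hk.le hj' hin
  exact absurd ((hgeo.strictMono hg.pos).monotone hj) (not_le.2 h1)

/-- The lower ray of a marked regular site meets the low line near the site. -/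
theorem exists_foot (hg : Good bb cg ω) (hgeo : GeoRay ω z a) (hdown : DownPath κ a)
    (hst : Steered κ K rad ω z) (hz : 0 < z.2) :
    ∃ M, (a M).2 = 0 ∧ (∀ k ≤ M, 0 ≤ (a k).2) ∧
      |((a M).1 : ℝ) - z.1| ≤ K * max (z.2 : ℝ) rad := by
  have h0 := hg.nonneg
  obtain ⟨n, hn⟩ := (tendsto_atBot.1 hdown.1 0).exists
  have hex : ∃ n, (a n).2 ≤ 0 := ⟨n, hn⟩
  set M := Nat.find hex with hM
  have hle : (a M).2 ≤ 0 := Nat.find_spec hex
  have habove : ∀ k < M, 0 < (a k).2 := fun k hk => not_le.1 (Nat.find_min hex hk)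
  have hM0 : (a M).2 = 0 := by
    rcases Nat.eq_zero_or_pos M with h | h
    · rw [h, hgeo.start] at hle; omega
    · have h1 := adj_snd_le (hgeo.adj (M - 1))
      have h2 := habove (M - 1) (by omega)
      rw [Nat.sub_add_cancel h] at h1
      omega
  refine ⟨M, hM0, fun k hk => ?_, ?_⟩
  · rcases hk.lt_or_eq with h | rfl
    · exact (habove k h).le
    · exact hM0.ge
  by_contra hout
  have hout' : ¬ InCone K rad z (a M) := fun h => hout (by
    unfold InCone at h
    rw [hM0, zero_sub] at h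
    simp only [Int.cast_sub, Int.cast_neg, abs_neg] at h
    rwa [abs_of_pos (show (0 : ℝ) < (z.2 : ℝ) by exact_mod_cast hz)] at h)
  have h1 := hst.full _ (hgeo.isTail hg) hdown.2 (Or.inr hdown.1) _ hout'
  rw [hgeo.bus_start hg, hgeo.bus_self hg] at h1
  linarith

/-- A marked regular site is the site of a fork with both excesses. -/
theorem Mark.exists_fork (hm : Mark κ η ω z) (hg : Good bb cg ω) (hK : 0 ≤ K) (hrad : 0 ≤ rad)
    (hr : Around κ K rad W ω 0 z) (hz : 0 < z.2) :
    ∃ A C N, A N = z ∧ Fork κ ω 0 A C N ∧ |(A 0).1| ≤ W ∧ Excess ω η A N ∧ Excess ω η C N := by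
  obtain ⟨a, b, c, t, hb, hc, -⟩ := hm
  have h0 := hg.nonneg
  obtain ⟨M, hM0, habove, hfoot⟩ := exists_foot hg t.geoA t.down hr.1.steer hz
  have hab : a 0 = b 0 := t.geoA.start.trans t.geoB.start.symm
  have hac : a 0 = c 0 := t.geoA.start.trans t.geoC.start.symm
  have hray : ∀ {b : ℕ → Pt}, GeoRay ω z b → UpPath κ b →
      (∀ i j, tt ω (a i) (b j) = tt ω z (a i) + tt ω z (b j)) → HRay κ ω 0 (joinPath a b M) := by
    intro b hgb hub hadd
    have hab : a 0 = b 0 := t.geoA.start.trans hgb.start.symm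
    have hstart : joinPath a b M 0 = a M := by rw [join_left M.zero_le, Nat.sub_zero]
    refine ⟨by rw [hstart, hM0], hstart.symm ▸ t.geoA.join hgb hadd h0 M, hub.join hab M, fun n => ?_⟩
    rcases Nat.lt_or_ge n M with h | h
    · rw [join_left h.le]; exact habove _ (by omega)
    · rw [join_right hab h]; exact above_of_regular hg hgb hub hr.1.steer hr.1.deep hz _
  have hN : joinPath a b M M = z := by rw [join_left le_rfl, Nat.sub_self, t.geoA.start]
  have exc : ∀ {b : ℕ → Pt}, a 0 = b 0 → Excess ω η b 0 → Excess ω η (joinPath a b M) M := by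
    intro b hab hx n hadj hne m hm
    rw [join_right hab le_rfl, Nat.sub_self] at hadj ⊢
    rw [join_right hab ((Nat.le_add_right M 1)), Nat.add_sub_cancel_left] at hne
    rw [join_right hab hm.le]
    exact hx n hadj hne (m - M) (by omega)
  refine ⟨joinPath a b M, joinPath a c M, M, hN, ⟨hray t.geoB t.upB t.addB, hray t.geoC t.upC t.addC,
    hN.symm ▸ hz, fun k hk => by rw [join_left hk, join_left hk], ?_⟩, ?_, exc hab hb, exc hac hc⟩
  · rw [join_right hab (Nat.le_add_right M 1), join_right hac (Nat.le_add_right M 1), Nat.add_sub_cancel_left]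
    exact t.ne
  · rw [join_left M.zero_le, Nat.sub_zero]
    have hfit := hr.1.fits
    rw [sub_zero] at hfit
    have h1 := abs_sub_abs_le_abs_sub ((a M).1 : ℝ) (z.1 : ℝ)
    have h2 : (0 : ℝ) ≤ K * max (z.2 : ℝ) rad := le_trans (abs_nonneg _) hfoot
    have h3 := mul_nonneg hK hrad
    exact_mod_cast (show ((|(a M).1| : ℤ) : ℝ) ≤ ((W : ℤ) : ℝ) by push_cast; linarith)

/-- The count of marked regular sites. -/
theorem card_marks_le (hg : Good bb cg ω) (hc : 0 < cg) (hK : 0 ≤ K) (hrad : 0 ≤ rad)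
    (hw : Gauge κ K rad W B ω 0) (hη : 0 < η) (hL : 0 < L) (hB : 0 ≤ B) (Z : Finset Pt)
    (hZ : ∀ z ∈ Z, Mark κ η ω z ∧ Around κ K rad W ω 0 z ∧ 0 < z.2)
    [DecidablePred (Short κ K rad W η L ω 0)] :
    (Z.card : ℝ) ≤ 3 * (Z.filter (Short κ K rad W η L ω 0)).card +
      3 * (2 * W + 1) * (2 * B / L + 1) := by
  classical
  have oriented : ∀ z ∈ Z, ∃ A C N, A N = z ∧ Fork κ ω 0 A C N ∧ |(A 0).1| ≤ W ∧
      Excess ω η A N ∧ Excess ω η C N ∧ LtUp A C := by
    intro z hz
    obtain ⟨hm, hr, hpos⟩ := hZ z hz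
    obtain ⟨A, C, N, hN, hf, hu, hA, hC⟩ := hm.exists_fork hg hK hrad hr hpos
    have h2 := hf.two_le_Pw hg hc hK hrad hw (ForkIn.of_around hf (hN.symm ▸ hr) hu) hA hC
    rcases lt_trichotomy (Pw ω 0 W A) (Pw ω 0 W C) with hlt | heq | hgt
    · exact ⟨A, C, N, hN, hf, hu, hA, hC, hf.left.ltUp_of_Pw_lt hf.right hg hlt⟩
    · rw [heq, sub_self, abs_zero] at h2; linarith
    · exact ⟨C, A, N, (hf.agree N le_rfl).symm.trans hN, hf.symm, hf.base_eq ▸ hu, hC, hA,
        hf.right.ltUp_of_Pw_lt hf.left hg hgt⟩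
  choose! A C N hN hf hu hA hC ho using oriented
  set foot : Pt → ℤ := fun z => (A z 0).1 with hfootdef
  have hmaps : ∀ z ∈ Z, foot z ∈ Finset.Icc (-(W : ℤ)) W := fun z hz =>
    Finset.mem_Icc.2 (abs_le.1 (hu z hz))
  have hfib : ∀ x ∈ Finset.Icc (-(W : ℤ)) W, ((Z.filter fun z => foot z = x).card : ℝ) ≤
      3 * (((Z.filter fun z => foot z = x).filter (Short κ K rad W η L ω 0)).card + (2 * B / L + 1)) := by
    intro x hx
    have t : Tree κ K rad W η ω 0 (x, 0) (Z.filter fun z => foot z = x) A C N :=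
      ⟨fun z hz => hN z (Finset.mem_filter.1 hz).1,
        fun z hz => Prod.ext (Finset.mem_filter.1 hz).2 (hf z (Finset.mem_filter.1 hz).1).left.base,
        fun z hz => hf z (Finset.mem_filter.1 hz).1, fun z hz => (hZ z (Finset.mem_filter.1 hz).1).2.1,
        abs_le.2 (Finset.mem_Icc.1 hx), fun z hz => hA z (Finset.mem_filter.1 hz).1,
        fun z hz => hC z (Finset.mem_filter.1 hz).1⟩
    exact t.card_tree hg hc hw hL hB fun z hz => ho z (Finset.mem_filter.1 hz).1
  have hsum : (Z.card : ℝ) = ∑ x ∈ Finset.Icc (-(W : ℤ)) W, ((Z.filter fun z => foot z = x).card : ℝ) := by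
    exact_mod_cast Finset.card_eq_sum_card_fiberwise hmaps
  have hsum' : ((Z.filter (Short κ K rad W η L ω 0)).card : ℝ) = ∑ x ∈ Finset.Icc (-(W : ℤ)) W,
      (((Z.filter fun z => foot z = x).filter (Short κ K rad W η L ω 0)).card : ℝ) := by
    rw [Finset.card_eq_sum_card_fiberwise (fun z hz => hmaps z (Finset.mem_filter.1 hz).1)]
    push_cast
    exact Finset.sum_congr rfl fun x _ => by rw [Finset.filter_comm]
  rw [hsum]
  refine (Finset.sum_le_sum hfib).trans ?_
  rw [← Finset.mul_sum, Finset.sum_add_distrib, ← hsum', Finset.sum_const, nsmul_eq_mul, Int.card_Icc,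
    show (W : ℤ) + 1 - -(W : ℤ) = ((2 * W + 1 : ℕ) : ℤ) by push_cast; ring, Int.toNat_natCast]
  push_cast
  exact (by ring : _ = _).le

end Vale.Agent.P158.V4
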