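import Mathlib
import Vale.Agent.P158.V4.Stars2Count
import Vale.Agent.P158.V4.StarShift
import Vale.Agent.P158.V4.StarGain
import Vale.Agent.P158.V4.NullGood
import Vale.Agent.P158.V4.MainCost

/-!
P158, module Stars2, ninth part: the sites of a high box, their neighbours and the ends of the window
of the low line are regular with probability near one.
-/

namespace Vale.Agent.P158.V4

open MeasureTheory Filter Topology

variable {bb cg K rad : ℝ} {ω : Cfg} {h : ℤ} {q a : Pt}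

/-- Depth is carried by translations and grows with the distance to the line. -/
theorem Deep.shift (h0 : ∀ e, 0 ≤ ω e) (hd : Deep K rad (moveCfg a ω) h q) {g : ℤ}
    (hg : g ≤ h + a.2) : Deep K rad ω g (q + a) := by
  intro p y hp hy hin
  have h1 := hd (p + -a) (y + -a)
    (show p.2 + -a.2 ≤ h by omega) (show y.2 + -a.2 = q.2 by rw [hy, Prod.snd_add]; ring)
    (by rwa [← inCone_shift (a := a), neg_add_cancel_right])
  rwa [tt_move h0, tt_move h0, neg_add_cancel_right, neg_add_cancel_right] at h1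

theorem measurableSet_deep (K rad : ℝ) (h : ℤ) (q : Pt) :
    MeasurableSet {ω : Cfg | Deep K rad ω h q} := by
  simp only [Deep, Set.ofPred_forall]
  exact MeasurableSet.iInter fun p => MeasurableSet.iInter fun y => MeasurableSet.iInter fun _ =>
    MeasurableSet.iInter fun _ => MeasurableSet.iInter fun _ =>
      measurableSet_lt (measurable_tt _ _) (measurable_tt _ _)

/-- Deep lines are deep almost surely. -/
theorem eventually_deep (hg : Good bb cg ω) (hc : 0 < cg) (hK : 0 ≤ K) (hrad : 0 ≤ rad) :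
    ∃ d : ℕ, Deep K rad ω (-(d : ℤ)) (0, 0) := by
  set k : ℤ := ⌊K * rad⌋ with hk
  set T : ℝ := ∑ x ∈ Finset.Icc (-k) k, tt ω (0, 0) (x, 0)
  obtain ⟨D, hD⟩ := ((((hg.escape hc) (0, 0) T).image fun p => -p.2).bddAbove)
  refine ⟨(D + 1).toNat, fun p y hp hy hin => ?_⟩
  have hy' : tt ω (0, 0) y ≤ T := by
    unfold InCone at hin
    simp only [hy, sub_self, Int.cast_zero, abs_zero, max_eq_right hrad, sub_zero] at hin
    rw [show y = (y.1, 0) from Prod.ext rfl hy]
    refine Finset.single_le_sum (f := fun x : ℤ => tt ω (0, 0) (x, 0))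
      (fun x _ => tt_nonneg hg.nonneg) (Finset.mem_Icc.2 (abs_le.1 (Int.le_floor.2 ?_)))
    rwa [Int.cast_abs]
  by_contra hle
  push Not at hle
  have : -p.2 ≤ D := hD ⟨p, hle.trans hy', rfl⟩
  have h2 := Int.self_le_toNat (D + 1)
  omega

variable (G : Measure ℝ) [IsProbabilityMeasure G]

theorem exists_depth {b cg : ℝ} (hc : 0 < cg) (hgood : ∀ᵐ ω ∂law G, Good b cg ω) {K rad : ℝ}
    (hK : 0 ≤ K) (hrad : 0 ≤ rad) {ε : ℝ} (hε : 0 < ε) :
    ∃ d0 : ℕ, ∀ z : Pt, (d0 : ℤ) ≤ z.2 → (law G).real {ω | ¬ Deep K rad ω 0 z} ≤ ε := by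
  set S : ℕ → Set Cfg := fun d => {ω | ¬ Deep K rad ω (-(d : ℤ)) (0, 0)}
  have hm : ∀ d, NullMeasurableSet (S d) (law G) := fun d =>
    (measurableSet_deep K rad _ _).compl.nullMeasurableSet
  have hanti : Antitone S := fun d d' hdd ω hω hd => hω fun p y hp hy hin =>
    hd p y (by omega) hy hin
  have hnull : law G (⋂ d, S d) = 0 := by
    refine measure_mono_null (t := {ω | ¬ Good b cg ω}) ?_ (ae_iff.1 hgood)
    intro ω hω hg
    obtain ⟨d, hd⟩ := eventually_deep hg hc hK hrad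
    exact Set.mem_iInter.1 hω d hd
  have hlim := tendsto_measure_iInter_atTop hm hanti ⟨0, measure_ne_top _ _⟩
  rw [hnull] at hlim
  obtain ⟨d0, hd0⟩ := (hlim.eventually (eventually_le_nhds (ENNReal.ofReal_pos.2 hε))).exists
  refine ⟨d0, fun z hz => ?_⟩
  have hmp : MeasurePreserving (moveCfg z) (law G) (law G) := ⟨measurable_moveCfg z, map_moveCfg G z⟩
  rw [measureReal_def]
  refine ENNReal.toReal_le_of_le_ofReal hε.le (le_trans ?_ hd0)
  rw [Function.comp_apply, ← hmp.measure_preimage (hm d0)]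
  refine (measure_mono_ae ?_)
  filter_upwards [hgood] with ω hg hω hd
  have := Deep.shift hg.nonneg hd (g := 0) (by omega)
  rw [show ((0, 0) : Pt) + z = z from zero_add z] at this
  exact hω this

/-- The sites of a high box. -/
noncomputable def highBox (D : ℕ) : Finset Pt :=
  Finset.Ico (-(D : ℤ)) D ×ˢ Finset.Ico (D : ℤ) (2 * D)

theorem card_highBox (D : ℕ) : ((highBox D).card : ℝ) = 2 * (D : ℝ) ^ 2 := by
  rw [highBox, Finset.card_product, Int.card_Ico, Int.card_Ico,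
    show (D : ℤ) - -(D : ℤ) = ((2 * D : ℕ) : ℤ) by push_cast; ring,
    show 2 * (D : ℤ) - D = ((D : ℕ) : ℤ) by ring, Int.toNat_natCast, Int.toNat_natCast]
  push_cast
  ring

/-- Regularity around the sites of a high box, with probability near one. -/
theorem exists_around {μ : ℝ × ℝ → ℝ} {b C cg κ κ' : ℝ} (hc : 0 < cg)
    (hgood : ∀ᵐ ω ∂law G, Good b cg ω) (hG : ∀ᵐ t ∂G, 0 < t) (hcost : AxisCost G C)
    (hsteer : SteerStmt G μ)
    (hκ0 : 0 ≤ κ) (hlt : κ < κ') (hκ' : StrictSlope μ κ') :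
    ∃ K : ℝ, 1 ≤ K ∧ ∀ ε > (0 : ℝ), ∃ rad D0 : ℕ, ∀ D ≥ D0, ∀ W : ℕ, (4 * K + 2) * D ≤ W →
      ∀ z ∈ highBox D, ∃ R : Set Cfg, MeasurableSet R ∧ (law G).real Rᶜ ≤ ε ∧
        ∀ ω ∈ R, Good b cg ω ∧ Around κ K rad W ω 0 z ∧ Gauge κ K rad W (2 * C * W) ω 0 := by
  classical
  obtain ⟨K, hK, A, hAm, hA, hAlim⟩ := exists_regular G hG hsteer hκ0 hlt hκ'
  refine ⟨K, hK, fun ε hε => ?_⟩
  obtain ⟨rad, hrad⟩ := hAlim (ε / 16) (by linarith)
  obtain ⟨d0, hd0⟩ := exists_depth G hc hgood (show 0 ≤ K by linarith) rad.cast_nonneg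
    (ε := ε / 16) (by linarith)
  obtain ⟨N₀, hN₀⟩ := hcost.window (show (0 : ℝ) < ε / 16 by linarith)
  refine ⟨rad, max (max (rad + 1) (d0 + 1)) N₀, fun D hD W hW z hz => ?_⟩
  simp only [highBox, Finset.mem_product, Finset.mem_Ico] at hz
  have hDr : rad + 1 ≤ D ∧ d0 + 1 ≤ D :=
    ⟨le_of_max_le_left (le_of_max_le_left hD), le_of_max_le_right (le_of_max_le_left hD)⟩
  have hDW : N₀ ≤ 0 + 2 * W := by
    have h1 : (1 : ℝ) ≤ 4 * K + 2 := by linarith
    have h2 : (D : ℝ) ≤ W := (le_mul_of_one_le_left (Nat.cast_nonneg D) h1).trans hW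
    have h3 : D ≤ W := by exact_mod_cast h2
    have := le_of_max_le_right hD
    omega
  set T : Set Cfg := (toMeasurable (law G) {ω | ¬ (Good b cg ω ∧
    ∀ (r : ℕ) (u : Pt), ω ∈ A r u → Steered κ K r ω u)})ᶜ with hT
  have hT0 : (law G).real Tᶜ = 0 := by
    rw [hT, compl_compl, measureReal_def, measure_toMeasurable, ae_iff.1 (hgood.and hA),
      ENNReal.toReal_zero]
  set N : Finset Pt := insert z (Finset.univ.image fun d => z + step d) with hN
  set F : Finset Pt := N ∪ {(-(W : ℤ), 0), ((W : ℤ), 0)} with hF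
  set R : Set Cfg := (T ∩ (⋂ n ∈ F, A rad n) ∩ ⋂ n ∈ N, {ω | Deep K rad ω 0 n}) ∩
    (CostlyWindow C W 0)ᶜ
  have hNz : ∀ n ∈ N, |n.1 - z.1| ≤ 1 ∧ |n.2 - z.2| ≤ 1 := by
    intro n hn
    rcases Finset.mem_insert.1 hn with rfl | hn
    · simp
    · obtain ⟨d, -, rfl⟩ := Finset.mem_image.1 hn
      fin_cases d <;> simp [step]
  have hNc : N.card ≤ 5 := (Finset.card_insert_le _ _).trans
    (Nat.add_le_add_right (Finset.card_image_le.trans (by simp)) 1)
  have hFc : F.card ≤ 7 := (Finset.card_union_le _ _).trans (Nat.add_le_add hNc Finset.card_le_two)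
  refine ⟨R, (((measurableSet_toMeasurable _ _).compl.inter
    (Finset.measurableSet_biInter F fun n _ => hAm rad n)).inter
    (Finset.measurableSet_biInter N fun n _ => measurableSet_deep _ _ _ _)).inter
    (measurableSet_costlyWindow C W 0).compl, ?_, ?_⟩
  · have hsub : Rᶜ ⊆ Tᶜ ∪ (⋃ n ∈ F, (A rad n)ᶜ) ∪ (⋃ n ∈ N, {ω | ¬ Deep K rad ω 0 n}) ∪
        CostlyWindow C W 0 := by
      intro ω hω
      simp only [R, Set.mem_compl_iff, Set.mem_inter_iff, Set.mem_iInter, Set.mem_ofPred_eq, not_and_or,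
        not_forall, not_not] at hω
      simp only [Set.mem_union, Set.mem_iUnion, Set.mem_compl_iff, Set.mem_ofPred_eq]
      exact hω
    refine (measureReal_mono hsub).trans ((measureReal_union_le _ _).trans ?_)
    have h8 := hN₀ W 0 hDW
    have h9 := measureReal_union_le (μ := law G) (Tᶜ ∪ ⋃ n ∈ F, (A rad n)ᶜ)
      (⋃ n ∈ N, {ω | ¬ Deep K rad ω 0 n})
    have h1 := (measureReal_biUnion_finset_le (μ := law G) F fun n => (A rad n)ᶜ).trans
      (Finset.sum_le_card_nsmul _ _ (ε / 16) fun n _ => hrad rad le_rfl n)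
    have h2 := (measureReal_biUnion_finset_le (μ := law G) N fun n => {ω | ¬ Deep K rad ω 0 n}).trans
      (Finset.sum_le_card_nsmul _ _ (ε / 16) fun n hn => hd0 n (by
        have := abs_le.1 (hNz n hn).2
        omega))
    have h3 := measureReal_union_le (μ := law G) Tᶜ (⋃ n ∈ F, (A rad n)ᶜ)
    rw [nsmul_eq_mul] at h1 h2
    have h4 : (F.card : ℝ) ≤ 7 := by exact_mod_cast hFc
    have h5 : (N.card : ℝ) ≤ 5 := by exact_mod_cast hNc
    have h6 : (F.card : ℝ) * (ε / 16) ≤ 7 * (ε / 16) := by gcongr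
    have h7 : (N.card : ℝ) * (ε / 16) ≤ 5 * (ε / 16) := by gcongr
    linarith
  rintro ω ⟨⟨⟨hωT, hωA⟩, hωD⟩, hωC⟩
  obtain ⟨hg, hst⟩ := not_not.1 fun h => hωT (subset_toMeasurable _ _ h)
  simp only [Set.mem_iInter] at hωA hωD
  have hinner : ∀ n ∈ N, Inner κ K rad W ω 0 n := by
    intro n hn
    obtain ⟨h1, h2⟩ := hNz n hn
    rw [abs_le] at h1 h2
    refine ⟨hst rad n (hωA n (Finset.mem_union_left _ hn)), hωD n hn, by omega, ?_⟩
    rw [sub_zero]
    have a1 : |(n.1 : ℝ)| ≤ D + 1 := by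
      have : |n.1| ≤ (D : ℤ) + 1 := abs_le.2 ⟨by omega, by omega⟩
      exact_mod_cast this
    have a2 : max (n.2 : ℝ) (rad : ℝ) ≤ 2 * D := by
      refine max_le ?_ ?_
      · exact_mod_cast (show n.2 ≤ 2 * (D : ℤ) by omega)
      · exact_mod_cast (show rad ≤ 2 * D by omega)
    have a3 : K * max (n.2 : ℝ) (rad : ℝ) ≤ K * (2 * D) := by gcongr
    have a4 : K * (rad : ℝ) ≤ K * D := by
      gcongr
      exact_mod_cast (show rad ≤ D by omega)
    have a5 : (1 : ℝ) ≤ D := by exact_mod_cast (show 1 ≤ D by omega)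
    have a6 : 0 ≤ K * D := by positivity
    linarith
  have hWA : ∀ x : Pt, x = (-(W : ℤ), 0) ∨ x = ((W : ℤ), 0) → Steered κ K rad ω x := fun x hx =>
    hst rad x (hωA x (Finset.mem_union_right _ (by simpa using hx)))
  simp only [CostlyWindow, Set.mem_compl_iff, Set.mem_union, Set.mem_ofPred_eq, not_or, not_lt] at hωC
  refine ⟨hg, ⟨hinner z (Finset.mem_insert_self _ _), fun n hn => hinner n ?_⟩,
    hWA _ (Or.inl rfl), hWA _ (Or.inr rfl), ?_, ?_⟩
  · obtain ⟨d, rfl⟩ := exists_step hn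
    exact Finset.mem_insert_of_mem (Finset.mem_image_of_mem _ (Finset.mem_univ d))
  all_goals
    have h1 := hωC.1
    simp only [Nat.cast_zero, zero_add] at h1
  · linarith
  · rw [ttIn_comm hg.nonneg (linked_upper' 0) (show (((W : ℤ), 0) : Pt) ∈ upper 0 from le_refl (0 : ℤ))
      (show ((-(W : ℤ), 0) : Pt) ∈ upper 0 from le_refl (0 : ℤ))]
    linarith

end Vale.Agent.P158.V4
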