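import Mathlib
import Vale.Agent.P158.V4.Stars2Reg

/-!
P158, module Stars2, tenth part: marked sites have probability zero.
-/

namespace Vale.Agent.P158.V4

open MeasureTheory Filter Topology

variable (G : Measure ℝ) [IsProbabilityMeasure G]

theorem measurable_mass (δ δ' : ℝ) :
    Measurable fun v => G.real (Set.Ioo (v - δ) (v - δ')) := by
  have hs : MeasurableSet {p : ℝ × ℝ | p.1 - δ < p.2 ∧ p.2 < p.1 - δ'} :=
    (measurableSet_lt (measurable_fst.sub_const δ) measurable_snd).inter
      (measurableSet_lt measurable_snd (measurable_fst.sub_const δ'))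
  exact (measurable_measure_prodMk_left (ν := G) hs).ennreal_toReal

/-- Outside a small set there is mass bounded below just under a value. -/
theorem exists_gap (hatom : ∀ x, G {x} = 0) {δ ε : ℝ} (hδ : 0 < δ) (hε : 0 < ε) :
    ∃ δ', 0 < δ' ∧ δ' < δ ∧ ∃ g : ℝ, 0 < g ∧
      G.real {v | G.real (Set.Ioo (v - δ) (v - δ')) < g} ≤ ε := by
  set d : ℕ → ℝ := fun n => δ / (n + 2) with hd
  have hd_anti : Antitone d := fun m n h => by
    refine div_le_div_of_nonneg_left hδ.le (by positivity) ?_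
    have : (m : ℝ) ≤ n := Nat.cast_le.2 h
    linarith
  set S : ℕ → Set ℝ := fun n => {v | G.real (Set.Ioo (v - δ) (v - d n)) < 1 / ((n : ℝ) + 1)}
  have hS : ∀ n, NullMeasurableSet (S n) G := fun n =>
    (measurableSet_lt (measurable_mass G δ (d n)) measurable_const).nullMeasurableSet
  have hanti : Antitone S := fun m n h v hv => by
    have h1 : G.real (Set.Ioo (v - δ) (v - d m)) ≤ G.real (Set.Ioo (v - δ) (v - d n)) :=
      measureReal_mono (Set.Ioo_subset_Ioo le_rfl (by linarith [hd_anti h]))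
    have h2 : 1 / ((n : ℝ) + 1) ≤ 1 / ((m : ℝ) + 1) := Nat.one_div_le_one_div h
    exact lt_of_le_of_lt h1 (lt_of_lt_of_le hv h2)
  have hnull : G (⋂ n, S n) = 0 := by
    refine measure_mono_null (fun v hv => ?_) (measure_gapSet_zero G hatom hδ)
    have hsub : Set.Ioo (v - δ) (v - 0) ⊆ ⋃ n, Set.Ioo (v - δ) (v - d n) := by
      intro t ht
      rw [sub_zero] at ht
      obtain ⟨n, hn⟩ := exists_nat_gt (δ / (v - t))
      refine Set.mem_iUnion.2 ⟨n, ht.1, ?_⟩
      have hvt : 0 < v - t := by linarith [ht.2]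
      rw [div_lt_iff₀ hvt] at hn
      have h2 : (0 : ℝ) < n + 2 := by positivity
      have : d n < v - t := (div_lt_iff₀ h2).2 (by nlinarith)
      linarith
    refine measure_mono_null hsub (measure_iUnion_null fun n => ?_)
    rw [← measureReal_eq_zero_iff]
    refine le_antisymm (ge_of_tendsto (tendsto_one_div_add_atTop_nhds_zero_nat (𝕜 := ℝ)) ?_)
      measureReal_nonneg
    filter_upwards [eventually_ge_atTop n] with m hm
    exact (measureReal_mono (Set.Ioo_subset_Ioo le_rfl (by linarith [hd_anti hm]))).trans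
      (Set.mem_iInter.1 hv m).le
  have hlim := tendsto_measure_iInter_atTop hS hanti ⟨0, measure_ne_top _ _⟩
  rw [hnull] at hlim
  obtain ⟨n, hn⟩ := (hlim.eventually (eventually_le_nhds (ENNReal.ofReal_pos.2 hε))).exists
  refine ⟨d n, div_pos hδ (by positivity), div_lt_self hδ ?_, 1 / ((n : ℝ) + 1), by positivity,
    ENNReal.toReal_le_of_le_ofReal hε.le hn⟩
  have : (0 : ℝ) ≤ n := n.cast_nonneg
  linarith

variable {κ η δ' L g : ℝ} {W : ℕ}

/-- Lowering the step to `n` turns a fork with one excess into one with both. -/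
theorem le_real_both {b cg : ℝ} (hη : 0 < η) (hδ0 : 0 ≤ δ') (hδ : δ' ≤ η / 2) (z n : Pt) :
    g * (law G).real {ω | Good b cg ω ∧ Wide κ η W L ω z n ∧ Floor ω η z ∧
        g ≤ G.real (Set.Ioo (ω s(z, n) - η / 2) (ω s(z, n) - δ'))} ≤
      (law G).real {ω | Both κ δ' W (L + 2 * η) ω z} := by
  classical
  set S := {ω | Good b cg ω ∧ Wide κ η W L ω z n ∧ Floor ω η z ∧
    g ≤ G.real (Set.Ioo (ω s(z, n) - η / 2) (ω s(z, n) - δ'))}
  set B := {ω : Cfg | Both κ δ' W (L + 2 * η) ω z}
  set e := s(z, n) with he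
  rcases le_or_gt g 0 with hg | hg
  · exact (mul_nonpos_of_nonpos_of_nonneg hg measureReal_nonneg).trans measureReal_nonneg
  set Φ : ℝ × Cfg → Cfg := fun p => Function.update p.2 e p.1
  have hmp : MeasurePreserving Φ (G.prod (law G)) (law G) := measurePreserving_update G e
  set T := toMeasurable (law G) B
  have hT : MeasurableSet (Φ ⁻¹' T) := hmp.measurable (measurableSet_toMeasurable _ _)
  set F : Cfg → ENNReal := fun ω => G ((fun t => (t, ω)) ⁻¹' (Φ ⁻¹' T))
  have hF : S ⊆ {ω | ENNReal.ofReal g ≤ F ω} := by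
    rintro ω ⟨hgood, ⟨A, C, N, hN, hn, hf, hfoot, hx, hsp⟩, hfl, hmass⟩
    have hadj : grid.Adj z n := by
      rw [← hN, ← hn, hf.agree N le_rfl]
      exact hf.right.geo.adj N
    have hsub : Set.Ioo (ω e - η / 2) (ω e - δ') ⊆ (fun t => (t, ω)) ⁻¹' (Φ ⁻¹' T) := by
      intro t ht
      refine subset_toMeasurable _ _ ?_
      have hy : ∀ e', 0 ≤ Function.update ω e t e' := fun e' => by
        by_cases h : e' = e
        · subst h
          rw [Function.update_self]
          linarith [hfl n hadj, ht.1]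
        · rw [Function.update_of_ne h]
          exact hgood.nonneg e'
      have heq : ∀ e', e' ≠ s(A N, C (N + 1)) → Function.update ω e t e' = ω e' := fun e' h =>
        Function.update_of_ne (by rwa [hN, hn] at h) _ _
      have h1 : Function.update ω e t s(A N, C (N + 1)) = ω s(A N, C (N + 1)) - (ω e - t) := by
        rw [hN, hn, Function.update_self, sub_sub_cancel]
      obtain ⟨hf', hxA, hxC, hsd⟩ := hf.lower hgood hx (hN.symm ▸ hfl) hy heq h1 (W := W)
        (by linarith [ht.2]) (by linarith [ht.1, ht.2])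
      refine ⟨A, C, N, hN, hf', hfoot, fun n' h1 h2 m hm => ?_, fun n' h1 h2 m hm => ?_, hsp.mono fun m hm => ?_⟩
      · linarith [hxA n' h1 h2 m hm, ht.1]
      · linarith [hxC n' h1 h2 m hm, ht.2]
      · have h3 := abs_le.1 (hsd m)
        have h4 := abs_le.1 hm
        rw [abs_le]
        constructor <;> linarith [ht.1, ht.2]
    refine le_trans ?_ (measure_mono hsub)
    rw [ENNReal.ofReal_le_iff_le_toReal (measure_ne_top _ _)]
    exact hmass
  have hint : ENNReal.ofReal g * law G S ≤ law G B := by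
    refine (mul_le_mul_right (measure_mono hF) _).trans ?_
    refine (mul_meas_ge_le_lintegral₀ (measurable_measure_prodMk_right hT).aemeasurable _).trans ?_
    rw [← Measure.prod_apply_symm hT, hmp.measure_preimage (measurableSet_toMeasurable _ _).nullMeasurableSet,
      measure_toMeasurable]
  have := ENNReal.toReal_mono (measure_ne_top _ _) hint
  rwa [ENNReal.toReal_mul, ENNReal.toReal_ofReal hg.le] at this

/-- Sums of probabilities of null measurable events, some together with a measurable one, compare as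
the numbers of occurring events do. -/
theorem sum_real_le {ι : Type*} (s : Finset ι) {P R Q : ι → Set Cfg}
    (hP : ∀ i ∈ s, NullMeasurableSet (P i) (law G)) (hR : ∀ i ∈ s, MeasurableSet (R i)) {M c : ℝ}
    (hc : 0 ≤ c) (h : ∀ᵐ ω ∂law G, ∑ i ∈ s, (P i ∩ R i).indicator (fun _ => (1 : ℝ)) ω ≤
      M + c * ∑ i ∈ s, (Q i).indicator (fun _ => (1 : ℝ)) ω) :
    ∑ i ∈ s, (law G).real (P i ∩ R i) ≤ M + c * ∑ i ∈ s, (law G).real (Q i) := by
  have hP' : ∀ i ∈ s, ((toMeasurable (law G) (P i) ∩ R i : Set Cfg)) =ᵐ[law G] (P i ∩ R i : Set Cfg) :=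
    fun i hi => (hP i hi).toMeasurable_ae_eq.inter EventuallyEq.rfl
  have hm : ∀ i ∈ s, MeasurableSet (toMeasurable (law G) (P i) ∩ R i) := fun i hi =>
    (measurableSet_toMeasurable _ _).inter (hR i hi)
  have hall : ∀ᵐ ω ∂law G, ∀ i ∈ s, (ω ∈ toMeasurable (law G) (P i) ∩ R i ↔ ω ∈ P i ∩ R i) :=
    (Finset.eventually_all s).2 fun i hi => (hP' i hi).mem_iff
  have iA : ∀ i ∈ s, Integrable ((toMeasurable (law G) (P i) ∩ R i).indicator fun _ => (1 : ℝ)) (law G) :=
    fun i hi => (integrable_const _).indicator (hm i hi)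
  have iB : ∀ i ∈ s, Integrable ((toMeasurable (law G) (Q i)).indicator fun _ => (1 : ℝ)) (law G) :=
    fun i _ => (integrable_const _).indicator (measurableSet_toMeasurable _ _)
  have := integral_mono_ae (integrable_finsetSum s iA)
    ((integrable_const M).add ((integrable_finsetSum s iB).const_mul c)) ?_
  · rw [integral_add' (integrable_const M) ((integrable_finsetSum s iB).const_mul c),
      integral_const_mul, integral_finsetSum s iA, integral_finsetSum s iB] at this
    simp only [integral_const, probReal_univ, smul_eq_mul, one_mul] at this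
    refine le_trans (le_of_eq (Finset.sum_congr rfl fun i hi => ?_)) (this.trans (le_of_eq ?_))
    · rw [integral_indicator (hm i hi), setIntegral_const, smul_eq_mul, mul_one,
        measureReal_congr (hP' i hi)]
    · congr 2
      exact Finset.sum_congr rfl fun i hi => by
        rw [integral_indicator (measurableSet_toMeasurable _ _), setIntegral_const, smul_eq_mul, mul_one,
          measureReal_def, measure_toMeasurable, ← measureReal_def]
  filter_upwards [hall, h] with ω hω hle
  refine le_trans (le_of_eq (Finset.sum_congr rfl fun i hi => ?_)) (hle.trans ?_)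
  · classical
    simp only [Set.indicator_apply, hω i hi]
  · simp only [Pi.add_apply]
    gcongr with i hi
    exact subset_toMeasurable _ _

/-- Marked sites have probability zero. -/
theorem real_mark_eq_zero_of_cost {μ : ℝ × ℝ → ℝ} {b C cg : ℝ} (hatom : ∀ x, G {x} = 0)
    (hG : ∀ᵐ t ∂G, 0 < t) (hc : 0 < cg) (hgood : ∀ᵐ ω ∂law G, Good b cg ω) (hb0 : 0 ≤ C)
    (hcost : AxisCost G C) (hsteer : SteerStmt G μ) (hκ : StrictSlope μ κ) (hη : 0 < η) :
    (law G).real {ω | Mark κ η ω (0, 0)} = 0 := by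
  classical
  set q := (law G).real {ω | Mark κ η ω (0, 0)} with hqdef
  refine le_antisymm (le_of_not_gt fun hq => ?_) measureReal_nonneg
  obtain ⟨hκ0, κ', hκ', hsup⟩ := hκ
  set κ2 := (2 * κ + κ') / 3 with hκ2
  set κ3 := (κ + 2 * κ') / 3 with hκ3
  obtain ⟨K, hK, hreg⟩ := exists_around G hc hgood hG hcost hsteer (κ := κ2) (κ' := κ3)
    (by linarith) (by linarith) ⟨by linarith, κ', by linarith, hsup⟩
  obtain ⟨δ', hδ', hδ'2, g, hg, hgap⟩ := exists_gap G hatom (half_pos hη) (ε := q / 96) (by linarith)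
  obtain ⟨rad, D0, hR⟩ := hreg (q / (4 * (12 / g + 1))) (by positivity)
  set c1 := 4 * K + 3 with hc1
  set L := 144 * C * c1 ^ 2 / q + 1 with hLdef
  have hL : 0 < L := by positivity
  set P := (12 * (L + 1 + 2 * η) / δ' + 3) * (4 * (L + 1 + 2 * η) / δ' + 1) with hPdef
  have hP : 0 ≤ P := by positivity
  set M := 12 / g * ((48 * C * c1 / δ' + 2) * P) + 9 * c1 with hMdef
  obtain ⟨D, hD0, hD1, hDM⟩ : ∃ D : ℕ, D0 ≤ D ∧ 1 ≤ D ∧ M < q * D := by
    refine ⟨max (max D0 1) (⌊M / q⌋₊ + 1), by omega, by omega, ?_⟩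
    rw [← div_lt_iff₀' hq]
    calc M / q < (⌊M / q⌋₊ + 1 : ℕ) := by push_cast; exact Nat.lt_floor_add_one _
      _ ≤ ((max (max D0 1) (⌊M / q⌋₊ + 1) : ℕ) : ℝ) := by exact_mod_cast le_max_right _ _
  set W := ⌈(4 * K + 2) * (D : ℝ)⌉₊ with hWdef
  have hD1' : (1 : ℝ) ≤ D := by exact_mod_cast hD1
  have hWle : (W : ℝ) ≤ c1 * D := by
    have := Nat.ceil_lt_add_one (show 0 ≤ (4 * K + 2) * (D : ℝ) by positivity)
    rw [hc1]
    rw [← hWdef] at this
    linarith
  have hW1 : (1 : ℝ) ≤ W := le_trans (by nlinarith) (Nat.le_ceil _)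
  choose! R hRm hRc hRω using hR D hD0 W (Nat.le_ceil _)
  set B := 2 * C * (W : ℝ) with hBdef
  have hB : 0 ≤ B := by positivity
  set εr := q / (4 * (12 / g + 1)) with hεr
  -- every site of the box is marked as often as the origin
  have hq_le : ∀ z ∈ highBox D, q ≤ (law G).real {ω | Mark κ2 η ω z} := by
    intro z _
    have hmp : MeasurePreserving (moveCfg z) (law G) (law G) :=
      ⟨measurable_moveCfg z, map_moveCfg G z⟩
    rw [hqdef, measureReal_def, ← hmp.measure_preimage (nullMeasurableSet_mark G κ η _), measureReal_def]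
    refine ENNReal.toReal_mono (measure_ne_top _ _) (measure_mono_ae ?_)
    filter_upwards [hgood] with ω hω hm
    have := Mark.shift hω.nonneg hκ0 (show κ < κ2 by linarith) hm
    rwa [show ((0, 0) : Pt) + z = z from zero_add z] at this
  have hpos : ∀ z ∈ highBox D, 0 < z.2 := fun z hz => by
    simp only [highBox, Finset.mem_product, Finset.mem_Ico] at hz
    omega
  -- few marks apart from short forks
  have hmain : ∑ z ∈ highBox D, (law G).real ({ω | Mark κ2 η ω z} ∩ R z) ≤
      3 * (2 * W + 1) * (2 * B / L + 1) + 3 * ∑ z ∈ highBox D,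
        (law G).real {ω | (Mark κ2 η ω z ∧ ω ∈ R z) ∧ Short κ2 K rad W η L ω 0 z} := by
    refine sum_real_le G _ (fun z _ => nullMeasurableSet_mark G κ2 η z) hRm (by norm_num) ?_
    refine ae_of_all _ fun ω => ?_
    simp only [Set.indicator_apply, Set.mem_inter_iff, Set.mem_ofPred_eq, Finset.sum_boole]
    set Z := (highBox D).filter fun z => Mark κ2 η ω z ∧ ω ∈ R z with hZ
    rw [show ((highBox D).filter fun z => (Mark κ2 η ω z ∧ ω ∈ R z) ∧ Short κ2 K rad W η L ω 0 z) =
      Z.filter (Short κ2 K rad W η L ω 0) from (Finset.filter_filter _ _ _).symm]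
    rcases Z.eq_empty_or_nonempty with h | ⟨z₀, hz₀⟩
    · rw [h]
      simp only [Finset.card_empty, Nat.cast_zero, Finset.filter_empty, mul_zero, add_zero]
      positivity
    obtain ⟨hz₀b, -, hz₀R⟩ := Finset.mem_filter.1 hz₀
    obtain ⟨hgω, -, hgau⟩ := hRω z₀ hz₀b ω hz₀R
    have := card_marks_le hgω hc (by linarith) rad.cast_nonneg hgau hη hL hB Z fun z hz => by
      obtain ⟨hzb, hm, hr⟩ := Finset.mem_filter.1 hz
      exact ⟨hm, (hRω z hzb ω hr).2.1, hpos z hzb⟩
    linarith
  -- short forks become forks with both excesses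
  set Bt : Pt → Set Cfg := fun z => {ω | Both κ2 δ' W (L + 1 + 2 * η) ω z}
  have hshort : ∀ z ∈ highBox D,
      (law G).real {ω | (Mark κ2 η ω z ∧ ω ∈ R z) ∧ Short κ2 K rad W η L ω 0 z} ≤
        4 * (q / 96) + 4 / g * (law G).real (Bt z) := by
    intro z hz
    set S : Fin 4 → Set Cfg := fun d => {ω | Good b cg ω ∧ Wide κ2 η W (L + 1) ω z (z + step d) ∧
      Floor ω η z ∧ g ≤ G.real (Set.Ioo (ω s(z, z + step d) - η / 2) (ω s(z, z + step d) - δ'))}
    set E : Fin 4 → Set Cfg := fun d => (fun ω : Cfg => ω s(z, z + step d)) ⁻¹'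
      {v | G.real (Set.Ioo (v - η / 2) (v - δ')) < g}
    have hsub : {ω | (Mark κ2 η ω z ∧ ω ∈ R z) ∧ Short κ2 K rad W η L ω 0 z} ⊆
        ⋃ d ∈ (Finset.univ : Finset (Fin 4)), (E d ∪ S d) := by
      rintro ω ⟨⟨⟨-, -, -, -, -, -, hfl⟩, hωR⟩, A, X, N, hN, hf, hi, hx, hPw⟩
      obtain ⟨hgω, -⟩ := hRω z hz ω hωR
      have hadj : grid.Adj z (X (N + 1)) := by
        rw [← hN, hf.agree N le_rfl]
        exact hf.right.geo.adj N
      obtain ⟨d, hd⟩ := exists_step hadj
      simp only [Finset.mem_univ, Set.iUnion_true, Set.mem_iUnion, Set.mem_union]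
      refine ⟨d, (lt_or_ge (G.real (Set.Ioo (ω s(z, z + step d) - η / 2) (ω s(z, z + step d) - δ')))
        g).imp id fun hge => ⟨hgω, ⟨A, X, N, hN, hd, hf, hi.foot, hx, ?_⟩, hfl, hge⟩⟩
      exact (hf.tendsto_spread hgω).abs.eventually_le_const (by linarith)
    refine (measureReal_mono hsub (measure_ne_top (law G) _)).trans ((measureReal_biUnion_finset_le _ _).trans
      ((Finset.sum_le_card_nsmul _ _ (q / 96 + (law G).real (Bt z) / g) fun d _ => ?_).trans_eq ?_))
    · refine (measureReal_union_le _ _).trans (add_le_add ?_ ?_)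
      · rw [measureReal_def, (measurePreserving_eval_infinitePi (fun _ : Sym2 Pt => G) _).measure_preimage
          (measurableSet_lt (measurable_mass G (η / 2) δ') measurable_const).nullMeasurableSet,
          ← measureReal_def]
        exact hgap
      · rw [le_div_iff₀ hg, mul_comm]
        exact le_real_both G hη hδ'.le hδ'2.le z (z + step d)
    · rw [Finset.card_univ, Fintype.card_fin, nsmul_eq_mul]
      push_cast
      ring
  -- forks with both excesses are few
  have hboth : ∑ z ∈ highBox D, (law G).real (Bt z) ≤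
      (24 * B / δ' + 2) * P + (highBox D).card * εr := by
    have h1 := sum_real_le G (highBox D) (P := Bt) (R := R) (Q := fun _ => ∅) (c := 0)
      (M := (24 * B / δ' + 2) * P) (fun z _ => nullMeasurableSet_both G κ2 δ' W _ z) hRm le_rfl ?_
    · have h2 : ∀ z ∈ highBox D, (law G).real (Bt z) ≤ (law G).real (Bt z ∩ R z) + εr := fun z hz => by
        refine le_trans (measureReal_mono (s₂ := (Bt z ∩ R z) ∪ (R z)ᶜ) fun ω hω => ?_)
          ((measureReal_union_le _ _).trans (add_le_add le_rfl (hRc z hz)))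
        by_cases h : ω ∈ R z
        · exact Or.inl ⟨hω, h⟩
        · exact Or.inr h
      have h3 := Finset.sum_le_sum h2
      rw [Finset.sum_add_distrib, Finset.sum_const, nsmul_eq_mul] at h3
      linarith
    refine ae_of_all _ fun ω => ?_
    simp only [Set.indicator_apply, Set.mem_inter_iff, Set.mem_empty_iff_false, if_false,
      Finset.sum_const_zero, mul_zero, add_zero, Finset.sum_boole, Bt, Set.mem_ofPred_eq]
    set Z := (highBox D).filter fun z => Both κ2 δ' W (L + 1 + 2 * η) ω z ∧ ω ∈ R z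
    rcases Z.eq_empty_or_nonempty with h | ⟨z₀, hz₀⟩
    · rw [h, Finset.card_empty, Nat.cast_zero]
      positivity
    obtain ⟨hz₀b, -, hz₀R⟩ := Finset.mem_filter.1 hz₀
    obtain ⟨hgω, -, hgau⟩ := hRω z₀ hz₀b ω hz₀R
    rw [hPdef, ← mul_assoc]
    refine card_forks_le hgω hc (by linarith) rad.cast_nonneg hgau hδ' (by positivity) hB Z ?_
    intro z hz
    obtain ⟨hzb, ⟨A, C, N, hN, hf, hfoot, hA, hC, hsp⟩, hr⟩ := Finset.mem_filter.1 hz
    have har := (hRω z hzb ω hr).2.1
    refine ⟨A, C, N, hN, hf, ?_, hA, hC, le_of_tendsto (hf.tendsto_spread hgω).abs hsp⟩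
    exact ForkIn.of_around hf (hN.symm ▸ har) hfoot
  -- the marks of the box
  have hlow : (highBox D).card * q ≤
      ∑ z ∈ highBox D, (law G).real ({ω | Mark κ2 η ω z} ∩ R z) + (highBox D).card * εr := by
    have h2 : ∀ z ∈ highBox D, q ≤ (law G).real ({ω | Mark κ2 η ω z} ∩ R z) + εr := fun z hz => by
      refine (hq_le z hz).trans (le_trans (measureReal_mono (s₂ := ({ω | Mark κ2 η ω z} ∩ R z) ∪ (R z)ᶜ)
        fun ω hω => ?_) ((measureReal_union_le _ _).trans (add_le_add le_rfl (hRc z hz))))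
      by_cases h : ω ∈ R z
      · exact Or.inl ⟨hω, h⟩
      · exact Or.inr h
    have h3 := Finset.sum_le_sum h2
    rwa [Finset.sum_add_distrib, Finset.sum_const, Finset.sum_const, nsmul_eq_mul, nsmul_eq_mul] at h3
  have hsum := Finset.sum_le_sum hshort
  rw [Finset.sum_add_distrib, Finset.sum_const, nsmul_eq_mul, ← Finset.mul_sum] at hsum
  have hcard := card_highBox D
  set N : ℝ := ((highBox D).card : ℝ)
  -- compare
  have e1 : 4 / g * ∑ z ∈ highBox D, (law G).real (Bt z) ≤ 4 / g * ((24 * B / δ' + 2) * P + N * εr) := by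
    gcongr
  have e2 : (24 * B / δ' + 2) * P ≤ (48 * C * c1 / δ' + 2) * P * D := by
    have h1 : 24 * B / δ' ≤ 48 * C * c1 / δ' * D := by
      rw [hBdef, div_mul_eq_mul_div, div_le_div_iff_of_pos_right hδ']
      calc 24 * (2 * C * (W : ℝ)) ≤ 24 * (2 * C * (c1 * D)) := by gcongr
        _ = 48 * C * c1 * D := by ring
    calc (24 * B / δ' + 2) * P ≤ (48 * C * c1 / δ' * D + 2 * D) * P := by
          gcongr
          linarith
      _ = _ := by ring
  have e3 : (12 / g + 1) * εr = q / 4 := by rw [hεr]; field_simp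
  have e3' := congrArg (fun x => x * N) e3
  have e4 : 3 * (2 * (W : ℝ) + 1) * (2 * B / L + 1) ≤ q / 4 * D ^ 2 + 9 * c1 * D := by
    have h1 : 3 * (2 * (W : ℝ) + 1) ≤ 9 * c1 * D := by linarith
    have h2 : 2 * B / L ≤ 4 * C * c1 * D / L := by
      refine div_le_div_of_nonneg_right ?_ hL.le
      rw [hBdef]
      calc 2 * (2 * C * (W : ℝ)) ≤ 2 * (2 * C * (c1 * D)) := by gcongr
        _ = 4 * C * c1 * D := by ring
    have h3 : 36 * C * c1 ^ 2 / L ≤ q / 4 := by
      rw [div_le_iff₀ hL, hLdef, mul_add, show q / 4 * (144 * C * c1 ^ 2 / q) = 36 * C * c1 ^ 2 by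
        field_simp; ring]
      linarith
    calc 3 * (2 * (W : ℝ) + 1) * (2 * B / L + 1) ≤ 9 * c1 * D * (4 * C * c1 * D / L + 1) := by gcongr
      _ = 36 * C * c1 ^ 2 / L * D ^ 2 + 9 * c1 * D := by ring
      _ ≤ q / 4 * D ^ 2 + 9 * c1 * D := by gcongr
  have e5 : 4 / g * ((24 * B / δ' + 2) * P) ≤ 4 / g * ((48 * C * c1 / δ' + 2) * P * D) := by gcongr
  have e6 : q * (D : ℝ) ^ 2 ≤ M * D := by
    rw [hMdef]
    rw [hcard] at hlow hsum e1 e3'
    ring_nf at hlow hmain hsum e1 e3' e4 e5 ⊢
    linarith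
  have e7 := mul_lt_mul_of_pos_right hDM (show (0 : ℝ) < D by linarith)
  linarith [show q * (D : ℝ) ^ 2 = q * D * D by ring]

/-- Marked sites have probability zero for bounded weights. -/
theorem real_mark_eq_zero {μ : ℝ × ℝ → ℝ} {b : ℝ} (hatom : ∀ x, G {x} = 0)
    (hG : ∀ᵐ t ∂G, 0 < t ∧ t ≤ b) (hsteer : SteerStmt G μ) (hκ : StrictSlope μ κ) (hη : 0 < η) :
    (law G).real {ω | Mark κ η ω (0, 0)} = 0 := by
  obtain ⟨cg, hc, hgood⟩ := ae_good G hG hatom
  exact real_mark_eq_zero_of_cost G hatom (hG.mono fun _ h => h.1) hc hgood (b_nonneg G hG)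
    (axisCost_of_le hG) hsteer hκ hη

end Vale.Agent.P158.V4
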