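import Mathlib
import Vale.Agent.P158.V4.Stars2Prob

/-!
P158, module Stars2, eleventh part: gaps between the two upper rays. Lowering their first steps one
after the other makes a marked site, so gaps have probability zero at every site.
-/

namespace Vale.Agent.P158.V4

open MeasureTheory Filter Topology

/-- Each upper ray loses at least `σ` by the first step of the other one. -/
def Gapped (κ σ : ℝ) (ω : Cfg) (z : Pt) : Prop :=
  ∃ a b c, Tri κ ω z a b c ∧ GapTo ω b 0 (c 1) σ ∧ GapTo ω c 0 (b 1) σ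

/-- One upper ray has excess and the other loses by the first step of the first one. -/
def HalfMark (κ η : ℝ) (ω : Cfg) (z : Pt) : Prop :=
  ∃ a b c, Tri κ ω z a b c ∧ Excess ω η b 0 ∧ GapTo ω c 0 (b 1) η

variable {bb cg κ κ' σ τ ρ η : ℝ} {ω y : Cfg} {z : Pt} {a b c : ℕ → Pt}

theorem GapTo.mono {r : ℕ → Pt} {N : ℕ} {n : Pt} (h : GapTo ω r N n σ) (hle : ρ ≤ σ) :
    GapTo ω r N n ρ := fun m hm => by linarith [h m hm]

theorem exists_floor (hpos : ∀ e, 0 < ω e) (z : Pt) : ∃ η > 0, Floor ω η z := by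
  refine ⟨(Finset.univ : Finset (Fin 4)).inf' Finset.univ_nonempty fun d => ω s(z, z + step d),
    (Finset.lt_inf'_iff _).2 fun d _ => hpos _, fun n hn => ?_⟩
  obtain ⟨d, rfl⟩ := exists_step hn
  exact Finset.inf'_le _ (Finset.mem_univ d)

theorem Tri.geo_fst (t : Tri κ ω z a b c) (hpos : ∀ e, 0 < ω e) : a 1 ≠ c 1 := by
  intro e
  have h0 : ∀ e, 0 ≤ ω e := fun e => (hpos e).le
  have h := t.addC 1 1
  rw [e, tt_self h0] at h
  have h1 := t.geoC.edge h0 0
  rw [zero_add, t.geoC.start] at h1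
  linarith [hpos s(z, c 1)]

/-- Lowering the first step of the ray `c`. -/
theorem Tri.lower (t : Tri κ ω z a b c) (hg : Good bb cg ω) (hσ : GapTo ω b 0 (c 1) σ)
    (heq : ∀ e, e ≠ s(z, c 1) → y e = ω e) (he : y s(z, c 1) = ω s(z, c 1) - τ) (hτ : 0 ≤ τ)
    (hτσ : τ ≤ σ) (hτe : τ ≤ ω s(z, c 1)) (hη : Floor ω η z) :
    Tri κ y z a b c ∧ Excess y (min τ η) c 0 ∧
      (∀ n, grid.Adj z n → n ≠ c 1 → GapTo ω b 0 n ρ → GapTo y b 0 n (min ρ η)) ∧
      GapTo y b 0 (c 1) (min (σ - τ) (ω s(z, c 1) - τ)) := by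
  have h0 := hg.nonneg
  have hy : ∀ e, 0 ≤ y e := fun e => by
    by_cases h : e = s(z, c 1)
    · subst h; linarith
    · rw [heq e h]; exact h0 e
  set e := s(z, c 1) with hedef
  have key := tt_lower_ge (p := z) (q := c 1) h0 hy heq
  have hle : ∀ e', y e' ≤ ω e' := fun e' => by
    by_cases hh : e' = e
    · subst hh; linarith
    · exact (heq e' hh).le
  have hmono := tt_mono (x := ω) hy hle
  have hadj : grid.Adj z (c 1) := by
    have := t.geoC.adj 0
    rwa [t.geoC.start] at this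
  have hzc : tt ω z (c 1) = ω e := by
    have := t.geoC.edge h0 0
    rwa [zero_add, t.geoC.start] at this
  have hye := hy e
  have hbz : b 0 = z := t.geoB.start
  have hcz : c 0 = z := t.geoC.start
  have ec : ∀ j, 0 < j → tt ω (c 1) (c j) = tt ω z (c j) - ω e := fun j hj => by
    rw [(t.geoC.between h0 hj).1, hzc]
  have gapb : ∀ j, tt ω z (b j) ≤ ω e + tt ω (c 1) (b j) - τ ∨ j = 0 := fun j => by
    rcases Nat.eq_zero_or_pos j with h | h
    · exact Or.inr h
    · have := hσ j h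
      rw [hbz] at this
      exact Or.inl (by linarith)
  have ea : ∀ i, tt ω (a i) (c 1) = tt ω z (a i) + ω e := fun i => by rw [t.addC i 1, hzc]
  -- times from the site
  have hA : ∀ i, tt y z (a i) = tt ω z (a i) := fun i => by
    refine le_antisymm (hmono _ _) (le_trans (le_min le_rfl (le_min ?_ ?_)) (key _ _))
    · rw [tt_self h0, tt_comm h0 (c 1), ea]
      linarith
    · linarith
  have hB : ∀ j, tt y z (b j) = tt ω z (b j) := fun j => by
    refine le_antisymm (hmono _ _) (le_trans (le_min le_rfl (le_min ?_ ?_)) (key _ _))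
    · rcases gapb j with h | rfl
      · rw [tt_self h0]; linarith
      · rw [hbz, tt_self h0, tt_comm h0 (c 1) z, hzc]; linarith
    · linarith
  have hC : ∀ j, tt y z (c j) = tt ω z (c j) - if j = 0 then 0 else τ := fun j => by
    rcases Nat.eq_zero_or_pos j with rfl | hj
    · rw [if_pos rfl, sub_zero, hcz, tt_self hy, tt_self h0]
    rw [if_neg hj.ne']
    refine le_antisymm ?_ (le_trans (le_min (by linarith) (le_min ?_ ?_)) (key _ _))
    · linarith [tt_triangle hy z (c 1) (c j), hmono (c 1) (c j), tt_le_step hy hadj, ec j hj]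
    · rw [tt_self h0, ec j hj]; linarith
    · linarith
  have offA : ∀ k, s(a k, a (k + 1)) ≠ e := fun k hk => by
    rcases Sym2.eq_iff.1 hk with ⟨h1, h2⟩ | ⟨h1, h2⟩
    · obtain rfl : k = 0 := t.geoA.inj hg.pos (h1.trans t.geoA.start.symm)
      exact t.geo_fst hg.pos h2
    · exact Nat.succ_ne_zero k (t.geoA.inj hg.pos (h2.trans t.geoA.start.symm))
  have offB : ∀ k, s(b k, b (k + 1)) ≠ e := fun k hk => by
    rcases Sym2.eq_iff.1 hk with ⟨h1, h2⟩ | ⟨h1, h2⟩
    · obtain rfl : k = 0 := t.geoB.inj hg.pos (h1.trans hbz.symm)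
      exact t.ne h2
    · exact Nat.succ_ne_zero k (t.geoB.inj hg.pos (h2.trans hbz.symm))
  have geoA : GeoRay y z a := ⟨t.geoA.start, t.geoA.adj, fun m => by
    rw [hA, ← t.geoA.sum m]
    exact Finset.sum_congr rfl fun k _ => heq _ (offA k)⟩
  have geoB : GeoRay y z b := ⟨hbz, t.geoB.adj, fun m => by
    rw [hB, ← t.geoB.sum m]
    exact Finset.sum_congr rfl fun k _ => heq _ (offB k)⟩
  have geoC : GeoRay y z c := ⟨hcz, t.geoC.adj, fun m => by
    rw [hC, ← t.geoC.sum m]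
    have hk : ∀ k, k ≠ 0 → y s(c k, c (k + 1)) = ω s(c k, c (k + 1)) := fun k hk => heq _ fun hh => by
      rcases Sym2.eq_iff.1 hh with ⟨h1, -⟩ | ⟨h1, h2⟩
      · exact hk (t.geoC.inj hg.pos (h1.trans hcz.symm))
      · exact Nat.succ_ne_zero k (t.geoC.inj hg.pos (h2.trans hcz.symm))
    rcases Nat.eq_zero_or_pos m with rfl | hm
    · simp
    · obtain ⟨p, rfl⟩ : ∃ p, m = p + 1 := ⟨m - 1, by omega⟩
      rw [if_neg hm.ne', Finset.sum_range_succ', Finset.sum_range_succ',
        Finset.sum_congr rfl fun k _ => hk (k + 1) k.succ_ne_zero, zero_add, hcz, ← hedef, he]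
      ring⟩
  refine ⟨⟨geoA, geoB, geoC, t.down, t.upB, t.upC, fun i j => ?_, fun i j => ?_, t.ne⟩,
    fun n hn hne m hm => ?_, fun n hn hne hρ m hm => ?_, fun m hm => ?_⟩
  · rw [hA, hB]
    refine le_antisymm ((hmono _ _).trans (t.addB i j).le) (le_trans (le_min ?_ (le_min ?_ ?_)) (key _ _))
    · exact (t.addB i j).ge
    · rw [tt_comm h0 (a i) z]
      rcases gapb j with h | rfl
      · linarith
      · rw [hbz, tt_self h0, tt_comm h0 (c 1) z, hzc]; linarith
    · rw [ea]; linarith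
  · rw [hA, hC]
    rcases Nat.eq_zero_or_pos j with rfl | hj
    · rw [if_pos rfl, sub_zero, hcz, tt_self h0, add_zero, tt_comm hy, hA]
    rw [if_neg hj.ne']
    refine le_antisymm ?_ (le_trans (le_min ?_ (le_min ?_ ?_)) (key _ _))
    · have h1 := tt_triangle hy (a i) z (c j)
      rw [tt_comm hy (a i) z, hA, hC, if_neg hj.ne'] at h1
      linarith
    · linarith [t.addC i j]
    · rw [tt_comm h0 (a i) z, ec j hj]; linarith
    · rw [ea]; linarith
  · rw [hcz] at hn ⊢
    have hn' : n ≠ c 1 := hne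
    have h1 : tt ω z (c m) ≤ ω s(z, n) + tt ω n (c m) := by
      linarith [tt_triangle h0 z n (c m), tt_le_step h0 hn]
    have h2 := hη n hn
    rw [hC, if_neg (by omega), heq _ fun hh => hn' (Sym2.congr_right.1 hh)]
    rw [← sub_le_iff_le_add']
    refine le_trans (le_min ?_ (le_min ?_ ?_)) (key n (c m))
    · linarith [min_le_left τ η]
    · rw [ec m hm]; linarith [min_le_right τ η, tt_nonneg h0 (u := n) (v := z)]
    · linarith [min_le_right τ η, tt_nonneg h0 (u := n) (v := c 1)]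
  · rw [hbz, hB, heq _ fun hh => hne (Sym2.congr_right.1 hh)]
    have h1 := hρ m hm
    rw [hbz] at h1
    have h2 := hη n hn
    have h3 := hσ m hm
    rw [hbz] at h3
    rw [← sub_le_iff_le_add']
    refine le_trans (le_min ?_ (le_min ?_ ?_)) (key n (b m))
    · linarith [min_le_left ρ η]
    · linarith [min_le_right ρ η, tt_nonneg h0 (u := n) (v := z)]
    · linarith [min_le_right ρ η, tt_nonneg h0 (u := n) (v := c 1)]
  · rw [hbz, hB, ← hedef, he]
    have h3 := hσ m hm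
    rw [hbz] at h3
    rw [← sub_le_iff_le_add']
    refine le_trans (le_min ?_ (le_min ?_ ?_)) (key (c 1) (b m))
    · linarith [min_le_left (σ - τ) (ω e - τ)]
    · linarith [min_le_left (σ - τ) (ω e - τ), tt_nonneg h0 (u := c 1) (v := z)]
    · rw [tt_self h0]; linarith [min_le_right (σ - τ) (ω e - τ)]

variable (G : Measure ℝ) [IsProbabilityMeasure G]

/-- An event from which lowering one weight a little leads into a null event is null. -/
theorem ae_not_of_lower {b : ℝ} (hatom : ∀ x, G {x} = 0) (hgood : ∀ᵐ ω ∂law G, Good b cg ω)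
    {E F : Cfg → Prop} (hF : ∀ᵐ ω ∂law G, ¬ F ω)
    (h : ∀ ω, Good b cg ω → E ω →
      ∃ e, ∃ g > 0, ∀ t ∈ Set.Ioo (ω e - g) (ω e), F (Function.update ω e t)) :
    ∀ᵐ ω ∂law G, ¬ E ω := by
  obtain ⟨N, hsub, hNm, hN⟩ := exists_measurable_superset_of_null (ae_iff.1 hF)
  have hfree : ∀ k : ℕ, ∀ᵐ ω ∂law G, ∀ e, ω e ∉ gapSet G (1 / ((k : ℝ) + 1)) 0 := fun k =>
    law_all G (p := fun t => t ∉ gapSet G (1 / ((k : ℝ) + 1)) 0) (measurableSet_gapSet G _ _).compl
      (measure_eq_zero_iff_ae_notMem.1 (measure_gapSet_zero G hatom (by positivity)))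
  have hsec : ∀ e, ∀ᵐ ω ∂law G, G {t | Function.update ω e t ∈ N} = 0 := fun e => by
    have hmp := measurePreserving_update G e
    have hz : (G.prod (law G)) ((fun p : ℝ × Cfg => Function.update p.2 e p.1) ⁻¹' N) = 0 := by
      rw [hmp.measure_preimage hNm.nullMeasurableSet, hN]
    rw [Measure.prod_apply_symm (hmp.measurable hNm),
      lintegral_eq_zero_iff (measurable_measure_prodMk_right (hmp.measurable hNm))] at hz
    exact hz.mono fun ω hω => hω
  filter_upwards [hgood, ae_all_iff.2 hfree, ae_all_iff.2 hsec] with ω hg hfree hsec hE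
  obtain ⟨e, g, hg0, ht⟩ := h ω hg hE
  obtain ⟨k, hk⟩ := exists_nat_one_div_lt hg0
  refine hfree k e (measure_mono_null (fun t htI => hsub (not_not.2 (ht t ⟨?_, ?_⟩))) (hsec e))
  · linarith [htI.1]
  · linarith [htI.2]

/-- Gaps have probability zero at the origin. -/
theorem ae_not_gapped_of_cost {μ : ℝ × ℝ → ℝ} {b C cg : ℝ} (hatom : ∀ x, G {x} = 0)
    (hG : ∀ᵐ t ∂G, 0 < t) (hc : 0 < cg) (hgood : ∀ᵐ ω ∂law G, Good b cg ω) (hb0 : 0 ≤ C)
    (hcost : AxisCost G C) (hsteer : SteerStmt G μ) (hκ : StrictSlope μ κ) :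
    ∀ᵐ ω ∂law G, ∀ σ > 0, ¬ Gapped κ σ ω (0, 0) := by
  have h3 : ∀ᵐ ω ∂law G, ¬ ∃ η > 0, Mark κ η ω (0, 0) := by
    have : ∀ k : ℕ, ∀ᵐ ω ∂law G, ¬ Mark κ (1 / ((k : ℝ) + 1)) ω (0, 0) := fun k => by
      have h0 := real_mark_eq_zero_of_cost G hatom hG hc hgood hb0 hcost hsteer hκ (η := 1 / ((k : ℝ) + 1)) (by positivity)
      rw [measureReal_eq_zero_iff] at h0
      exact measure_eq_zero_iff_ae_notMem.1 h0
    filter_upwards [ae_all_iff.2 this] with ω hω
    rintro ⟨η, hη, a, b, c, t, hb, hc, hf⟩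
    obtain ⟨k, hk⟩ := exists_nat_one_div_lt hη
    exact hω k ⟨a, b, c, t, fun n h1 h2 => GapTo.mono (fun m hm => hb n h1 h2 m hm) hk.le,
      fun n h1 h2 => GapTo.mono (fun m hm => hc n h1 h2 m hm) hk.le, fun n hn => hk.le.trans (hf n hn)⟩
  have h2 : ∀ᵐ ω ∂law G, ¬ ∃ η > 0, HalfMark κ η ω (0, 0) := by
    refine ae_not_of_lower G hatom hgood h3 ?_
    rintro ω hg ⟨η, hη, a, b, c, t, hb, hc⟩
    obtain ⟨η₀, hη₀, hfl⟩ := exists_floor hg.pos ((0, 0) : Pt)
    have hadj : grid.Adj ((0, 0) : Pt) (c 1) := by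
      have := t.geoC.adj 0
      rwa [t.geoC.start] at this
    set e := s(((0, 0) : Pt), c 1)
    refine ⟨e, min η η₀, lt_min hη hη₀, fun x hx => ?_⟩
    set τ := ω e - x with hτ
    have hτ0 : 0 < τ := by linarith [hx.2]
    have hτη : τ < η := by linarith [hx.1, min_le_left η η₀]
    have hτe : τ < ω e := by linarith [hx.1, min_le_right η η₀, hfl _ hadj]
    have hgap : GapTo ω b 0 (c 1) η := fun m hm =>
      hb (c 1) (by rwa [t.geoB.start]) t.ne.symm m hm
    obtain ⟨t', hc', hb', hbc⟩ := t.lower hg hgap (y := Function.update ω e x) (ρ := η)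
      (fun e' h => Function.update_of_ne h _ _) (by rw [Function.update_self, hτ]; ring) hτ0.le hτη.le
      hτe.le hfl
    set η' := min (min τ η₀) (min (min η η₀) (min (η - τ) (ω e - τ))) with hη'
    refine ⟨η', by
      simp only [hη', lt_min_iff]
      exact ⟨⟨hτ0, hη₀⟩, ⟨hη, hη₀⟩, by linarith, by linarith⟩, a, b, c, t', fun n h1 h2 => ?_,
      fun n h1 h2 => GapTo.mono (fun m hm => hc' n h1 h2 m hm) (min_le_left _ _), fun n hn => ?_⟩
    · rw [t.geoB.start] at h1
      by_cases hne : n = c 1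
      · subst hne
        exact hbc.mono ((min_le_right _ _).trans (min_le_right _ _))
      · exact (hb' n h1 hne fun m hm => hb n (by rwa [t.geoB.start]) h2 m hm).mono
          ((min_le_right _ _).trans (min_le_left _ _))
    · by_cases hne : n = c 1
      · subst hne
        rw [Function.update_self]
        have : η' ≤ ω e - τ := (min_le_right _ _).trans ((min_le_right _ _).trans (min_le_right _ _))
        linarith
      · rw [Function.update_of_ne fun hh => hne (Sym2.congr_right.1 hh)]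
        exact le_trans ((min_le_left _ _).trans (min_le_right _ _)) (hfl n hn)
  refine (ae_not_of_lower G hatom hgood (E := fun ω => ∃ σ > 0, Gapped κ σ ω (0, 0)) h2 ?_).mono
    fun ω hω σ hσ hgp => hω ⟨σ, hσ, hgp⟩
  rintro ω hg ⟨σ, hσ, a, b, c, t, hgb, hgc⟩
  obtain ⟨η₀, hη₀, hfl⟩ := exists_floor hg.pos ((0, 0) : Pt)
  have hadj : grid.Adj ((0, 0) : Pt) (b 1) := by
    have := t.geoB.adj 0
    rwa [t.geoB.start] at this
  set e := s(((0, 0) : Pt), b 1)
  refine ⟨e, min σ η₀, lt_min hσ hη₀, fun x hx => ?_⟩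
  set τ := ω e - x with hτ
  have hτ0 : 0 < τ := by linarith [hx.2]
  have hτσ : τ < σ := by linarith [hx.1, min_le_left σ η₀]
  have hτe : τ < ω e := by linarith [hx.1, min_le_right σ η₀, hfl _ hadj]
  obtain ⟨t', hb', -, hcb⟩ := t.symm.lower hg hgc (y := Function.update ω e x) (ρ := 0)
    (fun e' h => Function.update_of_ne h _ _) (by rw [Function.update_self, hτ]; ring) hτ0.le hτσ.le
    hτe.le hfl
  set η' := min (min τ η₀) (min (σ - τ) (ω e - τ)) with hη'
  refine ⟨η', by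
    simp only [hη', lt_min_iff]
    exact ⟨⟨hτ0, hη₀⟩, by linarith, by linarith⟩, a, b, c, t'.symm,
    fun n h1 h2 => GapTo.mono (fun m hm => hb' n h1 h2 m hm) (min_le_left _ _),
    hcb.mono (min_le_right _ _)⟩

/-- Gaps have probability zero at every site. -/
theorem ae_forall_not_gapped_of_cost {μ : ℝ × ℝ → ℝ} {b C cg : ℝ} (hatom : ∀ x, G {x} = 0)
    (hG : ∀ᵐ t ∂G, 0 < t) (hc : 0 < cg) (hgood : ∀ᵐ ω ∂law G, Good b cg ω) (hb0 : 0 ≤ C)
    (hcost : AxisCost G C) (hsteer : SteerStmt G μ) (hκ : StrictSlope μ κ) :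
    ∀ᵐ ω ∂law G, ∀ (w : Pt), ∀ σ > 0, ¬ Gapped κ σ ω w := by
  obtain ⟨hκ0, κ', hκ', hsup⟩ := hκ
  have hmid : StrictSlope μ ((κ + κ') / 2) := ⟨by linarith, κ', by linarith, hsup⟩
  have h := ae_not_gapped_of_cost G hatom hG hc hgood hb0 hcost hsteer hmid
  have hmp : ∀ w, MeasurePreserving (moveCfg w) (law G) (law G) := fun w =>
    ⟨measurable_moveCfg w, map_moveCfg G w⟩
  filter_upwards [hgood, ae_all_iff.2 fun w => (hmp w).quasiMeasurePreserving.ae h]
    with ω hpos hω w σ hσ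
  rintro ⟨a, b, c, t, hb, hc⟩
  have h0 : ∀ e, 0 ≤ moveCfg w ω e := fun e => (hpos.pos _).le
  rw [← moveCfg_neg w ω] at t hb hc
  have t' := t.shift h0 hκ0 (show κ < (κ + κ') / 2 by linarith)
  have hb' := hb.shift h0
  have hc' := hc.shift h0
  rw [add_neg_cancel] at t'
  exact hω w σ hσ ⟨_, _, _, t', hb', hc'⟩

/-- Gaps have probability zero at the origin for bounded weights. -/
theorem ae_not_gapped {μ : ℝ × ℝ → ℝ} {b : ℝ} (hatom : ∀ x, G {x} = 0)
    (hG : ∀ᵐ t ∂G, 0 < t ∧ t ≤ b) (hsteer : SteerStmt G μ) (hκ : StrictSlope μ κ) :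
    ∀ᵐ ω ∂law G, ∀ σ > 0, ¬ Gapped κ σ ω (0, 0) := by
  obtain ⟨cg, hc, hgood⟩ := ae_good G hG hatom
  exact ae_not_gapped_of_cost G hatom (hG.mono fun _ h => h.1) hc hgood (b_nonneg G hG)
    (axisCost_of_le hG) hsteer hκ

/-- Gaps have probability zero at every site for bounded weights. -/
theorem ae_forall_not_gapped {μ : ℝ × ℝ → ℝ} {b : ℝ} (hatom : ∀ x, G {x} = 0)
    (hG : ∀ᵐ t ∂G, 0 < t ∧ t ≤ b) (hsteer : SteerStmt G μ) (hκ : StrictSlope μ κ) :
    ∀ᵐ ω ∂law G, ∀ (w : Pt), ∀ σ > 0, ¬ Gapped κ σ ω w := by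
  obtain ⟨cg, hc, hgood⟩ := ae_good G hG hatom
  exact ae_forall_not_gapped_of_cost G hatom (hG.mono fun _ h => h.1) hc hgood (b_nonneg G hG)
    (axisCost_of_le hG) hsteer hκ

end Vale.Agent.P158.V4
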