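import Mathlib
import Vale.Agent.P158.V4.Stars2Gap
import Vale.Agent.P158.V4.Stars2Slope

/-!
P158, module Stars2, last part: a star of three rays of the class gives limit rays with gaps at its
site, so there are no stars.
-/

namespace Vale.Agent.P158.V4

open MeasureTheory Filter Topology

/-- A geodesic from `u` to `v`, constant after its last site. -/
structure Seg (ω : Cfg) (u v : Pt) (x : ℕ → Pt) (L : ℕ) : Prop where
  first : x 0 = u
  last : x L = v
  adj : ∀ i < L, grid.Adj (x i) (x (i + 1))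
  near : ∀ i, |(x i).1 - u.1| ≤ (i : ℤ) ∧ |(x i).2 - u.2| ≤ (i : ℤ)
  sum : ∀ i ≤ L, ∑ k ∈ Finset.range i, ω s(x k, x (k + 1)) = tt ω u (x i)
  on : ∀ i, OnGeo ω u v (x i)

variable {bb cg : ℝ} {ω : Cfg}

theorem wt_eq_sum_getVert {u v : Pt} (p : grid.Walk u v) :
    ∑ k ∈ Finset.range p.length, ω s(p.getVert k, p.getVert (k + 1)) = wt ω p := by
  induction p with
  | nil => simp [wt]
  | cons h p ih =>
    rw [SimpleGraph.Walk.length_cons, Finset.sum_range_succ', show wt ω (SimpleGraph.Walk.cons h p) =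
      ω s(_, _) + wt ω p by simp [wt]; rfl, ← ih]
    simp only [SimpleGraph.Walk.getVert_cons_succ, SimpleGraph.Walk.getVert_zero]
    ring

theorem exists_seg_geo (hg : Good bb cg ω) (hc : 0 < cg) (u v : Pt) : ∃ x L, Seg ω u v x L := by
  have h0 := hg.nonneg
  obtain ⟨p, hp⟩ := hg.exists_shortest hc u v
  have hstep : ∀ i, p.getVert (i + 1) = p.getVert i ∨ grid.Adj (p.getVert i) (p.getVert (i + 1)) := by
    intro i
    rcases Nat.lt_or_ge i p.length with h | h
    · exact Or.inr (p.adj_getVert_succ h)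
    · exact Or.inl (by rw [p.getVert_of_length_le h, p.getVert_of_length_le (h.trans i.le_succ)])
  have hle : ∀ i n, i + n ≤ p.length → tt ω (p.getVert i) (p.getVert (i + n)) ≤
      ∑ k ∈ Finset.Ico i (i + n), ω s(p.getVert k, p.getVert (k + 1)) := by
    intro i n
    induction n with
    | zero => intro; simp [tt_self h0]
    | succ n ih =>
      intro hn
      rw [← add_assoc, Finset.sum_Ico_succ_top (Nat.le_add_right i n)]
      linarith [tt_triangle h0 (p.getVert i) (p.getVert (i + n)) (p.getVert (i + n + 1)),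
        tt_le_step h0 (p.adj_getVert_succ (show i + n < p.length by omega)), ih (by omega)]
  have hon : ∀ i, OnGeo ω u v (p.getVert i) := fun i =>
    onGeo_of_mem h0 hp (p.getVert_mem_support i)
  refine ⟨p.getVert, p.length, p.getVert_zero, p.getVert_length, fun i hi => p.adj_getVert_succ hi,
    fun i => ?_, fun i hi => ?_, hon⟩
  · induction i with
    | zero => simp
    | succ i ih =>
      rcases hstep i with h | h
      · rw [h]; constructor <;> push_cast <;> linarith [ih.1, ih.2]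
      · obtain ⟨d, hd⟩ := exists_step h
        rw [hd]
        rw [abs_le, abs_le] at ih ⊢
        fin_cases d <;> simp [step] <;> omega
  · obtain ⟨n, hn⟩ := Nat.exists_eq_add_of_le hi
    have h1 := hle 0 i (by omega)
    have h2 := hle i n (by omega)
    rw [zero_add, p.getVert_zero, ← Finset.range_eq_Ico] at h1
    rw [← hn, p.getVert_length] at h2
    have h3 : ∑ k ∈ Finset.range i, ω s(p.getVert k, p.getVert (k + 1)) +
        ∑ k ∈ Finset.Ico i p.length, ω s(p.getVert k, p.getVert (k + 1)) = tt ω u v := by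
      rw [Finset.sum_range_add_sum_Ico _ hi, wt_eq_sum_getVert, hp.2]
    have h4 := hon i
    unfold OnGeo at h4
    linarith

/-- A sequence of paths from one site has a limit path along a subsequence. -/
theorem exists_limit (w : Pt) (x : ℕ → ℕ → Pt)
    (hnear : ∀ k i, |(x k i).1 - w.1| ≤ (i : ℤ) ∧ |(x k i).2 - w.2| ≤ (i : ℤ)) :
    ∃ φ : ℕ → ℕ, StrictMono φ ∧ ∃ r : ℕ → Pt, ∀ m, ∀ᶠ k in atTop, x (φ k) m = r m := by
  set S : ℕ → Set Pt := fun i =>
    Set.Icc (w.1 - (i : ℤ)) (w.1 + i) ×ˢ Set.Icc (w.2 - (i : ℤ)) (w.2 + i)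
  have hK : IsCompact (Set.pi Set.univ S) :=
    isCompact_univ_pi fun i => ((Set.finite_Icc _ _).prod (Set.finite_Icc _ _)).isCompact
  obtain ⟨r, -, φ, hφ, hlim⟩ := hK.tendsto_subseq (x := x) fun k i _ => by
    have := hnear k i
    rw [abs_le, abs_le] at this
    exact ⟨⟨by linarith, by linarith⟩, by linarith, by linarith⟩
  refine ⟨φ, hφ, r, fun m => ?_⟩
  have h := tendsto_pi_nhds.1 hlim m
  rw [nhds_discrete, tendsto_pure] at h
  exact h

/-- A limit of geodesics to points tending to infinity is a geodesic ray. -/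
theorem geoRay_of_limit {w : Pt} {t : ℕ → Pt} (ht : Function.Injective t) {ψ : ℕ → ℕ}
    (hψ : StrictMono ψ) {x : ℕ → ℕ → Pt} {L : ℕ → ℕ} (hx : ∀ k, Seg ω w (t (ψ k)) (x k) (L k))
    {r : ℕ → Pt} (hr : ∀ m, ∀ᶠ k in atTop, x k m = r m) :
    GeoRay ω w r ∧ ∀ m, ∀ᶠ k in atTop, OnGeo ω w (t (ψ k)) (r m) := by
  have hlong : ∀ m, ∀ᶠ k in atTop, m < L k := by
    intro m
    set F : Set Pt := Set.Icc (w.1 - (m : ℤ)) (w.1 + m) ×ˢ Set.Icc (w.2 - (m : ℤ)) (w.2 + m)
    have hfin : ((fun k => t (ψ k)) ⁻¹' F).Finite :=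
      ((Set.finite_Icc _ _).prod (Set.finite_Icc _ _)).preimage (ht.comp hψ.injective).injOn
    refine (hfin.eventually_cofinite_notMem.filter_mono Nat.cofinite_eq_atTop.ge).mono fun k hk => ?_
    by_contra hle
    refine hk ?_
    obtain ⟨h1, h2⟩ := (hx k).near (L k)
    rw [(hx k).last, abs_le] at h1 h2
    show t (ψ k) ∈ F
    exact ⟨⟨by omega, by omega⟩, by omega, by omega⟩
  refine ⟨⟨?_, fun m => ?_, fun m => ?_⟩, fun m => (hr m).mono fun k hk => hk ▸ (hx k).on m⟩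
  · obtain ⟨k, hk⟩ := (hr 0).exists
    rw [← hk, (hx k).first]
  · obtain ⟨k, h1, h2, h3⟩ := ((hr m).and ((hr (m + 1)).and (hlong m))).exists
    rw [← h1, ← h2]
    exact (hx k).adj m h3
  · obtain ⟨k, h1, h2⟩ := (((Finset.range (m + 1)).eventually_all.2 fun i _ => hr i).and (hlong m)).exists
    rw [← h1 m (Finset.self_mem_range_succ m), ← (hx k).sum m h2.le]
    refine Finset.sum_congr rfl fun i hi => ?_
    rw [Finset.mem_range] at hi
    rw [h1 i (Finset.mem_range.2 (by omega)), h1 (i + 1) (Finset.mem_range.2 (by omega))]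

variable {μ : ℝ × ℝ → ℝ} {κ κ' : ℝ}

/-- Limits of geodesics from `w` to far points of the rising rays of the class rise inside the
aperture `κ'`. -/
def Climbs (κ κ' : ℝ) (ω : Cfg) (w : Pt) : Prop :=
  ∀ (ray : Ray) (r : ℕ → Pt), IsTail ω ray → ConeRay κ ray → Rises ray → Function.Injective r →
    (∀ n, grid.Adj (r n) (r (n + 1))) →
    (∀ m, ∃ᶠ N in atTop, OnGeo ω w (ray.pt N) (r m)) → UpPath κ' r

/-- A star of three rays of the class gives limit rays with gaps at its site. -/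
theorem gapped_of_starAt (hg : Good bb cg ω) (hc : 0 < cg) {w : Pt} {a b c : Ray}
    (hup : Climbs κ κ' ω w) (hup' : Climbs κ κ' (ω ∘ Sym2.map flip2) (flip2 w))
    (ha : IsTail ω a) (hb : IsTail ω b) (hc' : IsTail ω c) (hfa : Falls a) (hrb : Rises b)
    (hrc : Rises c) (hca : ConeRay κ a) (hcb : ConeRay κ b) (hcc : ConeRay κ c)
    (hstar : StarAt ω a.pt b.pt c.pt w) : ∃ σ > 0, Gapped κ' σ ω w := by
  have h0 := hg.nonneg
  obtain ⟨n₀, n₁, hne, hfr, hsb, hsc⟩ := hstar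
  obtain ⟨kb, hkb⟩ := hsb
  obtain ⟨kc, hkc⟩ := hsc
  obtain ⟨φ, hφ, hφP⟩ := extraction_of_frequently_atTop hfr
  choose xa La hxa using fun N => exists_seg_geo hg hc w (a.pt N)
  choose xb Lb hxb using fun N => exists_seg_geo hg hc w (b.pt N)
  choose xc Lc hxc using fun N => exists_seg_geo hg hc w (c.pt N)
  -- a common subsequence
  obtain ⟨φa, hφa, A, hA⟩ := exists_limit w (fun k => xa (φ k)) fun k i => (hxa _).near i
  obtain ⟨φb, hφb, B, hB⟩ := exists_limit w (fun k => xb (φ (φa k))) fun k i => (hxb _).near i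
  obtain ⟨φc, hφc, C, hC⟩ := exists_limit w (fun k => xc (φ (φa (φb k)))) fun k i => (hxc _).near i
  set ψ : ℕ → ℕ := fun k => φ (φa (φb (φc k))) with hψdef
  have hψ : StrictMono ψ := hφ.comp (hφa.comp (hφb.comp hφc))
  have hA' : ∀ m, ∀ᶠ k in atTop, xa (ψ k) m = A m := fun m =>
    (hφb.comp hφc).tendsto_atTop.eventually (hA m)
  have hB' : ∀ m, ∀ᶠ k in atTop, xb (ψ k) m = B m := fun m => hφc.tendsto_atTop.eventually (hB m)
  obtain ⟨gA, onA⟩ := geoRay_of_limit ha.inj hψ (fun k => hxa (ψ k)) hA'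
  obtain ⟨gB, onB⟩ := geoRay_of_limit hb.inj hψ (fun k => hxb (ψ k)) hB'
  obtain ⟨gC, onC⟩ := geoRay_of_limit hc'.inj hψ (fun k => hxc (ψ k)) hC
  have freq : ∀ {t r : ℕ → Pt}, (∀ m, ∀ᶠ k in atTop, OnGeo ω w (t (ψ k)) (r m)) →
      ∀ m, ∃ᶠ N in atTop, OnGeo ω w (t N) (r m) := fun {t r} h m =>
    hψ.tendsto_atTop.frequently (h m).frequently
  have upB : UpPath κ' B :=
    hup b B hb hcb hrb (gB.inj hg.pos) gB.adj (freq onB)
  have upC : UpPath κ' C :=
    hup c C hc' hcc hrc (gC.inj hg.pos) gC.adj (freq onC)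
  have downA : DownPath κ' A := by
    have hflip : ∀ z, flip2 (flip2 z) = z := flip2_flip2
    have hcone : ConeRay κ (a.map flip2) := hca.mono fun n hn => by
      show |(((a.pt n).1 : ℤ) : ℝ)| ≤ κ * |((-(a.pt n).2 : ℤ) : ℝ)|
      rwa [Int.cast_neg, abs_neg]
    have h := hup' (a.map flip2) (fun n => flip2 (A n)) (ha.map h0 flip2 hflip)
      hcone (tendsto_neg_atBot_atTop.comp hfa)
      (fun i j e => gA.inj hg.pos (by simpa [hflip] using congrArg flip2 e))
      (fun n => flip2.map_adj (gA.adj n)) fun m => (freq onA m).mono fun N hN => by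
        unfold OnGeo at hN ⊢
        simp only [Ray.map, tt_map h0 flip2 flip2 hflip hflip, hflip]
        exact hN
    refine ⟨?_, h.2.mono fun n hn => ?_⟩
    · have h1 := tendsto_neg_atTop_atBot.comp h.1
      exact h1.congr fun n => show -(-(A n).2) = (A n).2 by ring
    · change |(((A n).1 : ℤ) : ℝ)| ≤ κ' * |((-(A n).2 : ℤ) : ℝ)| at hn
      rwa [Int.cast_neg, abs_neg] at hn
  -- the geodesics through the site
  have hedge : ∀ k, EdgeOn ω (a.pt (ψ k)) (b.pt (ψ k)) w n₀ ∧ EdgeOn ω (a.pt (ψ k)) (c.pt (ψ k)) w n₁ :=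
    fun k => hφP _
  have through : ∀ {u v n : Pt}, EdgeOn ω u v w n →
      tt ω u w + tt ω w v = tt ω u v ∧ EdgeOn ω w v w n := fun {u v n} h => by
    have h1 := (edgeOn_onGeo h0 h).1
    refine ⟨h1, h.1, ?_⟩
    unfold OnGeo at h1
    rw [tt_self h0, zero_add]
    linarith [h.2]
  have hfirst : ∀ {T : ℕ → Pt} {X : ℕ → Pt}, GeoRay ω w X →
      (∀ m, ∀ᶠ k in atTop, OnGeo ω w (T (ψ k)) (X m)) → ∀ {n : Pt},
      (∀ k, EdgeOn ω w (T (ψ k)) w n) → X 1 = n := fun {T X} gX onX {n} hn => by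
    obtain ⟨k, hk⟩ := (onX 1).exists
    refine edgeOn_head hg hc ⟨?_, ?_⟩ (hn k)
    · have := gX.adj 0; rwa [gX.start] at this
    · have h1 := gX.edge h0 0
      rw [zero_add, gX.start] at h1
      unfold OnGeo at hk
      rw [tt_self h0, zero_add, ← h1]
      exact hk
  have hB1 : B 1 = n₀ := hfirst gB onB fun k => (through (hedge k).1).2
  have hC1 : C 1 = n₁ := hfirst gC onC fun k => (through (hedge k).2).2
  have hadd : ∀ {T X : ℕ → Pt} {n : Pt}, (∀ k, EdgeOn ω (a.pt (ψ k)) (T (ψ k)) w n) →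
      (∀ m, ∀ᶠ k in atTop, OnGeo ω w (T (ψ k)) (X m)) → ∀ i j,
      tt ω (A i) (X j) = tt ω w (A i) + tt ω w (X j) := fun {T X n} hT onX i j => by
    obtain ⟨k, h1, h2⟩ := ((onA i).and (onX j)).exists
    have h3 := (through (hT k)).1
    unfold OnGeo at h1 h2
    refine le_antisymm ((tt_triangle h0 _ w _).trans_eq (by rw [tt_comm h0 (A i) w])) ?_
    linarith [tt_triangle h0 (a.pt (ψ k)) (A i) (T (ψ k)), tt_triangle h0 (A i) (X j) (T (ψ k)),
      tt_comm h0 (a.pt (ψ k)) (A i), tt_comm h0 (a.pt (ψ k)) w]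
  have hgap : ∀ {T X : ℕ → Pt} {n : Pt} {j : ℕ}, GeoRay ω w X →
      (∀ m, ∀ᶠ k in atTop, OnGeo ω w (T (ψ k)) (X m)) →
      (∀ᶠ N in atTop, tt ω w (T N) + 1 / ((j : ℝ) + 1) ≤ ω s(w, n) + tt ω n (T N)) →
      GapTo ω X 0 n (1 / ((j : ℝ) + 1)) := fun {T X n j} gX onX hj m _ => by
    obtain ⟨k, h1, h2⟩ := ((onX m).and (hψ.tendsto_atTop.eventually hj)).exists
    unfold OnGeo at h1
    rw [gX.start]
    linarith [tt_triangle h0 n (X m) (T (ψ k))]
  refine ⟨min (1 / ((kb : ℝ) + 1)) (1 / ((kc : ℝ) + 1)), lt_min (by positivity) (by positivity), A, B, C,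
    ⟨gA, gB, gC, downA, upB, upC, hadd (fun k => (hedge k).1) onB, hadd (fun k => (hedge k).2) onC,
      by rwa [hB1, hC1]⟩, ?_, ?_⟩
  · rw [hC1]
    exact (hgap gB onB hkb).mono (min_le_left _ _)
  · rw [hB1]
    exact (hgap gC onC hkc).mono (min_le_right _ _)

/-- There are no stars of three rays of an enclosed class. -/
theorem ae_no_starAt (G : Measure ℝ) [IsProbabilityMeasure G] {b : ℝ} (hatom : ∀ x, G {x} = 0)
    (hG : ∀ᵐ t ∂G, 0 < t ∧ t ≤ b) (hμ : IsLatticeNorm μ)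
    (hshape : ∀ ε > 0, ∀ u : Pt, Tendsto (fun r : ℕ => law G {ω | ¬ Shape μ ε r ω u}) atTop (𝓝 0))
    (hsteer : SteerStmt G μ) :
    ∀ κ, Encl μ κ → ∀ᵐ ω ∂law G, ∀ (w : Pt) (a b' c : Ray), IsTail ω a → IsTail ω b' → IsTail ω c →
      Falls a → Rises b' → Rises c → ConeRay κ a → ConeRay κ b' → ConeRay κ c →
      ¬ StarAt ω a.pt b'.pt c.pt w := by
  intro κ hE
  rcases lt_or_ge κ 0 with hneg | hκ0
  · refine ae_of_all _ fun ω w a b' c _ _ _ _ hrb _ _ hcb _ => ?_
    obtain ⟨n, hn, hn'⟩ := ((tendsto_atTop.1 hrb 1).and hcb).exists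
    have : (1 : ℝ) ≤ |((b'.pt n).2 : ℝ)| := le_trans (by exact_mod_cast hn) (le_abs_self _)
    exact absurd hn' (not_le.2 (lt_of_lt_of_le (mul_neg_of_neg_of_pos hneg (by linarith)) (abs_nonneg _)))
  obtain ⟨κ₁, hs₁, k₁, hk₁, hk₁', -⟩ := hE.margin hμ hκ0 0
  obtain ⟨-, κ'', hκ'', hsup⟩ := hs₁
  obtain ⟨K, hK, A, hAm, hA, hAlim⟩ := exists_regular G (hG.mono fun _ h => h.1) hsteer hκ0
    (show κ < (κ + κ₁) / 2 by linarith) ⟨by linarith, κ'', by linarith, hsup⟩
  obtain ⟨κ1, hs, k, hk, hk1, a₀, ha0, ham, hwin, γ, hγ, hfar⟩ := hE.margin hμ hκ0 K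
  obtain ⟨hκ1, κf, hκf, hsupf⟩ := hs
  set D := max K κ1 + 1 with hD
  have hD0 : 0 < D := by linarith [le_max_left K κ1]
  set ε := min (γ / (8 * D)) ((μ (1, 0) - a₀) / 4) with hε
  have hε0 : 0 < ε := lt_min (by positivity) (by linarith)
  have hεm : ε ≤ (μ (1, 0) - a₀) / 4 := min_le_right _ _
  have hεD : 4 * ε * D ≤ γ / 2 := by
    have := (le_div_iff₀ (show (0 : ℝ) < 8 * D by positivity)).1 (min_le_left (γ / (8 * D)) ((μ (1, 0) - a₀) / 4))
    linarith
  set k2 := (3 * κ + k) / 4 with hk2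
  set k3 := (κ + k) / 2 with hk3
  have d : Margins μ κ k k2 k3 κ1 (a₀ + ε) ε (γ / 2) K :=
    ⟨hμ, hκ0, by linarith, by linarith, by linarith, hk1, hK, by linarith, hε0.le, by linarith,
      by linarith, fun x hx => by
        have h1 := hfar x hx
        have h2 : ε * (x - k) ≤ ε * D := by
          gcongr
          linarith [hx.2, le_max_left K κ1]
        have h3 : ε * (x + 1) ≤ ε * D := by
          gcongr
          linarith [hx.2, le_max_left K κ1]
        linarith⟩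
  have hlow : ∫ ω, low k2 k3 b ω (0, 0) ∂law G < a₀ + ε :=
    lt_of_le_of_lt (low_mean_le G hG hμ (fun e he => hshape e he (0, 0)) (κ' := (κ + 3 * k) / 4)
      (by linarith) (by linarith) (by linarith) ham hwin) (by linarith)
  have hb0 := b_nonneg G hG
  obtain ⟨cg, hc, hgood⟩ := ae_good G hG hatom
  have hflipmp := map_preserving G flip2 flip2_flip2
  -- every site is regular
  have htilt : ∀ w : Pt, ∀ᵐ ω ∂law G, ∃ rad j0, Tilted μ κ k2 k3 b (a₀ + ε) ε K rad j0 ω w := by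
    intro w
    set X : ℕ → Set Cfg := fun r => {ω | ¬ Shape μ ε r ω w} ∪
      ({ω | ¬ Fwd k2 k3 b (a₀ + ε) r ω w} ∪
        (fun ω : Cfg => ω ∘ Sym2.map flipX) ⁻¹' {ω | ¬ Fwd k2 k3 b (a₀ + ε) r ω (flipX w)})
    have hX : law G (⋂ r, X r) = 0 := by
      have hlim := (hshape ε hε0 w).add ((tendsto_fwd G hb0 hlow w).add (tendsto_fwd G hb0 hlow (flipX w)))
      rw [add_zero, add_zero] at hlim
      refine le_antisymm (ge_of_tendsto' hlim fun r => (measure_mono (Set.iInter_subset _ r)).trans ?_)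
        zero_le
      refine (measure_union_le _ _).trans (add_le_add le_rfl ((measure_union_le _ _).trans
        (add_le_add le_rfl (le_of_eq ?_))))
      exact (map_preserving G flipX flipX_flipX).measure_preimage
        (measurableSet_fwd _ _ _ _ r _).compl.nullMeasurableSet
    have hAnull : law G (⋂ r, (A r w)ᶜ) = 0 := by
      rw [← measureReal_eq_zero_iff]
      refine le_antisymm (le_of_forall_pos_le_add fun e he => ?_) measureReal_nonneg
      obtain ⟨N, hN⟩ := hAlim e he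
      rw [zero_add]
      exact (measureReal_mono (Set.iInter_subset _ N)).trans (hN N le_rfl w)
    filter_upwards [measure_eq_zero_iff_ae_notMem.1 hX, measure_eq_zero_iff_ae_notMem.1 hAnull, hA]
      with ω h1 h2 h3
    simp only [X, Set.mem_iInter, Set.mem_union, Set.mem_preimage, Set.mem_ofPred_eq, not_forall, not_or,
      not_not, Set.mem_compl_iff] at h1 h2
    obtain ⟨j0, hs1, hf1, hf2⟩ := h1
    obtain ⟨rad, hrad⟩ := h2
    exact ⟨rad, j0, h3 rad w hrad, hs1, hf1, hf2⟩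
  filter_upwards [good_ae G hG, hflipmp.quasiMeasurePreserving.ae (good_ae G hG), ae_all_iff.2 htilt, hflipmp.quasiMeasurePreserving.ae (ae_all_iff.2 htilt), hgood,
    hflipmp.quasiMeasurePreserving.ae hgood,
    ae_forall_not_gapped G hatom hG hsteer (κ := (κ1 + κf) / 2) ⟨by linarith, κf, by linarith, hsupf⟩]
    with ω hle hle' ht ht' hg hg' hgap
  intro w a b' c ha hb hc' hfa hrb hrc hca hcb hcc hstar
  obtain ⟨rad, j0, hT⟩ := ht w
  obtain ⟨rad', j0', hT'⟩ := ht' (flip2 w)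
  have hlt : κ1 < (κ1 + κf) / 2 := by linarith
  obtain ⟨σ, hσ, hG'⟩ := gapped_of_starAt hg hc
    (fun ray r h1 h2 h3 h4 _ h5 => upPath_of_approach d hg hc (fun e => (hle e).2) hT hlt h1 h2 h3 h4 h5)
    (fun ray r h1 h2 h3 h4 _ h5 => upPath_of_approach d hg' hc (fun e => (hle' e).2) hT' hlt h1 h2 h3 h4 h5)
    ha hb hc' hfa hrb hrc hca hcb hcc hstar
  exact hgap w σ hσ hG'

end Vale.Agent.P158.V4
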