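import Vale.Agent.P158.V4.Rays

/-!
P158: geodesics of good configurations: existence, uniqueness, and membership in metric terms.
-/

namespace Vale.Agent.P158.V4

open Filter Topology

variable {b c : ℝ} {ω : Cfg} {u v z : Pt}

/-- `z` lies between `u` and `v`: for good configurations, on their geodesic. -/
def OnGeo (ω : Cfg) (u v z : Pt) : Prop := tt ω u z + tt ω z v = tt ω u v

/-- The step from `w` to `n` lies on the geodesic from `u` to `v`. -/
def EdgeOn (ω : Cfg) (u v w n : Pt) : Prop :=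
  grid.Adj w n ∧ tt ω u w + ω s(w, n) + tt ω n v = tt ω u v

/-- A geodesic. -/
def IsShortest (ω : Cfg) {u v : Pt} (p : grid.Walk u v) : Prop := p.IsPath ∧ wt ω p = tt ω u v

theorem Good.nonneg (h : Good b c ω) : ∀ e, 0 ≤ ω e := fun e => (h.pos e).le

theorem finite_paths (u v : Pt) (N : ℕ) :
    {p : grid.Walk u v | p.IsPath ∧ p.length ≤ N}.Finite := by
  refine Set.Finite.of_finite_image (f := fun p => p.edges) ?_ fun p _ q _ h => ?_
  · refine ((List.finite_length_le (Fin 4) N).image fun ds => trail ds u).subset ?_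
    rintro _ ⟨p, hp, rfl⟩
    obtain ⟨ds, h1, h2⟩ := walk_trail p
    exact ⟨ds, by simpa [h1] using hp.2, h2⟩
  · exact SimpleGraph.Walk.edges_injective h

theorem Good.exists_shortest (h : Good b c ω) (hc : 0 < c) (u v : Pt) :
    ∃ p : grid.Walk u v, IsShortest ω p := by
  classical
  obtain ⟨N, hN⟩ := h.growth u
  obtain ⟨p₀, hp₀⟩ := exists_short u v
  set M := max N ⌈wt ω p₀.bypass / c⌉₊ with hM
  set M' := max M p₀.bypass.length with hM'
  obtain ⟨p, hp, hmin⟩ := Set.exists_min_image _ (fun p : grid.Walk u v => wt ω p) (finite_paths u v M')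
    ⟨p₀.bypass, p₀.bypass_isPath, le_max_right _ _⟩
  refine ⟨p, hp.1, le_antisymm (le_tt fun q => ?_) (tt_le h.nonneg p)⟩
  refine le_trans ?_ (wt_bypass_le h.nonneg q)
  by_cases hq : q.bypass.length ≤ M'
  · exact hmin _ ⟨q.bypass_isPath, hq⟩
  · push Not at hq
    have h1 := not_cheap hN q.bypass q.bypass_isPath (by omega)
    have h2 : wt ω p₀.bypass ≤ c * q.bypass.length := by
      rw [← div_le_iff₀' hc]
      exact (Nat.le_ceil _).trans (Nat.cast_le.2 (by omega))
    linarith [hmin p₀.bypass ⟨p₀.bypass_isPath, le_max_right _ _⟩]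

theorem Good.shortest_eq (h : Good b c ω) {p q : grid.Walk u v} (hp : IsShortest ω p)
    (hq : IsShortest ω q) : p = q :=
  h.uniq u v p q hp.1 hq.1 (hp.2.trans hq.2.symm)

theorem Good.escape (h : Good b c ω) (hc : 0 < c) : Escape ω := by
  intro u M
  obtain ⟨N, hN⟩ := h.growth u
  set R : ℕ := max N ⌈M / c⌉₊
  refine ((Set.finite_Icc (u.1 - R) (u.1 + R)).prod (Set.finite_Icc (u.2 - R) (u.2 + R))).subset ?_
  intro v hv
  obtain ⟨p, hp, hw⟩ := h.exists_shortest hc u v
  have hl : p.length ≤ R := by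
    by_contra hlt
    push Not at hlt
    have h1 := not_cheap hN p hp (by omega)
    have h2 : M ≤ c * p.length := by
      rw [← div_le_iff₀' hc]
      exact (Nat.le_ceil _).trans (Nat.cast_le.2 (by omega))
    simp only [Set.mem_ofPred_eq] at hv
    linarith
  have h3 := l1_le_length p
  unfold l1 at h3
  simp only [Set.mem_prod, Set.mem_Icc]
  omega

theorem sum_lt_of_sublist (hpos : ∀ e, 0 < ω e) {l₁ l₂ : List (Sym2 Pt)} (hs : l₁.Sublist l₂)
    (hl : l₁.length < l₂.length) : (l₁.map ω).sum < (l₂.map ω).sum := by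
  induction hs with
  | slnil => simp at hl
  | @cons l₁ l₂ a hs _ =>
    simp only [List.map_cons, List.sum_cons]
    have : (l₁.map ω).sum ≤ (l₂.map ω).sum := by
      refine List.Sublist.sum_le_sum (hs.map ω) ?_
      intro x hx
      obtain ⟨e, _, rfl⟩ := List.mem_map.1 hx
      exact (hpos e).le
    linarith [hpos a]
  | @cons_cons l₁ l₂ a hs ih =>
    simp only [List.length_cons, add_lt_add_iff_right] at hl
    simp only [List.map_cons, List.sum_cons]
    linarith [ih hl]

theorem onGeo_of_mem (h0 : ∀ e, 0 ≤ ω e) {p : grid.Walk u v} (hp : IsShortest ω p)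
    (hz : z ∈ p.support) : OnGeo ω u v z := by
  classical
  have h1 := wt_append (ω := ω) (p.takeUntil z hz) (p.dropUntil z hz)
  rw [SimpleGraph.Walk.take_spec, hp.2] at h1
  exact le_antisymm (by linarith [tt_le h0 (p.takeUntil z hz), tt_le h0 (p.dropUntil z hz)])
    (tt_triangle h0 u z v)

theorem Good.mem_of_onGeo (h : Good b c ω) (hc : 0 < c) {p : grid.Walk u v} (hp : IsShortest ω p)
    (hz : OnGeo ω u v z) : z ∈ p.support := by
  classical
  obtain ⟨p₁, hp₁, hw₁⟩ := h.exists_shortest hc u z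
  obtain ⟨p₂, hp₂, hw₂⟩ := h.exists_shortest hc z v
  have hq : wt ω (p₁.append p₂).bypass = tt ω u v :=
    le_antisymm ((wt_bypass_le h.nonneg _).trans_eq (by rw [wt_append, hw₁, hw₂, hz]))
      (tt_le h.nonneg _)
  rw [h.shortest_eq hp (q := (p₁.append p₂).bypass) ⟨SimpleGraph.Walk.bypass_isPath _, hq⟩]
  by_contra hnot
  -- a walk through `z` all of whose weight survives the removal of its loops is a path
  have hlen : (p₁.append p₂).bypass.edges.length < (p₁.append p₂).edges.length := by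
    rcases lt_or_ge (p₁.append p₂).bypass.edges.length (p₁.append p₂).edges.length with h' | h'
    · exact h'
    · exfalso
      refine hnot ?_
      have : (p₁.append p₂).bypass = p₁.append p₂ :=
        SimpleGraph.Walk.bypass_eq_self_of_length_le _ (by simpa using h')
      rw [this]
      exact (SimpleGraph.Walk.mem_support_append_iff _ _).2 (Or.inl p₁.end_mem_support)
  obtain ⟨l, hl, hs⟩ := List.subperm_of_subset
    (p₁.append p₂).bypass_isPath.isTrail.edges_nodup
    (SimpleGraph.Walk.edges_bypass_subset_edges (p₁.append p₂))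
  have hlt : (l.map ω).sum < ((p₁.append p₂).edges.map ω).sum :=
    sum_lt_of_sublist h.pos hs (hl.length_eq ▸ hlen)
  have e1 : wt ω (p₁.append p₂).bypass = (l.map ω).sum := ((hl.map ω).sum_eq).symm
  have e2 : wt ω (p₁.append p₂) = ((p₁.append p₂).edges.map ω).sum := rfl
  rw [wt_append, hw₁, hw₂, hz] at e2
  linarith

theorem edgeOn_onGeo (h0 : ∀ e, 0 ≤ ω e) {w n : Pt} (h : EdgeOn ω u v w n) :
    OnGeo ω u v w ∧ OnGeo ω u v n := by
  obtain ⟨hadj, he⟩ := h
  have h1 : tt ω w n ≤ ω s(w, n) := (tt_le h0 hadj.toWalk).trans_eq (by simp [wt])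
  have h2 := tt_triangle h0 u w n
  have h3 := tt_triangle h0 w n v
  exact ⟨le_antisymm (by linarith) (tt_triangle h0 u w v),
    le_antisymm (by linarith) (tt_triangle h0 u n v)⟩

theorem edgeOn_of_split (h0 : ∀ e, 0 ≤ ω e) {w n : Pt} (p₁ : grid.Walk u w) (hadj : grid.Adj w n)
    (p₂ : grid.Walk n v) (h : wt ω (p₁.append (.cons hadj p₂)) = tt ω u v) : EdgeOn ω u v w n := by
  refine ⟨hadj, le_antisymm ?_ ?_⟩
  · rw [← h, wt_append]
    have : wt ω (SimpleGraph.Walk.cons hadj p₂) = ω s(w, n) + wt ω p₂ := by simp [wt]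
    linarith [tt_le h0 p₁, tt_le h0 p₂]
  · have h1 : tt ω w n ≤ ω s(w, n) := (tt_le h0 hadj.toWalk).trans_eq (by simp [wt])
    linarith [tt_triangle h0 u w v, tt_triangle h0 w n v]

/-- A step on the geodesic seen from a later point of it extends to the earlier start. -/
theorem edgeOn_extend (h0 : ∀ e, 0 ≤ ω e) {s w n : Pt} (hu : OnGeo ω s v u)
    (h : EdgeOn ω u v w n) : EdgeOn ω s v w n := by
  refine ⟨h.1, le_antisymm ?_ ?_⟩
  · rw [← hu, ← h.2]
    linarith [tt_triangle h0 s u w]
  · have h1 : tt ω w n ≤ ω s(w, n) := (tt_le h0 h.1.toWalk).trans_eq (by simp [wt])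
    linarith [tt_triangle h0 s w v, tt_triangle h0 w n v]

/-- An edge between consecutive points of a walk split at a site which is not its end. -/
theorem exists_step_after {p : grid.Walk u v} (hp : p.IsPath) {w : Pt} (hw : w ∈ p.support)
    (hne : w ≠ v) : ∃ n, ∃ hadj : grid.Adj w n, ∃ p₁ : grid.Walk u w, ∃ p₂ : grid.Walk n v,
      p = p₁.append (.cons hadj p₂) ∧ n ≠ w := by
  obtain ⟨p₁, q, rfl⟩ := SimpleGraph.Walk.mem_support_iff_exists_append.1 hw
  cases q with
  | nil => exact absurd rfl hne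
  | @cons _ n _ hadj p₂ => exact ⟨n, hadj, p₁, p₂, rfl, hadj.ne'⟩

end Vale.Agent.P158.V4
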