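import Vale.Agent.P158.V4.MainCount
import Vale.Agent.P158.V4.TiltProb
import Vale.Agent.P158.V4.TiltGain
import Vale.Agent.P158.V4.Null
import Vale.Agent.P158.V4.Class

/-!
P158: main argument (note 1433, section 6): no bigeodesic of the class passes through a given site.
-/

namespace Vale.Agent.P158.V4

open MeasureTheory Filter Topology

/-- Nearly full measure: regular radii exist. -/
theorem exists_rad {G : Measure ℝ} [IsProbabilityMeasure G] {A : ℕ → Set Cfg}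
    (hA : Tendsto (fun r => law G (A r)ᶜ) atTop (𝓝 0)) {ε : ℝ} (hε : 0 < ε) (r₀ : ℕ) :
    ∃ r, r₀ ≤ r ∧ (law G).real (A r)ᶜ ≤ ε := by
  have h : Tendsto (fun r => (law G).real (A r)ᶜ) atTop (𝓝 0) :=
    (ENNReal.tendsto_toReal ENNReal.zero_ne_top).comp hA
  obtain ⟨r, hr, hr'⟩ := ((eventually_ge_atTop r₀).and (h.eventually (eventually_le_nhds hε))).exists
  exact ⟨r, hr, hr'⟩

/-- No bigeodesic of the class passes through a given site. -/
theorem null_classes_of_cost {G : Measure ℝ} [IsProbabilityMeasure G] {b C : ℝ} {μ : ℝ × ℝ → ℝ}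
    (hatom : ∀ x, G {x} = 0) (hG : ∀ᵐ t ∂G, 0 < t) (hg : ∃ cg, 0 < cg ∧ ∀ᵐ ω ∂law G, Good b cg ω)
    (hC : 0 < C) (hcost : AxisCost G C) (hsteer : SteerStmt G μ)
    (hlane : LaneNullStmt G μ) (hgeo : MainLaneStmt) :
    ∀ κ, StrictSlope μ κ → ∀ rr : ℕ → ℕ, law G {ω | InClass μ κ rr ω (0, 0)} = 0 := by
  intro κ hκ rr
  obtain ⟨hκ0, κ', hκ', hsupp⟩ := hκ
  set k₁ : ℝ := (2 * κ + κ') / 3 with hk₁
  set k₂ : ℝ := (κ + 2 * κ') / 3 with hk₂
  have hk₂s : StrictSlope μ k₂ := ⟨by linarith, κ', by linarith, hsupp⟩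
  obtain ⟨K, hK, A, hAm, hAs, hAt⟩ := hsteer k₂ hk₂s
  obtain ⟨Cls, sel, hCm, hselm, hCcov, hselcov, hcls⟩ := (classStmt G μ κ).1 rr
  obtain ⟨q, hq, hgainq⟩ := tiltGainStmt hatom hG
  obtain ⟨c, hc, hgain⟩ := hgainq K hK
  obtain ⟨r₀p, C₂, hC₂, hsq, -, hnull⟩ := tiltProbStmt q hq K hK
  obtain ⟨cg, hcg, hgood⟩ := hg
  have hsupp0 := lawSupp_nonneg_of_pos G hG
  have hfull : ∀ᵐ ω ∂law G, Good b cg ω ∧ Eligible (lawSupp G) ω ∧ ∀ e, ω e ∈ lawSupp G :=
    hgood.and ((ae_eligible G hatom).and (ae_mem_lawSupp G))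
  -- typical fields, invariant under translations
  have hae : ∀ᵐ s ∂markLaw, OKMarks s ∧ Good b cg (cfg G s) ∧ Eligible (lawSupp G) (cfg G s) ∧
      (∀ u, (cfg G s ∈ Cls u ↔ InClass μ κ rr (cfg G s) u) ∧
        (cfg G s ∈ Cls u → IsLane (cfg G s) (sel u (cfg G s)) ∧ sel u (cfg G s) 0 = u ∧
          Profile μ κ rr (sel u (cfg G s)))) ∧
      ∀ u : Pt, ∀ r : ℕ, moveCfg u (cfg G s) ∈ A r (0, 0) →
        Steered k₂ K r (moveCfg u (cfg G s)) (0, 0) := by
    have hst : ∀ᵐ ω ∂law G, ∀ u : Pt, ∀ r : ℕ, moveCfg u ω ∈ A r (0, 0) →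
        Steered k₂ K r (moveCfg u ω) (0, 0) :=
      ae_all_iff.2 fun u => ae_of_ae_map (measurable_moveCfg u).aemeasurable
        (by rw [map_moveCfg G]; exact hAs.mono fun ω hω r => hω r (0, 0))
    have h := (hfull.and (hcls.and hst))
    rw [← map_cfg (G := G)] at h
    filter_upwards [ae_marks, ae_of_ae_map (measurable_cfg' G).aemeasurable h] with s h1 h2
    exact ⟨h1, h2.1.1, h2.1.2.1, h2.2.1, h2.2.2⟩
  obtain ⟨N₀, hN₀, hN₀m, hN₀0⟩ := exists_measurable_superset_of_null (ae_iff.1 hae)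
  set nice : Set Marks := ⋂ a : Pt, moveMarks a ⁻¹' N₀ᶜ with hnice
  have hnicem : MeasurableSet nice :=
    MeasurableSet.iInter fun a => measurable_moveMarks a hN₀m.compl
  have hnice0 : markLaw niceᶜ = 0 := by
    simp only [hnice, Set.compl_iInter, Set.preimage_compl, compl_compl]
    refine measure_iUnion_null fun a => ?_
    rw [← Measure.map_apply (measurable_moveMarks a) hN₀m, map_moveMarks, hN₀0]
  have hnicep : ∀ s ∈ nice, OKMarks s ∧ Good b cg (cfg G s) ∧ Eligible (lawSupp G) (cfg G s) ∧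
      (∀ u, (cfg G s ∈ Cls u ↔ InClass μ κ rr (cfg G s) u) ∧
        (cfg G s ∈ Cls u → IsLane (cfg G s) (sel u (cfg G s)) ∧ sel u (cfg G s) 0 = u ∧
          Profile μ κ rr (sel u (cfg G s)))) ∧
      ∀ u : Pt, ∀ r : ℕ, moveCfg u (cfg G s) ∈ A r (0, 0) →
        Steered k₂ K r (moveCfg u (cfg G s)) (0, 0) := fun s hs => by
    have := Set.mem_iInter.1 hs (0, 0)
    rw [Set.mem_preimage, moveMarks_zero] at this
    by_contra h
    exact this (hN₀ h)
  -- the probability of the class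
  rw [show law G {ω | InClass μ κ rr ω (0, 0)} = law G (Cls (0, 0)) from
    measure_congr (hcls.mono fun ω hω => propext (hω (0, 0)).1.symm)]
  by_contra hne
  set p₀ : ℝ := (law G).real (Cls (0, 0)) with hp₀
  have hp₀pos : 0 < p₀ := ENNReal.toReal_pos hne (measure_ne_top _ _)
  obtain ⟨r₀g, hgainr⟩ := hgain (p₀ / 4) (by positivity)
  obtain ⟨rad, hrad, hradA⟩ := exists_rad (hAt (0, 0)) (show (0 : ℝ) < p₀ / 4 by positivity)
    (max 2 (max ⌈r₀g⌉₊ ⌈r₀p⌉₊))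
  simp only [max_le_iff, Nat.ceil_le] at hrad
  obtain ⟨hrad2, hradg, hradp⟩ := hrad
  obtain ⟨S₀, hS₀⟩ := hgainr rad hradg
  set p : ℝ := (p₀ / 2) ^ 2 / C₂ with hp
  have hppos : 0 < p := by positivity
  set d₁ : ℕ := ⌈K * rad⌉₊ + 2 with hd₁
  set S : ℕ := max (max S₀ 1) ⌈(16 * d₁ * C / (p * c)) ^ 2⌉₊ with hS
  have hS1 : 1 ≤ S := le_max_of_le_left (le_max_right _ _)
  set gv : ℝ := c * Real.sqrt S with hgv
  have hgv0 : 0 < gv := mul_pos hc (Real.sqrt_pos.2 (Nat.cast_pos.2 hS1))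
  have hgvbig : 16 * d₁ * C ≤ p * gv := by
    have h1 : 16 * d₁ * C / (p * c) ≤ Real.sqrt S :=
      Real.le_sqrt_of_sq_le ((Nat.le_ceil _).trans (Nat.cast_le.2 (le_max_right _ _)))
    rw [div_le_iff₀ (by positivity)] at h1
    rw [hgv]
    linarith
  set D : MainData := ⟨G, q, k₁, K, rad, S, b, cg⟩ with hD
  set P : CountData := ⟨D, gv, Cls, sel, fun r => A r (0, 0), nice⟩ with hP
  have hv : P.Valid μ κ rr := by
    refine ⟨⟨‹_›, hatom, hq, hK, hrad2, hS1, hcg, hsupp0⟩, hκ0, show κ < k₁ by linarith, hCm, hselm,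
      fun r => hAm r (0, 0), hnicem, hCcov, hselcov, fun a s hs => ?_, hnice0,
      fun s hs => ⟨(hnicep s hs).1, (hnicep s hs).2.1, (hnicep s hs).2.2.1⟩,
      fun s hs u => ((hnicep s hs).2.2.2.1 u).2, fun s hs r u hu => ?_⟩
    · refine Set.mem_iInter.2 fun c' => ?_
      rw [Set.mem_preimage, moveMarks_move]
      exact Set.mem_iInter.1 hs (c' + a)
    · have := ((hnicep s hs).2.2.2.2 u r hu).shift (κ := k₁) (hnicep s hs).2.1.nonneg (by linarith)
        (by linarith)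
      rwa [show ((0, 0) : Pt) = 0 from rfl, zero_add] at this
  have hnullP : ∀ U : Finset Pt, ∀ E : Set Marks, MeasurableSet E → markLaw E = 0 →
      markLaw (raise q K rad S U ⁻¹' E) = 0 := fun U E hE h0 => hnull rad S U hradp hS1 E hE h0
  have htyp := CountData.ae_typical hv hnullP hlane ⟨hκ0, κ', hκ', hsupp⟩ hgood
  have hclaim : ∀ x : ℤ, p ≤ markLaw.real (P.Claimed x) := fun x => by
    have h1 := CountData.real_cls_le hv (c := c) (ε := p₀ / 4) (by positivity) rfl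
      (hS₀ S (le_max_of_le_left (le_max_left _ _))) x
    change p₀ ≤ markLaw.real (P.Ecl x) + (law G).real (A rad (0, 0))ᶜ + p₀ / 4 at h1
    have h2 : (p₀ / 2) ^ 2 ≤ markLaw.real (P.Ecl x) ^ 2 :=
      pow_le_pow_left₀ (by positivity) (by linarith) 2
    have h3 : markLaw.real (P.Ecl x) ^ 2 ≤ C₂ * markLaw.real (P.Claimed x) :=
      hsq rad hradp S (MainData.ctr x) hS1 (P.Ecl x) (CountData.measurableSet_ecl hv x)
    rw [hp, div_le_iff₀ hC₂, mul_comm _ C₂]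
    exact h2.trans h3
  -- the window and the separation length
  obtain ⟨rad', hrad', hradA'⟩ := exists_rad (hAt (0, 0)) (show (0 : ℝ) < p / 32 by positivity)
    (2 ^ S * rad)
  set W : ℕ := ⌈K * (3 * rad') + 1⌉₊ with hW
  have hd₁K : D.K * D.rad + 1 < (d₁ : ℝ) := by
    have := Nat.le_ceil (K * (rad : ℝ))
    simp only [hd₁, hD, Nat.cast_add, Nat.cast_ofNat]
    linarith
  have hbad : Tendsto (fun L => ∑ d ∈ Finset.Icc d₁ D.dist₁, markLaw.real (P.Bad d L 0)) atTop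
      (𝓝 0) := by
    simpa using tendsto_finsetSum (Finset.Icc d₁ D.dist₁) fun d hd =>
      CountData.bad_tendsto hv hgeo htyp
        (hd₁K.trans_le (Nat.cast_le.2 (Finset.mem_Icc.1 hd).1))
  obtain ⟨L, hL⟩ := (hbad.eventually (eventually_le_nhds (show (0 : ℝ) < p / 8 by positivity))).exists
  obtain ⟨Nc, hNc⟩ := hcost.window (show (0 : ℝ) < p / 16 by positivity)
  set N : ℕ := 4 * L + W + ⌈4 * (d₁ : ℝ) / p⌉₊ + 1 + Nc with hN
  have hcostN : (law G).real (CostlyWindow C W N) ≤ p / 16 := hNc W N (le_add_of_le_left (Nat.le_add_left _ _))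
  have hsum := CountData.sum_claimed_le (L := L) (N := N) hv hgeo hgv0 hC.le htyp hd₁K hrad'
    (Nat.le_ceil _)
  have hlow : ((N : ℝ) - 2 * L) * p ≤
      ∑ x ∈ Finset.Ico (L : ℤ) ((N : ℤ) - L), markLaw.real (P.Claimed x) := by
    refine le_trans (le_of_eq ?_) (Finset.card_nsmul_le_sum _ _ _ fun x _ => hclaim x)
    rw [Int.card_Ico, nsmul_eq_mul, show ((N : ℤ) - L - L).toNat = N - 2 * L by omega,
      Nat.cast_sub (by omega)]
    push_cast
    rfl
  have h1 : (N : ℝ) * ∑ d ∈ Finset.Icc d₁ D.dist₁, markLaw.real (P.Bad d L 0) ≤ N * (p / 8) :=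
    mul_le_mul_of_nonneg_left hL (Nat.cast_nonneg _)
  have h2 : (N : ℝ) * (2 * (law G).real (A rad' (0, 0))ᶜ + (law G).real (CostlyWindow C W N)) ≤
      N * (2 * (p / 16)) :=
    mul_le_mul_of_nonneg_left (by linarith) (Nat.cast_nonneg _)
  have h3 : (d₁ : ℝ) * (2 * (2 * C * (N + 2 * W)) / gv + 2) ≤ p / 4 * (N + 2 * W) + 2 * d₁ := by
    have h4 : (d₁ : ℝ) * (2 * (2 * C * (N + 2 * W))) / gv ≤ p / 4 * (N + 2 * W) := by
      rw [div_le_iff₀ hgv0]
      have h5 := mul_le_mul_of_nonneg_right hgvbig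
        (show (0 : ℝ) ≤ (N : ℝ) + 2 * W by positivity)
      linarith
    rw [mul_add, ← mul_div_assoc, mul_comm (d₁ : ℝ) 2]
    linarith
  change _ ≤ (N : ℝ) * ∑ d ∈ Finset.Icc d₁ D.dist₁, markLaw.real (P.Bad d L 0) +
    ((d₁ : ℝ) * (2 * (2 * C * (N + 2 * W)) / gv + 2) +
      N * (2 * (law G).real (A rad' (0, 0))ᶜ + (law G).real (CostlyWindow C W N))) at hsum
  have h6 : 4 * (L : ℝ) + W + 4 * (d₁ : ℝ) / p + 1 ≤ N := by
    have := Nat.le_ceil (4 * (d₁ : ℝ) / p)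
    rw [hN]
    push_cast
    linarith [(Nat.cast_nonneg Nc : (0 : ℝ) ≤ Nc)]
  have h7 := mul_le_mul_of_nonneg_right h6 hppos.le
  rw [add_mul, add_mul, add_mul, div_mul_cancel₀ _ hppos.ne', one_mul] at h7
  linarith

/-- The main count for bounded weights. -/
theorem null_classes {G : Measure ℝ} [IsProbabilityMeasure G] {b : ℝ} {μ : ℝ × ℝ → ℝ}
    (hatom : ∀ x, G {x} = 0) (hG : ∀ᵐ t ∂G, 0 < t ∧ t ≤ b) (hsteer : SteerStmt G μ)
    (hlane : LaneNullStmt G μ) (hgeo : MainLaneStmt) :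
    ∀ κ, StrictSlope μ κ → ∀ rr : ℕ → ℕ, law G {ω | InClass μ κ rr ω (0, 0)} = 0 := by
  have hb : 0 < b := by
    obtain ⟨t, ht⟩ := hG.exists
    exact ht.1.trans_le ht.2
  exact null_classes_of_cost hatom (hG.mono fun _ ht => ht.1) (ae_good G hG hatom) hb
    (axisCost_of_le hG) hsteer hlane hgeo

end Vale.Agent.P158.V4
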