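import Vale.Agent.P158.V4.MainTypical
import Vale.Agent.P158.V4.MainCost

/-!
P158: main count: claims along a segment of the axis are few, because their coordinates are
separated and bounded by the length of the window.
-/

namespace Vale.Agent.P158.V4

open MeasureTheory Filter Topology

/-- Values of size at most `M`, `g` apart at distances from `d` on, are taken at few sites. -/
theorem card_sparse {T : Finset ℤ} {f : ℤ → ℝ} {d : ℕ} {g M : ℝ} (hd : 0 < d) (hg : 0 < g)
    (hM : 0 ≤ M) (hf : ∀ x ∈ T, |f x| ≤ M)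
    (hsep : ∀ x ∈ T, ∀ y ∈ T, (d : ℤ) ≤ y - x → g ≤ |f y - f x|) :
    (T.card : ℝ) ≤ d * (2 * M / g + 2) := by
  classical
  have hd' : (0 : ℤ) < d := by exact_mod_cast hd
  have hmap : Set.MapsTo (fun x : ℤ => x % (d : ℤ)) ↑T ↑(Finset.Ico (0 : ℤ) d) := fun x _ =>
    Finset.mem_coe.2 (Finset.mem_Ico.2 ⟨Int.emod_nonneg _ hd'.ne', Int.emod_lt_of_pos _ hd'⟩)
  rw [Finset.card_eq_sum_card_fiberwise hmap, Nat.cast_sum]
  refine (Finset.sum_le_sum (g := fun _ => 2 * M / g + 2) fun i _ => ?_).trans (le_of_eq ?_)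
  · set Ti := T.filter fun x : ℤ => x % (d : ℤ) = i
    have hinj : Set.InjOn (fun x => ⌊f x / g⌋) ↑Ti := by
      intro x hx y hy hxy
      simp only [Ti, Finset.coe_filter, Set.mem_ofPred_eq] at hx hy
      obtain ⟨hx, hxi⟩ := hx
      obtain ⟨hy, hyi⟩ := hy
      by_contra hne
      have hdvd : (d : ℤ) ∣ y - x := Int.ModEq.dvd (show x % (d : ℤ) = y % (d : ℤ) by rw [hxi, hyi])
      have hclose : |f y / g - f x / g| < 1 := Int.abs_sub_lt_one_of_floor_eq_floor hxy.symm
      rw [← sub_div, abs_div, abs_of_pos hg, div_lt_one hg] at hclose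
      rcases lt_or_gt_of_ne hne with h | h
      · exact absurd (hsep x hx y hy (Int.le_of_dvd (by omega) hdvd)) (not_le.2 hclose)
      · rw [abs_sub_comm] at hclose
        have hdvd' : (d : ℤ) ∣ x - y := by rw [← neg_sub]; exact hdvd.neg_right
        exact absurd (hsep y hy x hx (Int.le_of_dvd (by omega) hdvd')) (not_le.2 hclose)
    have hto : Set.MapsTo (fun x => ⌊f x / g⌋) ↑Ti ↑(Finset.Icc ⌊-M / g⌋ ⌊M / g⌋) := by
      intro x hx
      have := abs_le.1 (hf x (Finset.mem_filter.1 (Finset.mem_coe.1 hx)).1)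
      simp only [Finset.coe_Icc, Set.mem_Icc]
      exact ⟨Int.floor_mono (by gcongr; exact this.1), Int.floor_mono (by gcongr; exact this.2)⟩
    refine (Nat.cast_le.2 (Finset.card_le_card_of_injOn _ hto hinj)).trans ?_
    rw [Int.card_Icc]
    have h1 := Int.floor_le (M / g)
    have h2 := Int.lt_floor_add_one (-M / g)
    have h3 : ⌊-M / g⌋ ≤ ⌊M / g⌋ + 1 :=
      (Int.floor_mono (by gcongr; linarith)).trans (le_add_of_nonneg_right zero_le_one)
    calc (((⌊M / g⌋ + 1 - ⌊-M / g⌋).toNat : ℕ) : ℝ)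
        = (((⌊M / g⌋ + 1 - ⌊-M / g⌋).toNat : ℤ) : ℝ) := (Int.cast_natCast _).symm
      _ = ((⌊M / g⌋ + 1 - ⌊-M / g⌋ : ℤ) : ℝ) := by rw [Int.toNat_of_nonneg (by omega)]
      _ ≤ 2 * M / g + 2 := by
        push_cast
        rw [neg_div] at h2 ⊢
        rw [mul_div_assoc]
        linarith
  · rw [Finset.sum_const, Int.card_Ico, nsmul_eq_mul]
    simp

namespace CountData

open MainData (ctr)

variable {P : CountData} {μ : ℝ × ℝ → ℝ} {κ : ℝ} {rr : ℕ → ℕ} (hv : P.Valid μ κ rr)
include hv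

/-- The sites of the segment claimed without a bad partner at a bounded distance are few in a
typical field with regular ends. -/
theorem card_clean (hgeo : MainLaneStmt) (hgv : 0 < P.gv) {C : ℝ} (hC : 0 ≤ C) {s : Marks}
    (hs : P.Typical s) {d₁ L N W rad' : ℕ} (hd₁ : P.D.K * P.D.rad + 1 < (d₁ : ℝ))
    (hrad' : 2 ^ P.D.S * P.D.rad ≤ rad') (hW : P.D.K * (3 * rad') + 1 ≤ (W : ℝ))
    (hl : moveCfg (ctr (-(W : ℤ))) (cfg P.D.G s) ∈ P.steerA rad')
    (hr : moveCfg (ctr ((N : ℤ) + W)) (cfg P.D.G s) ∈ P.steerA rad')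
    (hcost : cfg P.D.G s ∉ CostlyWindow C W N)
    {T : Finset ℤ} (hT : ∀ x ∈ T, (L : ℤ) ≤ x ∧ x + L ≤ N ∧ s ∈ P.Claimed x ∧
      ∀ d ∈ Finset.Icc d₁ P.D.dist₁, s ∉ P.Bad d L x) :
    (T.card : ℝ) ≤ d₁ * (2 * (2 * C * (N + 2 * W)) / P.gv + 2) := by
  have hb := base_of_typical hv hs
  have hd0 : 0 < d₁ := by
    refine Nat.cast_pos.1 (lt_of_le_of_lt ?_ hd₁ : (0 : ℝ) < d₁)
    have := mul_nonneg (zero_le_one.trans hv.good.hK) (Nat.cast_nonneg P.D.rad (α := ℝ))
    linarith
  refine card_sparse (f := fun x => P.crd x (-(W : ℤ)) ((N : ℤ) + W) s) hd0 hgv (by positivity)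
    (fun x hx => ?_) fun x hx y hy hxy => ?_
  · obtain ⟨h1, h2, h3, -⟩ := hT x hx
    refine ((hgeo P.D hv.good s hb P.gv x x _ _ (claim_of_mem hv h3) (claim_of_mem hv h3)).1
      (-(W : ℤ)) ((N : ℤ) + W)).trans ?_
    simp only [CostlyWindow, Set.mem_union, Set.mem_ofPred_eq, not_or, not_lt] at hcost
    linarith [hcost.1, hcost.2]
  · obtain ⟨x1, x2, x3, x4⟩ := hT x hx
    obtain ⟨y1, y2, y3, -⟩ := hT y hy
    obtain ⟨d, hd⟩ := Int.eq_ofNat_of_zero_le (show 0 ≤ y - x by omega)
    have hy' : y = x + (d : ℤ) := by omega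
    have hKd : P.D.K * P.D.rad + 1 < (d : ℝ) :=
      hd₁.trans_le (Nat.cast_le.2 (show d₁ ≤ d by omega))
    subst hy'
    rcases le_or_gt d P.D.dist₁ with hle | hlt
    · exact sep_of_not_bad hv hgeo hs hKd x3 y3
        (x4 d (Finset.mem_Icc.2 ⟨by omega, hle⟩)) (by omega) (by omega)
    · refine ((hgeo P.D hv.good s hb P.gv x (x + (d : ℤ)) _ _ (claim_of_mem hv x3)
        (claim_of_mem hv y3)).2 (by simpa using hKd) (hs.2.2 _ _ x3 y3)).2.2 (-(W : ℤ)) ((N : ℤ) + W)
        rad' hrad' (hv.nice_steer s hs.1 _ _ hl) (hv.nice_steer s hs.1 _ _ hr) (fun z hz => ?_) ?_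
      · have hz1 : (0 : ℝ) ≤ z ∧ (z : ℝ) ≤ N := by
          rcases hz with rfl | rfl <;>
            exact ⟨by exact_mod_cast (by omega), by exact_mod_cast (by omega)⟩
        push_cast
        exact ⟨by linarith, by linarith⟩
      · rw [add_sub_cancel_left, Nat.abs_cast]
        exact_mod_cast hlt

/-- The expected number of claims on a segment. -/
theorem sum_claimed_le (hgeo : MainLaneStmt) (hgv : 0 < P.gv) {C : ℝ} (hC : 0 ≤ C)
    (htyp : ∀ᵐ s ∂markLaw, P.Typical s) {d₁ L N W rad' : ℕ}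
    (hd₁ : P.D.K * P.D.rad + 1 < (d₁ : ℝ)) (hrad' : 2 ^ P.D.S * P.D.rad ≤ rad')
    (hW : P.D.K * (3 * rad') + 1 ≤ (W : ℝ)) :
    ∑ x ∈ Finset.Ico (L : ℤ) ((N : ℤ) - L), markLaw.real (P.Claimed x) ≤
      N * ∑ d ∈ Finset.Icc d₁ P.D.dist₁, markLaw.real (P.Bad d L 0) +
        (d₁ * (2 * (2 * C * (N + 2 * W)) / P.gv + 2) +
          N * (2 * (law P.D.G).real (P.steerA rad')ᶜ + (law P.D.G).real (CostlyWindow C W N))) := by
  classical
  have := hv.good.prob
  set X := Finset.Ico (L : ℤ) ((N : ℤ) - L) with hX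
  set J := Finset.Icc d₁ P.D.dist₁
  set B : ℝ := d₁ * (2 * (2 * C * (N + 2 * W)) / P.gv + 2) with hB
  set Cl : ℤ → Set Marks := fun x => P.Claimed x \ ⋃ d ∈ J, P.Bad d L x with hCl
  have hmCl : ∀ x, MeasurableSet (Cl x) := fun x =>
    (measurableSet_claimed hv x).diff (J.measurableSet_biUnion fun d _ => measurableSet_bad hv d L x)
  set R : Set Marks := (cfg P.D.G ⁻¹' (moveCfg (ctr (-(W : ℤ))) ⁻¹' (P.steerA rad')ᶜ)) ∪
    cfg P.D.G ⁻¹' (moveCfg (ctr ((N : ℤ) + W)) ⁻¹' (P.steerA rad')ᶜ) ∪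
    cfg P.D.G ⁻¹' CostlyWindow C W N with hR
  have hmR : MeasurableSet R :=
    ((measurable_cfg' P.D.G (measurable_moveCfg _ (hv.meas_steer _).compl)).union
      (measurable_cfg' P.D.G (measurable_moveCfg _ (hv.meas_steer _).compl))).union
      (measurable_cfg' P.D.G (measurableSet_costlyWindow C W N))
  have hRle : markLaw.real R ≤
      2 * (law P.D.G).real (P.steerA rad')ᶜ + (law P.D.G).real (CostlyWindow C W N) := by
    refine (measureReal_union_le _ _).trans (add_le_add ((measureReal_union_le _ _).trans (le_of_eq ?_))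
      (le_of_eq ?_))
    · rw [real_translate hv _ (hv.meas_steer _).compl, real_translate hv _ (hv.meas_steer _).compl]
      ring
    · rw [measureReal_def, ← Measure.map_apply (measurable_cfg' P.D.G)
        (measurableSet_costlyWindow C W N), map_cfg, ← measureReal_def]
  have hXN : (X.card : ℝ) ≤ N := by
    rw [hX, Int.card_Ico]
    exact Nat.cast_le.2 (by omega)
  have hstep : ∀ x ∈ X, markLaw.real (P.Claimed x) ≤
      markLaw.real (Cl x) + ∑ d ∈ J, markLaw.real (P.Bad d L 0) := fun x _ => by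
    refine (measureReal_mono (s₂ := Cl x ∪ ⋃ d ∈ J, P.Bad d L x) ?_ (measure_ne_top _ _)).trans
      ((measureReal_union_le _ _).trans (add_le_add le_rfl
        ((measureReal_biUnion_finset_le _ _).trans (le_of_eq (Finset.sum_congr rfl fun d _ => ?_)))))
    · intro s hs
      by_cases h : s ∈ ⋃ d ∈ J, P.Bad d L x
      · exact Or.inr h
      · exact Or.inl ⟨hs, h⟩
    · rw [measureReal_def, measureReal_def, markLaw_bad hv]
  refine (Finset.sum_le_sum hstep).trans ?_
  rw [Finset.sum_add_distrib, Finset.sum_const, nsmul_eq_mul, add_comm]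
  refine add_le_add (mul_le_mul_of_nonneg_right hXN
    (Finset.sum_nonneg fun _ _ => measureReal_nonneg)) ?_
  have hint : ∀ x, Integrable ((Cl x).indicator (fun _ : Marks => (1 : ℝ))) markLaw := fun x =>
    (integrable_const _).indicator (hmCl x)
  calc ∑ x ∈ X, markLaw.real (Cl x)
      = ∫ s, ∑ x ∈ X, (Cl x).indicator (fun _ : Marks => (1 : ℝ)) s ∂markLaw := by
        rw [integral_finsetSum _ fun x _ => hint x]
        exact Finset.sum_congr rfl fun x _ => by rw [integral_indicator_const _ (hmCl x)]; simp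
    _ ≤ ∫ s, B + (N : ℝ) * R.indicator (fun _ : Marks => (1 : ℝ)) s ∂markLaw := by
        refine integral_mono_ae (integrable_finsetSum _ fun x _ => hint x)
          ((integrable_const _).add (((integrable_const _).indicator hmR).const_mul _)) ?_
        filter_upwards [htyp] with s hs
        have hcard : ∑ x ∈ X, (Cl x).indicator (fun _ : Marks => (1 : ℝ)) s =
            ((X.filter fun x => s ∈ Cl x).card : ℝ) := by
          rw [Finset.natCast_card_filter]
          simp only [Set.indicator_apply]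
        rw [hcard]
        by_cases hsR : s ∈ R
        · rw [Set.indicator_of_mem hsR, mul_one]
          refine le_trans ((Nat.cast_le.2 (Finset.card_filter_le _ _)).trans hXN)
            (le_add_of_nonneg_left ?_)
          positivity
        · rw [Set.indicator_of_notMem hsR, mul_zero, add_zero]
          simp only [hR, Set.mem_union, Set.mem_preimage, Set.mem_compl_iff, not_or, not_not] at hsR
          refine card_clean (L := L) hv hgeo hgv hC hs hd₁ hrad' hW hsR.1.1 hsR.1.2 hsR.2 fun x hx => ?_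
          simp only [hX, hCl, Finset.mem_filter, Finset.mem_Ico, Set.mem_diff, Set.mem_iUnion,
            not_exists] at hx
          exact ⟨hx.1.1, by omega, hx.2.1, hx.2.2⟩
    _ ≤ B + N * (2 * (law P.D.G).real (P.steerA rad')ᶜ +
        (law P.D.G).real (CostlyWindow C W N)) := by
        rw [integral_add (integrable_const _) (((integrable_const _).indicator hmR).const_mul _),
          integral_const, integral_const_mul, integral_indicator_const _ hmR]
        simp only [probReal_univ, smul_eq_mul, mul_one, one_mul]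
        exact add_le_add le_rfl (mul_le_mul_of_nonneg_left hRle (Nat.cast_nonneg _))

end CountData

end Vale.Agent.P158.V4
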