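import Vale.Agent.P158.V4.MainGain
import Vale.Agent.P158.V4.NullResample

/-!
P158: main count: claims of lanes along the axis as events of the marks, their measurability and
their covariance under horizontal translations.
-/

namespace Vale.Agent.P158.V4

open MeasureTheory Filter Topology

/-- The ingredients of the count: parameters, required saving, selection, regular sites, and a set
of typical fields. -/
structure CountData where
  /-- The parameters. -/
  D : MainData
  /-- The saving of a claim. -/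
  gv : ℝ
  /-- The sites of the class. -/
  cls : Pt → Set Cfg
  /-- The selected lane. -/
  sel : Pt → Cfg → ℤ → Pt
  /-- The regular configurations at the origin. -/
  steerA : ℕ → Set Cfg
  /-- The typical fields. -/
  nice : Set Marks

namespace CountData

open MainData (ctr)

variable (P : CountData)

/-- The assumptions on the ingredients. -/
structure Valid (μ : ℝ × ℝ → ℝ) (κ : ℝ) (rr : ℕ → ℕ) : Prop where
  good : P.D.Good'
  slope_nn : 0 ≤ κ
  slope_lt : κ < P.D.κ
  meas_cls : ∀ u, MeasurableSet (P.cls u)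
  meas_sel : ∀ u i z, MeasurableSet {ω | P.sel u ω i = z}
  meas_steer : ∀ r, MeasurableSet (P.steerA r)
  meas_nice : MeasurableSet P.nice
  cls_cov : ∀ u, P.cls u = moveCfg u ⁻¹' P.cls (0, 0)
  sel_cov : ∀ u ω i, P.sel u ω i = P.sel (0, 0) (moveCfg u ω) i + u
  nice_move : ∀ a s, s ∈ P.nice → moveMarks a s ∈ P.nice
  nice_null : markLaw P.niceᶜ = 0
  nice_ok : ∀ s ∈ P.nice, OKMarks s ∧ Good P.D.bb P.D.cg (cfg P.D.G s) ∧
    Eligible (lawSupp P.D.G) (cfg P.D.G s)
  nice_cls : ∀ s ∈ P.nice, ∀ u, cfg P.D.G s ∈ P.cls u →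
    IsLane (cfg P.D.G s) (P.sel u (cfg P.D.G s)) ∧ P.sel u (cfg P.D.G s) 0 = u ∧
      Profile μ κ rr (P.sel u (cfg P.D.G s))
  nice_steer : ∀ s ∈ P.nice, ∀ r u, moveCfg u (cfg P.D.G s) ∈ P.steerA r →
    Steered P.D.κ P.D.K r (cfg P.D.G s) u

/-- The sites with a lane of the class, regular, and saving enough: seen in the raised field. -/
def Ecl (x : ℤ) : Set Marks :=
  P.nice ∩ cfg P.D.G ⁻¹' P.cls (ctr x) ∩ cfg P.D.G ⁻¹' (moveCfg (ctr x) ⁻¹' P.steerA P.D.rad) ∩
    GainEv P.D.G P.D.q P.D.K P.D.rad P.D.S P.gv (P.sel (ctr x)) (ctr x)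

/-- The fields in which the site `x` claims its lane. -/
def Claimed (x : ℤ) : Set Marks := P.D.raised x ⁻¹' P.Ecl x

/-- The lane claimed by `x`. -/
noncomputable def lane (x : ℤ) (s : Marks) : ℤ → Pt := P.sel (ctr x) (cfg P.D.G (P.D.raised x s))

/-- The coordinate of the lane claimed by `x` on a window. -/
noncomputable def crd (x a b : ℤ) (s : Marks) : ℝ := P.D.coord s (P.D.lab s x (P.lane x s)) a b

/-- Two claims at distance `d` whose coordinates are still close on the window of radius `L`. -/
def Bad (d : ℕ) (L : ℕ) (x : ℤ) : Set Marks :=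
  P.Claimed x ∩ P.Claimed (x + d) ∩
    {s | |P.crd (x + d) (x - L) (x + L) s - P.crd x (x - L) (x + L) s| < P.gv}

variable {P} {μ : ℝ × ℝ → ℝ} {κ : ℝ} {rr : ℕ → ℕ} (hv : P.Valid μ κ rr)
include hv

theorem measurableSet_ecl (x : ℤ) : MeasurableSet (P.Ecl x) := by
  have := hv.good.prob
  exact ((hv.meas_nice.inter (measurable_cfg' P.D.G (hv.meas_cls _))).inter
    (measurable_cfg' P.D.G (measurable_moveCfg _ (hv.meas_steer _)))).inter
      (measurableSet_gainEv P.D.G P.gv (hv.meas_sel _) _)

omit hv in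
theorem measurable_raised (x : ℤ) : Measurable (P.D.raised x) :=
  measurable_raise _ _ _ _ _

theorem measurableSet_claimed (x : ℤ) : MeasurableSet (P.Claimed x) :=
  measurable_raised x (measurableSet_ecl hv x)

theorem measurableSet_lane (x i : ℤ) (z : Pt) : MeasurableSet {s | P.lane x s i = z} := by
  have := hv.good.prob
  exact ((measurable_cfg' P.D.G).comp (measurable_raised x)) (hv.meas_sel (ctr x) i z)

theorem measurable_acc (x i j : ℤ) :
    Measurable fun s => tt (cfg P.D.G (P.D.raised x s)) (P.lane x s i) (P.lane x s j) := by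
  have := hv.good.prob
  refine measurable_index (e := fun s => P.lane x s i) (measurableSet_lane hv x i)
    (F := fun a s => tt (cfg P.D.G (P.D.raised x s)) a (P.lane x s j)) fun a => ?_
  exact measurable_index (e := fun s => P.lane x s j) (measurableSet_lane hv x j)
    (F := fun c s => tt (cfg P.D.G (P.D.raised x s)) a c) fun c =>
    (measurable_tt a c).comp ((measurable_cfg' P.D.G).comp (measurable_raised x))

theorem measurable_ttIn_lane (S : Set Pt) (p : Pt) (x i : ℤ) :
    Measurable fun s => ttIn S (cfg P.D.G s) p (P.lane x s i) := by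
  have := hv.good.prob
  exact measurable_index (e := fun s => P.lane x s i) (measurableSet_lane hv x i)
    (F := fun c s => ttIn S (cfg P.D.G s) p c) fun c =>
    (measurable_ttIn S p c).comp (measurable_cfg' P.D.G)

theorem measurable_crd (x a b : ℤ) : Measurable (P.crd x a b) := by
  have hup : ∀ p : Pt, Measurable fun s =>
      busIn (upper 0) (cfg P.D.G s) (P.D.lab s x (P.lane x s)).up p := fun p =>
    (StronglyMeasurable.limUnder fun n : ℕ =>
      ((measurable_ttIn_lane hv (upper 0) p x n).sub (measurable_acc hv x 0 n)).stronglyMeasurable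
      ).measurable
  have hlo : ∀ p : Pt, Measurable fun s =>
      busIn (lower 0) (cfg P.D.G s) (P.D.lab s x (P.lane x s)).lo p := fun p =>
    (StronglyMeasurable.limUnder fun n : ℕ =>
      ((measurable_ttIn_lane hv (lower 0) p x (-n)).sub
        (measurable_acc hv x (-n) 0)).stronglyMeasurable).measurable
  exact ((hlo _).sub (hlo _)).sub ((hup _).sub (hup _))

theorem measurableSet_bad (d L : ℕ) (x : ℤ) : MeasurableSet (P.Bad d L x) :=
  ((measurableSet_claimed hv x).inter (measurableSet_claimed hv _)).inter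
    (measurableSet_lt ((measurable_crd hv _ _ _).sub (measurable_crd hv _ _ _)).abs measurable_const)

omit hv in
theorem ctr_add (x j : ℤ) : ctr x + ((j, 0) : Pt) = ctr (x + j) := by
  ext <;> simp [MainData.ctr]

omit hv in
theorem moveCfg_moveCfg (u a : Pt) (ω : Cfg) : moveCfg u (moveCfg a ω) = moveCfg (u + a) ω := by
  funext e
  induction e using Sym2.ind with
  | _ x y => simp [moveCfg, add_assoc]

theorem cls_moved (x j : ℤ) (ω : Cfg) :
    moveCfg (j, 0) ω ∈ P.cls (ctr x) ↔ ω ∈ P.cls (ctr (x + j)) := by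
  rw [hv.cls_cov (ctr x), hv.cls_cov (ctr (x + j)), Set.mem_preimage, Set.mem_preimage,
    moveCfg_moveCfg, ctr_add]

theorem sel_moved (x j : ℤ) (ω : Cfg) (i : ℤ) :
    P.sel (ctr x) (moveCfg (j, 0) ω) i + (j, 0) = P.sel (ctr (x + j)) ω i := by
  rw [hv.sel_cov (ctr x), hv.sel_cov (ctr (x + j)), moveCfg_moveCfg, add_assoc, ctr_add]

theorem nice_iff (a : Pt) (s : Marks) : moveMarks a s ∈ P.nice ↔ s ∈ P.nice := by
  refine ⟨fun h => ?_, hv.nice_move a s⟩
  have := hv.nice_move (-a) _ h
  rwa [moveMarks_move, neg_add_cancel, ← show ((0, 0) : Pt) = 0 from rfl, moveMarks_zero] at this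

theorem ecl_moved (x j : ℤ) (t : Marks) :
    moveMarks (j, 0) t ∈ P.Ecl x ↔ t ∈ P.Ecl (x + j) := by
  have hr : (0 : ℝ) ≤ P.D.rad := Nat.cast_nonneg _
  simp only [Ecl, Set.mem_inter_iff, Set.mem_preimage, GainEv, Set.mem_ofPred_eq, cfg_moveMarks,
    nice_iff hv, cls_moved hv, moveCfg_moveCfg, ctr_add, saving_move _ hr, sel_moved hv]

omit hv in
theorem raised_moved (x j : ℤ) (s : Marks) :
    P.D.raised x (moveMarks (j, 0) s) = moveMarks (j, 0) (P.D.raised (x + j) s) := by
  rw [MainData.raised, MainData.raised, raise_move (Nat.cast_nonneg _), ctr_add]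

theorem claimed_moved (x j : ℤ) (s : Marks) :
    moveMarks (j, 0) s ∈ P.Claimed x ↔ s ∈ P.Claimed (x + j) := by
  simp only [Claimed, Set.mem_preimage, raised_moved, ecl_moved hv]

theorem lane_moved (x j : ℤ) (s : Marks) (i : ℤ) :
    P.lane x (moveMarks (j, 0) s) i + (j, 0) = P.lane (x + j) s i := by
  rw [lane, lane, raised_moved, cfg_moveMarks, sel_moved hv]

theorem crd_moved (x j a b : ℤ) (s : Marks) :
    P.crd x a b (moveMarks (j, 0) s) = P.crd (x + j) (a + j) (b + j) s := by
  have hup : (P.D.lab (moveMarks (j, 0) s) x (P.lane x (moveMarks (j, 0) s))).up.shift (j, 0) =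
      (P.D.lab s (x + j) (P.lane (x + j) s)).up := by
    simp only [MainData.lab, labOf, Ray.shift, raised_moved, cfg_moveMarks, tt_move_any,
      lane_moved hv]
  have hlo : (P.D.lab (moveMarks (j, 0) s) x (P.lane x (moveMarks (j, 0) s))).lo.shift (j, 0) =
      (P.D.lab s (x + j) (P.lane (x + j) s)).lo := by
    simp only [MainData.lab, labOf, Ray.shift, raised_moved, cfg_moveMarks, tt_move_any,
      lane_moved hv]
  have hc : ∀ y : ℤ, ((y, 0) : Pt) + (j, 0) = (y + j, 0) := fun y => by simp
  have hu : upper 0 = (fun z : Pt => z + (j, 0)) ⁻¹' upper 0 := by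
    simpa using (preimage_upper ((j, 0) : Pt) 0).symm
  have hl : lower 0 = (fun z : Pt => z + (j, 0)) ⁻¹' lower 0 := by
    simpa using (preimage_lower ((j, 0) : Pt) 0).symm
  simp only [crd, MainData.coord, cfg_moveMarks]
  conv_lhs => rw [hu, hl]
  simp only [busIn_move, hup, hlo, hc]

theorem bad_moved (d L : ℕ) (x : ℤ) (s : Marks) :
    moveMarks (x, 0) s ∈ P.Bad d L 0 ↔ s ∈ P.Bad d L x := by
  simp only [Bad, Set.mem_inter_iff, Set.mem_ofPred_eq, claimed_moved hv, crd_moved hv]
  rw [zero_add, zero_add, zero_sub, neg_add_eq_sub, zero_add, show (L : ℤ) + x = x + L from add_comm _ _,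
    show (d : ℤ) + x = x + d from add_comm _ _]

theorem markLaw_bad (d L : ℕ) (x : ℤ) : markLaw (P.Bad d L x) = markLaw (P.Bad d L 0) := by
  conv_rhs => rw [← map_moveMarks (x, 0),
    Measure.map_apply (measurable_moveMarks _) (measurableSet_bad hv d L 0)]
  exact congrArg markLaw (Set.ext fun s => (bad_moved hv d L x s).symm)

end CountData

end Vale.Agent.P158.V4
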