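import Vale.Agent.P158.V4.MainLanes

/-!
P158: main count: a lane in the cone of its site gains `c √S` under the tilt there, outside an
event of small probability.
-/

namespace Vale.Agent.P158.V4

open MeasureTheory Filter Topology

variable {K r : ℝ} {S : ℕ}

theorem exists_path_segment {v : ℕ → Pt} (hadj : ∀ n, grid.Adj (v n) (v (n + 1)))
    (hinj : Function.Injective v) (i : ℕ) : ∀ n, ∃ p : grid.Walk (v i) (v (i + n)),
      p.IsPath ∧ p.length = n ∧
      p.edges = (List.range' i n).map (fun k => s(v k, v (k + 1))) := by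
  intro n
  suffices h : ∃ p : grid.Walk (v i) (v (i + n)),
      p.support = (List.range' i (n + 1)).map v ∧
        p.edges = (List.range' i n).map (fun k => s(v k, v (k + 1))) by
    obtain ⟨p, hs, he⟩ := h
    refine ⟨p, ?_, ?_, he⟩
    · rw [SimpleGraph.Walk.isPath_def, hs]
      exact (List.nodup_range').map hinj
    · have := congrArg List.length he
      simpa using this
  induction n with
  | zero => exact ⟨.nil, by simp, by simp⟩
  | succ n ih =>
    obtain ⟨p, hs, he⟩ := ih
    refine ⟨p.concat (hadj (i + n)), ?_, ?_⟩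
    · rw [SimpleGraph.Walk.support_concat, hs, List.range'_1_concat (n := n + 1)]
      simp [add_assoc]
    · rw [SimpleGraph.Walk.edges_concat, he, List.range'_1_concat, List.map_append, List.concat_eq_append,
        List.map_singleton]
      rfl

/-- The bound on the number of sites of a lane within the reach of the tilt. -/
noncomputable def pickLen (K r : ℝ) (S : ℕ) : ℕ :=
  (2 * ⌈K * (2 ^ S * r)⌉.toNat + 1) * (2 * ⌈(2 : ℝ) ^ S * r⌉.toNat + 1) + 1

theorem exists_height_gt (hK : 1 ≤ K) (hr : 0 ≤ r) {u : Pt} {v : ℕ → Pt}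
    (hinj : Function.Injective v) (hcone : ∀ k, InCone K r u (v k)) :
    ∃ k, k ≤ pickLen K r S ∧ (2 : ℝ) ^ S * r < |(((v k).2 - u.2 : ℤ) : ℝ)| := by
  by_contra hne
  push Not at hne
  set W := ⌈K * (2 ^ S * r)⌉.toNat
  set H := ⌈(2 : ℝ) ^ S * r⌉.toNat
  have hmem : ∀ k ∈ Finset.range (pickLen K r S + 1), v k ∈
      Finset.Icc (u.1 - W) (u.1 + W) ×ˢ Finset.Icc (u.2 - H) (u.2 + H) := by
    intro k hk
    have h2 := hne k (Nat.lt_succ_iff.1 (Finset.mem_range.1 hk))
    have h1 := hcone k
    unfold InCone at h1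
    have h3 : r ≤ 2 ^ S * r := le_mul_of_one_le_left hr (one_le_pow₀ (by norm_num))
    have h4 : |(((v k).1 - u.1 : ℤ) : ℝ)| ≤ K * (2 ^ S * r) :=
      h1.trans (mul_le_mul_of_nonneg_left (max_le h2 h3) (by linarith))
    have b1 : |(((v k).1 - u.1 : ℤ) : ℝ)| ≤ ((W : ℤ) : ℝ) :=
      h4.trans ((Int.le_ceil _).trans (Int.cast_le.2 (Int.self_le_toNat _)))
    have b2 : |(((v k).2 - u.2 : ℤ) : ℝ)| ≤ ((H : ℤ) : ℝ) :=
      h2.trans ((Int.le_ceil _).trans (Int.cast_le.2 (Int.self_le_toNat _)))
    rw [← Int.cast_abs, Int.cast_le, abs_le] at b1 b2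
    simp only [Finset.mem_product, Finset.mem_Icc]
    omega
  have := Finset.card_le_card_of_injOn v hmem hinj.injOn
  rw [Finset.card_range, Finset.card_product, Int.card_Icc, Int.card_Icc] at this
  rw [show (u.1 + (W : ℤ) + 1 - (u.1 - W)).toNat = 2 * W + 1 by omega,
    show (u.2 + (H : ℤ) + 1 - (u.2 - H)).toNat = 2 * H + 1 by omega] at this
  simp only [pickLen, W, H] at this
  omega

/-- Each dyadic annulus contains a long enough piece of the lane. -/
theorem exists_piece (hK : 1 ≤ K) (hr : 2 ≤ r) {u : Pt} {v : ℕ → Pt}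
    (hadj : ∀ n, grid.Adj (v n) (v (n + 1))) (hinj : Function.Injective v) (hv0 : v 0 = u)
    (hcone : ∀ k, InCone K r u (v k)) {j : ℕ} (hj : j < S) :
    ∃ (a z : Pt) (p : grid.Walk a z), p.IsPath ∧
      p.edges <:+: (List.range (pickLen K r S)).map (fun k => s(v k, v (k + 1))) ∧
      (2 : ℝ) ^ j * r / 4 ≤ p.length ∧
      ∀ e ∈ p.edges, 2 ^ j * r < edgeN K r u e ∧ edgeN K r u e ≤ 2 ^ (j + 1) * r := by
  classical
  set h : ℕ → ℝ := fun k => |(((v k).2 - u.2 : ℤ) : ℝ)| with hh
  set R : ℝ := (2 : ℝ) ^ j * r with hR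
  have hrR : r ≤ R := le_mul_of_one_le_left (by linarith) (one_le_pow₀ (by norm_num))
  have hSR : 2 * R ≤ 2 ^ S * r := by
    rw [hR, ← mul_assoc, ← pow_succ']
    exact mul_le_mul_of_nonneg_right (pow_le_pow_right₀ (by norm_num) hj) (by linarith)
  obtain ⟨k₀, hk₀, hbig⟩ := exists_height_gt (S := S) hK (by linarith : 0 ≤ r) hinj hcone
  have hex : ∃ k, 2 * R < h k := ⟨k₀, lt_of_le_of_lt hSR hbig⟩
  set e := Nat.find hex
  have hek : e ≤ k₀ := Nat.find_min' hex (lt_of_le_of_lt hSR hbig)
  have he : 2 * R < h e := Nat.find_spec hex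
  set i := Nat.findGreatest (fun k => h k ≤ R) e
  have h0 : h 0 ≤ R := by
    simp only [hh, hv0, sub_self, Int.cast_zero, abs_zero]
    linarith
  have hi : h i ≤ R := Nat.findGreatest_spec (P := fun k => h k ≤ R) (Nat.zero_le e) h0
  have hie : i ≤ e := Nat.findGreatest_le e
  have hstep : ∀ m n, h (m + n) ≤ h m + n := by
    intro m n
    induction n with
    | zero => simp
    | succ n ih =>
      have hs := adj_snd_le (hadj (m + n))
      have : h (m + n + 1) ≤ h (m + n) + 1 := by
        simp only [hh, ← Int.cast_abs]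
        have : |(v (m + n + 1)).2 - u.2| ≤ |(v (m + n)).2 - u.2| + 1 := by
          rcases abs_cases ((v (m + n + 1)).2 - u.2) with h1 | h1 <;>
            rcases abs_cases ((v (m + n)).2 - u.2) with h2 | h2 <;> omega
        exact_mod_cast this
      push_cast
      rw [← Nat.add_assoc]
      linarith
  obtain ⟨n, hn⟩ := Nat.exists_eq_add_of_le hie
  have hlong := hstep i n
  rw [← hn] at hlong
  obtain ⟨n, rfl⟩ : ∃ m, n = m + 1 := ⟨n - 1, by
    rcases Nat.eq_zero_or_pos n with h0' | h0'
    · subst h0'; rw [hn, Nat.add_zero] at he; linarith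
    · omega⟩
  obtain ⟨p, hp, hlen, hedge⟩ := exists_path_segment hadj hinj i n
  refine ⟨_, _, p, hp, ?_, ?_, ?_⟩
  · rw [hedge]
    have hsplit : List.range (pickLen K r S) =
        List.range' 0 i ++ List.range' i n ++ List.range' (i + n) (pickLen K r S - (i + n)) := by
      rw [List.range_eq_range', show pickLen K r S = i + n + (pickLen K r S - (i + n)) by omega,
        ← List.range'_append_1, ← List.range'_append_1]
      simp
    rw [hsplit, List.map_append, List.map_append]
    exact ⟨_, _, rfl⟩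
  · rw [hlen]
    push_cast at hlong
    linarith
  · intro x hx
    rw [hedge, List.mem_map] at hx
    obtain ⟨k, hk, rfl⟩ := hx
    rw [List.mem_range'_1] at hk
    have up : ∀ m, m < e → h m ≤ 2 * R := fun m hm => not_lt.1 (Nat.find_min hex hm)
    have low : R < h (k + 1) :=
      not_le.1 fun hle => Nat.findGreatest_is_greatest (P := fun k => h k ≤ R) (n := e)
        (show i < k + 1 by omega) (by omega) hle
    rw [edgeN_mk, siteN_of_inCone (by linarith) (hcone k), siteN_of_inCone (by linarith) (hcone (k + 1))]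
    refine ⟨lt_max_of_lt_right (lt_max_of_lt_left low), ?_⟩
    rw [show (2 : ℝ) ^ (j + 1) * r = 2 * R by rw [hR, pow_succ]; ring]
    exact max_le (max_le (up k (by omega)) (by linarith)) (max_le (up (k + 1) (by omega)) (by linarith))

/-- The lane selected at `u` saves at least `gv` under the tilt at `u`. -/
def GainEv (G : Measure ℝ) (q K r : ℝ) (S : ℕ) (gv : ℝ) (sel : Cfg → ℤ → Pt) (u : Pt) : Set Marks :=
  {t | ∃ n : ℕ, gv ≤ ∑ k ∈ Finset.range n,
    saving G q K r S u t s(sel (cfg G t) k, sel (cfg G t) ((k : ℤ) + 1))}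

variable (G : Measure ℝ) [IsProbabilityMeasure G] {q : ℝ} {sel : Cfg → ℤ → Pt}

theorem measurableSet_edge (hsel : ∀ i z, MeasurableSet {ω | sel ω i = z}) (k : ℕ) (e : Sym2 Pt) :
    MeasurableSet {ω | s(sel ω k, sel ω ((k : ℤ) + 1)) = e} := by
  have h : {ω | s(sel ω k, sel ω ((k : ℤ) + 1)) = e} =
      ⋃ a : Pt, ⋃ c : Pt, {ω | sel ω k = a} ∩ {ω | sel ω ((k : ℤ) + 1) = c} ∩ {_ω | s(a, c) = e} := by
    ext ω
    simp only [Set.mem_iUnion, Set.mem_inter_iff, Set.mem_ofPred_eq]
    exact ⟨fun h => ⟨_, _, ⟨rfl, rfl⟩, h⟩, fun ⟨a, c, ⟨ha, hc⟩, h⟩ => by rw [ha, hc]; exact h⟩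
  rw [h]
  exact MeasurableSet.iUnion fun a => MeasurableSet.iUnion fun c =>
    ((hsel _ a).inter (hsel _ c)).inter (MeasurableSet.const _)

theorem measurableSet_gainEv (gv : ℝ) (hsel : ∀ i z, MeasurableSet {ω | sel ω i = z}) (u : Pt) :
    MeasurableSet (GainEv G q K r S gv sel u) := by
  simp only [GainEv, Set.ofPred_exists]
  refine MeasurableSet.iUnion fun n => measurableSet_le measurable_const
    (Finset.measurable_sum _ fun k _ => ?_)
  exact measurable_index (F := fun e (t : Marks) => saving G q K r S u t e)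
    (fun e => measurable_cfg' G (measurableSet_edge hsel k e)) fun e => measurable_saving G u e

theorem prob_no_gain (hK : 1 ≤ K) (hr : 2 ≤ r) (hsel : ∀ i z, MeasurableSet {ω | sel ω i = z})
    {c ε : ℝ} {u : Pt}
    (hgain : ∀ pick : (Sym2 Pt → ℝ) → List (Sym2 Pt), (∀ l, MeasurableSet {t | pick t = l}) →
        markLaw {s | (pick fun e => (s e).1).Nodup ∧
          (∀ j : ℕ, j < S →
            ∃ (a z : Pt) (p : grid.Walk a z), p.IsPath ∧ p.edges <:+: (pick fun e => (s e).1) ∧
              (2 : ℝ) ^ j * r / 4 ≤ p.length ∧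
              ∀ e ∈ p.edges, 2 ^ j * r < edgeN K r u e ∧ edgeN K r u e ≤ 2 ^ (j + 1) * r) ∧
          ((pick fun e => (s e).1).map (saving G q K r S u s)).sum < c * Real.sqrt S}
        ≤ ENNReal.ofReal ε)
    {E : Set Marks} (hE : ∀ t ∈ E, Function.Injective (sel (cfg G t)) ∧
      (∀ i, grid.Adj (sel (cfg G t) i) (sel (cfg G t) (i + 1))) ∧ sel (cfg G t) 0 = u ∧
      ∀ k : ℕ, InCone K r u (sel (cfg G t) k)) :
    markLaw (E \ GainEv G q K r S (c * Real.sqrt S) sel u) ≤ ENNReal.ofReal ε := by
  set N := pickLen K r S with hN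
  set edge : ℕ → (Sym2 Pt → ℝ) → Sym2 Pt := fun k U =>
    s(sel (fun e => qf G (U e)) k, sel (fun e => qf G (U e)) ((k : ℤ) + 1)) with hedge
  set pick : (Sym2 Pt → ℝ) → List (Sym2 Pt) := fun U =>
    (List.range N).map fun k => edge k U with hpick
  have hU : Measurable fun U : Sym2 Pt → ℝ => (fun e => qf G (U e) : Cfg) :=
    measurable_pi_lambda _ fun e => measurable_qf.comp (measurable_pi_apply e)
  have hme : ∀ k e, MeasurableSet {U | edge k U = e} := fun k e => hU (measurableSet_edge hsel k e)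
  have hmp : ∀ l, MeasurableSet {U | pick U = l} := by
    intro l
    by_cases hl : l.length = N
    · have h : {U | pick U = l} = ⋂ k : Fin N, {U | edge k U = l[k.1]'(by omega)} := by
        ext U
        simp only [Set.mem_ofPred_eq, Set.mem_iInter]
        constructor
        · intro h k
          simp only [← h, hpick, List.getElem_map, List.getElem_range]
        · intro h
          refine List.ext_getElem (by simp [hpick, hl]) fun k hk hk' => ?_
          simp only [hpick, List.getElem_map, List.getElem_range]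
          exact h ⟨k, by omega⟩
      rw [h]
      exact MeasurableSet.iInter fun k => hme k _
    · rw [show {U | pick U = l} = ∅ from Set.eq_empty_iff_forall_notMem.2 fun U h => hl (by
        rw [← h]; simp [hpick])]
      exact MeasurableSet.empty
  refine le_trans (measure_mono ?_) (hgain pick hmp)
  rintro t ⟨ht, hng⟩
  obtain ⟨hinj, hadj, hv0, hcone⟩ := hE t ht
  set v : ℕ → Pt := fun k => sel (cfg G t) k
  have hvinj : Function.Injective v := fun a b h => by exact_mod_cast hinj h
  have hp : pick (fun e => (t e).1) = (List.range N).map fun k => s(v k, v (k + 1)) :=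
    List.map_congr_left fun k _ => Or.inl ⟨rfl, rfl⟩ |> Sym2.eq_iff.2
  refine ⟨?_, fun j hj => ?_, ?_⟩
  · rw [hp]
    refine (List.nodup_range).map fun a b h => ?_
    rcases Sym2.eq_iff.1 h with ⟨h1, -⟩ | ⟨h1, h2⟩
    · exact hvinj h1
    · have := hvinj h1; have := hvinj h2; omega
  · rw [hp]
    exact exists_piece hK hr (fun n => by simpa [v] using hadj n) hvinj hv0 hcone hj
  · rw [hp, List.map_map]
    have hng' : ∀ n, ∑ k ∈ Finset.range n,
        saving G q K r S u t s(sel (cfg G t) k, sel (cfg G t) ((k : ℤ) + 1)) < c * Real.sqrt S :=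
      fun n => not_le.1 fun h => hng ⟨n, h⟩
    refine lt_of_eq_of_lt ?_ (hng' N)
    rw [← List.sum_toFinset _ List.nodup_range, List.toFinset_range]
    exact Finset.sum_congr rfl fun k _ => by simp [v]

end Vale.Agent.P158.V4
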