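import Vale.Agent.P158.V4.MainEvent

/-!
P158: main count: claims are likely, typical fields have no star boxes between claims, and two
claims at a fixed distance are eventually separated.
-/

namespace Vale.Agent.P158.V4

open MeasureTheory Filter Topology

/-- An almost sure property holds after raising, when raising makes no new null events. -/
theorem ae_raised {q K r : ℝ} {S : ℕ}
    (hnull : ∀ U : Finset Pt, ∀ E : Set Marks, MeasurableSet E → markLaw E = 0 →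
      markLaw (raise q K r S U ⁻¹' E) = 0)
    {Q : Marks → Prop} (hQ : ∀ᵐ t ∂markLaw, Q t) (U : Finset Pt) :
    ∀ᵐ s ∂markLaw, Q (raise q K r S U s) := by
  obtain ⟨N, hN, hm, h0⟩ := exists_measurable_superset_of_null (ae_iff.1 hQ)
  exact ae_iff.2 (measure_mono_null (fun s (h : ¬ Q (raise q K r S U s)) => (hN h : raise q K r S U s ∈ N)) (hnull U N hm h0))

namespace CountData

open MainData (ctr)

variable (P : CountData)

/-- A field typical for the count. -/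
def Typical (s : Marks) : Prop :=
  s ∈ P.nice ∧ (∀ x, P.D.raised x s ∈ P.nice) ∧ ∀ x₁ x₂, s ∈ P.Claimed x₁ → s ∈ P.Claimed x₂ →
    P.D.NoStar s x₁ (P.lane x₁ s) x₂ (P.lane x₂ s)

variable {P} {μ : ℝ × ℝ → ℝ} {κ : ℝ} {rr : ℕ → ℕ} (hv : P.Valid μ κ rr)
include hv

theorem claim_of_mem {s : Marks} {x : ℤ} (h : s ∈ P.Claimed x) :
    P.D.Claim s P.gv x (P.lane x s) := by
  obtain ⟨⟨⟨hn, hc⟩, hA⟩, hg⟩ := h
  obtain ⟨hl, h0, hp⟩ := hv.nice_cls _ hn _ hc
  obtain ⟨h1, h2, h3, h4⟩ := profile_ends hp hl.inj hv.slope_nn hv.slope_lt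
  exact ⟨hl, h0, h1, h2, h3, h4, hv.nice_steer _ hn _ _ hA, hg⟩

theorem base_of_typical {s : Marks} (h : P.Typical s) : P.D.Base s :=
  ⟨(hv.nice_ok s h.1).1, (hv.nice_ok s h.1).2.1, fun x => (hv.nice_ok _ (h.2.1 x)).2.1,
    fun x => (hv.nice_ok _ (h.2.1 x)).2.2⟩

theorem real_translate (u : Pt) {B : Set Cfg} (hB : MeasurableSet B) :
    markLaw.real (cfg P.D.G ⁻¹' (moveCfg u ⁻¹' B)) = (law P.D.G).real B := by
  have := hv.good.prob
  rw [← map_measureReal_apply (measurable_cfg' P.D.G) (measurable_moveCfg u hB), map_cfg,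
    ← map_measureReal_apply (measurable_moveCfg u) hB, map_moveCfg]

theorem real_cls_le {c ε : ℝ} (hε : 0 ≤ ε) (hgv : P.gv = c * Real.sqrt P.D.S)
    (hgain : ∀ u : Pt, ∀ pick : (Sym2 Pt → ℝ) → List (Sym2 Pt),
      (∀ l, MeasurableSet {t | pick t = l}) →
        markLaw {s | (pick fun e => (s e).1).Nodup ∧
          (∀ j : ℕ, j < P.D.S →
            ∃ (a z : Pt) (p : grid.Walk a z), p.IsPath ∧ p.edges <:+: (pick fun e => (s e).1) ∧
              (2 : ℝ) ^ j * P.D.rad / 4 ≤ p.length ∧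
              ∀ e ∈ p.edges, 2 ^ j * (P.D.rad : ℝ) < edgeN P.D.K P.D.rad u e ∧
                edgeN P.D.K P.D.rad u e ≤ 2 ^ (j + 1) * P.D.rad) ∧
          ((pick fun e => (s e).1).map (saving P.D.G P.D.q P.D.K P.D.rad P.D.S u s)).sum <
            c * Real.sqrt P.D.S}
        ≤ ENNReal.ofReal ε) (x : ℤ) :
    (law P.D.G).real (P.cls (0, 0)) ≤
      markLaw.real (P.Ecl x) + (law P.D.G).real (P.steerA P.D.rad)ᶜ + ε := by
  have := hv.good.prob
  set CA := cfg P.D.G ⁻¹' (moveCfg (ctr x) ⁻¹' P.steerA P.D.rad)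
  set E := P.nice ∩ cfg P.D.G ⁻¹' P.cls (ctr x) ∩ CA
  have hK := hv.good.hK
  have hr : (2 : ℝ) ≤ P.D.rad := by exact_mod_cast hv.good.hrad
  have h1 : markLaw (E \ GainEv P.D.G P.D.q P.D.K P.D.rad P.D.S P.gv (P.sel (ctr x)) (ctr x)) ≤
      ENNReal.ofReal ε := by
    rw [hgv]
    refine prob_no_gain P.D.G hK hr (hv.meas_sel _) (hgain _) ?_
    rintro t ⟨⟨hn, hc⟩, hA⟩
    obtain ⟨hl, h0, hp⟩ := hv.nice_cls t hn _ hc
    obtain ⟨r1, r2, r3, r4⟩ := profile_ends hp hl.inj hv.slope_nn hv.slope_lt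
    refine ⟨hl.inj, hl.adj, h0, fun k => ?_⟩
    have := hl.inCone (hv.nice_ok t hn).2.1.nonneg r1 r2 r3 r4
      (rad := (P.D.rad : ℝ)) (K := P.D.K) (by rw [h0]; exact hv.nice_steer t hn _ _ hA) k
    rwa [h0] at this
  have h1' := ENNReal.toReal_mono ENNReal.ofReal_ne_top h1
  rw [ENNReal.toReal_ofReal hε, ← measureReal_def] at h1'
  have h2 : cfg P.D.G ⁻¹' P.cls (ctr x) ⊆ P.niceᶜ ∪ CAᶜ ∪
      (E \ GainEv P.D.G P.D.q P.D.K P.D.rad P.D.S P.gv (P.sel (ctr x)) (ctr x)) ∪ P.Ecl x := by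
    intro t ht
    by_cases hn : t ∈ P.nice
    · by_cases hA : t ∈ CA
      · by_cases hg : t ∈ GainEv P.D.G P.D.q P.D.K P.D.rad P.D.S P.gv (P.sel (ctr x)) (ctr x)
        · exact Or.inr ⟨⟨⟨hn, ht⟩, hA⟩, hg⟩
        · exact Or.inl (Or.inr ⟨⟨⟨hn, ht⟩, hA⟩, hg⟩)
      · exact Or.inl (Or.inl (Or.inr hA))
    · exact Or.inl (Or.inl (Or.inl hn))
  have h3 := (measureReal_mono h2 (μ := markLaw)).trans ((measureReal_union_le _ _).trans
    (add_le_add ((measureReal_union_le _ _).trans (add_le_add (measureReal_union_le _ _) le_rfl))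
      le_rfl))
  rw [hv.cls_cov (ctr x), real_translate hv _ (hv.meas_cls _), measureReal_def (s := P.niceᶜ),
    hv.nice_null, ENNReal.toReal_zero,
    show CAᶜ = cfg P.D.G ⁻¹' (moveCfg (ctr x) ⁻¹' (P.steerA P.D.rad)ᶜ) from rfl,
    real_translate hv _ (hv.meas_steer _).compl] at h3
  linarith

theorem ae_typical
    (hnull : ∀ U : Finset Pt, ∀ E : Set Marks, MeasurableSet E → markLaw E = 0 →
      markLaw (raise P.D.q P.D.K P.D.rad P.D.S U ⁻¹' E) = 0)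
    (hlane : LaneNullStmt P.D.G μ) (hκ : StrictSlope μ κ)
    (hgood : ∀ᵐ ω ∂law P.D.G, Good P.D.bb P.D.cg ω) :
    ∀ᵐ s ∂markLaw, P.Typical s := by
  have := hv.good.prob
  have hq := hv.good.q_mem
  have hr : (2 : ℝ) ≤ P.D.rad := by exact_mod_cast hv.good.hrad
  have hn : ∀ᵐ t ∂markLaw, t ∈ P.nice := ae_iff.2 hv.nice_null
  refine hn.and ((ae_all_iff.2 fun x => ae_raised hnull hn {ctr x}).and
    (ae_all_iff.2 fun x₁ => ae_all_iff.2 fun x₂ => ?_))
  set t₂ : Marks → Marks := fun t => raise P.D.q P.D.K P.D.rad P.D.S {ctr x₂}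
    (lower' P.D.q P.D.K P.D.rad P.D.S {ctr x₁} t) with ht₂
  have hm₂ : Measurable t₂ :=
    (measurable_raise _ _ _ _ _).comp (measurable_lower' _ _ _ _ _)
  have hA : MeasurableSet (P.Ecl x₁ ∩ t₂ ⁻¹' P.Ecl x₂) :=
    (measurableSet_ecl hv x₁).inter (hm₂ (measurableSet_ecl hv x₂))
  have hlanes := hlane P.D.bb κ hκ rr P.D.cg hv.good.cpos hgood
    (profSupport P.D.K P.D.rad P.D.S {ctr x₁} ∪ profSupport P.D.K P.D.rad P.D.S {ctr x₂})
    (P.Ecl x₁ ∩ t₂ ⁻¹' P.Ecl x₂) (fun t => P.sel (ctr x₁) (cfg P.D.G t))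
    (fun t => P.sel (ctr x₂) (cfg P.D.G (t₂ t))) (ctr x₁) (ctr x₂) t₂ hA hm₂
    (fun i z => measurable_cfg' P.D.G (hv.meas_sel _ i z))
    (fun i z => (measurable_cfg' P.D.G).comp hm₂ (hv.meas_sel _ i z)) ?_
  · filter_upwards [hn, ae_raised hnull hlanes {ctr x₁}] with s hs h h1 h2
    have hback : t₂ (P.D.raised x₁ s) = P.D.raised x₂ s := by
      have : lower' P.D.q P.D.K P.D.rad P.D.S {ctr x₁} (P.D.raised x₁ s) = s := funext fun e =>
        lower1_raise1 hq (prof_mem hr hv.good.hS _ e) ((hv.nice_ok s hs).1 e).1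
          ((hv.nice_ok s hs).1 e).2.1.le
      simp only [MainData.raised] at this ⊢
      simp only [ht₂, this]
    have hmem : P.D.raised x₁ s ∈ P.Ecl x₁ ∩ t₂ ⁻¹' P.Ecl x₂ :=
      ⟨h1, by rw [Set.mem_preimage, hback]; exact h2⟩
    have h' := h hmem
    change _ ∧ _ at h'
    rw [show raise P.D.q P.D.K P.D.rad P.D.S {ctr x₁} s = P.D.raised x₁ s from rfl, hback] at h'
    exact h'
  · rintro t ⟨⟨⟨⟨hn₁, hc₁⟩, -⟩, -⟩, ⟨⟨⟨hn₂, hc₂⟩, -⟩, -⟩⟩
    obtain ⟨a1, a2, a3⟩ := hv.nice_cls t hn₁ _ hc₁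
    obtain ⟨b1, b2, b3⟩ := hv.nice_cls _ hn₂ _ hc₂
    refine ⟨a1, a2, a3, b1, b2, b3, (hv.nice_ok t hn₁).2.1, (hv.nice_ok _ hn₂).2.1, fun e he => ?_⟩
    simp only [Finset.mem_union, not_or] at he
    have hok := (hv.nice_ok t hn₁).1 e
    simp only [cfg, ht₂, raise, lower', prof_eq_zero_of_notMem hv.good.hK he.1,
      prof_eq_zero_of_notMem hv.good.hK he.2,
      raise1_lower1 hq (show (0 : ℝ) ∈ Set.Icc (0 : ℝ) (1 / 2) by norm_num) hok.1 hok.2.1.le]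

omit hv in
theorem rad_le_dist₁ (hg : P.D.Good') : P.D.K * P.D.rad + 1 < (P.D.dist₁ : ℝ) := by
  have h1 : (P.D.rad : ℝ) ≤ 2 ^ P.D.S * P.D.rad :=
    le_mul_of_one_le_left (Nat.cast_nonneg _) (one_le_pow₀ (by norm_num))
  have h2 := mul_le_mul_of_nonneg_left h1 (by linarith [hg.hK] : (0 : ℝ) ≤ P.D.K)
  have h3 := Nat.le_ceil (2 * (P.D.K * (2 ^ P.D.S * P.D.rad)) + 2)
  have h4 : 0 ≤ P.D.K * (P.D.rad : ℝ) := mul_nonneg (by linarith [hg.hK]) (Nat.cast_nonneg _)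
  simp only [MainData.dist₁]
  linarith

/-- Two claims that are not bad are separated on every window around the first. -/
theorem sep_of_not_bad (hgeo : MainLaneStmt) {s : Marks} (hs : P.Typical s) {x : ℤ} {d L : ℕ}
    (hd : P.D.K * P.D.rad + 1 < (d : ℝ)) (h1 : s ∈ P.Claimed x) (h2 : s ∈ P.Claimed (x + d))
    (hbad : s ∉ P.Bad d L x) {a b : ℤ} (ha : a ≤ x - L) (hb : x + L ≤ b) :
    P.gv ≤ |P.crd (x + d) a b s - P.crd x a b s| := by
  have hd' : P.D.K * P.D.rad + 1 < |((x + d - x : ℤ) : ℝ)| := by simpa using hd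
  have h := ((hgeo P.D hv.good s (base_of_typical hv hs) P.gv x (x + d) _ _ (claim_of_mem hv h1)
    (claim_of_mem hv h2)).2 hd' (hs.2.2 _ _ h1 h2)).1 (x - L) (x + L) a b ha (by omega) hb
  refine le_trans (not_lt.1 fun h3 => hbad ⟨⟨h1, h2⟩, h3⟩) h

/-- Claims at a fixed distance are rarely close on long windows. -/
theorem bad_tendsto (hgeo : MainLaneStmt) (htyp : ∀ᵐ s ∂markLaw, P.Typical s) {d : ℕ}
    (hd : P.D.K * P.D.rad + 1 < (d : ℝ)) :
    Tendsto (fun L => markLaw.real (P.Bad d L 0)) atTop (𝓝 0) := by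
  set U : ℕ → Set Marks := fun L₀ => ⋃ L, ⋃ _ : L₀ ≤ L, P.Bad d L 0 with hU
  have hmU : ∀ L₀, MeasurableSet (U L₀) := fun L₀ =>
    MeasurableSet.iUnion fun L => MeasurableSet.iUnion fun _ => measurableSet_bad hv d L 0
  have hanti : Antitone U := fun i j hij => Set.iUnion_mono fun L => Set.iUnion_mono' fun h =>
    ⟨hij.trans h, subset_rfl⟩
  have h0 : markLaw (⋂ n, U n) = 0 := by
    refine measure_mono_null (fun s hs => ?_) (ae_iff.1 htyp)
    intro ht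
    have hs' : ∀ L₀, ∃ L, L₀ ≤ L ∧ s ∈ P.Bad d L 0 := fun L₀ => by
      simpa [hU] using Set.mem_iInter.1 hs L₀
    obtain ⟨-, -, ⟨h1, h2⟩, -⟩ := hs' 0
    have hd' : P.D.K * P.D.rad + 1 < |(((0 + (d : ℤ)) - 0 : ℤ) : ℝ)| := by simpa using hd
    have hm := (hgeo P.D hv.good s (base_of_typical hv ht) P.gv 0 (0 + (d : ℤ)) _ _
      (claim_of_mem hv h1) (claim_of_mem hv h2)).2 hd' (ht.2.2 _ _ h1 h2)
    obtain ⟨L₀, hL₀⟩ := hm.2.1 P.gv
    obtain ⟨L, hL, -, hlt⟩ := hs' L₀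
    have := hm.1 (0 - L₀ : ℤ) (0 + L₀) (0 - L) (0 + L) (by omega) (by omega) (by omega)
    exact absurd (hL₀.trans this) (not_le.2 hlt)
  have hlim := tendsto_measure_iInter_atTop (μ := markLaw)
    (fun n => (hmU n).nullMeasurableSet) hanti ⟨0, measure_ne_top _ _⟩
  rw [h0] at hlim
  refine squeeze_zero (g := fun L => markLaw.real (U L)) (fun L => measureReal_nonneg) (fun L => ?_)
    ((ENNReal.tendsto_toReal ENNReal.zero_ne_top).comp hlim)
  exact measureReal_mono (Set.subset_iUnion₂_of_subset L le_rfl subset_rfl) (measure_ne_top _ _)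

end CountData

end Vale.Agent.P158.V4
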