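import Vale.Agent.P158.V4.Null
import Vale.Agent.P158.V4.Order

/-!
P158, notes 1446, 1448, section F: if almost surely no class rays form a star, almost surely none
form a strict splitting, because lowering one edge slightly has positive probability.
-/

namespace Vale.Agent.P158.V4

open MeasureTheory Filter Topology

/-- A lower and two upper rays of the configuration in the double cone of aperture `κ`. -/
structure ClassRays (κ : ℝ) (ω : Cfg) (a b c : Ray) : Prop where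
  ta : IsTail ω a
  tb : IsTail ω b
  tc : IsTail ω c
  fa : Falls a
  rb : Rises b
  rc : Rises c
  ca : ConeRay κ a
  cb : ConeRay κ b
  cc : ConeRay κ c

theorem ClassRays.symm {κ : ℝ} {ω : Cfg} {a b c : Ray} (h : ClassRays κ ω a b c) :
    ClassRays κ ω a c b :=
  ⟨h.ta, h.tc, h.tb, h.fa, h.rc, h.rb, h.ca, h.cc, h.cb⟩

theorem ClassRays.congr {κ : ℝ} {ω ω' : Cfg} {a b c : Ray} (h : ClassRays κ ω a b c)
    (hesc : Escape ω) (h0 : ∀ e, 0 ≤ ω e) (h0' : ∀ e, 0 ≤ ω' e) (E : Finset (Sym2 Pt))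
    (heq : ∀ e, e ∉ E → ω' e = ω e) : ClassRays κ ω' a b c :=
  ⟨h.ta.congr hesc h0 h0' E heq, h.tb.congr hesc h0 h0' E heq, h.tc.congr hesc h0 h0' E heq,
    h.fa, h.rb, h.rc, h.ca, h.cb, h.cc⟩

/-- The values with no mass just below. -/
def leftNull (G : Measure ℝ) : Set ℝ := {v | ∃ q : ℚ, (q : ℝ) < v ∧ G (Set.Ioo (q : ℝ) v) = 0}

theorem measure_leftNull (G : Measure ℝ) (hatom : ∀ x, G {x} = 0) : G (leftNull G) = 0 := by
  have : NullSingletonClass G := ⟨hatom⟩
  set U := ⋃ (p : ℚ) (q : ℚ) (_ : G (Set.Ioo (p : ℝ) q) = 0), Set.Ioo (p : ℝ) q with hU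
  have hU0 : G U = 0 :=
    measure_iUnion_null fun p => measure_iUnion_null fun q => measure_iUnion_null id
  set Z : ℚ → Set ℝ := fun q => {v | (q : ℝ) < v ∧ G (Set.Ioo (q : ℝ) v) = 0} \ U
  have hZ : ∀ q, (Z q).Subsingleton := by
    intro q v hv w hw
    have key : ∀ {v w : ℝ}, v ∈ Z q → w ∈ Z q → ¬ v < w := by
      rintro v w ⟨⟨hv, -⟩, hvU⟩ ⟨⟨-, hw0⟩, -⟩ hlt
      obtain ⟨p, hp, hp'⟩ := exists_rat_btwn hv
      obtain ⟨r, hr, hr'⟩ := exists_rat_btwn hlt
      exact hvU (Set.mem_iUnion.2 ⟨p, Set.mem_iUnion.2 ⟨r, Set.mem_iUnion.2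
        ⟨measure_mono_null (Set.Ioo_subset_Ioo hp.le hr'.le) hw0, hp', hr⟩⟩⟩)
    exact le_antisymm (not_lt.1 (key hw hv)) (not_lt.1 (key hv hw))
  refine measure_mono_null (fun v hv => ?_)
    (measure_union_null hU0 ((Set.countable_iUnion fun q => (hZ q).countable).measure_zero G))
  by_cases hvU : v ∈ U
  · exact Or.inl hvU
  · obtain ⟨q, hq, h0⟩ := hv
    exact Or.inr (Set.mem_iUnion.2 ⟨q, ⟨hq, h0⟩, hvU⟩)

variable (G : Measure ℝ) [IsProbabilityMeasure G]

/-- Without stars there are no strict splittings. -/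
theorem ae_no_strictSplit (hatom : ∀ x, G {x} = 0) {bb cg : ℝ}
    (hgood : ∀ᵐ ω ∂law G, Good bb cg ω) (hcg : 0 < cg) {κ : ℝ}
    (hstar : ∀ᵐ ω ∂law G, ∀ (w : Pt) (a b c : Ray), ClassRays κ ω a b c →
      ¬ StarAt ω a.pt b.pt c.pt w) :
    ∀ᵐ ω ∂law G, ∀ (w : Pt) (a b c : Ray), ClassRays κ ω a b c →
      ¬ SplitsStrictAt ω a.pt b.pt c.pt w := by
  obtain ⟨N, hsub, hNm, hN⟩ := exists_measurable_superset_of_null (ae_iff.1 hstar)
  have hlow : ∀ e : Sym2 Pt, ∀ᵐ ω ∂law G,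
      G {t | Function.update ω e t ∈ N} = 0 ∧ ω e ∉ leftNull G := by
    intro e
    have hmp := measurePreserving_update G e
    have h0 : (G.prod (law G)) ((fun p : ℝ × Cfg => Function.update p.2 e p.1) ⁻¹' N) = 0 := by
      rw [hmp.measure_preimage hNm.nullMeasurableSet]; exact hN
    rw [Measure.prod_apply_symm (hmp.measurable hNm)] at h0
    have hm := (measurable_measure_prodMk_right (μ := G) (hmp.measurable hNm))
    rw [lintegral_eq_zero_iff hm] at h0
    have hev : (law G).map (fun ω => ω e) = G := Measure.infinitePi_map_eval _ e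
    obtain ⟨U, hUs, hUm, hU⟩ := exists_measurable_superset_of_null (measure_leftNull G hatom)
    rw [← hev, Measure.map_apply (measurable_pi_apply e) hUm] at hU
    filter_upwards [h0, measure_eq_zero_iff_ae_notMem.1 hU] with ω h1 h2
    exact ⟨h1, fun h => h2 (hUs h)⟩
  filter_upwards [hgood, ae_all_iff.2 hlow] with ω hg hω
  have key : ∀ (w : Pt) (a b c : Ray), ClassRays κ ω a b c → ∀ n₀ n₁, n₀ ≠ n₁ →
      (∃ᶠ N in atTop, EdgeOn ω (a.pt N) (b.pt N) w n₀ ∧ EdgeOn ω (a.pt N) (c.pt N) w n₁) →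
      StrictAt ω b.pt w n₁ → False := by
    intro w a b c hR n₀ n₁ hne hf hs
    obtain ⟨δ, hδ, hstar'⟩ := lower_star hg hR.tc hne hf hs
    set e := s(w, n₁) with he
    obtain ⟨h1, h2⟩ := hω e
    refine h2 ?_
    obtain ⟨q, hq, hq'⟩ := exists_rat_btwn (show max (ω e - δ) 0 < ω e from
      max_lt (by linarith) (hg.pos e))
    refine ⟨q, hq', measure_mono_null (fun t ht => ?_) h1⟩
    have ht0 : (0 : ℝ) ≤ t := by linarith [le_max_right (ω e - δ) 0, ht.1]
    set y := Function.update ω e t with hy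
    have hy0 : ∀ e', 0 ≤ y e' := fun e' => by
      by_cases h : e' = e
      · subst h; simp [hy, ht0]
      · simp [hy, h, hg.nonneg e']
    refine hsub fun hno => hno w a b c (hR.congr (hg.escape hcg) hg.nonneg hy0 {e}
      fun e' he' => ?_) (hstar' y hy0 (fun e' he' => ?_) ?_ ?_)
    · simp [hy, Finset.notMem_singleton.1 he']
    · simp [hy, show e' ≠ e from he']
    · simp only [hy, ← he, Function.update_self]
      linarith [le_max_left (ω e - δ) 0, ht.1]
    · simp only [hy, ← he, Function.update_self]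
      exact ht.2
  rintro w a b c hR ⟨n₀, n₁, hne, hf, hs | hs⟩
  · exact key w a b c hR n₀ n₁ hne hf hs
  · exact key w a c b hR.symm n₁ n₀ hne.symm (hf.mono fun N hN => ⟨hN.2, hN.1⟩) hs

theorem law_flip2 : (law G).map (fun ω : Cfg => ω ∘ Sym2.map flip2) = law G :=
  Measure.map_infinitePi_infinitePi_of_inj (P := fun _ : Sym2 Pt => G)
    (Sym2.map.injective (fun x y h => by simpa [flip2_flip2] using congrArg flip2 h))

theorem coneRay_flip2 {κ : ℝ} {r : Ray} (h : ConeRay κ r) : ConeRay κ (r.map flip2) :=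
  h.mono fun n hn => by
    show |(((r.pt n).1 : ℤ) : ℝ)| ≤ κ * |((-(r.pt n).2 : ℤ) : ℝ)|
    rwa [Int.cast_neg, abs_neg]

theorem StrictAt.mirror {ω : Cfg} (h0 : ∀ e, 0 ≤ ω e) {r : ℕ → Pt} {w n : Pt}
    (h : StrictAt ω r w n) :
    StrictAt (ω ∘ Sym2.map flip2) (fun N => flip2 (r N)) (flip2 w) (flip2 n) := by
  obtain ⟨k, hk⟩ := h
  refine ⟨k, hk.mono fun N hN => ?_⟩
  simpa [tt_map h0 flip2 flip2 flip2_flip2 flip2_flip2, flip2_flip2] using hN

theorem EdgeOn.mirror {ω : Cfg} (h0 : ∀ e, 0 ≤ ω e) {u v w n : Pt} (h : EdgeOn ω u v w n) :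
    EdgeOn (ω ∘ Sym2.map flip2) (flip2 u) (flip2 v) (flip2 w) (flip2 n) := by
  refine ⟨flip2.map_adj h.1, ?_⟩
  simp only [tt_map h0 flip2 flip2 flip2_flip2 flip2_flip2, Function.comp_apply, Sym2.map_mk,
    flip2_flip2]
  exact h.2

/-- Without stars there are no strict splittings with two lower rays either. -/
theorem ae_no_strictSplit_lower (hatom : ∀ x, G {x} = 0) {bb cg : ℝ}
    (hgood : ∀ᵐ ω ∂law G, Good bb cg ω) (hcg : 0 < cg) {κ : ℝ}
    (hstar : ∀ᵐ ω ∂law G, ∀ (w : Pt) (a b c : Ray), ClassRays κ ω a b c →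
      ¬ StarAt ω a.pt b.pt c.pt w) :
    ∀ᵐ ω ∂law G, ∀ (w : Pt) (a b c : Ray), IsTail ω a → IsTail ω b → IsTail ω c → Rises a →
      Falls b → Falls c → ConeRay κ a → ConeRay κ b → ConeRay κ c →
      ¬ SplitsStrictAt ω a.pt b.pt c.pt w := by
  have hfm : Measurable fun ω : Cfg => ω ∘ Sym2.map flip2 :=
    measurable_pi_lambda _ fun e => measurable_pi_apply _
  have h1 := ae_no_strictSplit G hatom hgood hcg hstar
  rw [← law_flip2 G] at h1
  filter_upwards [ae_of_ae_map hfm.aemeasurable h1, hgood] with ω hω hg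
    w a b c ta tb tc ra fb fc ca cb cc ⟨n₀, n₁, hne, hf, hs⟩
  have h0 := hg.nonneg
  refine hω (flip2 w) (a.map flip2) (b.map flip2) (c.map flip2)
    ⟨ta.map h0 flip2 flip2_flip2, tb.map h0 flip2 flip2_flip2, tc.map h0 flip2 flip2_flip2,
      ra.map_flip2, fb.map_flip2, fc.map_flip2, coneRay_flip2 ca, coneRay_flip2 cb, coneRay_flip2 cc⟩
    ⟨flip2 n₀, flip2 n₁, fun e => hne ?_, hf.mono fun N hN => ⟨hN.1.mirror h0, hN.2.mirror h0⟩,
      hs.imp (StrictAt.mirror h0) (StrictAt.mirror h0)⟩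
  simpa [flip2_flip2] using congrArg flip2 e

end Vale.Agent.P158.V4
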