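import Vale.Agent.P158.V4.Split

/-!
P158: the pair lemma (note 1433, section 4), first part: lowering a deep segment of a lane makes all
geodesics from its lower far points pass one site.
-/

namespace Vale.Agent.P158.V4

open Filter Topology

variable {bb cg : ℝ} {ω x : Cfg} {a b z : Ray} {v : ℤ → Pt}

/-- Along every path infinitely many weights can be lowered to an admissible value by an amount in
`[δ', δ)`, for every `δ`. -/
def Eligible (Sup : Set ℝ) (ω : Cfg) : Prop :=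
  ∀ δ : ℝ, 0 < δ → ∃ δ' : ℝ, 0 < δ' ∧ δ' < δ ∧
    ∀ r : ℕ → Pt, (∀ i, grid.Adj (r i) (r (i + 1))) → Function.Injective r → ∀ n, ∃ k, n ≤ k ∧
      ∃ t ∈ Sup, ω s(r k, r (k + 1)) - δ < t ∧ t ≤ ω s(r k, r (k + 1)) - δ'

/-- A lane calibrated by both rays of a label. -/
structure Calib (ω : Cfg) (L : Lab) (v : ℤ → Pt) : Prop where
  lo : ∀ i j, i ≤ j → bus ω L.lo (v j) = bus ω L.lo (v i) + tt ω (v i) (v j)
  up : ∀ i j, i ≤ j → bus ω L.up (v i) = tt ω (v i) (v j) + bus ω L.up (v j)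

/-- The difference of two Busemann functions. -/
noncomputable def ediff (ω : Cfg) (b c : Ray) (p : Pt) : ℝ := bus ω b p - bus ω c p

/-- The edge of the lane below the index `-m`. -/
def lowEdge (v : ℤ → Pt) (m : ℕ) : Sym2 Pt := s(v (-(m : ℤ) - 1), v (-(m : ℤ)))

theorem tt_self (h0 : ∀ e, 0 ≤ ω e) (u : Pt) : tt ω u u = 0 :=
  le_antisymm ((tt_le h0 SimpleGraph.Walk.nil).trans_eq (by simp [wt])) (tt_nonneg h0)

theorem tt_pos (hg : Good bb cg ω) (hc : 0 < cg) {p q : Pt} (h : p ≠ q) : 0 < tt ω p q := by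
  obtain ⟨w, -, hw⟩ := hg.exists_shortest hc p q
  rw [← hw]
  cases w with
  | nil => exact absurd rfl h
  | cons hadj w' =>
    rename_i y
    have : wt ω (SimpleGraph.Walk.cons hadj w') = ω s(p, y) + wt ω w' := by simp [wt]
    rw [this]
    linarith [hg.pos s(p, y), wt_nonneg hg.nonneg w']

namespace IsLane

theorem exists_walk (hv : IsLane ω v) (i : ℤ) : ∀ n : ℕ, ∃ w : grid.Walk (v i) (v (i + n)),
    ∀ y : Cfg, wt y w = ∑ k ∈ Finset.range n, y s(v (i + k), v (i + k + 1)) := by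
  intro n
  induction n with
  | zero => exact ⟨SimpleGraph.Walk.nil.copy rfl (by simp), fun y => by simp [wt]⟩
  | succ n ih =>
    obtain ⟨w, hw⟩ := ih
    have hadj : grid.Adj (v (i + n)) (v (i + (n + 1 : ℕ))) := by
      rw [Nat.cast_succ, ← add_assoc]; exact hv.adj _
    refine ⟨w.concat hadj, fun y => ?_⟩
    rw [Finset.sum_range_succ, ← hw y]
    simp [wt, Nat.cast_succ, add_assoc]

theorem tt_eq (hv : IsLane ω v) (h0 : ∀ e, 0 ≤ ω e) (i : ℤ) (n : ℕ) :
    tt ω (v i) (v (i + n)) = ∑ k ∈ Finset.range n, ω s(v (i + k), v (i + k + 1)) := by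
  obtain ⟨w, hw⟩ := hv.exists_walk i n
  exact le_antisymm ((tt_le h0 w).trans_eq (hw ω)) (le_tt fun p => hv.geo i n p)

/-- Lowering weights saves at least their total along a segment containing them. -/
theorem tt_save (hv : IsLane ω v) (h0 : ∀ e, 0 ≤ ω e) (hx : ∀ e, 0 ≤ x e) (hle : ∀ e, x e ≤ ω e)
    (i : ℤ) (n : ℕ) {K : Finset ℕ} (hK : ∀ k ∈ K, k < n) :
    tt x (v i) (v (i + n)) ≤ tt ω (v i) (v (i + n)) -
      ∑ k ∈ K, (ω s(v (i + k), v (i + k + 1)) - x s(v (i + k), v (i + k + 1))) := by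
  obtain ⟨w, hw⟩ := hv.exists_walk i n
  have h1 := tt_le hx w
  rw [hw x] at h1
  have h3 : ∑ k ∈ K, (ω s(v (i + k), v (i + k + 1)) - x s(v (i + k), v (i + k + 1))) ≤
      ∑ k ∈ Finset.range n, (ω s(v (i + k), v (i + k + 1)) - x s(v (i + k), v (i + k + 1))) :=
    Finset.sum_le_sum_of_subset_of_nonneg (fun k hk => Finset.mem_range.2 (hK k hk))
      fun k _ _ => sub_nonneg.2 (hle _)
  rw [Finset.sum_sub_distrib (s := Finset.range n)] at h3
  rw [hv.tt_eq h0 i n]
  linarith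

theorem lowEdge_injective (hv : IsLane ω v) : Function.Injective (lowEdge v) := by
  intro m m' h
  rcases Sym2.eq_iff.1 h with ⟨_, h2⟩ | ⟨h1, h2⟩
  · have := hv.inj h2
    omega
  · have := hv.inj h1
    have := hv.inj h2
    omega

/-- Lowering the edges below `-m`, `m ∈ K`, saves their total between any two indices around
them. -/
theorem tt_save_low (hv : IsLane ω v) (h0 : ∀ e, 0 ≤ ω e) (hx : ∀ e, 0 ≤ x e)
    (hle : ∀ e, x e ≤ ω e) {top bot : ℕ} (htb : top ≤ bot) {K : Finset ℕ}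
    (hK : ∀ m ∈ K, top ≤ m ∧ m < bot) :
    tt x (v (-(bot : ℤ))) (v (-(top : ℤ))) ≤ tt ω (v (-(bot : ℤ))) (v (-(top : ℤ))) -
      ∑ m ∈ K, (ω (lowEdge v m) - x (lowEdge v m)) := by
  have h := hv.tt_save h0 hx hle (-(bot : ℤ)) (bot - top) (K := K.image fun m => bot - 1 - m)
    (fun k hk => by
      obtain ⟨m, hm, rfl⟩ := Finset.mem_image.1 hk
      have := hK m hm
      omega)
  rw [Finset.sum_image (fun m hm m' hm' e => by
    have := hK m hm
    have := hK m' hm'
    have : bot - 1 - m = bot - 1 - m' := e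
    omega)] at h
  rw [show -(bot : ℤ) + ((bot - top : ℕ) : ℤ) = -(top : ℤ) by omega] at h
  refine h.trans_eq ?_
  congr 1
  refine Finset.sum_congr rfl fun m hm => ?_
  have := hK m hm
  rw [show -(bot : ℤ) + ((bot - 1 - m : ℕ) : ℤ) = -(m : ℤ) - 1 by omega,
    show -(m : ℤ) - 1 + 1 = -(m : ℤ) by omega]
  rfl

end IsLane

/-- The endpoints of finitely many edges. -/
def ends (E : Finset (Sym2 Pt)) : Set Pt := {p | ∃ e ∈ E, p ∈ e}

theorem ends_finite (E : Finset (Sym2 Pt)) : (ends E).Finite := by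
  classical
  refine (E.biUnion fun e => e.toFinset).finite_toSet.subset ?_
  rintro p ⟨e, he, hp⟩
  exact Finset.mem_biUnion.2 ⟨e, he, Sym2.mem_toFinset.2 hp⟩

/-- `x` lowers the weights on `E` by amounts in `[lo, hi]`. -/
structure Lowered (ω x : Cfg) (E : Finset (Sym2 Pt)) (lo hi : ℝ) : Prop where
  off : ∀ e, e ∉ E → x e = ω e
  mem : ∀ e ∈ E, x e ≤ ω e - lo ∧ ω e - hi ≤ x e

namespace Lowered

variable {E : Finset (Sym2 Pt)} {lo hi : ℝ}

theorem le (h : Lowered ω x E lo hi) (hlo : 0 ≤ lo) : ∀ e, x e ≤ ω e := fun e => by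
  by_cases he : e ∈ E
  · linarith [(h.mem e he).1]
  · exact (h.off e he).le

theorem change_le (h : Lowered ω x E lo hi) (hlo : 0 ≤ lo) : change E ω x ≤ E.card * hi := by
  refine (Finset.sum_le_card_nsmul _ _ hi fun e he => ?_).trans_eq (by simp)
  rw [abs_of_nonneg (by linarith [h.le hlo e])]
  linarith [(h.mem e he).2]

theorem tt_le_tt (h : Lowered ω x E lo hi) (hlo : 0 ≤ lo) (hx : ∀ e, 0 ≤ x e) (p q : Pt) :
    tt x p q ≤ tt ω p q :=
  le_tt fun w => (tt_le hx w).trans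
    (List.sum_le_sum fun e _ => h.le hlo e)

end Lowered

/-- What the deep segment must satisfy, relative to the other modified edges `E₁` and the bound
`e₀` on the excess of the lane as a route. -/
structure DeepOK (ω : Cfg) (v : ℤ → Pt) (K : Finset ℕ) (E₁ : Finset (Sym2 Pt)) (bot : ℕ)
    (lo hi e₀ : ℝ) : Prop where
  below : ∀ m ∈ K, m < bot
  last : ∃ m ∈ K, m + 1 = bot
  saving : e₀ + E₁.card * hi < K.card * lo
  deep : ∀ m ∈ K, ∀ p ∈ ends E₁, ∀ i : ℤ, (i = -(m : ℤ) - 1 ∨ i = -(m : ℤ)) →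
    2 * tt ω (v 0) p + e₀ + (K.card + E₁.card : ℕ) * hi < 2 * tt ω (v i) (v 0)

/-- All geodesics from far lower points to far points of `z` pass the bottom of the deep segment. -/
theorem onGeo_bottom (hω : Good bb cg ω) (hx : Good bb cg x) (hcg : 0 < cg) (ha : IsTail ω a)
    (hz : IsTail ω z) (hv : IsLane ω v)
    (hcal : ∀ i j, i ≤ j → bus ω a (v j) = bus ω a (v i) + tt ω (v i) (v j))
    {Cz : ℝ} (hCz : ∀ᶠ N in atTop, Cz ≤ tt ω (a.pt N) (z.pt N) - a.acc N - z.acc N)
    {K : Finset ℕ} {E₁ : Finset (Sym2 Pt)} {bot : ℕ} {lo hi e₀ : ℝ} (hlo : 0 < lo) (hhi : lo ≤ hi)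
    (he₀ : bus ω a (v 0) + bus ω z (v 0) - Cz < e₀)
    (hD : DeepOK ω v K E₁ bot lo hi e₀) {E : Finset (Sym2 Pt)}
    (hK : ∀ m ∈ K, lowEdge v m ∈ E) (hE : ∀ e ∈ E, (∃ m ∈ K, e = lowEdge v m) ∨ e ∈ E₁)
    (hlow : Lowered ω x E lo hi) :
    ∀ᶠ N in atTop, OnGeo x (a.pt N) (z.pt N) (v (-(bot : ℤ))) := by
  classical
  have h0 := hω.nonneg
  have hx0 := hx.nonneg
  have hhi0 : 0 ≤ hi := hlo.le.trans hhi
  set u := v 0 with hu
  set gap := e₀ - (bus ω a u + bus ω z u - Cz) with hgap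
  set ε : ℝ := min gap lo / 8 with hεdef
  have hε : 0 < ε := by
    have : 0 < min gap lo := lt_min (by rw [hgap]; linarith) hlo
    rw [hεdef]; linarith
  have hεg : 8 * ε ≤ gap := by rw [hεdef]; linarith [min_le_left gap lo]
  have hεl : 8 * ε ≤ lo := by rw [hεdef]; linarith [min_le_right gap lo]
  -- the sites along the lane that matter
  set P : Finset Pt := (Finset.Icc 0 (bot + 1)).image fun m : ℕ => v (-(m : ℤ)) with hP
  have hA : ∀ᶠ N in atTop, ∀ p ∈ P, |tt ω (a.pt N) p - a.acc N - bus ω a p| < ε :=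
    (Finset.eventually_all P).2 fun p _ => by
      have h := (ha.tendsto_bus h0 p).eventually (Metric.ball_mem_nhds (bus ω a p) hε)
      refine h.mono fun N hN => ?_
      rw [tt_comm h0]
      simpa only [Metric.mem_ball, Real.dist_eq] using hN
  have hZ : ∀ᶠ N in atTop, |tt ω u (z.pt N) - z.acc N - bus ω z u| < ε :=
    ((hz.tendsto_bus h0 u).eventually (Metric.ball_mem_nhds _ hε)).mono fun N hN => by
      simpa only [Metric.mem_ball, Real.dist_eq] using hN
  filter_upwards [hA, hZ, hCz] with N hA hZ hC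
  obtain ⟨hZ1, hZ2⟩ := abs_lt.1 hZ
  have memP : ∀ m : ℕ, m ≤ bot + 1 → v (-(m : ℤ)) ∈ P := fun m hm =>
    Finset.mem_image.2 ⟨m, Finset.mem_Icc.2 ⟨Nat.zero_le _, hm⟩, rfl⟩
  have hu0 : u = v (-((0 : ℕ) : ℤ)) := by simp [hu]
  have alane : ∀ m : ℕ, m ≤ bot + 1 →
      tt ω (a.pt N) (v (-(m : ℤ))) + tt ω (v (-(m : ℤ))) u ≤ tt ω (a.pt N) u + 2 * ε := by
    intro m hm
    have h1 := abs_lt.1 (hA _ (memP m hm))
    have h2 := abs_lt.1 (hA _ (memP 0 (by omega)))
    rw [← hu0] at h2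
    have h3 := hcal (-(m : ℤ)) 0 (by omega)
    linarith
  set q := v (-(bot : ℤ)) with hq
  -- the route along the lane
  have hKsum : ∀ m ∈ K, lo ≤ ω (lowEdge v m) - x (lowEdge v m) := fun m hm => by
    linarith [(hlow.mem _ (hK m hm)).1]
  have hroute : tt x (a.pt N) (z.pt N) ≤
      tt ω (a.pt N) u + tt ω u (z.pt N) + 2 * ε - K.card * lo := by
    have h1 := tt_triangle hx0 (a.pt N) q (z.pt N)
    have h2 := tt_triangle hx0 q u (z.pt N)
    have h3 := hv.tt_save_low h0 hx0 (hlow.le hlo.le) (Nat.zero_le bot) (K := K)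
      (fun m hm => ⟨Nat.zero_le _, hD.below m hm⟩)
    rw [← hu0, ← hq] at h3
    have h4 : (K.card : ℝ) * lo ≤ ∑ m ∈ K, (ω (lowEdge v m) - x (lowEdge v m)) := by
      rw [← nsmul_eq_mul]
      exact Finset.card_nsmul_le_sum _ _ _ hKsum
    have h5 := hlow.tt_le_tt hlo.le hx0 (a.pt N) q
    have h6 := hlow.tt_le_tt hlo.le hx0 u (z.pt N)
    linarith [alane bot (by omega)]
  have hroute' : tt x (a.pt N) (z.pt N) + 4 * ε <
      tt ω (a.pt N) (z.pt N) + e₀ - K.card * lo := by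
    have h1 := abs_lt.1 (hA _ (memP 0 (by omega)))
    rw [← hu0] at h1
    linarith
  obtain ⟨γ, hγp, hγw⟩ := hx.exists_shortest hcg (a.pt N) (z.pt N)
  set K' : Set Pt := ends (K.image (lowEdge v)) with hK'
  set V : Set Pt := K' ∪ ends E₁ with hV
  have hVE : ∀ e ∈ E, ∀ w ∈ e, w ∈ V := by
    intro e he w hw
    rcases hE e he with ⟨m, hm, rfl⟩ | h1
    · exact Or.inl ⟨_, Finset.mem_image_of_mem _ hm, hw⟩
    · exact Or.inr ⟨e, h1, hw⟩
  have hsave : ∀ {s t : Pt} (w : grid.Walk s t), w.IsPath →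
      wt ω w ≤ wt x w + (K.card + E₁.card : ℕ) * hi := fun w hw => by
    have h1 := abs_le.1 (wt_le_change E hlow.off w hw)
    have h2 := hlow.change_le hlo.le
    have h3 : E.card ≤ K.card + E₁.card := by
      refine (Finset.card_le_card (t := K.image (lowEdge v) ∪ E₁) fun e he => ?_).trans
        ((Finset.card_union_le _ _).trans (Nat.add_le_add_right Finset.card_image_le _))
      rcases hE e he with ⟨m, hm, rfl⟩ | h1
      · exact Finset.mem_union_left _ (Finset.mem_image_of_mem _ hm)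
      · exact Finset.mem_union_right _ h1
    have h4 : (E.card : ℝ) * hi ≤ (K.card + E₁.card : ℕ) * hi :=
      mul_le_mul_of_nonneg_right (Nat.cast_le.2 h3) hhi0
    linarith
  -- the geodesic uses the deep segment
  have hmeet : ∃ w ∈ γ.support, w ∈ K' := by
    by_contra hno
    push Not at hno
    have hsum : wt ω γ ≤ wt x γ + E₁.card * hi := by
      have hoff : ∀ e ∈ γ.edges, e ∉ E₁ → x e = ω e := fun e he h1 => by
        by_cases h2 : e ∈ E
        · obtain ⟨m, hm, rfl⟩ := (hE e h2).resolve_right h1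
          exact absurd ⟨_, Finset.mem_image_of_mem _ hm, Sym2.mem_mk_left _ _⟩
            (hno _ (γ.fst_mem_support_of_mem_edges he))
        · exact hlow.off e h2
      unfold wt
      rw [← List.sum_toFinset _ hγp.isTrail.edges_nodup, ← List.sum_toFinset _ hγp.isTrail.edges_nodup,
        ← sub_le_iff_le_add', ← Finset.sum_sub_distrib]
      calc ∑ e ∈ γ.edges.toFinset, (ω e - x e)
          = ∑ e ∈ γ.edges.toFinset ∩ E₁, (ω e - x e) := by
            refine (Finset.sum_subset Finset.inter_subset_left fun e he he' => ?_).symm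
            rw [hoff e (List.mem_toFinset.1 he) fun h => he' (Finset.mem_inter.2 ⟨he, h⟩), sub_self]
        _ ≤ (γ.edges.toFinset ∩ E₁).card • hi := by
            refine Finset.sum_le_card_nsmul _ _ _ fun e _ => ?_
            by_cases h2 : e ∈ E
            · linarith [(hlow.mem e h2).2]
            · linarith [hlow.off e h2]
        _ ≤ E₁.card * hi := by
            rw [nsmul_eq_mul]
            exact mul_le_mul_of_nonneg_right (Nat.cast_le.2 (Finset.card_le_card
              Finset.inter_subset_right)) hhi0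
    linarith [tt_le h0 γ, hD.saving]
  obtain ⟨r, hrV, p₁, p₂, hsplit, hp₁⟩ := exists_first_mem γ V
    (by obtain ⟨w, hw, hwK⟩ := hmeet; exact ⟨w, hw, Or.inl hwK⟩)
  have hpre : wt x p₁ = wt ω p₁ := wt_eq_of_avoid hVE hlow.off p₁ hp₁
  have hidx : ∀ w ∈ K', ∃ m ∈ K, ∃ k : ℕ, w = v (-(k : ℤ)) ∧ (k = m ∨ k = m + 1) := by
    rintro w ⟨e, he, hw⟩
    obtain ⟨m, hm, rfl⟩ := Finset.mem_image.1 he
    rcases Sym2.mem_iff.1 hw with rfl | rfl
    · exact ⟨m, hm, m + 1, by push_cast; ring_nf, Or.inr rfl⟩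
    · exact ⟨m, hm, m, rfl, Or.inl rfl⟩
  by_cases hrK : r ∈ K'
  · obtain ⟨m, hm, k, rfl, hk⟩ := hidx r hrK
    have hkb : k ≤ bot := by have := hD.below m hm; omega
    rcases hkb.lt_or_eq with hlt | rfl
    swap
    · exact onGeo_of_mem hx0 ⟨hγp, hγw⟩ (by
        rw [hsplit]; exact (SimpleGraph.Walk.mem_support_append_iff _ _).2 (Or.inl p₁.end_mem_support))
    · exfalso
      obtain ⟨m', hm', hm'b⟩ := hD.last
      have h1 := tt_triangle hx0 (a.pt N) q (v (-(k : ℤ)))
      have h2 := hv.tt_save_low h0 hx0 (hlow.le hlo.le) hlt.le (K := {m'}) (fun j hj => by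
        rw [Finset.mem_singleton] at hj; omega)
      rw [Finset.sum_singleton, ← hq] at h2
      have h3 := hKsum m' hm'
      have h4 := hlow.tt_le_tt hlo.le hx0 (a.pt N) q
      have h5 := abs_lt.1 (hA q (memP bot (by omega)))
      have h6 := abs_lt.1 (hA _ (memP k (by omega)))
      have h7 := hcal (-(bot : ℤ)) (-(k : ℤ)) (by omega)
      rw [← hq] at h7
      have h8 := tt_le h0 p₁
      have h9 : wt x γ = wt x p₁ + wt x p₂ := by rw [hsplit, wt_append]
      have h10 := tt_triangle hx0 (a.pt N) (v (-(k : ℤ))) (z.pt N)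
      have h11 := tt_le hx0 p₂
      linarith
  · exfalso
    have hr1 : r ∈ ends E₁ := hrV.resolve_left hrK
    obtain ⟨w, hw, hwK⟩ := hmeet
    have hwp : w ∈ p₂.support := by
      rw [hsplit, SimpleGraph.Walk.mem_support_append_iff] at hw
      refine hw.resolve_left fun h => ?_
      rcases hp₁ w h with rfl | hnot
      · exact hrK hwK
      · exact hnot (Or.inl hwK)
    obtain ⟨m, hm, k, rfl, hk⟩ := hidx w hwK
    have hd := hD.deep m hm r hr1 (-(k : ℤ)) (by omega)
    rw [← hu] at hd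
    have hsv := hsave γ hγp
    have h1 : wt ω γ = wt ω p₁ + wt ω p₂ := by rw [hsplit, wt_append]
    have h2 := wt_append (ω := ω) (p₂.takeUntil _ hwp) (p₂.dropUntil _ hwp)
    rw [SimpleGraph.Walk.take_spec] at h2
    have h3 := tt_le h0 p₁
    have h4 := tt_le h0 (p₂.takeUntil _ hwp)
    have h5 := tt_le h0 (p₂.dropUntil _ hwp)
    have hkb : k ≤ bot + 1 := by have := hD.below m hm; omega
    have h6 := alane k hkb
    have h7 := tt_triangle h0 (a.pt N) r u
    have h8 := tt_triangle h0 (v (-(k : ℤ))) r u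
    have h9 := tt_triangle h0 (a.pt N) (v (-(k : ℤ))) (z.pt N)
    have h10 := tt_comm h0 r u
    have h11 := tt_comm h0 (v (-(k : ℤ))) r
    have hK0 : (0 : ℝ) ≤ K.card * lo := mul_nonneg (Nat.cast_nonneg _) hlo.le
    linarith

end Vale.Agent.P158.V4
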