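import Vale.Agent.P158.V4.PairValue

/-!
P158: the pair lemma (note 1433, section 4). If no finite lowering of admissible weights makes the
geodesics from the lower end of a lane to two upper ends split, the difference of the two upper
Busemann functions is constant along the lane and has the same limit along the other upper end.
Applying this at both ends of a lane shows that it is optimal for a second label.
-/

namespace Vale.Agent.P158.V4

open Filter Topology

variable {bb cg : ℝ} {ω x : Cfg} {a b c d : Ray} {v : ℤ → Pt} {Sup : Set ℝ}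

/-- If near a chosen lowering every good configuration without a split takes its difference in a
finite set of values, so does the chosen lowering, unless it spans a star box. -/
theorem value_closed (hb : IsTail ω b) (hc : IsTail ω c) (hesc : Escape ω) (h0 : ∀ e, 0 ≤ ω e)
    (hno : ¬ StarBox Sup bb cg ω a.pt b.pt c.pt) {E : Finset (Sym2 Pt)} {x₀ : Cfg}
    (hoff₀ : ∀ e, e ∉ E → x₀ e = ω e) (hmem : ∀ e ∈ E, x₀ e ∈ Sup) (hnn : ∀ e, 0 ≤ x₀ e)
    (P : ℝ → Prop) (hfin : {t | P t}.Finite) {ρ₀ : ℝ} (hρ₀ : 0 < ρ₀) {q : Pt}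
    (hval : ∀ x, Good bb cg x → TieFree E x b.pt c.pt → (∀ e, e ∉ E → x e = ω e) →
      (∀ e ∈ E, |x e - x₀ e| < ρ₀) → ¬ SplitsStrict x a.pt b.pt c.pt → P (ediff x b c q)) :
    P (ediff x₀ b c q) := by
  by_contra hnot
  obtain ⟨g, hg, hball⟩ := Metric.isOpen_iff.1 hfin.isClosed.isOpen_compl _ hnot
  refine hno ⟨E, x₀, min ρ₀ (g / (2 * E.card + 1)), lt_min hρ₀ (div_pos hg (by positivity)),
    hoff₀, hmem, fun x hx hfree hoff hnear => ?_⟩
  by_contra hns
  have hv := hval x hx hfree hoff (fun e he => (hnear e he).trans_le (min_le_left _ _)) hns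
  refine hball ?_ hv
  have hoff' : ∀ e, e ∉ E → x e = x₀ e := fun e he => by rw [hoff e he, hoff₀ e he]
  have h1 := ediff_change (hb.congr hesc h0 hnn E hoff₀) (hc.congr hesc h0 hnn E hoff₀)
    (hb.congr hesc h0 hx.nonneg E hoff) (hc.congr hesc h0 hx.nonneg E hoff) hnn hx.nonneg E hoff' q
  set ρ := g / (2 * (E.card : ℝ) + 1) with hρ
  have h2 : change E x₀ x ≤ E.card * ρ := by
    unfold change
    refine (Finset.sum_le_card_nsmul _ _ ρ fun e he => ?_).trans_eq (nsmul_eq_mul _ _)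
    rw [abs_sub_comm]
    exact (hnear e he).le.trans (min_le_right _ _)
  have h3 : ρ * (2 * E.card + 1) = g := div_mul_cancel₀ _ (by positivity)
  have h4 : 0 < ρ := div_pos hg (by positivity)
  rw [Metric.mem_ball, Real.dist_eq, abs_sub_comm]
  linarith

namespace PairHyp

/-- Without star boxes the difference is constant along the lane. -/
theorem ediff_const (H : PairHyp bb cg Sup ω a b c v)
    (hno : ¬ StarBox Sup bb cg ω a.pt b.pt c.pt) (i : ℤ) :
    ediff ω b c (v i) = ediff ω b c (v 0) := by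
  classical
  by_contra hne
  obtain ⟨i, i', hii, hlt⟩ : ∃ i i' : ℤ, i ≤ i' ∧ ediff ω b c (v i') < ediff ω b c (v i) := by
    rcases le_total i 0 with h | h
    · exact ⟨i, 0, h, lt_of_le_of_ne (H.ediff_antitone h) (Ne.symm hne)⟩
    · exact ⟨0, i, h, lt_of_le_of_ne (H.ediff_antitone h) hne⟩
  obtain ⟨Cb, hCb⟩ := H.lowb
  obtain ⟨Cc, hCc⟩ := H.lowc
  have h0 := H.good.nonneg
  set gap := ediff ω b c (v i) - ediff ω b c (v i') with hgap
  obtain ⟨δ', hδ', hδδ, hr⟩ := H.elig (gap / 4) (by linarith)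
  set δ := gap / 4 with hδ
  obtain ⟨k, -, hdrop⟩ := hr (fun m : ℕ => v (i' + m)) (fun m => by
    have := H.lane.adj (i' + m)
    simpa [add_assoc] using this) (fun m m' h => by have := H.lane.inj h; omega) 0
  set j : ℤ := i' + k with hj
  have hje : s(v (i' + (k : ℤ)), v (i' + ((k + 1 : ℕ) : ℤ))) = s(v j, v (j + 1)) := by
    push_cast; rw [hj, add_assoc]
  set e : Sym2 Pt := s(v j, v (j + 1)) with he
  have hde : CanDrop Sup ω δ' δ e := hje ▸ hdrop
  set e₀ := max (bus ω a (v 0) + bus ω b (v 0) - Cb) (bus ω a (v 0) + bus ω c (v 0) - Cc) + 1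
    with he₀
  have hmax1 := le_max_left (bus ω a (v 0) + bus ω b (v 0) - Cb) (bus ω a (v 0) + bus ω c (v 0) - Cc)
  have hmax2 := le_max_right (bus ω a (v 0) + bus ω b (v 0) - Cb) (bus ω a (v 0) + bus ω c (v 0) - Cc)
  obtain ⟨K, bot, hD, hK, htb⟩ := exists_deep H.good H.cpos H.elig H.lane (δ := δ) hδ' hr {e} e₀
    ((-i).toNat)
  set top := (-i).toNat with htop
  set E : Finset (Sym2 Pt) := insert e (K.image (lowEdge v)) with hE
  have hEd : ∀ e' ∈ E, CanDrop Sup ω δ' δ e' := by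
    intro e' he'
    rcases Finset.mem_insert.1 he' with rfl | he'
    · exact hde
    · obtain ⟨m, hm, rfl⟩ := Finset.mem_image.1 he'
      exact (hK m hm).2.1
  refine hno ⟨E, dropped Sup ω δ' δ E, δ' / 2, by linarith, fun e' he' => dropped_off he',
    fun e' he' => (dropped_spec he' (hEd e' he')).1, fun x hx hfree hoff hnear => ?_⟩
  have hlow : Lowered ω x E (δ' / 2) (2 * δ) :=
    Lowered.of_near hEd le_rfl hδδ.le hoff hnear
  have hx0 := hx.nonneg
  have hle := hlow.le (by linarith)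
  set q := v (-(bot : ℤ)) with hq
  set y := v (j + 1) with hy
  set t := v (-(top : ℤ)) with ht
  have hKmem : ∀ m ∈ K, lowEdge v m ∈ E := fun m hm =>
    Finset.mem_insert_of_mem (Finset.mem_image_of_mem _ hm)
  have hEcases : ∀ e' ∈ E, (∃ m ∈ K, e' = lowEdge v m) ∨ e' ∈ ({e} : Finset (Sym2 Pt)) := by
    intro e' he'
    rcases Finset.mem_insert.1 he' with rfl | he'
    · exact Or.inr (Finset.mem_singleton_self _)
    · obtain ⟨m, hm, rfl⟩ := Finset.mem_image.1 he'
      exact Or.inl ⟨m, hm, rfl⟩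
  have hqb := onGeo_bottom H.good hx H.cpos H.ta H.tb H.lane H.calib.lo hCb (lo := δ' / 2)
    (hi := 2 * δ) (by linarith) (by linarith) (e₀ := e₀)
    (by rw [he₀]; linarith [hmax1]) hD hKmem hEcases hlow
  have hqc := onGeo_bottom H.good hx H.cpos H.ta H.tc H.lane H.calib.lo hCc (lo := δ' / 2)
    (hi := 2 * δ) (by linarith) (by linarith) (e₀ := e₀)
    (by rw [he₀]; linarith [hmax2]) hD hKmem hEcases hlow
  have heK : e ∉ K.image (lowEdge v) := fun h => by
    obtain ⟨m, hm, hme⟩ := Finset.mem_image.1 h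
    exact (hK m hm).2.2 (Finset.mem_singleton.2 hme)
  set D := ∑ m ∈ K, (ω (lowEdge v m) - x (lowEdge v m)) with hD'
  set de := ω e - x e with hde'
  have hsumE : ∑ e' ∈ E, (ω e' - x e') = de + D := by
    rw [hE, Finset.sum_insert heK, Finset.sum_image fun m _ m' _ h => H.lane.lowEdge_injective h]
  have hde1 : δ' / 2 ≤ de ∧ de ≤ 2 * δ := by
    have := hlow.mem e (Finset.mem_insert_self _ _)
    constructor <;> linarith
  have seg : ∀ i₁ i₂ i₃ : ℤ, i₁ ≤ i₂ → i₂ ≤ i₃ →
      tt ω (v i₁) (v i₂) + tt ω (v i₂) (v i₃) = tt ω (v i₁) (v i₃) := by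
    intro i₁ i₂ i₃ h1 h2
    have e1 := H.calib.lo i₁ i₂ h1
    have e2 := H.calib.lo i₂ i₃ h2
    have e3 := H.calib.lo i₁ i₃ (h1.trans h2)
    simp only at e1 e2 e3
    linarith
  have hbot : -(bot : ℤ) ≤ -(top : ℤ) := by omega
  have hij : i' ≤ j := by omega
  have hsave := H.lane.tt_save_low h0 hx0 hle htb (K := K)
    fun m hm => ⟨(hK m hm).1, hD.below m hm⟩
  rw [← hq, ← ht, ← hD'] at hsave
  suffices hev : ∀ᶠ N in atTop,
      (EdgeOn x q (b.pt N) (v j) y ∧ ¬ EdgeOn x q (c.pt N) (v j) y) ∨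
        (EdgeOn x q (b.pt N) y (v j) ∧ ¬ EdgeOn x q (c.pt N) y (v j)) by
    have hesc := H.good.escape H.cpos
    have hbx := H.tb.congr hesc h0 hx0 E hlow.off
    have hcx := H.tc.congr hesc h0 hx0 E hlow.off
    rcases frequently_or_distrib.1 hev.frequently with h | h
    · exact strict_of_edge hx H.cpos hbx hcx hfree (Finset.mem_insert_self _ _) hqb hqc h
    · exact strict_of_edge hx H.cpos hbx hcx hfree
        (by rw [Sym2.eq_swap]; exact Finset.mem_insert_self _ _) hqb hqc h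
  -- the limits of the two routes
  have L1 : Tendsto (fun N => tt ω q (b.pt N) - tt ω y (b.pt N)) atTop (𝓝 (tt ω q y)) := by
    have h := (H.tb.tendsto_bus h0 q).sub (H.tb.tendsto_bus h0 y)
    have e1 := H.calib.up (-(bot : ℤ)) (j + 1) (by omega)
    simp only [← hq, ← hy] at e1
    rw [show bus ω b q - bus ω b y = tt ω q y by linarith] at h
    exact h.congr fun N => by ring
  have L2 : Tendsto (fun N => tt ω q y + tt ω y (c.pt N) - (tt ω q t + tt ω t (c.pt N))) atTop
      (𝓝 (tt ω q y + bus ω c y - (tt ω q t + bus ω c t))) :=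
    (((H.tc.tendsto_bus h0 y).const_add _).sub ((H.tc.tendsto_bus h0 t).const_add _)).congr
      fun N => by ring
  have hgapE : 2 * δ < tt ω q y + bus ω c y - (tt ω q t + bus ω c t) := by
    have e1 := seg (-(bot : ℤ)) (-(top : ℤ)) (j + 1) hbot (by omega)
    have e2 := H.calib.up (-(top : ℤ)) (j + 1) (by omega)
    have e3 := H.ediff_antitone (show -(top : ℤ) ≤ i by omega)
    have e4 := H.ediff_antitone (show i' ≤ j + 1 by omega)
    simp only [← hq, ← ht, ← hy] at e1 e2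
    unfold ediff at e3 e4 hgap
    simp only [← ht, ← hy] at e3 e4
    linarith
  filter_upwards [L1.eventually_lt_const (show tt ω q y < tt ω q y + δ' / 4 by linarith),
    L1.eventually_const_lt (show tt ω q y - δ' / 4 < tt ω q y by linarith),
    L2.eventually_const_lt hgapE] with N hN1 hN1' hN2
  have hyc' : ¬ OnGeo x q (c.pt N) y := fun hyc => by
    obtain ⟨γ, hγp, hγw⟩ := hx.exists_shortest H.cpos q (c.pt N)
    have hmem := hx.mem_of_onGeo H.cpos ⟨hγp, hγw⟩ hyc
    have hs : wt ω γ ≤ wt x γ + ∑ e' ∈ E, (ω e' - x e') :=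
      wt_save_le hle γ hγp fun e' _ h => hlow.off e' h
    have h2 := wt_append (ω := ω) (γ.takeUntil _ hmem) (γ.dropUntil _ hmem)
    rw [SimpleGraph.Walk.take_spec] at h2
    have r1 := tt_triangle hx0 q t (c.pt N)
    have r5 := hlow.tt_le_tt (by linarith) hx0 t (c.pt N)
    linarith [tt_le h0 (γ.takeUntil _ hmem), tt_le h0 (γ.dropUntil _ hmem), hde1.2]
  obtain ⟨γ, hγp, hγw⟩ := hx.exists_shortest H.cpos q (b.pt N)
  suffices heγ : e ∈ γ.edges by
    obtain ⟨p, p', hadj, r₁, r₂, hpp, rfl⟩ := exists_at_edge γ heγ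
    have hon := edgeOn_of_split hx0 r₁ hadj r₂ hγw
    rcases Sym2.eq_iff.1 (show s(v j, y) = s(p, p') from hpp) with ⟨h1, h2⟩ | ⟨h1, h2⟩ <;>
      subst p p'
    · exact Or.inl ⟨hon, fun h => hyc' (edgeOn_onGeo hx0 h).2⟩
    · exact Or.inr ⟨hon, fun h => hyc' (edgeOn_onGeo hx0 h).1⟩
  by_contra hyγ
  have hs : wt ω γ ≤ wt x γ + ∑ e' ∈ K.image (lowEdge v), (ω e' - x e') :=
    wt_save_le hle γ hγp fun e' he' hnot => hlow.off e' fun hm => by
      rcases Finset.mem_insert.1 hm with rfl | h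
      · exact hyγ he'
      · exact hnot h
  rw [Finset.sum_image fun m _ m' _ h => H.lane.lowEdge_injective h, ← hD'] at hs
  have r1 := tt_triangle hx0 q t (b.pt N)
  have r2 := tt_triangle hx0 t (v j) (b.pt N)
  have r3 := tt_triangle hx0 (v j) y (b.pt N)
  have r4 := hlow.tt_le_tt (by linarith) hx0 t (v j)
  have r5 := hlow.tt_le_tt (by linarith) hx0 y (b.pt N)
  have r6 : tt x (v j) y ≤ x e :=
    (tt_le hx0 (H.lane.adj j).toWalk).trans_eq (by simp [wt]; rfl)
  have r7 : tt ω (v j) y = ω e := by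
    have := H.lane.tt_eq h0 j 1
    simpa [hy, he] using this
  have r8 := seg (-(bot : ℤ)) (-(top : ℤ)) j hbot (by omega)
  have r9 := seg (-(bot : ℤ)) j (j + 1) (by omega) (by omega)
  simp only [← hq, ← ht, ← hy] at r8 r9
  linarith [tt_le h0 γ, hde1.1]

/-- Without star boxes the difference tends along the other upper end to its value on the lane. -/
theorem ediff_limit (H : PairHyp bb cg Sup ω a b c v)
    (hno : ¬ StarBox Sup bb cg ω a.pt b.pt c.pt) :
    Tendsto (fun n => ediff ω b c (c.pt n)) atTop (𝓝 (ediff ω b c (v 0))) := by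
  classical
  by_contra hnl
  have h0 := H.good.nonneg
  have hesc := H.good.escape H.cpos
  set Eu := ediff ω b c (v 0) with hEu
  obtain ⟨Mm, hMm⟩ := H.ediff_mono_tail
  obtain ⟨δ, hδ, n₀, hgap⟩ : ∃ δ > 0, ∃ n₀, ∀ n, n₀ ≤ n →
      4 * δ < |ediff ω b c (c.pt n) - Eu| := by
    by_cases hex : ∃ n, Mm ≤ n ∧ Eu < ediff ω b c (c.pt n)
    · obtain ⟨n₁, hn₁, hlt⟩ := hex
      refine ⟨(ediff ω b c (c.pt n₁) - Eu) / 5, by linarith, n₁, fun n hn => ?_⟩
      have := hMm n₁ n hn₁ hn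
      rw [abs_of_pos (by linarith)]
      linarith
    · push Not at hex
      by_contra hcon
      push Not at hcon
      refine hnl (Metric.tendsto_atTop.2 fun ε hε => ?_)
      obtain ⟨n, hn, hle⟩ := hcon (ε / 5) (by linarith) Mm
      refine ⟨n, fun m hm => ?_⟩
      have h1 := hMm n m hn hm
      have h2 := hex m (hn.trans hm)
      rw [abs_le] at hle
      rw [Real.dist_eq, abs_lt]
      constructor <;> linarith
  obtain ⟨Cb, hCb⟩ := H.lowb
  obtain ⟨Cc, hCc⟩ := H.lowc
  obtain ⟨δ', hδ', hδδ, hr⟩ := H.elig δ hδ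
  obtain ⟨Mt, hMt⟩ := H.tc.geo
  obtain ⟨Mp, hMp⟩ := H.tc.bus_pt h0
  obtain ⟨Ms, hMs⟩ := tail_save H.tc
  set M₁ := max (max n₀ Mm) (max (max Mt Mp) Ms) with hM₁
  set ec := tt ω (v 0) (c.pt M₁) - c.acc M₁ + bus ω a (v 0) - Cc + 2 with hec
  set n₁ : ℕ := ⌈ec / (δ' / 2)⌉₊ + 1 with hn₁def
  obtain ⟨K₁, hK₁card, hK₁⟩ := exists_canDrop (r := c.pt) (hr c.pt H.tc.adj H.tc.inj) M₁ n₁
  set ce : ℕ → Sym2 Pt := rayEdge c with hce
  set E₁ := K₁.image ce with hE₁
  set e₀ := max (bus ω a (v 0) + bus ω b (v 0) - Cb) (bus ω a (v 0) + bus ω c (v 0) - Cc) + 1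
    with he₀
  have hmax1 := le_max_left (bus ω a (v 0) + bus ω b (v 0) - Cb) (bus ω a (v 0) + bus ω c (v 0) - Cc)
  have hmax2 := le_max_right (bus ω a (v 0) + bus ω b (v 0) - Cb) (bus ω a (v 0) + bus ω c (v 0) - Cc)
  obtain ⟨K, bot, hD, hK, -⟩ := exists_deep H.good H.cpos H.elig H.lane (δ := δ) hδ' hr E₁ e₀ 0
  set EK := K.image (lowEdge v) with hEK
  set part : ℕ → Finset (Sym2 Pt) := upPart v c K K₁ with hpart
  have hdrop : ∀ th, ∀ e ∈ part th, CanDrop Sup ω δ' δ e := by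
    intro th e he
    rcases Finset.mem_union.1 he with h | h <;> obtain ⟨m, hm, rfl⟩ := Finset.mem_image.1 h
    · exact (hK m hm).2.1
    · exact (hK₁ m (Finset.mem_filter.1 hm).1).2
  set x₀ : ℕ → Cfg := fun th => dropped Sup ω δ' δ (part th) with hx₀
  have hx₀0 : ∀ th e, x₀ th e ≤ ω e ∧ ω e - δ ≤ x₀ th e := by
    intro th e
    by_cases he : e ∈ part th
    · obtain ⟨-, h1, h2⟩ := dropped_spec he (hdrop th e he)
      constructor <;> simp only [hx₀] <;> linarith
    · simp only [hx₀, dropped_off he]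
      constructor <;> linarith
  set q := v (-(bot : ℤ)) with hq
  have hgeo : ∀ i j, M₁ ≤ i → i ≤ j → tt ω (c.pt i) (c.pt j) = c.acc j - c.acc i :=
    fun i j hi hij => (hMt i j (by omega) hij).1
  have hsave : ∀ x : Cfg, (∀ e, 0 ≤ x e) → (∀ e, x e ≤ ω e) → ∀ i j, M₁ ≤ i → i ≤ j →
      ∀ J : Finset ℕ, (∀ k ∈ J, i ≤ k ∧ k < j) →
      tt x (c.pt i) (c.pt j) ≤ c.acc j - c.acc i -
        ∑ k ∈ J, (ω s(c.pt k, c.pt (k + 1)) - x s(c.pt k, c.pt (k + 1))) :=
    fun x hx hle i j hi hij J hJ => hMs x hx hle i j (by omega) hij J hJ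
  have hn : tt ω (v 0) (c.pt M₁) - c.acc M₁ + bus ω a (v 0) - Cc + 1 < K₁.card * (δ' / 2) := by
    have h3 := Nat.le_ceil (ec / (δ' / 2))
    rw [div_le_iff₀ (by linarith)] at h3
    rw [hK₁card, hn₁def]
    push_cast
    linarith [hec]
  set ktop := K₁.max' (Finset.card_pos.1 (by rw [hK₁card]; omega)) with hktop
  set Ev := ediff ω b c (c.pt (ktop + 1)) with hEv
  have hKne : K.Nonempty := by obtain ⟨m, hm, -⟩ := hD.last; exact ⟨m, hm⟩
  have hqK : q ∈ ends EK := by
    obtain ⟨m, hm, rfl⟩ := hD.last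
    exact ⟨_, Finset.mem_image_of_mem _ hm, by rw [hq, lowEdge]; push_cast; simp [neg_add, sub_eq_add_neg, add_comm]⟩
  have hKend : ∀ w ∈ ends EK, ∃ m ∈ K, ∃ i : ℤ, (i = -(m : ℤ) - 1 ∨ i = -(m : ℤ)) ∧ w = v i := by
    rintro w ⟨e, he, hw⟩
    obtain ⟨m, hm, rfl⟩ := Finset.mem_image.1 he
    rcases Sym2.mem_iff.1 hw with rfl | rfl
    · exact ⟨m, hm, _, Or.inl rfl, rfl⟩
    · exact ⟨m, hm, _, Or.inr rfl, rfl⟩
  -- the value at a good perturbation without a split
  have value : ∀ (th : ℕ) (x : Cfg), Good bb cg x → (∀ e, e ∉ part th → x e = ω e) →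
      (∀ e ∈ part th, |x e - x₀ th e| < δ' / 2) → TieFree (part th) x b.pt c.pt →
      ¬ SplitsStrict x a.pt b.pt c.pt →
      (ediff x b c q = Eu ∧ th ≠ 0) ∨ (ediff x b c q = Ev ∧ th ≤ ktop) := by
    intro th x hx hoff hnear hfree hns
    have hlow : Lowered ω x (part th) (δ' / 2) (2 * δ) :=
      Lowered.of_near (hdrop th) le_rfl hδδ.le hoff hnear
    have hx0 := hx.nonneg
    have hle := hlow.le (by linarith)
    have hKmem : ∀ m ∈ K, lowEdge v m ∈ part th := fun m hm =>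
      Finset.mem_union_left _ (Finset.mem_image_of_mem _ hm)
    have hcases : ∀ e ∈ part th, (∃ m ∈ K, e = lowEdge v m) ∨ e ∈ E₁ := by
      intro e he
      rcases Finset.mem_union.1 he with h | h <;> obtain ⟨m, hm, rfl⟩ := Finset.mem_image.1 h
      · exact Or.inl ⟨m, hm, rfl⟩
      · exact Or.inr (Finset.mem_image_of_mem _ (Finset.mem_filter.1 hm).1)
    have hqb := onGeo_bottom H.good hx H.cpos H.ta H.tb H.lane H.calib.lo hCb (lo := δ' / 2)
      (hi := 2 * δ) (by linarith) (by linarith) (e₀ := e₀)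
      (by rw [he₀]; linarith [hmax1]) hD hKmem hcases hlow
    have hqc := onGeo_bottom H.good hx H.cpos H.ta H.tc H.lane H.calib.lo hCc (lo := δ' / 2)
      (hi := 2 * δ) (by linarith) (by linarith) (e₀ := e₀)
      (by rw [he₀]; linarith [hmax2]) hD hKmem hcases hlow
    have hqV : q ∈ ends (part th) := by
      obtain ⟨e, he, hm⟩ := hqK
      exact ⟨e, Finset.mem_union_left _ he, hm⟩
    obtain ⟨y, hy, hval, hfr⟩ :=
      last_site H.good hx H.cpos H.tb H.tc (by linarith) hlow hfree hqV hqb hqc hns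
    by_cases hyK : y ∈ ends EK
    · obtain ⟨m, hm, i, hi, rfl⟩ := hKend y hyK
      refine Or.inl ⟨by rw [hval, H.ediff_const hno], ?_⟩
      rintro rfl
      -- with the whole upper segment lowered the geodesic to `c` must end there
      exact H.low_vertex hx (by linarith) (by linarith) hCc hD (by rw [he₀]; linarith) hsave
        (fun k hk => (hK₁ k hk).1) hn hlow hm hi hfr
    · obtain ⟨hy', hth⟩ := H.top_vertex hx (by linarith) hgeo hsave
        (fun k hk => ⟨(hK₁ k hk).1, K₁.le_max' k hk⟩) (K₁.max'_mem _) hlow hy hyK hfr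
      exact Or.inr ⟨by rw [hval, hy'], hth⟩
  -- values at the chosen configurations
  have hnn : ∀ th e, 0 ≤ x₀ th e := by
    intro th e
    by_cases he : e ∈ part th
    · exact H.supNonneg _ (dropped_spec he (hdrop th e he)).1
    · simp only [hx₀, dropped_off he]; exact h0 e
  have hoff₀ : ∀ th e, e ∉ part th → x₀ th e = ω e := fun th e he => dropped_off he
  have htb : ∀ th, IsTail (x₀ th) b ∧ IsTail (x₀ th) c := fun th =>
    ⟨H.tb.congr hesc h0 (hnn th) _ (hoff₀ th), H.tc.congr hesc h0 (hnn th) _ (hoff₀ th)⟩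
  set f : ℕ → ℝ := fun th => ediff (x₀ th) b c q with hf
  have hfval : ∀ th, (f th = Eu ∧ th ≠ 0) ∨ (f th = Ev ∧ th ≤ ktop) := fun th =>
    value_closed H.tb H.tc hesc h0 hno (hoff₀ th) (fun e he => (dropped_spec he (hdrop th e he)).1)
      (hnn th) (fun t => (t = Eu ∧ th ≠ 0) ∨ (t = Ev ∧ th ≤ ktop))
      ((Set.toFinite {Eu, Ev}).subset fun t ht => by rcases ht with ⟨h, -⟩ | ⟨h, -⟩ <;> simp [h])
      (show (0 : ℝ) < δ' / 2 by linarith) fun x hx hfree hoff hnear hns => value th x hx hoff hnear hfree hns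
  have hstep : ∀ th, |f th - f (th + 1)| ≤ 2 * δ := by
    intro th
    have hdiff : ∀ e, e ∉ ({ce th} : Finset (Sym2 Pt)) → x₀ (th + 1) e = x₀ th e := by
      intro e he
      rw [Finset.mem_singleton] at he
      have hiff : e ∈ part (th + 1) ↔ e ∈ part th := by
        simp only [hpart, upPart, Finset.mem_union, Finset.mem_image, Finset.mem_filter]
        constructor
        · rintro (h | ⟨k, ⟨h1, h2⟩, rfl⟩)
          · exact Or.inl h
          · exact Or.inr ⟨k, ⟨h1, by omega⟩, rfl⟩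
        · rintro (h | ⟨k, ⟨h1, h2⟩, rfl⟩)
          · exact Or.inl h
          · refine Or.inr ⟨k, ⟨h1, ?_⟩, rfl⟩
            rcases h2.lt_or_eq with h3 | h3
            · omega
            · exact absurd (h3 ▸ rfl) he
      by_cases h : e ∈ part th
      · exact dropped_mem (hiff.2 h) h
      · simp only [hx₀]
        rw [dropped_off h, dropped_off (fun h' => h (hiff.1 h'))]
    refine (ediff_change (htb th).1 (htb th).2 (htb (th + 1)).1 (htb (th + 1)).2 (hnn th)
      (hnn (th + 1)) {ce th} hdiff q).trans ?_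
    have h1 := hx₀0 th (ce th)
    have h2 := hx₀0 (th + 1) (ce th)
    simp only [change, Finset.sum_singleton]
    have : |x₀ th (ce th) - x₀ (th + 1) (ce th)| ≤ δ := abs_le.2 ⟨by linarith, by linarith⟩
    linarith
  have hgap' : 4 * δ < |Ev - Eu| := hgap (ktop + 1) (by have := (hK₁ ktop (K₁.max'_mem _)).1; omega)
  have hdown : ∀ j, j ≤ ktop + 1 → f (ktop + 1 - j) = Eu := by
    intro j
    induction j with
    | zero => exact fun _ => ((hfval (ktop + 1)).resolve_right fun h => by omega).1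
    | succ j ih =>
      intro hj
      rcases hfval (ktop + 1 - (j + 1)) with ⟨h, -⟩ | ⟨h, -⟩
      · exact h
      · exfalso
        have h1 := hstep (ktop + 1 - (j + 1))
        rw [show ktop + 1 - (j + 1) + 1 = ktop + 1 - j by omega, ih (by omega), h] at h1
        linarith
  have hzero := hdown (ktop + 1) le_rfl
  rw [Nat.sub_self] at hzero
  rcases hfval 0 with ⟨-, h⟩ | ⟨h, -⟩
  · exact h rfl
  · rw [h, ← sub_eq_zero] at hzero
    rw [hzero, abs_zero] at hgap'
    linarith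

end PairHyp

/-- The pair lemma: a lane without star boxes at either end is optimal for the second label. -/
theorem gsum_le_total (Hu : PairHyp bb cg Sup ω a b c v) {w : ℤ → Pt}
    (Hl : PairHyp bb cg Sup ω b a d w) (hw : w = fun i => v (-i))
    (hnu : ¬ StarBox Sup bb cg ω a.pt b.pt c.pt) (hnl : ¬ StarBox Sup bb cg ω b.pt a.pt d.pt)
    (hopt : ∀ p, gsum ω ⟨a, b⟩ (v 0) ≤ gsum ω ⟨a, b⟩ p)
    (hdb : Bounded ω ⟨d, c⟩) (hd : IsLab ω ⟨d, c⟩) :
    gsum ω ⟨d, c⟩ (v 0) ≤ total ω ⟨d, c⟩ := by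
  have h0 := Hu.good.nonneg
  have hE := Hu.ediff_limit hnu
  have hD := Hl.ediff_limit hnl
  have hw0 : w 0 = v 0 := by simp [hw]
  rw [hw0] at hD
  obtain ⟨Md, hMd⟩ := Hl.tc.bus_pt h0
  obtain ⟨Mc, hMc⟩ := Hu.tc.bus_pt h0
  obtain ⟨Ma, hMa⟩ := Hu.ta.bus_le h0
  have hmin : ∀ p p', bus ω a (v 0) + bus ω b (v 0) ≤ bus ω a p + tt ω p p' + bus ω b p' := by
    intro p p'
    have hp : bus ω b p ≤ tt ω p p' + bus ω b p' := Hu.tb.bus_le_add h0 p p'
    suffices h : bus ω a (v 0) + bus ω b (v 0) ≤ bus ω a p + bus ω b p by linarith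
    exact hopt p
  have hlim : Tendsto (fun n => gsum ω ⟨d, c⟩ (v 0) + (ediff ω b c (v 0) - ediff ω b c (c.pt n)) +
      (ediff ω a d (v 0) - ediff ω a d (d.pt n))) atTop (𝓝 (gsum ω ⟨d, c⟩ (v 0))) := by
    have h := ((hE.const_sub (ediff ω b c (v 0))).const_add (gsum ω ⟨d, c⟩ (v 0))).add
      (hD.const_sub (ediff ω a d (v 0)))
    simpa using h
  refine le_of_tendsto_of_tendsto hlim (hd.tendsto_excess h0 hdb)
    (eventually_atTop.2 ⟨max Md Mc, fun n hn => ?_⟩)
  have h1 := hmin (d.pt n) (c.pt n)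
  have h2 := hMd n (by omega)
  have h3 := hMc n (by omega)
  simp only [gsum, ediff, excess] at *
  linarith

end Vale.Agent.P158.V4
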