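import Vale.Agent.P158.V4.PairBase
import Vale.Agent.P158.V4.Strict

/-!
P158: the pair lemma (note 1433, section 4), tools: admissible lowerings, a deep segment, and the
last modified site of two geodesics that do not split.
-/

namespace Vale.Agent.P158.V4

open Filter Topology

variable {bb cg : ℝ} {ω x : Cfg} {a b c : Ray} {v : ℤ → Pt} {Sup : Set ℝ}

/-- A finite lowering to admissible values, all small perturbations of which without ties make
the geodesics split strictly. -/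
def StarBox (Sup : Set ℝ) (bb cg : ℝ) (ω : Cfg) (a b c : ℕ → Pt) : Prop :=
  ∃ (E : Finset (Sym2 Pt)) (x₀ : Cfg) (ρ : ℝ), 0 < ρ ∧ (∀ e, e ∉ E → x₀ e = ω e) ∧
    (∀ e ∈ E, x₀ e ∈ Sup) ∧
    ∀ x : Cfg, Good bb cg x → TieFree E x b c → (∀ e, e ∉ E → x e = ω e) →
      (∀ e ∈ E, |x e - x₀ e| < ρ) → SplitsStrict x a b c

/-- The weight of `e` can be lowered by an amount in `[δ', δ)`. -/
def CanDrop (Sup : Set ℝ) (ω : Cfg) (δ' δ : ℝ) (e : Sym2 Pt) : Prop :=
  ∃ t ∈ Sup, ω e - δ < t ∧ t ≤ ω e - δ'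

open Classical in
/-- The configuration lowered to chosen values on `E`. -/
noncomputable def dropped (Sup : Set ℝ) (ω : Cfg) (δ' δ : ℝ) (E : Finset (Sym2 Pt)) : Cfg :=
  fun e => if h : e ∈ E ∧ CanDrop Sup ω δ' δ e then h.2.choose else ω e

theorem dropped_off {δ' δ : ℝ} {E : Finset (Sym2 Pt)} {e : Sym2 Pt} (h : e ∉ E) :
    dropped Sup ω δ' δ E e = ω e := by
  simp [dropped, h]

theorem dropped_spec {δ' δ : ℝ} {E : Finset (Sym2 Pt)} {e : Sym2 Pt} (h : e ∈ E)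
    (hd : CanDrop Sup ω δ' δ e) : dropped Sup ω δ' δ E e ∈ Sup ∧
      ω e - δ < dropped Sup ω δ' δ E e ∧ dropped Sup ω δ' δ E e ≤ ω e - δ' := by
  simp only [dropped, dif_pos (And.intro h hd)]
  exact hd.choose_spec

theorem dropped_mem {δ' δ : ℝ} {E E' : Finset (Sym2 Pt)} {e : Sym2 Pt} (h : e ∈ E) (h' : e ∈ E') :
    dropped Sup ω δ' δ E e = dropped Sup ω δ' δ E' e := by
  by_cases hd : CanDrop Sup ω δ' δ e
  · simp [dropped, h, h', hd]
  · simp [dropped, hd]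

theorem exists_canDrop {r : ℕ → Pt} {δ' δ : ℝ}
    (h : ∀ n, ∃ k, n ≤ k ∧ ∃ t ∈ Sup, ω s(r k, r (k + 1)) - δ < t ∧ t ≤ ω s(r k, r (k + 1)) - δ')
    (start : ℕ) : ∀ n : ℕ, ∃ K : Finset ℕ, K.card = n ∧
      ∀ k ∈ K, start ≤ k ∧ CanDrop Sup ω δ' δ s(r k, r (k + 1)) := by
  intro n
  induction n with
  | zero => exact ⟨∅, rfl, by simp⟩
  | succ n ih =>
    obtain ⟨K, hcard, hK⟩ := ih
    obtain ⟨k, hk, ht⟩ := h (start + K.sup id + 1)
    have hnot : k ∉ K := fun hm => by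
      have := Finset.le_sup (f := id) hm
      simp only [id_eq] at this
      omega
    refine ⟨insert k K, by rw [Finset.card_insert_of_notMem hnot, hcard], fun j hj => ?_⟩
    rcases Finset.mem_insert.1 hj with rfl | hj
    · exact ⟨by omega, ht⟩
    · exact hK j hj

theorem edge_injective {r : ℕ → Pt} (hr : Function.Injective r) :
    Function.Injective fun k => s(r k, r (k + 1)) := by
  intro m m' h
  rcases Sym2.eq_iff.1 (h : s(r m, r (m + 1)) = s(r m', r (m' + 1))) with ⟨h1, _⟩ | ⟨h1, h2⟩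
  · exact hr h1
  · have := hr h1
    have := hr h2
    omega

/-- A deep segment for given other modified edges: its lowest edge ends at `-bot`, its top lies
below `-top`. -/
theorem exists_deep (hω : Good bb cg ω) (hcg : 0 < cg) (hel : Eligible Sup ω) (hv : IsLane ω v)
    {δ' δ : ℝ} (hδ' : 0 < δ')
    (hr : ∀ r : ℕ → Pt, (∀ i, grid.Adj (r i) (r (i + 1))) → Function.Injective r → ∀ n, ∃ k, n ≤ k ∧
      ∃ t ∈ Sup, ω s(r k, r (k + 1)) - δ < t ∧ t ≤ ω s(r k, r (k + 1)) - δ')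
    (E₁ : Finset (Sym2 Pt)) (e₀ : ℝ) (top : ℕ) :
    ∃ K : Finset ℕ, ∃ bot : ℕ, DeepOK ω v K E₁ bot (δ' / 2) (2 * δ) e₀ ∧
      (∀ m ∈ K, top ≤ m ∧ CanDrop Sup ω δ' δ (lowEdge v m) ∧ lowEdge v m ∉ E₁) ∧ top ≤ bot := by
  classical
  set n₀ : ℕ := ⌈(e₀ + E₁.card * (2 * δ)) / (δ' / 2)⌉₊ + 1 with hn₀
  obtain ⟨P, hP⟩ : ∃ P : Finset Pt, ∀ p ∈ ends E₁, p ∈ P :=
    ⟨(ends_finite E₁).toFinset, fun p hp => (Set.Finite.mem_toFinset _).2 hp⟩
  have hinj : Function.Injective fun m : ℕ => v (-(m : ℤ)) := fun m m' h => by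
    have := hv.inj h
    omega
  have hev : ∀ᶠ m : ℕ in atTop, v (-(m : ℤ)) ∉ P ∧ ∀ p ∈ P,
      2 * tt ω (v 0) p + |e₀| + (n₀ + E₁.card : ℕ) * |2 * δ| < 2 * tt ω (v (-(m : ℤ))) (v 0) := by
    refine (eventually_notMem hinj P).and ((Finset.eventually_all P).2 fun p _ => ?_)
    refine (((hω.escape hcg).tendsto hinj (v 0)).eventually_gt_atTop
      ((2 * tt ω (v 0) p + |e₀| + (n₀ + E₁.card : ℕ) * |2 * δ|) / 2)).mono fun m hm => ?_
    rw [tt_comm hω.nonneg (v (-(m : ℤ)))]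
    linarith
  obtain ⟨T, hT⟩ := eventually_atTop.1 hev
  obtain ⟨K, hcard, hK⟩ := exists_canDrop (r := fun m : ℕ => v (-(m : ℤ)))
    (hr _ (fun i => by
      have := (hv.adj (-((i : ℤ) + 1))).symm
      rw [show -((i : ℤ) + 1) + 1 = -(i : ℤ) by ring] at this
      simpa using this) hinj) (max top T) n₀
  have hedge : ∀ m : ℕ, s(v (-(m : ℤ)), v (-((m + 1 : ℕ) : ℤ))) = lowEdge v m := fun m => by
    rw [lowEdge, Sym2.eq_swap]
    congr 2
    push_cast
    ring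
  have hne : K.Nonempty := Finset.card_pos.1 (by omega)
  refine ⟨K, K.max' hne + 1, ⟨fun m hm => by have := K.le_max' m hm; omega,
    ⟨_, K.max'_mem hne, rfl⟩, ?_, fun m hm p hp i hi => ?_⟩, fun m hm => ⟨?_, ?_, ?_⟩, ?_⟩
  · rw [hcard]
    have h1 := Nat.le_ceil ((e₀ + E₁.card * (2 * δ)) / (δ' / 2))
    rw [div_le_iff₀ (by linarith)] at h1
    rw [hn₀]
    push_cast
    linarith
  · obtain ⟨hm1, -⟩ := hK m hm
    obtain ⟨j, hj, rfl⟩ : ∃ j : ℕ, T ≤ j ∧ i = -(j : ℤ) := by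
      rcases hi with rfl | rfl
      · exact ⟨m + 1, by omega, by push_cast; ring⟩
      · exact ⟨m, by omega, rfl⟩
    have h := (hT j hj).2 p (hP p hp)
    rw [hcard]
    have h1 := le_abs_self e₀
    have h2 : ((n₀ + E₁.card : ℕ) : ℝ) * (2 * δ) ≤ (n₀ + E₁.card : ℕ) * |2 * δ| :=
      mul_le_mul_of_nonneg_left (le_abs_self _) (Nat.cast_nonneg _)
    linarith
  · obtain ⟨hm1, -⟩ := hK m hm; omega
  · obtain ⟨-, hd⟩ := hK m hm
    rwa [hedge] at hd
  · intro hmem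
    have hm1 := (hK m hm).1
    exact (hT m (by omega)).1 (hP _ ⟨_, hmem, Sym2.mem_mk_right _ _⟩)
  · obtain ⟨m, hm⟩ := hne
    have := (hK m hm).1
    have := K.le_max' m hm
    omega

theorem Lowered.of_near {δ' δ ρ : ℝ} {E : Finset (Sym2 Pt)} (hd : ∀ e ∈ E, CanDrop Sup ω δ' δ e)
    (hρ : ρ ≤ δ' / 2) (hδ : δ' ≤ δ) (hoff : ∀ e, e ∉ E → x e = ω e)
    (hnear : ∀ e ∈ E, |x e - dropped Sup ω δ' δ E e| < ρ) :
    Lowered ω x E (δ' / 2) (2 * δ) := by
  refine ⟨hoff, fun e he => ?_⟩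
  obtain ⟨-, h1, h2⟩ := dropped_spec he (hd e he)
  obtain ⟨h3, h4⟩ := abs_lt.1 (hnear e he)
  constructor <;> linarith

/-- Savings along a path are at most the drops of the edges it may use. -/
theorem wt_save_le {F : Finset (Sym2 Pt)} (hle : ∀ e, x e ≤ ω e) {s t : Pt} (p : grid.Walk s t)
    (hp : p.IsPath) (heq : ∀ e ∈ p.edges, e ∉ F → x e = ω e) :
    wt ω p ≤ wt x p + ∑ e ∈ F, (ω e - x e) := by
  classical
  unfold wt
  rw [← List.sum_toFinset _ hp.isTrail.edges_nodup, ← List.sum_toFinset _ hp.isTrail.edges_nodup,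
    ← sub_le_iff_le_add', ← Finset.sum_sub_distrib]
  calc ∑ e ∈ p.edges.toFinset, (ω e - x e)
      = ∑ e ∈ p.edges.toFinset ∩ F, (ω e - x e) := by
        refine (Finset.sum_subset Finset.inter_subset_left fun e he he' => ?_).symm
        rw [heq e (List.mem_toFinset.1 he) fun h => he' (Finset.mem_inter.2 ⟨he, h⟩), sub_self]
    _ ≤ ∑ e ∈ F, (ω e - x e) :=
        Finset.sum_le_sum_of_subset_of_nonneg Finset.inter_subset_right
          fun e _ _ => sub_nonneg.2 (hle e)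

theorem append_shortest (h0 : ∀ e, 0 ≤ x e) {s y t : Pt} (p₁ : grid.Walk s y) (p₂ : grid.Walk y t)
    (h : IsShortest x (p₁.append p₂)) : IsShortest x p₁ ∧ IsShortest x p₂ := by
  have h1 := tt_le h0 p₁
  have h2 := tt_le h0 p₂
  have h3 := h.2
  rw [wt_append] at h3
  have h4 := tt_triangle h0 s y t
  exact ⟨⟨h.1.of_append_left, by linarith⟩, ⟨h.1.of_append_right, by linarith⟩⟩

/-- Without a strict split and without ties the geodesics from `q` share their last modified edge,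
which ends at a site `y`, and the difference of the Busemann functions at `q` is the unmodified one
at `y`. -/
theorem last_site (hω : Good bb cg ω) (hx : Good bb cg x) (hcg : 0 < cg)
    (hb : IsTail ω b) (hc : IsTail ω c) {E : Finset (Sym2 Pt)} {lo hi : ℝ} (hlo : 0 ≤ lo)
    (hlow : Lowered ω x E lo hi) (hfree : TieFree E x b.pt c.pt) {q : Pt} (hq : q ∈ ends E)
    (hqb : ∀ᶠ N in atTop, OnGeo x (a.pt N) (b.pt N) q)
    (hqc : ∀ᶠ N in atTop, OnGeo x (a.pt N) (c.pt N) q)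
    (hno : ¬ SplitsStrict x a.pt b.pt c.pt) :
    ∃ y ∈ ends E, ediff x b c q = ediff ω b c y ∧
      ∃ᶠ N in atTop, ∃ (p₁ : grid.Walk q y) (p₂ : grid.Walk y (c.pt N)),
        IsShortest x (p₁.append p₂) ∧ ∀ e ∈ p₂.edges, e ∉ E := by
  classical
  have h0 := hω.nonneg
  have hx0 := hx.nonneg
  have hbx := hb.congr (hω.escape hcg) h0 hx0 E hlow.off
  have hcx := hc.congr (hω.escape hcg) h0 hx0 E hlow.off
  set V := (ends_finite E).toFinset
  have hV : ∀ {p p' : Pt}, s(p, p') ∈ E → p ∈ V ∧ p' ∈ V := fun he =>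
    ⟨(Set.Finite.mem_toFinset _).2 ⟨_, he, Sym2.mem_mk_left _ _⟩,
      (Set.Finite.mem_toFinset _).2 ⟨_, he, Sym2.mem_mk_right _ _⟩⟩
  have hagree : ∀ᶠ N in atTop, ∀ i ∈ V ×ˢ V, s(i.1, i.2) ∈ E →
      (EdgeOn x q (b.pt N) i.1 i.2 ↔ EdgeOn x q (c.pt N) i.1 i.2) := by
    refine (Finset.eventually_all _).2 fun i _ => ?_
    by_cases hi : s(i.1, i.2) ∈ E
    swap
    · exact Eventually.of_forall fun N h => absurd h hi
    by_contra hcon
    rw [not_eventually] at hcon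
    have : ∃ᶠ N in atTop, (EdgeOn x q (b.pt N) i.1 i.2 ∧ ¬ EdgeOn x q (c.pt N) i.1 i.2) ∨
        (EdgeOn x q (c.pt N) i.1 i.2 ∧ ¬ EdgeOn x q (b.pt N) i.1 i.2) :=
      hcon.mono fun N hN => by tauto
    rcases frequently_or_distrib.1 this with h | h
    · exact hno (strict_of_edge hx hcg hbx hcx hfree hi hqb hqc h)
    · exact hno (strict_of_edge hx hcg hcx hbx hfree.symm hi hqc hqb h).symm
  have key : ∀ᶠ N in atTop, ∃ y ∈ V,
      (tt x q (b.pt N) - tt x q (c.pt N) = tt ω y (b.pt N) - tt ω y (c.pt N)) ∧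
      ∃ (p₁ : grid.Walk q y) (p₂ : grid.Walk y (c.pt N)),
        IsShortest x (p₁.append p₂) ∧ ∀ e ∈ p₂.edges, e ∉ E := by
    refine hagree.mono fun N hN => ?_
    set Y := V.filter fun y => y = q ∨ ∃ p ∈ V, s(p, y) ∈ E ∧ EdgeOn x q (c.pt N) p y with hY
    obtain ⟨y, hy, hmax⟩ := Y.exists_max_image (fun z => tt x q z)
      ⟨q, Finset.mem_filter.2 ⟨(Set.Finite.mem_toFinset _).2 hq, Or.inl rfl⟩⟩
    obtain ⟨hyV, hy'⟩ := Finset.mem_filter.1 hy
    have hyt : OnGeo x q (b.pt N) y ∧ OnGeo x q (c.pt N) y := by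
      rcases hy' with rfl | ⟨p, hp, he, hpy⟩
      · constructor <;> · unfold OnGeo; rw [tt_self hx0, zero_add]
      · exact ⟨(edgeOn_onGeo hx0 ((hN (p, y) (Finset.mem_product.2 (hV he)) he).2 hpy)).2,
          (edgeOn_onGeo hx0 hpy).2⟩
    have avoid : ∀ t, (t = b.pt N ∨ t = c.pt N) → ∀ p : grid.Walk y t, IsShortest x p →
        ∀ e ∈ p.edges, e ∉ E := by
      intro t ht p hp e he heE
      obtain ⟨s, s', hadj, r₁, r₂, rfl, rfl⟩ := exists_at_edge p he
      have hyt' : OnGeo x q t y := by rcases ht with rfl | rfl; exacts [hyt.1, hyt.2]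
      have hs := edgeOn_of_split hx0 r₁ hadj r₂ hp.2
      have hqs := edgeOn_extend hx0 hyt' hs
      have hcs : EdgeOn x q (c.pt N) s s' := by
        rcases ht with rfl | rfl
        · exact (hN (s, s') (Finset.mem_product.2 (hV heE)) heE).1 hqs
        · exact hqs
      have h1 := hmax s' (Finset.mem_filter.2 ⟨(hV heE).2, Or.inr ⟨s, (hV heE).1, heE, hcs⟩⟩)
      have h2 := (edgeOn_onGeo hx0 hqs).2
      unfold OnGeo at h2 hyt'
      linarith [hx.pos s(s, s'), hs.2, tt_nonneg hx0 (u := y) (v := s)]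
    have same : ∀ t, (t = b.pt N ∨ t = c.pt N) → tt x y t = tt ω y t := by
      intro t ht
      obtain ⟨p, hp⟩ := hx.exists_shortest hcg y t
      have h1 : wt x p = wt ω p :=
        congrArg List.sum (List.map_congr_left fun e he => hlow.off e (avoid t ht p hp e he))
      exact le_antisymm (hlow.tt_le_tt hlo hx0 _ _) (by linarith [tt_le h0 p, hp.2])
    obtain ⟨γ, hγ⟩ := hx.exists_shortest hcg q (c.pt N)
    obtain ⟨p₁, p₂, hpe⟩ :=
      SimpleGraph.Walk.mem_support_iff_exists_append.1 (hx.mem_of_onGeo hcg hγ hyt.2)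
    subst hpe
    refine ⟨y, hyV, ?_, p₁, p₂, hγ, avoid _ (Or.inr rfl) p₂ (append_shortest hx0 p₁ p₂ hγ).2⟩
    rw [← same _ (Or.inl rfl), ← same _ (Or.inr rfl), ← hyt.1, ← hyt.2]
    ring
  obtain ⟨y, hy, hfr⟩ := frequently_exists key.frequently
  have hyE := (Set.Finite.mem_toFinset _).1 hy
  refine ⟨y, hyE, ?_, hfr.mono fun N hN => hN.2⟩
  exact tendsto_nhds_unique_of_frequently_eq
    ((hbx.tendsto_bus hx0 q).sub (hcx.tendsto_bus hx0 q))
    ((hb.tendsto_bus h0 y).sub (hc.tendsto_bus h0 y)) (hfr.mono fun N hN => by linarith [hN.1])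

theorem ediff_change (hb : IsTail ω b) (hc : IsTail ω c) (hb' : IsTail x b) (hc' : IsTail x c)
    (h0 : ∀ e, 0 ≤ ω e) (hx0 : ∀ e, 0 ≤ x e) (E : Finset (Sym2 Pt))
    (heq : ∀ e, e ∉ E → x e = ω e) (p : Pt) :
    |ediff ω b c p - ediff x b c p| ≤ 2 * change E ω x := by
  have h1 := abs_le.1 (abs_bus_change hb hb' h0 hx0 E heq p)
  have h2 := abs_le.1 (abs_bus_change hc hc' h0 hx0 E heq p)
  unfold ediff
  rw [abs_le]
  constructor <;> linarith

end Vale.Agent.P158.V4
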