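import Vale.Agent.P158.V4.PairTools

/-!
P158: the pair lemma (note 1433, section 4): its hypotheses, and where the last modified site of a
geodesic can be when a deep segment and part of the upper end are lowered.
-/

namespace Vale.Agent.P158.V4

open Filter Topology

variable {bb cg : ℝ} {ω x : Cfg} {a b c d : Ray} {v : ℤ → Pt} {Sup : Set ℝ}

/-- The hypotheses of the pair lemma at the upper end. -/
structure PairHyp (bb cg : ℝ) (Sup : Set ℝ) (ω : Cfg) (a b c : Ray) (v : ℤ → Pt) : Prop where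
  good : Good bb cg ω
  cpos : 0 < cg
  elig : Eligible Sup ω
  ta : IsTail ω a
  tb : IsTail ω b
  tc : IsTail ω c
  lane : IsLane ω v
  supNonneg : ∀ t ∈ Sup, 0 ≤ t
  calib : Calib ω ⟨a, b⟩ v
  lowb : ∃ C, ∀ᶠ N in atTop, C ≤ tt ω (a.pt N) (b.pt N) - a.acc N - b.acc N
  lowc : ∃ C, ∀ᶠ N in atTop, C ≤ tt ω (a.pt N) (c.pt N) - a.acc N - c.acc N

/-- Lowering along a tail saves at least the total of any of its edges' drops. -/
theorem tail_save (hc : IsTail ω c) :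
    ∃ M, ∀ x : Cfg, (∀ e, 0 ≤ x e) → (∀ e, x e ≤ ω e) → ∀ i j, M ≤ i → i ≤ j → ∀ K : Finset ℕ, (∀ k ∈ K, i ≤ k ∧ k < j) →
      tt x (c.pt i) (c.pt j) ≤ c.acc j - c.acc i -
        ∑ k ∈ K, (ω s(c.pt k, c.pt (k + 1)) - x s(c.pt k, c.pt (k + 1))) := by
  obtain ⟨M, hM⟩ := hc.geo
  refine ⟨M, fun x hx0 hle i j hi hij K hK => ?_⟩
  obtain ⟨n, rfl⟩ := Nat.exists_eq_add_of_le hij
  obtain ⟨w, hw, -, -⟩ := exists_walk_Ico x hc.adj i n
  refine ((tt_le hx0 w).trans_eq hw).trans ?_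
  rw [← (hM i (i + n) hi hij).2]
  have := Finset.sum_le_sum_of_subset_of_nonneg
    (f := fun k => ω s(c.pt k, c.pt (k + 1)) - x s(c.pt k, c.pt (k + 1)))
    (fun k hk => Finset.mem_Ico.2 (hK k hk) : K ⊆ Finset.Ico i (i + n)) fun k _ _ => sub_nonneg.2 (hle _)
  rw [Finset.sum_sub_distrib (s := Finset.Ico i (i + n))] at this
  linarith

namespace PairHyp

theorem ediff_antitone (H : PairHyp bb cg Sup ω a b c v) {i j : ℤ} (hij : i ≤ j) :
    ediff ω b c (v j) ≤ ediff ω b c (v i) := by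
  have h1 := H.calib.up i j hij
  have h2 := H.tc.bus_le_add H.good.nonneg (v i) (v j)
  simp only at h1
  unfold ediff
  linarith

theorem ediff_mono_tail (H : PairHyp bb cg Sup ω a b c v) :
    ∃ M, ∀ i j, M ≤ i → i ≤ j → ediff ω b c (c.pt i) ≤ ediff ω b c (c.pt j) := by
  obtain ⟨M, hM⟩ := H.tc.geo
  obtain ⟨M', hM'⟩ := H.tc.bus_pt H.good.nonneg
  refine ⟨max M M', fun i j hi hij => ?_⟩
  have h1 := (hM i j (by omega) hij).1
  have h2 := H.tb.bus_le_add H.good.nonneg (c.pt i) (c.pt j)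
  unfold ediff
  rw [hM' i (by omega), hM' j (by omega)]
  linarith

end PairHyp

/-- The edge of a ray after the index `k`. -/
def rayEdge (c : Ray) (k : ℕ) : Sym2 Pt := s(c.pt k, c.pt (k + 1))

/-- A deep segment of the lane and the part above `th` of chosen edges of the upper end. -/
def upPart (v : ℤ → Pt) (c : Ray) (K K₁ : Finset ℕ) (th : ℕ) : Finset (Sym2 Pt) :=
  K.image (lowEdge v) ∪ (K₁.filter (th ≤ ·)).image (rayEdge c)

namespace PairHyp

theorem top_vertex (H : PairHyp bb cg Sup ω a b c v) (hx : Good bb cg x) {K K₁ : Finset ℕ}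
    {th M₁ ktop : ℕ} {lo hi : ℝ} (hlo : 0 < lo)
    (hgeo : ∀ i j, M₁ ≤ i → i ≤ j → tt ω (c.pt i) (c.pt j) = c.acc j - c.acc i)
    (hsave : ∀ x : Cfg, (∀ e, 0 ≤ x e) → (∀ e, x e ≤ ω e) → ∀ i j, M₁ ≤ i → i ≤ j →
      ∀ J : Finset ℕ, (∀ k ∈ J, i ≤ k ∧ k < j) →
      tt x (c.pt i) (c.pt j) ≤ c.acc j - c.acc i -
        ∑ k ∈ J, (ω s(c.pt k, c.pt (k + 1)) - x s(c.pt k, c.pt (k + 1))))
    (hK₁ : ∀ k ∈ K₁, M₁ ≤ k ∧ k ≤ ktop) (htop : ktop ∈ K₁)
    (hlow : Lowered ω x (upPart v c K K₁ th) lo hi) {q y : Pt}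
    (hy : y ∈ ends (upPart v c K K₁ th)) (hyK : y ∉ ends (K.image (lowEdge v)))
    (hfr : ∃ᶠ N in atTop, ∃ (p₁ : grid.Walk q y) (p₂ : grid.Walk y (c.pt N)),
      IsShortest x (p₁.append p₂) ∧ ∀ e ∈ p₂.edges, e ∉ upPart v c K K₁ th) :
    y = c.pt (ktop + 1) ∧ th ≤ ktop := by
  have h0 := H.good.nonneg
  have hx0 := hx.nonneg
  have hle := hlow.le hlo.le
  obtain ⟨ey, hey, hyey⟩ := hy
  obtain ⟨k, hk, hyk⟩ : ∃ k ∈ K₁.filter (th ≤ ·), y = c.pt k ∨ y = c.pt (k + 1) := by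
    rcases Finset.mem_union.1 hey with h | h
    · exact absurd ⟨ey, h, hyey⟩ hyK
    · obtain ⟨k, hk, rfl⟩ := Finset.mem_image.1 h
      exact ⟨k, hk, Sym2.mem_iff.1 hyey⟩
  obtain ⟨hk1, hk2⟩ := Finset.mem_filter.1 hk
  obtain ⟨hM, hkt⟩ := hK₁ k hk1
  refine ⟨?_, hk2.trans hkt⟩
  obtain ⟨j, hjy, hjM, hjt⟩ : ∃ j, y = c.pt j ∧ M₁ ≤ j ∧ j ≤ ktop + 1 := by
    rcases hyk with h | h
    · exact ⟨k, h, hM, by omega⟩
    · exact ⟨k + 1, h, by omega, by omega⟩
  rcases hjt.lt_or_eq with hlt | rfl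
  swap
  · exact hjy
  exfalso
  -- the segment of `c` above `y` saves at the top edge
  have htopmem : rayEdge c ktop ∈ upPart v c K K₁ th := Finset.mem_union_right _
    (Finset.mem_image_of_mem _ (Finset.mem_filter.2 ⟨htop, hk2.trans hkt⟩))
  obtain ⟨N, ⟨p₁, p₂, hsh, hav⟩, hN⟩ :=
    (hfr.and_eventually (eventually_ge_atTop (ktop + 1))).exists
  obtain ⟨-, hp2⟩ := append_shortest hx0 p₁ p₂ hsh
  have hw2 : wt x p₂ = wt ω p₂ :=
    congrArg List.sum (List.map_congr_left fun e he => hlow.off e (hav e he))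
  have hge : c.acc N - c.acc j ≤ wt ω p₂ := by
    have := tt_le h0 p₂
    rw [← hgeo j N hjM (by omega), ← hjy]
    exact this
  have hsum := hsave x hx0 hle j N hjM (by omega) {ktop} (fun k hk => by
    rw [Finset.mem_singleton] at hk; omega)
  rw [Finset.sum_singleton, ← hjy] at hsum
  have h2 := (hlow.mem _ htopmem).1
  simp only [rayEdge] at h2
  linarith [hp2.2]

/-- With all chosen edges lowered, the last modified site is not on the deep segment. -/
theorem low_vertex (H : PairHyp bb cg Sup ω a b c v) (hx : Good bb cg x) {K K₁ : Finset ℕ}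
    {bot M₁ : ℕ} {lo hi e₀ Cc : ℝ} (hlo : 0 < lo) (hhi : lo ≤ hi)
    (hCc : ∀ᶠ N in atTop, Cc ≤ tt ω (a.pt N) (c.pt N) - a.acc N - c.acc N)
    (hD : DeepOK ω v K (K₁.image (rayEdge c)) bot lo hi e₀)
    (he₀ : bus ω a (v 0) + bus ω c (v 0) - Cc + 1 ≤ e₀)
    (hsave : ∀ x : Cfg, (∀ e, 0 ≤ x e) → (∀ e, x e ≤ ω e) → ∀ i j, M₁ ≤ i → i ≤ j →
      ∀ J : Finset ℕ, (∀ k ∈ J, i ≤ k ∧ k < j) →
      tt x (c.pt i) (c.pt j) ≤ c.acc j - c.acc i -
        ∑ k ∈ J, (ω s(c.pt k, c.pt (k + 1)) - x s(c.pt k, c.pt (k + 1))))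
    (hK₁ : ∀ k ∈ K₁, M₁ ≤ k)
    (hn : tt ω (v 0) (c.pt M₁) - c.acc M₁ + bus ω a (v 0) - Cc + 1 < K₁.card * lo)
    (hlow : Lowered ω x (upPart v c K K₁ 0) lo hi) {i : ℤ} {m : ℕ} (hm : m ∈ K)
    (hi' : i = -(m : ℤ) - 1 ∨ i = -(m : ℤ))
    (hfr : ∃ᶠ N in atTop, ∃ (p₁ : grid.Walk (v (-(bot : ℤ))) (v i))
      (p₂ : grid.Walk (v i) (c.pt N)), IsShortest x (p₁.append p₂) ∧
        ∀ e ∈ p₂.edges, e ∉ upPart v c K K₁ 0) : False := by
  classical
  have h0 := H.good.nonneg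
  have hx0 := hx.nonneg
  have hle := hlow.le hlo.le
  set q := v (-(bot : ℤ)) with hq
  set D := ∑ e ∈ K.image (lowEdge v), (ω e - x e) with hD'
  set E₁ := K₁.image (rayEdge c) with hE₁
  have hcases : ∀ e ∈ upPart v c K K₁ 0, (∃ m ∈ K, e = lowEdge v m) ∨ e ∈ E₁ := by
    intro e he
    rcases Finset.mem_union.1 he with h | h <;> obtain ⟨m, hm, rfl⟩ := Finset.mem_image.1 h
    · exact Or.inl ⟨m, hm, rfl⟩
    · exact Or.inr (Finset.mem_image_of_mem _ (Finset.mem_filter.1 hm).1)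
  have hroute : ∀ᶠ N in atTop, tt x q (c.pt N) ≤ tt ω q (v 0) - D + tt ω (v 0) (c.pt M₁) +
      (c.acc N - c.acc M₁ - K₁.card * lo) ∧ tt x q (c.pt N) ≤ tt ω q (v 0) + tt ω (v 0) (c.pt N) := by
    refine (eventually_ge_atTop (M₁ + K₁.sup id + 1)).mono fun N hN => ?_
    have hsl := H.lane.tt_save_low h0 hx0 hle (Nat.zero_le bot) (K := K)
      fun m hm => ⟨Nat.zero_le _, hD.below m hm⟩
    rw [show v (-((0 : ℕ) : ℤ)) = v 0 by simp, ← hq] at hsl
    have hsum : D = ∑ m ∈ K, (ω (lowEdge v m) - x (lowEdge v m)) :=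
      Finset.sum_image fun m _ m' _ h => H.lane.lowEdge_injective h
    have h1 := tt_triangle hx0 q (v 0) (c.pt N)
    have h2 := tt_triangle hx0 (v 0) (c.pt M₁) (c.pt N)
    have h3 := hlow.tt_le_tt hlo.le hx0 (v 0) (c.pt M₁)
    have h4 := hlow.tt_le_tt hlo.le hx0 q (v 0)
    have h5 := hlow.tt_le_tt hlo.le hx0 (v 0) (c.pt N)
    have h6 : tt x (c.pt M₁) (c.pt N) ≤ c.acc N - c.acc M₁ - K₁.card * lo := by
      have hsub : ∀ k ∈ K₁, M₁ ≤ k ∧ k < N := fun k hk =>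
        ⟨hK₁ k hk, by have := Finset.le_sup (f := id) hk; simp only [id_eq] at this; omega⟩
      have hs : (K₁.card : ℝ) * lo ≤ ∑ k ∈ K₁, (ω (rayEdge c k) - x (rayEdge c k)) := by
        rw [← nsmul_eq_mul]
        refine Finset.card_nsmul_le_sum _ _ _ fun k hk => ?_
        have hmem : rayEdge c k ∈ upPart v c K K₁ 0 := Finset.mem_union_right _
          (Finset.mem_image_of_mem _ (Finset.mem_filter.2 ⟨hk, Nat.zero_le _⟩))
        linarith [(hlow.mem _ hmem).1]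
      simp only [rayEdge] at hs
      have := hsave x hx0 hle M₁ N le_rfl (by omega) K₁ hsub
      linarith
    constructor <;> linarith
  have hlimA : Tendsto (fun N => tt ω q (c.pt N) - c.acc N) atTop (𝓝 (bus ω c q)) :=
    H.tc.tendsto_bus h0 q
  have hlow_c : Cc ≤ bus ω a q + bus ω c q :=
    ge_of_tendsto ((H.ta.tendsto_bus h0 q).add (H.tc.tendsto_bus h0 q)) (hCc.mono fun N hN => by
      linarith [tt_triangle h0 (a.pt N) q (c.pt N), tt_comm h0 (a.pt N) q])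
  have haq : bus ω a (v 0) = bus ω a q + tt ω q (v 0) := by
    have := H.calib.lo (-(bot : ℤ)) 0 (by omega)
    simpa [hq] using this
  have hlow_y : Cc ≤ bus ω a (v i) + bus ω c (v i) :=
    ge_of_tendsto ((H.ta.tendsto_bus h0 (v i)).add (H.tc.tendsto_bus h0 (v i)))
      (hCc.mono fun N hN => by
        linarith [tt_triangle h0 (a.pt N) (v i) (c.pt N), tt_comm h0 (a.pt N) (v i)])
  have hay : bus ω a (v 0) = bus ω a (v i) + tt ω (v i) (v 0) :=
    H.calib.lo i 0 (by rcases hi' with rfl | rfl <;> omega)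
  have hbu : ∀ᶠ N in atTop, bus ω c q - 1 / 4 < tt ω q (c.pt N) - c.acc N ∧
      bus ω c (v i) - 1 / 4 < tt ω (v i) (c.pt N) - c.acc N ∧
      tt ω (v 0) (c.pt N) - c.acc N < bus ω c (v 0) + 1 / 4 := by
    filter_upwards [hlimA.eventually_const_lt (sub_lt_self _ (by norm_num : (0 : ℝ) < 1 / 4)),
      (H.tc.tendsto_bus h0 (v i)).eventually_const_lt (sub_lt_self _ (by norm_num : (0 : ℝ) < 1 / 4)),
      (H.tc.tendsto_bus h0 (v 0)).eventually_lt_const (lt_add_of_pos_right _ (by norm_num : (0 : ℝ) < 1 / 4))]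
      with N h1 h2 h3 using ⟨h1, h2, h3⟩
  obtain ⟨N, ⟨p₁, p₂, hsh, hav⟩, ⟨hN1, hN2⟩, ⟨hb1, hb2, hb3⟩⟩ :=
    (hfr.and_eventually (hroute.and hbu)).exists
  by_cases hp : ∃ p ∈ p₁.support, p ∈ ends E₁
  · obtain ⟨p, hpp, hpE⟩ := hp
    have hd := hD.deep m hm p hpE i hi'
    have h1 := wt_append (ω := ω) (p₁.takeUntil p hpp) (p₁.dropUntil p hpp)
    rw [SimpleGraph.Walk.take_spec] at h1
    have h2 := tt_le h0 (p₁.takeUntil p hpp)
    have h3 := tt_le h0 (p₁.dropUntil p hpp)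
    have h4 := tt_le h0 p₂
    have h5 := abs_le.1 (wt_le_change (upPart v c K K₁ 0) hlow.off _ hsh.1)
    have h6 := hlow.change_le hlo.le
    have hcard : (upPart v c K K₁ 0).card ≤ K.card + E₁.card := by
      refine (Finset.card_union_le _ _).trans (Nat.add_le_add Finset.card_image_le ?_)
      exact Finset.card_le_card (Finset.image_subset_image (Finset.filter_subset _ _))
    have h7 : ((upPart v c K K₁ 0).card : ℝ) * hi ≤ (K.card + E₁.card : ℕ) * hi :=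
      mul_le_mul_of_nonneg_right (Nat.cast_le.2 hcard) (hlo.le.trans hhi)
    have h8 := tt_triangle h0 q p (v 0)
    have h9 := tt_triangle h0 (v i) p (v 0)
    have h10 := tt_comm h0 (v i) p
    have h11 := tt_comm h0 p (v 0)
    have h12 := hsh.2
    rw [wt_append] at h12 h5
    rw [wt_append] at h5
    linarith
  · push Not at hp
    have hs : wt ω (p₁.append p₂) ≤ wt x (p₁.append p₂) + D :=
      wt_save_le hle _ hsh.1 fun e he hnot => hlow.off e fun hm => by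
        rcases hcases e hm with ⟨m, hm', rfl⟩ | h1
        · exact hnot (Finset.mem_image_of_mem _ hm')
        · rw [SimpleGraph.Walk.edges_append, List.mem_append] at he
          rcases he with he | he
          · induction e using Sym2.ind with
            | _ s t => exact hp s (p₁.fst_mem_support_of_mem_edges he) ⟨_, h1, Sym2.mem_mk_left _ _⟩
          · exact hav e he hm
    have h1 := tt_le h0 (p₁.append p₂)
    have h2 := hsh.2
    linarith

end PairHyp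

end Vale.Agent.P158.V4
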