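import Vale.Agent.P158.V4.StripShape

/-!
P158: the averaged strip increments have mean at most the horizontal slope of the supporting
functionals.
-/

namespace Vale.Agent.P158.V4

open MeasureTheory Filter Topology

variable {μ : ℝ × ℝ → ℝ} {b : ℝ} {ω : Cfg}

variable (G : Measure ℝ) [IsProbabilityMeasure G]

theorem ttIn_strip_integrable (hG : ∀ᵐ t ∂G, 0 < t ∧ t ≤ b) (L : ℕ) (x y : ℤ) :
    Integrable (fun ω : Cfg => ttIn (strip 0 L) ω (x, 0) (y, (L : ℤ))) (law G) := by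
  refine Integrable.of_bound (measurable_ttIn _ _ _).aestronglyMeasurable
    (l1 (x, 0) (y, (L : ℤ)) * b) ?_
  filter_upwards [good_ae G hG] with ω hω
  have h0 : ∀ e, 0 ≤ ω e := fun e => (hω e).1.le
  rw [Real.norm_eq_abs, abs_of_nonneg (ttIn_nonneg h0 _ _ _)]
  refine ttIn_le_l1 h0 (fun e => (hω e).2) _ _ fun z hz hz' => ?_
  rw [mem_strip]
  dsimp only at hz hz'
  omega

theorem integral_inc (hG : ∀ᵐ t ∂G, 0 < t ∧ t ≤ b) (k2 k3 : ℝ) (L : ℕ) :
    ∫ ω, inc k2 k3 L ω (0, 0) ∂law G =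
      (∫ ω, (ttIn (strip 0 L) ω (0, 0) (winL k2 L + winN k2 k3 L, (L : ℤ)) -
        ttIn (strip 0 L) ω (0, 0) (winL k2 L, (L : ℤ))) ∂law G) / winN k2 k3 L := by
  set f : ℤ → ℝ := fun a => ∫ ω, ttIn (strip 0 L) ω (0, 0) (a, (L : ℤ)) ∂law G with hf
  have key : ∀ a : ℤ, ∫ ω, ttIn (strip 0 L) ω (1, 0) (a + 1, (L : ℤ)) ∂law G = f a := by
    intro a
    have hmp := shift_preserving G (1, 0)
    simp only [hf]
    conv_rhs => rw [← hmp.map_eq]
    rw [integral_map hmp.measurable.aemeasurable (measurable_ttIn _ _ _).aestronglyMeasurable]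
    refine integral_congr_ae (ae_of_all _ fun ω => ?_)
    simp [ttIn_strip_shift]
  have hi := ttIn_strip_integrable (b := b) G hG L
  simp only [inc]
  rw [integral_div]
  congr 1
  simp only [zero_add]
  rw [integral_finsetSum (Finset.range (winN k2 k3 L))
    fun i _ => (hi 0 (winL k2 L + i + 1)).sub' (hi 1 (winL k2 L + i + 1))]
  have hterm : ∀ i : ℕ, (∫ ω, (ttIn (strip 0 L) ω (0, 0) (winL k2 L + i + 1, (L : ℤ)) -
      ttIn (strip 0 L) ω (1, 0) (winL k2 L + i + 1, (L : ℤ))) ∂law G) =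
      f (winL k2 L + (i + 1 : ℕ)) - f (winL k2 L + i) := by
    intro i
    rw [integral_sub (hi 0 _) (hi 1 _), key, Nat.cast_succ, ← add_assoc]
  rw [Finset.sum_congr rfl fun i _ => hterm i,
    Finset.sum_range_sub (fun i : ℕ => f (winL k2 L + i)), Nat.cast_zero, add_zero,
    integral_sub (hi 0 _) (hi 0 _)]

theorem low_le_of_eventually (hb0 : 0 ≤ b) {k2 k3 a : ℝ}
    (hev : ∀ᶠ L : ℕ in atTop, ∫ ω, cinc k2 k3 b L ω (0, 0) ∂law G ≤ a) :
    ∫ ω, low k2 k3 b ω (0, 0) ∂law G ≤ a := by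
  obtain ⟨L0, hL0⟩ := eventually_atTop.1 hev
  have hbd : ∀ k (ω : Cfg), ‖⨅ j, cinc k2 k3 b (k + j) ω (0, 0)‖ ≤ b := fun k ω => by
    rw [Real.norm_eq_abs, abs_le]
    exact ⟨le_ciInf fun j => neg_le_of_abs_le (abs_cinc_le hb0 _ ω _),
      (ciInf_le (bddBelow_cinc k ω _) 0).trans (le_of_abs_le (abs_cinc_le hb0 _ ω _))⟩
  have hint : ∀ k, Integrable (fun ω => ⨅ j, cinc k2 k3 b (k + j) ω (0, 0)) (law G) := fun k =>
    Integrable.of_bound (Measurable.iInf fun _ => measurable_cinc _ _).aestronglyMeasurable b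
      (ae_of_all _ (hbd k))
  have hlim : Tendsto (fun k => ∫ ω, ⨅ j, cinc k2 k3 b (k + j) ω (0, 0) ∂law G) atTop
      (𝓝 (∫ ω, low k2 k3 b ω (0, 0) ∂law G)) := by
    refine tendsto_integral_of_dominated_convergence (fun _ => b)
      (fun k => (hint k).aestronglyMeasurable) (integrable_const b)
      (fun k => ae_of_all _ (hbd k)) (ae_of_all _ fun ω => ?_)
    refine tendsto_atTop_ciSup (fun i j hij => le_ciInf fun l => ?_) (bddAbove_inf_cinc hb0 ω _)
    refine (ciInf_le (bddBelow_cinc i ω _) (j + l - i)).trans_eq ?_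
    rw [show i + (j + l - i) = j + l by omega]
  refine le_of_tendsto hlim (Eventually.of_forall fun k => ?_)
  exact le_trans (integral_mono (hint k) (Integrable.of_bound
    (measurable_cinc (k + L0) _).aestronglyMeasurable b
    (ae_of_all _ fun ω => by rw [Real.norm_eq_abs]; exact abs_cinc_le hb0 _ ω _))
    fun ω => ciInf_le (bddBelow_cinc k ω _) L0) (hL0 (k + L0) (by omega))

/-- The mean of an averaged increment when the shape bound holds with large probability. -/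
theorem inc_mean_le (hG : ∀ᵐ t ∂G, 0 < t ∧ t ≤ b) (hμ : IsLatticeNorm μ) {ε r R c a κ' k2 k3 : ℝ}
    (hε : 0 ≤ ε) (hεc : ε ≤ c / 4) (hc : ∀ x y, c * (|x| + |y|) ≤ μ (x, y))
    (hsup : ∀ s ρ, |s| ≤ κ' → Supports μ (s, 1) ρ → |ρ.1| ≤ a) (ha : a < μ (1, 0)) (ha0 : 0 ≤ a)
    {L M n : ℕ} {P : ℤ} (hPe : winL k2 L = P) (hne : winN k2 k3 L = n) (hn : 0 < n)
    (hP : 0 ≤ P) (hrR : r ≤ R) (hR : ((P + n : ℤ) : ℝ) + L ≤ R) (hM : 2 * M < L)
    (hslope : ((P + n : ℤ) : ℝ) ≤ κ' * ((L : ℝ) - 2 * M))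
    (hball : μ (1, 0) * (((P + n : ℤ) : ℝ) + L) + c * M + 1 ≤ c / 2 * R)
    (hgap : 3 * ε * R + 1 < 2 * (μ (1, 0) - a) * M) :
    ∫ ω, cinc k2 k3 b L ω (0, 0) ∂law G ≤
      (a * n + ((2 * b + 2 * μ (1, 0)) * M + 2 * ε * R + 1) +
        (law G).real {ω | ¬ Shape μ ε r ω (0, 0)} * (b * R)) / n := by
  have hb0 := b_nonneg G hG
  have hcong : ∫ ω, cinc k2 k3 b L ω (0, 0) ∂law G = ∫ ω, inc k2 k3 L ω (0, 0) ∂law G :=
    integral_congr_ae (by
      filter_upwards [good_ae G hG] with ω hω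
      exact cinc_eq (fun e => (hω e).1.le) (fun e => (hω e).2) hb0 L _)
  rw [hcong, integral_inc G hG, hPe, hne]
  refine div_le_div_of_nonneg_right ?_ (Nat.cast_nonneg n)
  set E := (2 * b + 2 * μ (1, 0)) * M + 2 * ε * R + 1
  set bad := {ω : Cfg | ¬ Shape μ ε r ω (0, 0)}
  have hbad' : MeasurableSet bad := (measurableSet_shape (μ := μ) hε r (0, 0)).compl
  have hi := ttIn_strip_integrable (b := b) G hG L 0
  have hR0 : 0 ≤ R := le_trans (by positivity) hR
  have hm := hμ.axis_pos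
  have hE : 0 ≤ a * n + E := by positivity
  refine le_trans (integral_mono_ae (g := fun ω => a * n + E + bad.indicator (fun _ => b * R) ω)
    ((hi _).sub' (hi P)) ((integrable_const _).add ((integrable_const _).indicator hbad')) ?_) ?_
  · filter_upwards [good_ae G hG] with ω hω
    have h0 : ∀ e, 0 ≤ ω e := fun e => (hω e).1.le
    by_cases hω' : ω ∈ bad
    · rw [Set.indicator_of_mem hω']
      have h1 : ttIn (strip 0 L) ω (0, 0) (P + n, (L : ℤ)) ≤ b * R := by
        refine (ttIn_le_l1 h0 (fun e => (hω e).2) _ _ fun z hz hz' => ?_).trans ?_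
        · rw [mem_strip]
          dsimp only at hz hz'
          omega
        · rw [l1_origin, mul_comm]
          refine mul_le_mul_of_nonneg_left ?_ hb0
          simp only [Int.cast_natCast, Nat.abs_cast]
          rwa [abs_of_nonneg (by exact_mod_cast (by omega : (0 : ℤ) ≤ P + n))]
      linarith [ttIn_nonneg h0 (strip 0 (L : ℤ)) (0, 0) (P, (L : ℤ))]
    · rw [Set.indicator_of_notMem hω', add_zero]
      exact window_le hμ h0 (fun e => (hω e).2) (not_not.1 hω') hε hεc hc hsup ha hP hrR hR hM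
        hslope hball hgap
  · rw [integral_add (integrable_const _) ((integrable_const _).indicator hbad'), integral_const,
      probReal_univ, one_smul, integral_indicator_const _ hbad', smul_eq_mul]

theorem low_mean_le (hG : ∀ᵐ t ∂G, 0 < t ∧ t ≤ b) (hμ : IsLatticeNorm μ)
    (hshape : ∀ ε > 0, Tendsto (fun r : ℕ => law G {ω | ¬ Shape μ ε r ω (0, 0)}) atTop (𝓝 0))
    {a κ' k2 k3 : ℝ} (h2 : 0 ≤ k2) (h23 : k2 < k3) (h3 : k3 < κ')
    (ha : a < μ (1, 0)) (hsup : ∀ s ρ, |s| ≤ κ' → Supports μ (s, 1) ρ → |ρ.1| ≤ a) :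
    ∫ ω, low k2 k3 b ω (0, 0) ∂law G ≤ a := by
  have hb0 := b_nonneg G hG
  refine le_of_forall_pos_le_add fun γ hγ => low_le_of_eventually G hb0 ?_
  obtain ⟨c, hc, hpos⟩ := hμ.pos
  set m := μ (1, 0)
  have hm := hμ.axis_pos
  have hκ : 0 < κ' := by linarith
  have ha0 : 0 ≤ a := by
    obtain ⟨ρ, hρ⟩ := hμ.exists_supports (0, 1)
    exact (abs_nonneg ρ.1).trans (hsup 0 ρ (by simpa using hκ.le) hρ)
  have hma : 0 < m - a := sub_pos.2 ha
  have hk : 0 < k3 - k2 := sub_pos.2 h23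
  have hk' : 0 < κ' - k3 := sub_pos.2 h3
  set q := k3 + 1
  have hq : 0 < q := by simp only [q]; linarith
  set C := max (q + 1) (4 * (m * (q + 1) + c + 1) / c)
  have hC : 0 < C := lt_of_lt_of_le (by linarith) (le_max_left _ _)
  have hC' : m * (q + 1) + c + 1 ≤ c / 4 * C := by
    have := (div_le_iff₀ hc).1 (le_max_right (q + 1) (4 * (m * (q + 1) + c + 1) / c))
    linarith
  set w := γ * (k3 - k2) / 2
  have hw : 0 < w := by positivity
  set δ := min ((κ' - k3) / (4 * κ')) (w / (4 * (2 * b + 2 * m)))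
  have hδ : 0 < δ := lt_min (by positivity) (by positivity)
  set ε := min (c / 4) (min ((m - a) * δ / (3 * C)) (w / (8 * C)))
  have hε : 0 < ε := lt_min (by positivity) (lt_min (by positivity) (by positivity))
  set π := w / (4 * (b * C + 1))
  have hbC : 0 ≤ b * C := mul_nonneg hb0 hC.le
  have hπ : 0 < π := by positivity
  obtain ⟨r, hr⟩ : ∃ r : ℕ, (law G).real {ω | ¬ Shape μ ε r ω (0, 0)} ≤ π := by
    obtain ⟨r, hr⟩ := ((hshape ε hε).eventually_le_const (ENNReal.ofReal_pos.2 hπ)).exists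
    exact ⟨r, ENNReal.toReal_le_of_le_ofReal hπ.le hr⟩
  obtain ⟨N, hN⟩ := exists_nat_ge (max (max ((r : ℝ) / C) (2 / ((m - a) * δ)))
    (max (max (2 * (2 * κ' + 2) / (κ' - k3)) (4 * (2 * b + 2 * m + 1) / w))
      (max (2 / (k3 - k2)) 1)))
  refine eventually_atTop.2 ⟨N + 1, fun L hL => ?_⟩
  have hNL : (N : ℝ) ≤ L := by exact_mod_cast (show N ≤ L by omega)
  simp only [max_le_iff] at hN
  obtain ⟨⟨t1, t2⟩, ⟨t3, t4⟩, t5, t6⟩ := hN
  have g1 : (r : ℝ) ≤ L * C := (div_le_iff₀ hC).1 (t1.trans hNL)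
  have g2 : 2 ≤ L * ((m - a) * δ) := (div_le_iff₀ (mul_pos hma hδ)).1 (t2.trans hNL)
  have g3 : 2 * (2 * κ' + 2) ≤ L * (κ' - k3) := (div_le_iff₀ hk').1 (t3.trans hNL)
  have g4 : 4 * (2 * b + 2 * m + 1) ≤ L * w := (div_le_iff₀ hw).1 (t4.trans hNL)
  have g5 : 2 ≤ L * (k3 - k2) := (div_le_iff₀ hk).1 (t5.trans hNL)
  have g6 : (1 : ℝ) ≤ L := t6.trans hNL
  have dκ : δ * (4 * κ') ≤ κ' - k3 := (le_div_iff₀ (by positivity)).1 (min_le_left _ _)
  have dw : δ * (4 * (2 * b + 2 * m)) ≤ w := (le_div_iff₀ (by positivity)).1 (min_le_right _ _)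
  have eg : ε * (3 * C) ≤ (m - a) * δ :=
    (le_div_iff₀ (by positivity)).1 ((min_le_right _ _).trans (min_le_left _ _))
  have ew : ε * (8 * C) ≤ w :=
    (le_div_iff₀ (by positivity)).1 ((min_le_right _ _).trans (min_le_right _ _))
  have pw : π * (4 * (b * C + 1)) = w := div_mul_cancel₀ _ (by positivity)
  set P := winL k2 L with hPdef
  set n := winN k2 k3 L with hndef
  set Q : ℤ := P + n with hQdef
  have hP1 : k2 * L ≤ (P : ℝ) := Int.le_ceil _
  have hP2 : (P : ℝ) < k2 * L + 1 := Int.ceil_lt_add_one _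
  have hQe : Q = ⌈k3 * L⌉ := by
    have : ⌈k2 * L⌉ ≤ ⌈k3 * L⌉ :=
      Int.ceil_le_ceil (mul_le_mul_of_nonneg_right h23.le (by linarith))
    simp only [hQdef, hPdef, hndef, winL, winN]
    omega
  have hQ1 : k3 * L ≤ (Q : ℝ) := by rw [hQe]; exact Int.le_ceil _
  have hQ2 : (Q : ℝ) < k3 * L + 1 := by rw [hQe]; exact Int.ceil_lt_add_one _
  have hQn : (Q : ℝ) = P + n := by simp [hQdef]
  have hP0 : (0 : ℝ) ≤ P := le_trans (by positivity) hP1
  have hn : (k3 - k2) * L / 2 ≤ (n : ℝ) := by linarith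
  have hn0 : (0 : ℝ) < n := by linarith
  set M : ℕ := ⌊δ * L⌋₊ + 1 with hMdef
  have hM1 : δ * L ≤ (M : ℝ) := by
    rw [hMdef]
    push_cast
    exact (Nat.lt_floor_add_one _).le
  have hM2 : (M : ℝ) ≤ δ * L + 1 := by
    rw [hMdef]
    push_cast
    linarith [Nat.floor_le (show 0 ≤ δ * (L : ℝ) by positivity)]
  have hslope : (Q : ℝ) ≤ κ' * ((L : ℝ) - 2 * M) := by
    have x1 := mul_le_mul_of_nonneg_left hM2 hκ.le
    have x2 := mul_le_mul_of_nonneg_right dκ (show (0 : ℝ) ≤ L by linarith)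
    linarith
  have hQ0 : (0 : ℝ) ≤ Q := by linarith
  have hML : 2 * M < L := by
    have hk3 : 0 < k3 := by linarith
    have hQp : (0 : ℝ) < Q := lt_of_lt_of_le (mul_pos hk3 (by linarith)) hQ1
    have : (2 * M : ℝ) < L := by
      by_contra hcon
      have := mul_le_mul_of_nonneg_left (not_lt.1 hcon) hκ.le
      linarith
    exact_mod_cast this
  have hQL : (Q : ℝ) + L ≤ (q + 1) * L := by simp only [q]; linarith
  have hCq := mul_le_mul_of_nonneg_right (le_max_left (q + 1) (4 * (m * (q + 1) + c + 1) / c))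
    (show (0 : ℝ) ≤ L by linarith)
  have hball : m * ((Q : ℝ) + L) + c * M + 1 ≤ c / 2 * (C * L) := by
    have hML' : (M : ℝ) ≤ L := by exact_mod_cast (show M ≤ L by omega)
    have x1 := mul_le_mul_of_nonneg_left hQL hm.le
    have x2 := mul_le_mul_of_nonneg_left hML' hc.le
    have x3 := mul_le_mul_of_nonneg_right hC' (show (0 : ℝ) ≤ L by linarith)
    have x4 : 0 ≤ c * C * L := by positivity
    linarith
  have hgap : 3 * ε * (C * L) + 1 < 2 * (m - a) * M := by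
    have x1 := mul_le_mul_of_nonneg_left hM1 hma.le
    have x2 := mul_le_mul_of_nonneg_right eg (show (0 : ℝ) ≤ L by linarith)
    linarith
  refine (inc_mean_le G hG hμ (R := C * L) hε.le (min_le_left _ _) hpos hsup ha ha0 hPdef.symm
    hndef.symm (by exact_mod_cast hn0) (by exact_mod_cast hP0)
    (show ((r : ℕ) : ℝ) ≤ C * L by linarith) (by rw [← hQdef]; linarith) hML (by rwa [← hQdef])
    (by rwa [← hQdef]) hgap).trans ?_
  rw [div_le_iff₀ hn0]
  have x1 := mul_le_mul_of_nonneg_right dw (show (0 : ℝ) ≤ L by linarith)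
  have x2 := mul_le_mul_of_nonneg_left hM2 (show 0 ≤ 2 * b + 2 * m by linarith)
  have x3 := mul_le_mul_of_nonneg_right ew (show (0 : ℝ) ≤ L by linarith)
  have x4 := mul_le_mul_of_nonneg_right hr (show 0 ≤ b * (C * (L : ℝ)) by positivity)
  have x5 : π * (b * (C * L)) ≤ w * L / 4 := by
    have x6 : 0 ≤ π * (L : ℝ) := by positivity
    have x7 : π * (4 * (b * C + 1)) * L = w * L := by rw [pw]
    linarith
  have x8 : w * L ≤ γ * n := by
    calc w * L = γ * ((k3 - k2) * L / 2) := by simp only [w]; ring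
      _ ≤ γ * n := mul_le_mul_of_nonneg_left hn hγ.le
  linarith

end Vale.Agent.P158.V4
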