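import Vale.Agent.P158.V4.Interfaces
import Vale.Agent.P158.V4.Regular
import Vale.Agent.P158.V4.TiltProb

/-!
P158: the swap inequality (note 1433, section 3), deterministic part: routes through two lines,
comparison of Busemann functions of two configurations inside the cone of a steered site, and the
comparison of the profiles of two centres on one line.
-/

namespace Vale.Agent.P158.V4

open MeasureTheory Filter Topology

variable {ω ω' : Cfg} {r : Ray} {L L₁ L₂ : Lab} {S : Set Pt}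

theorem linked_univ : Linked (Set.univ : Set Pt) :=
  fun u _ v _ => ⟨(exists_short u v).choose, fun _ _ => Set.mem_univ _⟩

theorem ttIn_univ (h0 : ∀ e, 0 ≤ ω e) (u v : Pt) : ttIn Set.univ ω u v = tt ω u v :=
  le_antisymm (le_tt fun p => ttS_le h0 p fun _ _ => Set.mem_univ _)
    (tt_le_ttS h0 linked_univ (Set.mem_univ u) (Set.mem_univ v))

theorem busIn_univ (h0 : ∀ e, 0 ≤ ω e) (r : Ray) (u : Pt) : busIn Set.univ ω r u = bus ω r u := by
  simp only [busIn, bus, ttIn_univ h0]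

theorem Falls.eventually_lower (hr : Falls r) (h : ℤ) : ∀ᶠ n in atTop, r.pt n ∈ lower h :=
  (tendsto_atBot.1 hr h).mono fun _ hn => hn

/-- The cost of passing the levels `hb` at `y` and `ht` at `x`. -/
noncomputable def route (ω : Cfg) (L : Lab) (hb ht : ℤ) (y x : Pt) : ℝ :=
  busIn (lower hb) ω L.lo y + tt ω y x + busIn (upper ht) ω L.up x

theorem total_le_route (hL : IsLab ω L) (h0 : ∀ e, 0 ≤ ω e) (hB : Bounded ω L) {hb ht : ℤ}
    {y x : Pt} (hy : y ∈ lower hb) (hx : x ∈ upper ht) : total ω L ≤ route ω L hb ht y x := by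
  have h1 := hL.lo.bus_le_busIn h0 (S := lower hb) (linked_lower hb) (hL.falls.eventually_lower hb) hy
  have h2 := hL.up.bus_le_busIn h0 (S := upper ht) (linked_upper ht) (hL.rises.eventually_upper ht) hx
  have h3 := hL.up.bus_le_add h0 y x
  have h4 := hL.total_le_gsum h0 hB y
  unfold gsum at h4
  unfold route
  linarith

/-- A lane of one label and a route of the other cheaper by `Δ` move one of the two differences of
increments by `Δ`. -/
theorem swap_bound {hb ht : ℤ} {y₁ x₁ y₂ x₂ : Pt} {Δ : ℝ}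
    (h1 : route ω L₁ hb ht y₁ x₁ ≤ route ω L₁ hb ht y₂ x₂)
    (h2 : route ω L₂ hb ht y₂ x₂ + Δ ≤ route ω L₂ hb ht y₁ x₁) :
    Δ ≤ |(busIn (lower hb) ω L₂.lo y₁ - busIn (lower hb) ω L₁.lo y₁) -
          (busIn (lower hb) ω L₂.lo y₂ - busIn (lower hb) ω L₁.lo y₂)| +
        |(busIn (upper ht) ω L₂.up x₁ - busIn (upper ht) ω L₁.up x₁) -
          (busIn (upper ht) ω L₂.up x₂ - busIn (upper ht) ω L₁.up x₂)| := by
  refine le_trans ?_ (add_le_add (le_abs_self _) (le_abs_self _))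
  unfold route at h1 h2
  linarith

/-- A monotone function varies most over the whole window. -/
theorem abs_sub_le_window {f : ℤ → ℝ} (hf : Monotone f ∨ Antitone f) {a b x x' : ℤ}
    (hx : x ∈ Set.Icc a b) (hx' : x' ∈ Set.Icc a b) : |f x - f x'| ≤ |f b - f a| := by
  rcases hf with hf | hf
  · refine le_trans ?_ (le_abs_self _)
    have := hf hx.1; have := hf hx.2; have := hf hx'.1; have := hf hx'.2
    rw [abs_le]; constructor <;> linarith
  · rw [abs_sub_comm (f b)]
    refine le_trans ?_ (le_abs_self _)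
    have := hf hx.1; have := hf hx.2; have := hf hx'.1; have := hf hx'.2
    rw [abs_le]; constructor <;> linarith

theorem ttIn_split_le (h0 : ∀ e, 0 ≤ ω e) {u v z : Pt} (p : grid.Walk u v)
    (hp : ∀ w ∈ p.support, w ∈ S) (hz : z ∈ p.support) :
    ttIn S ω u z + ttIn S ω z v ≤ wt ω p := by
  classical
  conv_rhs => rw [← p.take_spec hz, wt_append]
  exact add_le_add (ttS_le h0 _ fun w hw => hp w (p.support_takeUntil_subset hz hw))
    (ttS_le h0 _ fun w hw => hp w (p.support_dropUntil_subset hz hw))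

theorem wt_le_wt_of_support {Sc : Set Pt}
    (hle : ∀ a c, a ∈ Sc → c ∈ Sc → grid.Adj a c → ω' s(a, c) ≤ ω s(a, c)) {u v : Pt}
    (p : grid.Walk u v) (hp : ∀ z ∈ p.support, z ∈ Sc) : wt ω' p ≤ wt ω p := by
  refine List.sum_le_sum fun e he => ?_
  induction e using Sym2.ind with
  | _ a c =>
    exact hle a c (hp a (p.fst_mem_support_of_mem_edges he))
      (hp c (p.snd_mem_support_of_mem_edges he)) (p.adj_of_mem_edges he)

namespace IsTail

/-- Cheap enough walks to far points of the ray keep inside a set outside of which it is not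
calibrated. -/
theorem eventually_inside (hr : IsTail ω r) (h0 : ∀ e, 0 ≤ ω e) (hS : Linked S)
    (hev : ∀ᶠ n in atTop, r.pt n ∈ S) {u : Pt} (hu : u ∈ S) {Sc : Set Pt}
    (hout : ∀ z ∈ S, z ∉ Sc → busIn S ω r u + 1 ≤ ttIn S ω u z + busIn S ω r z) :
    ∀ᶠ n in atTop, ∀ p : grid.Walk u (r.pt n), (∀ z ∈ p.support, z ∈ S) →
      wt ω p < ttIn S ω u (r.pt n) + 1 / 2 → ∀ z ∈ p.support, z ∈ Sc := by
  obtain ⟨M, hM⟩ := hr.busIn_le h0 hS hev
  have hlim := (hr.tendsto_busIn h0 hS hev hu).eventually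
    (gt_mem_nhds (show busIn S ω r u < busIn S ω r u + 1 / 2 by linarith))
  filter_upwards [hlim, eventually_ge_atTop M] with n hn hn' p hp hw z hz
  by_contra hzS
  have h1 := hout z (hp z hz) hzS
  have h2 := hM z (hp z hz) n hn'
  have h3 := ttIn_split_le h0 p hp hz
  linarith

/-- Weights no larger inside that set give a Busemann function no larger. -/
theorem busIn_mono_of (hr : IsTail ω r) (hr' : IsTail ω' r) (h0 : ∀ e, 0 ≤ ω e)
    (h0' : ∀ e, 0 ≤ ω' e) (hS : Linked S) (hev : ∀ᶠ n in atTop, r.pt n ∈ S) {u : Pt} (hu : u ∈ S)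
    {Sc : Set Pt} (hout : ∀ z ∈ S, z ∉ Sc → busIn S ω r u + 1 ≤ ttIn S ω u z + busIn S ω r z)
    (hle : ∀ a c, a ∈ Sc → c ∈ Sc → grid.Adj a c → ω' s(a, c) ≤ ω s(a, c)) :
    busIn S ω' r u ≤ busIn S ω r u := by
  refine le_of_forall_pos_le_add fun ε hε => ?_
  refine le_of_tendsto_of_tendsto (hr'.tendsto_busIn h0' hS hev hu)
    ((hr.tendsto_busIn h0 hS hev hu).add_const ε) ?_
  filter_upwards [hr.eventually_inside h0 hS hev hu hout, hev] with n hn hnS
  obtain ⟨p, hp, hw⟩ := exists_walk_lt hS hu hnS (ω := ω)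
    (lt_add_of_pos_right (ttIn S ω u (r.pt n)) (lt_min hε one_half_pos))
  have h1 := wt_le_wt_of_support hle p
    (hn p hp (by linarith [min_le_right ε (1 / 2 : ℝ)]))
  have h2 : ttIn S ω' u (r.pt n) ≤ wt ω' p := ttS_le h0' p hp
  show ttIn S ω' u (r.pt n) - r.acc n ≤ ttIn S ω u (r.pt n) - r.acc n + ε
  linarith [min_le_left ε (1 / 2 : ℝ)]

theorem bus_mono_of (hr : IsTail ω r) (hr' : IsTail ω' r) (h0 : ∀ e, 0 ≤ ω e)
    (h0' : ∀ e, 0 ≤ ω' e) {u : Pt} {Sc : Set Pt}
    (hout : ∀ z, z ∉ Sc → bus ω r u + 1 ≤ tt ω u z + bus ω r z)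
    (hle : ∀ a c, a ∈ Sc → c ∈ Sc → grid.Adj a c → ω' s(a, c) ≤ ω s(a, c)) :
    bus ω' r u ≤ bus ω r u := by
  rw [← busIn_univ h0, ← busIn_univ h0']
  refine hr.busIn_mono_of hr' h0 h0' linked_univ (Eventually.of_forall fun _ => Set.mem_univ _)
    (Set.mem_univ u) (fun z _ hz => ?_) hle
  rw [busIn_univ h0, busIn_univ h0, ttIn_univ h0]
  exact hout z hz

/-- Raised weights that agree inside that set give the same Busemann function. -/
theorem busIn_eq_of (hr : IsTail ω r) (hr' : IsTail ω' r) (h0 : ∀ e, 0 ≤ ω e)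
    (h0' : ∀ e, 0 ≤ ω' e) (hS : Linked S) (hev : ∀ᶠ n in atTop, r.pt n ∈ S) {u : Pt} (hu : u ∈ S)
    {Sc : Set Pt} (hout : ∀ z ∈ S, z ∉ Sc → busIn S ω r u + 1 ≤ ttIn S ω u z + busIn S ω r z)
    (hge : ∀ e, ω e ≤ ω' e)
    (heq : ∀ a c, a ∈ Sc → c ∈ Sc → grid.Adj a c → ω' s(a, c) = ω s(a, c)) :
    busIn S ω' r u = busIn S ω r u :=
  le_antisymm (hr.busIn_mono_of hr' h0 h0' hS hev hu hout fun a c ha hc h => (heq a c ha hc h).le)
    (hr'.busIn_mono_of hr h0' h0 hS hev hu (Sc := Set.univ)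
      (fun z _ hz => absurd (Set.mem_univ z) hz) fun a c _ _ _ => hge _)

/-- Cheap walks to far points bound the Busemann function. -/
theorem busIn_le_of_frequently (hr : IsTail ω r) (h0 : ∀ e, 0 ≤ ω e) (hS : Linked S)
    (hev : ∀ᶠ n in atTop, r.pt n ∈ S) {u : Pt} (hu : u ∈ S) {c : ℝ}
    (h : ∃ᶠ n in atTop, ∃ p : grid.Walk u (r.pt n), (∀ z ∈ p.support, z ∈ S) ∧
      wt ω p - r.acc n ≤ c) : busIn S ω r u ≤ c :=
  le_of_tendsto_of_frequently (hr.tendsto_busIn h0 hS hev hu) (h.mono fun n ⟨p, hp, hw⟩ => by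
    have h2 : ttIn S ω u (r.pt n) ≤ wt ω p := ttS_le h0 p hp
    linarith)

end IsTail

/-! ### Profiles of two centres on one line -/

variable {K rad : ℝ} {u u' : Pt}

/-- The distance of a site from a centre that enters `edgeN`. -/
noncomputable def siteN (K rad : ℝ) (u z : Pt) : ℝ :=
  max (max |((z.2 - u.2 : ℤ) : ℝ)| (|((z.1 - u.1 : ℤ) : ℝ)| / K)) rad

theorem edgeN_mk (K rad : ℝ) (u a c : Pt) :
    edgeN K rad u s(a, c) = max (siteN K rad u a) (siteN K rad u c) := rfl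

theorem siteN_of_inCone (hK : 0 < K) {z : Pt} (h : InCone K rad u z) :
    siteN K rad u z = max |((z.2 - u.2 : ℤ) : ℝ)| rad := by
  refine le_antisymm (max_le (max_le (le_max_left _ _) ?_) (le_max_right _ _))
    (max_le ((le_max_left _ _).trans (le_max_left _ _)) (le_max_right _ _))
  rw [div_le_iff₀ hK, mul_comm]
  exact h

theorem siteN_le_of_inCone (hK : 0 < K) {z : Pt} (h : InCone K rad u z) (he : u'.2 = u.2) :
    siteN K rad u z ≤ siteN K rad u' z := by
  rw [siteN_of_inCone hK h, ← he]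
  exact max_le_max (le_max_left _ _) le_rfl

/-- Inside the cone of a centre its profile dominates those of the other centres on its line. -/
theorem prof1_le_of_inCone (hK : 0 < K) (hrad : 0 < rad) (T : ℕ) {a c : Pt}
    (ha : InCone K rad u a) (hc : InCone K rad u c) (he : u'.2 = u.2) :
    prof1 K rad T u' s(a, c) ≤ prof1 K rad T u s(a, c) := by
  have hN : edgeN K rad u s(a, c) ≤ edgeN K rad u' s(a, c) := by
    rw [edgeN_mk, edgeN_mk]
    exact max_le_max (siteN_le_of_inCone hK ha he) (siteN_le_of_inCone hK hc he)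
  have hpos : 0 < edgeN K rad u s(a, c) := hrad.trans_le (le_edgeN K rad u _)
  by_cases h' : s(a, c) ∈ grid.edgeSet ∧ edgeN K rad u' s(a, c) ≤ 2 ^ T * rad
  · rw [prof1, if_pos h', prof1, if_pos ⟨h'.1, hN.trans h'.2⟩]
    rcases Nat.eq_zero_or_pos T with rfl | hT
    · simp
    · exact one_div_le_one_div_of_le (mul_pos (Real.sqrt_pos.2 (by exact_mod_cast hT)) hpos)
        (mul_le_mul_of_nonneg_left hN (Real.sqrt_nonneg _))
  · rw [prof1, if_neg h']
    exact prof1_nonneg hrad.le u _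

theorem prof1_eq_zero_of_height {T : ℕ} {a c : Pt}
    (h : 2 ^ T * rad < |((a.2 - u.2 : ℤ) : ℝ)|) : prof1 K rad T u s(a, c) = 0 := by
  rw [prof1, if_neg]
  rintro ⟨-, h2⟩
  rw [edgeN_mk] at h2
  have : |((a.2 - u.2 : ℤ) : ℝ)| ≤ siteN K rad u a := (le_max_left _ _).trans (le_max_left _ _)
  linarith [le_max_left (siteN K rad u a) (siteN K rad u c)]

theorem prof1_eq_zero_of_width (hK : 0 < K) {T : ℕ} {a c : Pt}
    (h : K * (2 ^ T * rad) < |((a.1 - u.1 : ℤ) : ℝ)|) : prof1 K rad T u s(a, c) = 0 := by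
  rw [prof1, if_neg]
  rintro ⟨-, h2⟩
  rw [edgeN_mk] at h2
  have : |((a.1 - u.1 : ℤ) : ℝ)| / K ≤ siteN K rad u a := (le_max_right _ _).trans (le_max_left _ _)
  have h3 : |((a.1 - u.1 : ℤ) : ℝ)| / K ≤ 2 ^ T * rad :=
    this.trans ((le_max_left _ _).trans h2)
  rw [div_le_iff₀ hK, mul_comm] at h3
  linarith

/-- An edge at its own centre has the largest profile. -/
theorem prof1_at_centre (hK : 1 ≤ K) (hrad : 1 ≤ rad) (T : ℕ) {n : Pt} (hadj : grid.Adj u n) :
    prof1 K rad T u s(u, n) = 1 / (Real.sqrt T * rad) := by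
  have hb := adj_snd_le hadj
  have ha : |((n.2 - u.2 : ℤ) : ℝ)| ≤ rad ∧ |((n.1 - u.1 : ℤ) : ℝ)| / K ≤ rad := by
    have h1 : |n.2 - u.2| ≤ 1 ∧ |n.1 - u.1| ≤ 1 := by
      rcases step_cases hadj with ⟨h, h'⟩ | ⟨h, h'⟩ <;> rw [abs_le, abs_le] <;> omega
    refine ⟨?_, (div_le_self (abs_nonneg _) hK).trans ?_⟩ <;>
      refine le_trans ?_ hrad <;> rw [← Int.cast_abs] <;> exact_mod_cast (by omega)
  have hN : edgeN K rad u s(u, n) = rad := by
    rw [edgeN_mk]
    simp only [siteN, sub_self, Int.cast_zero, abs_zero, zero_div, max_self]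
    rw [max_eq_right (zero_le_one.trans hrad), max_eq_right (max_le ha.1 ha.2), max_self]
  have hrad0 : 0 ≤ rad := zero_le_one.trans hrad
  rw [prof1, if_pos ⟨hadj, by rw [hN]; nlinarith [one_le_pow₀ (one_le_two (α := ℝ)) (n := T)]⟩, hN]

/-- A centre far enough away on the line has a strictly smaller profile there. -/
theorem prof1_far_lt (hK : 1 ≤ K) (hrad : 1 ≤ rad) {T : ℕ} (hT : 1 ≤ T) {n : Pt}
    (hadj : grid.Adj u n) (hd : K * rad < |((u.1 - u'.1 : ℤ) : ℝ)|) :
    prof1 K rad T u' s(u, n) < prof1 K rad T u s(u, n) := by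
  have hK0 : 0 < K := zero_lt_one.trans_le hK
  have hr0 : 0 < rad := zero_lt_one.trans_le hrad
  have hs : 0 < Real.sqrt T := Real.sqrt_pos.2 (by exact_mod_cast hT)
  rw [prof1_at_centre hK hrad T hadj, prof1]
  split_ifs with h
  · refine one_div_lt_one_div_of_lt (by positivity) (mul_lt_mul_of_pos_left ?_ hs)
    rw [edgeN_mk]
    refine lt_of_lt_of_le ?_ (((le_max_right _ _).trans (le_max_left _ _)).trans (le_max_left _ _))
    rw [lt_div_iff₀ hK0, mul_comm]
    exact hd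
  · positivity

end Vale.Agent.P158.V4
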