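import Vale.Agent.P158.V4.Directed
import Vale.Agent.P158.V4.Assembly
import Vale.Agent.P158.V4.Shape
import Vale.Agent.P158.Blocks
import Vale.Agent.P158.V4.NullGood
import Vale.Agent.P158.V4.Class

/-!
P158, note 1446 part F: with four barriers every bigeodesic is, in one of the two orientations of
one of the two axes, eventually in a cone of strict slope; so null cones leave no bigeodesic at all.
-/

namespace Vale.Agent.P158.V4

open MeasureTheory Filter Topology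

/-- Far from index `0` the lane rises forwards and falls backwards within the slope `q`. -/
def ConeLane (q : ℝ) (r : ℕ) (v : ℤ → Pt) : Prop :=
  ∀ i : ℤ, r ≤ i.natAbs → |((v i - v 0).1 : ℝ)| ≤ q * |((v i - v 0).2 : ℝ)| ∧
    (0 < i → (v 0).2 < (v i).2) ∧ (i < 0 → (v i).2 < (v 0).2)

variable {μ : ℝ × ℝ → ℝ} {ω : Cfg}

theorem swapXY_swapXY (z : Pt) : swapXY (swapXY z) = z := rfl

theorem isLane_swap {v : ℤ → Pt} (hv : IsLane ω v) :
    IsLane (ω ∘ Sym2.map swapXY) fun i => swapXY (v i) := by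
  refine ⟨fun i => swapXY.map_adj (hv.adj i), fun a c h => hv.inj ?_, fun i n p => ?_⟩
  · exact congrArg swapXY h
  · have h := hv.geo i n ((p.map swapXY).copy (swapXY_swapXY _) (swapXY_swapXY _))
    refine le_of_eq_of_le ?_ (h.trans_eq ?_)
    · exact Finset.sum_congr rfl fun k _ => rfl
    · unfold wt
      rw [SimpleGraph.Walk.edges_copy, SimpleGraph.Walk.edges_map, List.map_map]

theorem supports_swap (h : IsLatticeNorm μ) {θ ρ : ℝ × ℝ} (hρ : Supports μ θ ρ) :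
    Supports μ θ.swap ρ.swap := by
  have hs : ∀ z : ℝ × ℝ, μ z.swap = μ z := fun z => h.swap z.1 z.2
  refine ⟨fun z => ?_, ?_⟩
  · have := hρ.1 z.swap
    rw [hs] at this
    simp only [Prod.fst_swap, Prod.snd_swap] at this ⊢
    linarith
  · rw [hs]
    simp only [Prod.fst_swap, Prod.snd_swap]
    linarith [hρ.2]

/-- A lane whose limit directions avoid the extreme functional of the horizontal axis is, in one of
its orientations, a cone lane of strict slope. -/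
theorem exists_cone_lane (h : IsLatticeNorm μ) (h0 : ∀ e, 0 ≤ ω e) {v : ℤ → Pt} (hv : IsLane ω v)
    (hshape : LaneShape μ ω v)
    (hX : ∀ θ, (MapClusterPt θ atTop (fun n : ℕ => dirOf (v n - v 0)) ∨
      MapClusterPt θ atTop (fun n : ℕ => dirOf (v (-(n : ℤ)) - v 0))) → AxisX μ θ) :
    ∃ q : ℚ, StrictSlope μ q ∧ ∃ w, IsLane ω w ∧ ∃ r, ConeLane q r w := by
  have hiP : Function.Injective fun n : ℕ => v n - v 0 := fun a c e => by
    simpa using hv.inj (sub_left_injective e)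
  have hiQ : Function.Injective fun n : ℕ => v (-(n : ℤ)) - v 0 := fun a c e => by
    simpa using hv.inj (sub_left_injective e)
  obtain ⟨κ₁, hs₁, he₁⟩ := exists_end_slope h hiP fun θ hθ => hX θ (Or.inl hθ)
  obtain ⟨κ₂, hs₂, he₂⟩ := exists_end_slope h hiQ fun θ hθ => hX θ (Or.inr hθ)
  have hs : StrictSlope μ (max κ₁ κ₂) := by
    rcases max_choice κ₁ κ₂ with e | e <;> rw [e] <;> assumption
  obtain ⟨hκ0, κ', hκ', hlt⟩ := hs
  obtain ⟨q, hq1, hq2⟩ := exists_rat_btwn hκ'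
  have hsq : StrictSlope μ q := ⟨hκ0.trans hq1.le, κ', hq2, hlt⟩
  have e1 := he₁ q ((le_max_left _ _).trans_lt hq1)
  have e2 := he₂ q ((le_max_right _ _).trans_lt hq1)
  have nz : ∀ {z : Pt}, |(z.1 : ℝ)| < (q : ℝ) * |(z.2 : ℝ)| → z.2 ≠ 0 := fun {z} hz hz0 => by
    rw [hz0] at hz; simp at hz; linarith [abs_nonneg (z.1 : ℝ)]
  have adjP : ∀ n : ℕ, grid.Adj (v n - v 0) (v ((n + 1 : ℕ) : ℤ) - v 0) := fun n => by
    have := hv.adj n
    rw [grid_adj_iff] at this ⊢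
    simpa using this
  have adjQ : ∀ n : ℕ, grid.Adj (v (-(n : ℤ)) - v 0) (v (-((n + 1 : ℕ) : ℤ)) - v 0) := fun n => by
    have := (hv.adj (-((n : ℤ) + 1))).symm
    rw [show -((n : ℤ) + 1) + 1 = -(n : ℤ) by ring] at this
    rw [grid_adj_iff] at this ⊢
    simpa using this
  have cone : ∀ {z : Pt} {σ : ℤ}, σ = 1 ∨ σ = -1 → |(z.1 : ℝ)| < (q : ℝ) * |(z.2 : ℝ)| →
      0 < σ * z.2 → 0 ≤ σ * z.2 ∧ |(z.1 : ℝ)| ≤ (q : ℝ) * ((σ * z.2 : ℤ) : ℝ) := by
    intro z σ hσ hz hp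
    refine ⟨hp.le, hz.le.trans_eq ?_⟩
    have : (0 : ℝ) < ((σ * z.2 : ℤ) : ℝ) := by exact_mod_cast hp
    rcases hσ with rfl | rfl <;> push_cast at this ⊢
    · rw [abs_of_pos (by linarith)]; ring
    · rw [abs_of_neg (by linarith)]; ring
  have build : ∀ w : ℤ → Pt,
      (∀ᶠ n : ℕ in atTop, |((w n - w 0).1 : ℝ)| < (q : ℝ) * |((w n - w 0).2 : ℝ)|) →
      (∀ᶠ n : ℕ in atTop,
        |((w (-(n : ℤ)) - w 0).1 : ℝ)| < (q : ℝ) * |((w (-(n : ℤ)) - w 0).2 : ℝ)|) →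
      (∀ᶠ n : ℕ in atTop, 0 < (w n - w 0).2) → (∀ᶠ n : ℕ in atTop, (w (-(n : ℤ)) - w 0).2 < 0) →
      ∃ r, ConeLane q r w := by
    intro w wP wQ upP upQ
    obtain ⟨r, hr⟩ := eventually_atTop.1 ((wP.and wQ).and (upP.and upQ))
    refine ⟨max r 1, fun i hi => ?_⟩
    rcases le_total 0 i with hi0 | hi0
    · obtain ⟨n, rfl⟩ := Int.eq_ofNat_of_zero_le hi0
      rw [Int.natAbs_natCast] at hi
      have := hr n (by omega)
      exact ⟨this.1.1.le, fun _ => by simpa using this.2.1, fun hneg => absurd hneg (by omega)⟩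
    · obtain ⟨n, rfl⟩ : ∃ n : ℕ, i = -(n : ℤ) := ⟨(-i).toNat, by omega⟩
      rw [Int.natAbs_neg, Int.natAbs_natCast] at hi
      have := hr n (by omega)
      exact ⟨this.1.2.le, fun hpos => absurd hpos (by omega), fun _ => by simpa using this.2.2⟩
  refine ⟨q, hsq, ?_⟩
  rcases eventually_sign adjP (e1.mono fun n hn => nz hn) with p | p <;>
    rcases eventually_sign adjQ (e2.mono fun n hn => nz hn) with p' | p'
  · exact (no_turn h hsq h0 hv hshape (σ := 1) (Or.inl rfl)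
      ((e1.and p).mono fun n hn => cone (Or.inl rfl) hn.1 (by linarith [hn.2]))
      ((e2.and p').mono fun n hn => cone (Or.inl rfl) hn.1 (by linarith [hn.2]))).elim
  · exact ⟨v, hv, build v e1 e2 p p'⟩
  · exact ⟨fun i => v (-i), hv.reverse, build _ (by simpa using e2) (by simpa using e1)
      (by simpa using p') (by simpa using p)⟩
  · exact (no_turn h hsq h0 hv hshape (σ := -1) (Or.inr rfl)
      ((e1.and p).mono fun n hn => cone (Or.inr rfl) hn.1 (by linarith [hn.2]))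
      ((e2.and p').mono fun n hn => cone (Or.inr rfl) hn.1 (by linarith [hn.2]))).elim

theorem dirOf_swapXY (z : Pt) : dirOf (swapXY z) = (dirOf z).swap := by
  simp [dirOf, swapXY, l1, add_comm]

theorem swapXY_sub (a c : Pt) : swapXY (a - c) = swapXY a - swapXY c := rfl

theorem axisX_of_axisY (h : IsLatticeNorm μ) {θ : ℝ × ℝ} (hA : AxisY μ θ.swap) : AxisX μ θ :=
  fun ρ hρ => hA ρ.swap (supports_swap h hρ)

variable (G : Measure ℝ) [IsProbabilityMeasure G] {b : ℝ}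

/-- Null cones at the origin exclude cone lanes everywhere. -/
theorem ae_no_cone {q : ℝ}
    (h : ∀ r : ℕ, law G {ω | ∃ v, IsLane ω v ∧ v 0 = (0, 0) ∧ ConeLane q r v} = 0) :
    ∀ᵐ ω ∂law G, ¬ ∃ v, IsLane ω v ∧ ∃ r, ConeLane q r v := by
  have hu : ∀ (u : Pt) (r : ℕ), ∀ᵐ ω ∂law G,
      ¬ ∃ v, IsLane (moveCfg u ω) v ∧ v 0 = (0, 0) ∧ ConeLane q r v := fun u r =>
    ae_of_ae_map (f := moveCfg u) (p := fun ω => ¬ ∃ v, IsLane ω v ∧ v 0 = (0, 0) ∧ ConeLane q r v)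
      (measurable_moveCfg u).aemeasurable (by
        rw [map_moveCfg]
        exact measure_eq_zero_iff_ae_notMem.1 (h r))
  filter_upwards [ae_all_iff.2 fun u => ae_all_iff.2 (hu u)] with ω hω
  rintro ⟨v, hv, r, hr⟩
  refine hω (v 0) r ⟨_, isLane_move' hv, add_neg_cancel (v 0), fun i hi => ?_⟩
  obtain ⟨h1, h2, h3⟩ := hr i hi
  simp only [← sub_eq_add_neg, sub_self, sub_zero, Prod.snd_sub, sub_pos, sub_neg, Prod.snd_zero]
  exact ⟨h1, h2, h3⟩

/-- If almost surely every lane shares a strict axis at both ends and cones are null, there is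
no lane. -/
theorem no_lane_of_directed (hn : IsLatticeNorm μ) (h0 : ∀ᵐ ω ∂law G, ∀ e, 0 ≤ ω e)
    (hshape : ∀ᵐ ω ∂law G, ∀ v, IsLane ω v → LaneShape μ ω v)
    (hdir : ∀ᵐ ω ∂law G, ∀ v, IsLane ω v →
      (∀ θ, (MapClusterPt θ atTop (fun n : ℕ => dirOf (v n - v 0)) ∨
        MapClusterPt θ atTop (fun n : ℕ => dirOf (v (-(n : ℤ)) - v 0))) → AxisX μ θ) ∨
      (∀ θ, (MapClusterPt θ atTop (fun n : ℕ => dirOf (v n - v 0)) ∨
        MapClusterPt θ atTop (fun n : ℕ => dirOf (v (-(n : ℤ)) - v 0))) → AxisY μ θ))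
    (hcone : ∀ q : ℚ, StrictSlope μ q →
      ∀ᵐ ω ∂law G, ¬ ∃ v, IsLane ω v ∧ ∃ r, ConeLane q r v) :
    ∀ᵐ ω ∂law G, ¬ ∃ v : ℤ → Pt, IsLane ω v := by
  have hX : ∀ᵐ ω ∂law G, ∀ v, IsLane ω v →
      ¬ ∀ θ, (MapClusterPt θ atTop (fun n : ℕ => dirOf (v n - v 0)) ∨
        MapClusterPt θ atTop (fun n : ℕ => dirOf (v (-(n : ℤ)) - v 0))) → AxisX μ θ := by
    have hex : ∀ᵐ ω ∂law G, ∀ q : ℚ, StrictSlope μ q →
        ¬ ∃ v, IsLane ω v ∧ ∃ r, ConeLane q r v := ae_all_iff.2 fun q => by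
      by_cases hq : StrictSlope μ q
      · filter_upwards [hcone q hq] with ω hω _ using hω
      · exact Eventually.of_forall fun ω h => absurd h hq
    filter_upwards [hex, hshape, h0] with ω hω hsh hω0 v hv hA
    obtain ⟨q, hq, w, hw, hr⟩ := exists_cone_lane hn hω0 hv (hsh v hv) hA
    exact hω q hq ⟨w, hw, hr⟩
  have hY : ∀ᵐ ω ∂law G, ∀ v, IsLane (ω ∘ Sym2.map swapXY) v →
      ¬ ∀ θ, (MapClusterPt θ atTop (fun n : ℕ => dirOf (v n - v 0)) ∨
        MapClusterPt θ atTop (fun n : ℕ => dirOf (v (-(n : ℤ)) - v 0))) → AxisX μ θ := by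
    have hm : (law G).map (fun ω => ω ∘ Sym2.map swapXY) = law G :=
      map_comp_injective G _ (Sym2.map.injective fun a c h => congrArg swapXY h)
    exact ae_of_ae_map (f := fun ω : Cfg => ω ∘ Sym2.map swapXY)
      (measurable_pi_iff.2 fun e => measurable_pi_apply _).aemeasurable (by rw [hm]; exact hX)
  filter_upwards [hX, hY, hdir] with ω hω hω' hd
  rintro ⟨v, hv⟩
  rcases hd v hv with hA | hA
  · exact hω v hv hA
  · refine hω' _ (isLane_swap hv) fun θ hθ => axisX_of_axisY hn (hA _ ?_)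
    refine hθ.imp (fun e => ?_) (fun e => ?_) <;>
    · have := e.continuousAt_comp (f := Prod.swap) continuous_swap.continuousAt
      simpa [Function.comp_def, ← swapXY_sub, dirOf_swapXY] using this

/-- Without facets, with four barriers and null cones, there is no bigeodesic. -/
theorem no_lane6 (hG : ∀ᵐ t ∂G, 0 < t ∧ t ≤ b) (hatom : ∀ x, G {x} = 0) (hnf : NoFacet (mu G))
    (hd1 : mu G (1, 1) ≠ mu G (1, 0)) (hd2 : mu G (1, 1) ≠ 2 * mu G (1, 0))
    (hbar : ∀ᵐ ω ∂law G, Barrier (mu G) ω (1, 1) ∧ Barrier (mu G) ω (-1, -1) ∧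
      Barrier (mu G) ω (-1, 1) ∧ Barrier (mu G) ω (1, -1))
    (hcone : ∀ q : ℚ, StrictSlope (mu G) q →
      ∀ᵐ ω ∂law G, ¬ ∃ v, IsLane ω v ∧ ∃ r, ConeLane q r v) :
    ∀ᵐ ω ∂law G, ¬ ∃ v : ℤ → Pt, IsLane ω v := by
  have hn := isLatticeNorm_mu G hG
  obtain ⟨c, hc, hgood⟩ := ae_good G hG hatom
  have hshape : ∀ᵐ ω ∂law G, ∀ v, IsLane ω v → LaneShape (mu G) ω v := by
    filter_upwards [ae_all_iff.2 fun u => ae_shape G hG u] with ω hsh v _
    exact laneShape_of_shape (hsh (v 0))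
  refine no_lane_of_directed G hn (hgood.mono fun ω hg => hg.nonneg) hshape ?_ hcone
  filter_upwards [hbar, hgood, hshape] with ω ⟨b₁, b₂, b₃, b₄⟩ hg hsh v hv
  exact hn.directed hnf hd1 hd2 hg hc hv (hsh v hv) b₁ b₂ b₃ b₄

end Vale.Agent.P158.V4
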